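import Crest.Agent.R224.AAlg0

/-! Algebra of list chains. -/

set_option autoImplicit false
set_option linter.unusedSectionVars false
open Filter Topology Set
open scoped Pointwise

namespace Crest.Agent.R224

section
variable {X : Type}
theorem add_self_ch (c : Ch (ZMod 2) X) : c + c = 0 := by
  ext l; simp [CharTwo.add_self_eq_zero]
theorem add_self_sq (c : Sq (ZMod 2) X) : c + c = 0 := by
  funext n; exact add_self_ch _
theorem sub_eq_add_sq (c d : Sq (ZMod 2) X) : c - d = c + d := by
  rw [sub_eq_add_neg, neg_eq_of_add_eq_zero_right (add_self_sq d)]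
theorem add_self_co (φ : Co X) : φ + φ = 0 := by
  funext n l; simp [CharTwo.add_self_eq_zero]
theorem sub_eq_add_ch (c d : Ch (ZMod 2) X) : c - d = c + d := by
  rw [sub_eq_add_neg, neg_eq_of_add_eq_zero_right (add_self_ch d)]
@[simp] theorem ev_single_nil (φ : List X → ZMod 2) (a : ZMod 2) :
    ev φ (Finsupp.single [] a) = 0 := by
  simp [ev]
@[simp] theorem ev_single_cons (φ : List X → ZMod 2) (x : X) (l : List X) (a : ZMod 2) :
    ev φ (Finsupp.single (x :: l) a) = a * φ (x :: l) := by
  simp [ev]

theorem ev_add (φ ψ : List X → ZMod 2) (c : Ch (ZMod 2) X) : ev (φ + ψ) c = ev φ c + ev ψ c := by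
  induction c using Finsupp.induction_linear with
  | zero => simp
  | add a b ha hb => simp only [map_add, ha, hb]; abel
  | single l a => cases l <;> simp [mul_add]
theorem ev_smul (a : ZMod 2) (φ : List X → ZMod 2) (c : Ch (ZMod 2) X) :
    ev (a • φ) c = a * ev φ c := by
  induction c using Finsupp.induction_linear with
  | zero => simp
  | add a b ha hb => simp only [map_add, ha, hb, mul_add]
  | single l a => cases l <;> simp [mul_left_comm]

theorem ev_cob (φ : List X → ZMod 2) (c : Ch (ZMod 2) X) : ev (cob φ) c = ev φ (bd c) := by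
  induction c using Finsupp.induction_linear with
  | zero => simp
  | add a b ha hb => simp only [map_add, ha, hb]
  | single l a =>
    cases l with
    | nil => simp [bdL]
    | cons x l => rw [ev_single_cons, bd_single, map_smul, smul_eq_mul]; rfl
theorem ev_eq_zero {φ : List X → ZMod 2} {c : Ch (ZMod 2) X}
    (h : ∀ x l, x :: l ∈ c.support → φ (x :: l) = 0) : ev φ c = 0 := by
  rw [ev, Finsupp.linearCombination_apply]
  refine Finset.sum_eq_zero fun l hl => ?_
  cases l with
  | nil => simp
  | cons x l => simp [h x l hl]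
theorem cob_add (φ ψ : List X → ZMod 2) : cob (φ + ψ) = cob φ + cob ψ := by
  funext l; exact ev_add _ _ _
theorem cob_smul (a : ZMod 2) (φ : List X → ZMod 2) : cob (a • φ) = a • cob φ := by
  funext l; exact ev_smul _ _ _
theorem cob_cob (φ : List X → ZMod 2) : cob (cob φ) = 0 := by
  funext l
  have := bd_bd (Finsupp.single l (1 : ZMod 2))
  rw [bd_single, one_smul] at this
  rw [cob, ev_cob, this, map_zero, Pi.zero_apply]
theorem cob_eps : cob (eps : List X → ZMod 2) = 0 := by
  funext l
  by_cases h : l.length = 2
  · obtain ⟨x, y, rfl⟩ := List.length_eq_two.1 h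
    simp [cob, bdL, eps]
  · refine ev_eq_zero fun x l' hl => ?_
    have e : (bdL l : Ch (ZMod 2) X) = bd (Finsupp.single l 1) := by simp
    rw [e] at hl
    obtain ⟨l₁, h1, -, h2⟩ := mem_support_bd hl
    rw [Finset.mem_singleton.1 (Finsupp.support_single_subset h1)] at h2
    exact if_neg (by omega)
theorem cob_one (φ : List X → ZMod 2) (x : X) : cob φ [x] = 0 := by
  simp [cob, bdL]
theorem cob_two (φ : List X → ZMod 2) (x y : X) : cob φ [x, y] = φ [x] + φ [y] := by
  simp [cob, bdL, CharTwo.sub_eq_add, add_comm]
theorem cob_three (φ : List X → ZMod 2) (x y z : X) :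
    cob φ [x, y, z] = φ [y, z] + φ [x, z] + φ [x, y] := by
  simp [cob, bdL, CharTwo.sub_eq_add, add_assoc]
/-- cochains concentrated in one length -/
theorem cob_eq_zero_of_length {φ : List X → ZMod 2} {k : ℕ} (h : ∀ l, l.length ≠ k → φ l = 0)
    (l : List X) (hl : l.length ≠ k + 1) : cob φ l = 0 := by
  refine ev_eq_zero fun x l' hl' => ?_
  have e : (bdL l : Ch (ZMod 2) X) = bd (Finsupp.single l 1) := by simp
  rw [e] at hl'
  obtain ⟨l₁, h1, -, h2⟩ := mem_support_bd hl'
  rw [Finset.mem_singleton.1 (Finsupp.support_single_subset h1)] at h2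
  exact h _ (by omega)
@[simp] theorem cap_single (φ : List X → ZMod 2) (l : List X) (a : ZMod 2) :
    cap φ (Finsupp.single l a) = a • capL φ l := by
  simp [cap]
theorem capL_congr (l : List X) : ∀ {φ ψ : List X → ZMod 2}, (∀ x l, φ (x :: l) = ψ (x :: l)) →
    capL φ l = capL ψ l := by
  induction l with
  | nil => intro φ ψ _; rfl
  | cons x l ih =>
    intro φ ψ h
    simp only [capL, h]
theorem capL_add (l : List X) : ∀ φ ψ : List X → ZMod 2, capL (φ + ψ) l = capL φ l + capL ψ l := by
  induction l with
  | nil => intro φ ψ; simp [capL]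
  | cons x l ih =>
    intro φ ψ
    have := ih (fun l' => φ (x :: l')) (fun l' => ψ (x :: l'))
    simp only [capL, Pi.add_apply, Finsupp.single_add]
    rw [show (fun l' => φ (x :: l') + ψ (x :: l')) =
      (fun l' => φ (x :: l')) + fun l' => ψ (x :: l') from rfl, this]
    abel
theorem capL_smul (a : ZMod 2) (l : List X) : ∀ φ : List X → ZMod 2,
    capL (a • φ) l = a • capL φ l := by
  induction l with
  | nil => intro φ; simp [capL]
  | cons x l ih =>
    intro φ
    have := ih (fun l' => φ (x :: l'))
    simp only [capL, Pi.smul_apply, smul_add, Finsupp.smul_single]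
    rw [show (fun l' => a • φ (x :: l')) = a • fun l' => φ (x :: l') from rfl, this]
theorem capL_zero (l : List X) : capL (0 : List X → ZMod 2) l = 0 := by
  have := capL_smul 0 l (0 : List X → ZMod 2)
  rwa [zero_smul, zero_smul] at this
theorem capL_eps (x : X) (l : List X) : capL eps (x :: l) = Finsupp.single (x :: l) 1 := by
  have e : capL (fun l' => eps (x :: l')) l = capL 0 l := capL_congr l fun y l => by simp [eps]
  rw [capL, e, capL_zero, add_zero]
  simp [eps]
theorem cap_cn (φ : List X → ZMod 2) (x : X) (c : Ch (ZMod 2) X) :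
    cap φ (cn x c) = φ [x] • cn x c + cap (fun l => φ (x :: l)) c := by
  induction c using Finsupp.induction_linear with
  | zero => simp
  | add a b ha hb => simp only [map_add, ha, hb, smul_add]; abel
  | single l a => simp [capL, mul_comm]
theorem ev_cn (φ : List X → ZMod 2) (x : X) (c : Ch (ZMod 2) X) :
    ev φ (cn x c) = ev (fun l => φ (x :: l)) c + φ [x] * c [] := by
  induction c using Finsupp.induction_linear with
  | zero => simp
  | add a b ha hb => simp only [map_add, ha, hb, Finsupp.add_apply]; ring
  | single l a => cases l <;> simp [mul_comm]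
theorem bdL_apply_nil (l : List X) : (bdL l : Ch (ZMod 2) X) [] = eps l := by
  cases l with
  | nil => simp [bdL, eps]
  | cons x l =>
    have : (cn x (bdL l : Ch (ZMod 2) X)) [] = 0 := by
      by_contra h
      obtain ⟨l', -, h2⟩ := mem_support_cn (Finsupp.mem_support_iff.2 h)
      exact absurd h2 (by simp)
    rw [bdL, Finsupp.sub_apply, this, sub_zero]
    cases l <;> simp [eps]

theorem cap_add (φ ψ : List X → ZMod 2) (c : Ch (ZMod 2) X) :
    cap (φ + ψ) c = cap φ c + cap ψ c := by
  induction c using Finsupp.induction_linear with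
  | zero => simp
  | add a b ha hb => simp only [map_add, ha, hb]; abel
  | single l a => simp [capL_add]
theorem cap_smul (a : ZMod 2) (φ : List X → ZMod 2) (c : Ch (ZMod 2) X) :
    cap (a • φ) c = a • cap φ c := by
  induction c using Finsupp.induction_linear with
  | zero => simp
  | add a b ha hb => simp only [map_add, ha, hb, smul_add]
  | single l b => rw [cap_single, cap_single, capL_smul, smul_comm]
theorem cap_eps {c : Ch (ZMod 2) X} (h : [] ∉ c.support) : cap eps c = c := by
  conv_rhs => rw [← Finsupp.sum_single c]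
  rw [cap, Finsupp.linearCombination_apply]
  refine Finset.sum_congr rfl fun l hl => ?_
  cases l with
  | nil => exact absurd hl h
  | cons x l => simp [capL_eps]
/-- the cap identity (prove it for lists by induction, generalising `φ`) -/
theorem bd_cap (φ : List X → ZMod 2) (c : Ch (ZMod 2) X) :
    bd (cap φ c) + cap (cob φ) c + cap φ (bd c) = Finsupp.single [] (ev φ c) := by
  have key : ∀ (l : List X) (φ : List X → ZMod 2), bd (capL φ l) + capL (cob φ) l + cap φ (bdL l) =
      Finsupp.single [] (ev φ (Finsupp.single l 1)) := by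
    intro l
    induction l with
    | nil => intro φ; simp [capL, bdL]
    | cons x l ih =>
      intro φ
      have e : capL (fun l' => cob φ (x :: l')) l =
          capL (φ + cob (fun l' => φ (x :: l')) + φ [x] • eps) l := by
        refine capL_congr l fun y l' => ?_
        rw [cob, bdL, map_sub, ev_cn, bdL_apply_nil, CharTwo.sub_eq_add]
        simp [cob, add_assoc]
      have h1 := ih fun l' => φ (x :: l')
      have h2 : φ [x] • (Finsupp.single l 1 : Ch (ZMod 2) X) + φ [x] • capL eps l +
          Finsupp.single [] (ev (fun l' => φ (x :: l')) (Finsupp.single l 1)) =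
          Finsupp.single [] (ev φ (Finsupp.single (x :: l) 1)) := by
        cases l with
        | nil => simp [capL]
        | cons y l => rw [capL_eps, add_self_ch]; simp
      rw [capL, capL, e, capL_add, capL_add, capL_smul, cob_one, Finsupp.single_zero, zero_add,
        map_add, bd_single, bdL, map_sub, cap_cn, cap_single, one_smul, ← h2, ← h1, smul_sub]
      have h3 := add_self_ch (φ [x] • cn x (bdL l : Ch (ZMod 2) X))
      have h4 := add_self_ch (capL φ l)
      have h5 := add_self_ch (cap (fun l' => φ (x :: l')) (bdL l))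
      linear_combination (norm := abel) -h3 + h4 - h5
  induction c using Finsupp.induction_linear with
  | zero => simp
  | add a b ha hb =>
    simp only [map_add, Finsupp.single_add, ← ha, ← hb]; abel
  | single l a =>
    have e : (Finsupp.single l a : Ch (ZMod 2) X) = a • Finsupp.single l 1 := by simp
    rw [cap_single, cap_single, bd_single, map_smul, map_smul, ← smul_add, ← smul_add, key, e,
      map_smul, Finsupp.smul_single]
theorem mem_support_cap {φ : List X → ZMod 2} {c : Ch (ZMod 2) X} {l : List X}
    (h : l ∈ (cap φ c).support) : ∃ l₁ x l₂, l₁ ++ x :: l₂ ∈ c.support ∧ l = x :: l₂ ∧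
      φ (l₁ ++ [x]) ≠ 0 := by
  classical
  have key : ∀ (l' : List X) (φ : List X → ZMod 2), l ∈ (capL φ l').support →
      ∃ l₁ x l₂, l₁ ++ x :: l₂ = l' ∧ l = x :: l₂ ∧ φ (l₁ ++ [x]) ≠ 0 := by
    intro l'
    induction l' with
    | nil => intro φ hl; simp [capL] at hl
    | cons y l' ih =>
      intro φ hl
      rcases Finset.mem_union.1 (Finsupp.support_add hl) with h | h
      · obtain ⟨h1, h2⟩ := Finsupp.mem_support_single _ _ _ |>.1 h
        exact ⟨[], y, l', rfl, h1, h2⟩
      · obtain ⟨l₁, x, l₂, h1, h2, h3⟩ := ih _ h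
        exact ⟨y :: l₁, x, l₂, by rw [← h1]; rfl, h2, h3⟩
  obtain ⟨l', h1, h2⟩ := support_map h
  rw [cap_single, one_smul] at h2
  obtain ⟨l₁, x, l₂, h3, h4, h5⟩ := key l' φ h2
  exact ⟨l₁, x, l₂, h3 ▸ h1, h4, h5⟩
end

end Crest.Agent.R224
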