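import Crest.Agent.R224.ADefs

/-! Algebra of list chains. -/

set_option autoImplicit false
set_option linter.unusedSectionVars false
open Filter Topology Set
open scoped Pointwise

namespace Crest.Agent.R224

section
variable {R X Y Z : Type} [CommRing R]

@[simp] theorem cn_single (x : X) (l : List X) (a : R) :
    cn x (Finsupp.single l a) = Finsupp.single (x :: l) a := by
  simp [cn]
@[simp] theorem mp_single (f : X → Y) (l : List X) (a : R) :
    mp f (Finsupp.single l a) = Finsupp.single (l.map f) a := by
  simp [mp]
@[simp] theorem bd_single (l : List X) (a : R) : bd (Finsupp.single l a) = a • bdL l := by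
  simp [bd]
theorem bd_cn (x : X) (c : Ch R X) : bd (cn x c) = c - cn x (bd c) := by
  induction c using Finsupp.induction_linear with
  | zero => simp
  | add a b ha hb => simp only [map_add, ha, hb]; abel
  | single l a => simp [bdL, smul_sub]
theorem bd_bd (c : Ch R X) : bd (bd c) = 0 := by
  have key : ∀ l : List X, bd (bdL l : Ch R X) = 0 := by
    intro l
    induction l with
    | nil => simp [bdL]
    | cons x l ih => simp [bdL, bd_cn, ih]
  induction c using Finsupp.induction_linear with
  | zero => simp
  | add a b ha hb => simp only [map_add, ha, hb, add_zero]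
  | single l a => simp [key]
theorem mp_cn (f : X → Y) (x : X) (c : Ch R X) : mp f (cn x c) = cn (f x) (mp f c) := by
  induction c using Finsupp.induction_linear with
  | zero => simp
  | add a b ha hb => simp only [map_add, ha, hb]
  | single l a => simp
theorem bdL_map (f : X → Y) (l : List X) : (bdL (l.map f) : Ch R Y) = mp f (bdL l) := by
  induction l with
  | nil => simp [bdL]
  | cons x l ih => simp [bdL, mp_cn, ih]

theorem bd_mp (f : X → Y) (c : Ch R X) : bd (mp f c) = mp f (bd c) := by
  induction c using Finsupp.induction_linear with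
  | zero => simp
  | add a b ha hb => simp only [map_add, ha, hb]
  | single l a => simp [bdL_map]
theorem mp_mp (f : X → Y) (g : Y → Z) (c : Ch R X) : mp g (mp f c) = mp (g ∘ f) c := by
  induction c using Finsupp.induction_linear with
  | zero => simp
  | add a b ha hb => simp only [map_add, ha, hb]
  | single l a => simp
@[simp] theorem mp_id (c : Ch R X) : mp id c = c := by
  induction c using Finsupp.induction_linear with
  | zero => simp
  | add a b ha hb => simp only [map_add, ha, hb]
  | single l a => simp
theorem mp_congr {f g : X → Y} {c : Ch R X} (h : ∀ l ∈ c.support, ∀ x ∈ l, f x = g x) :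
    mp f c = mp g c := by
  exact Finsupp.mapDomain_congr fun l hl => List.map_congr_left (h l hl)
@[simp] theorem pr_single (f g : X → Y) (l : List X) (a : R) :
    pr f g (Finsupp.single l a) = a • prL f g l := by
  simp [pr]
theorem pr_cn (f g : X → Y) (x : X) (c : Ch R X) :
    pr f g (cn x c) = cn (f x) (cn (g x) (mp g c)) - cn (f x) (pr f g c) := by
  induction c using Finsupp.induction_linear with
  | zero => simp
  | add a b ha hb => simp only [map_add, ha, hb]; abel
  | single l a => simp [prL, smul_sub]

theorem bd_pr (f g : X → Y) (c : Ch R X) : bd (pr f g c) + pr f g (bd c) = mp g c - mp f c := by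
  have key : ∀ l : List X, bd (prL f g l : Ch R Y) + pr f g (bdL l) =
      Finsupp.single (l.map g) 1 - Finsupp.single (l.map f) 1 := by
    intro l
    induction l with
    | nil => simp [bdL, prL]
    | cons x l ih =>
      have e := congrArg (cn (f x)) ih
      simp only [map_add, map_sub, cn_single] at e
      simp only [prL, bdL, map_sub, bd_single, one_smul, bd_cn, pr_single, pr_cn, List.map_cons,
        cn_single, bdL_map]
      rw [eq_sub_iff_add_eq, ← eq_sub_iff_add_eq'] at e
      rw [e]
      abel
  induction c using Finsupp.induction_linear with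
  | zero => simp
  | add a b ha hb =>
    simp only [map_add]
    rw [add_add_add_comm, ha, hb]; abel
  | single l a =>
    simp only [pr_single, bd_single, map_smul, mp_single]
    rw [← smul_add, key, smul_sub]; simp
/-- a property of the lists in the support passes through a linear operator -/
theorem support_map {F : Ch R X →ₗ[R] Ch R Y} {c : Ch R X} {l' : List Y} (h : l' ∈ (F c).support) :
    ∃ l ∈ c.support, l' ∈ (F (Finsupp.single l 1)).support := by
  classical
  by_contra hc
  push Not at hc
  have e : c = ∑ l ∈ c.support, c l • Finsupp.single l (1 : R) := by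
    conv_lhs => rw [← Finsupp.sum_single c]
    simp [Finsupp.sum]
  rw [e, map_sum, Finsupp.mem_support_iff, Finsupp.finsetSum_apply] at h
  refine h (Finset.sum_eq_zero fun l hl => ?_)
  rw [map_smul, Finsupp.smul_apply, Finsupp.notMem_support_iff.1 (hc l hl), smul_zero]
theorem mem_support_cn {x : X} {c : Ch R X} {l : List X} (h : l ∈ (cn x c).support) :
    ∃ l' ∈ c.support, l = x :: l' := by
  obtain ⟨l', h1, h2⟩ := support_map h
  rw [cn_single] at h2
  exact ⟨l', h1, Finset.mem_singleton.1 (Finsupp.support_single_subset h2)⟩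
theorem mem_support_mp {f : X → Y} {c : Ch R X} {l : List Y} (h : l ∈ (mp f c).support) :
    ∃ l' ∈ c.support, l = l'.map f := by
  obtain ⟨l', h1, h2⟩ := support_map h
  rw [mp_single] at h2
  exact ⟨l', h1, Finset.mem_singleton.1 (Finsupp.support_single_subset h2)⟩
theorem mem_support_bd {c : Ch R X} {l : List X} (h : l ∈ (bd c).support) :
    ∃ l' ∈ c.support, l.Sublist l' ∧ l.length + 1 = l'.length := by
  classical
  have key : ∀ l' l : List X, l ∈ (bdL l' : Ch R X).support →
      l.Sublist l' ∧ l.length + 1 = l'.length := by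
    intro l'
    induction l' with
    | nil => intro l hl; simp [bdL] at hl
    | cons x l' ih =>
      intro l hl
      rcases Finset.mem_union.1 (Finsupp.support_sub hl) with h | h
      · rw [Finset.mem_singleton.1 (Finsupp.support_single_subset h)]
        exact ⟨List.sublist_cons_self _ _, rfl⟩
      · obtain ⟨l₁, h1, rfl⟩ := mem_support_cn h
        obtain ⟨h2, h3⟩ := ih l₁ h1
        exact ⟨h2.cons_cons x, by simp [h3]⟩
  obtain ⟨l', h1, h2⟩ := support_map h
  rw [bd_single, one_smul] at h2
  exact ⟨l', h1, key l' l h2⟩
theorem mem_support_pr {f g : X → Y} {c : Ch R X} {l : List Y} (h : l ∈ (pr f g c).support) :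
    ∃ l' ∈ c.support, l.length = l'.length + 1 ∧ l' ≠ [] ∧
      ∀ y ∈ l, ∃ x ∈ l', y = f x ∨ y = g x := by
  classical
  have key : ∀ (l' : List X) (l : List Y), l ∈ (prL f g l' : Ch R Y).support →
      l.length = l'.length + 1 ∧ l' ≠ [] ∧ ∀ y ∈ l, ∃ x ∈ l', y = f x ∨ y = g x := by
    intro l'
    induction l' with
    | nil => intro l hl; simp [prL] at hl
    | cons x l' ih =>
      intro l hl
      rcases Finset.mem_union.1 (Finsupp.support_sub hl) with h | h
      · rw [Finset.mem_singleton.1 (Finsupp.support_single_subset h)]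
        refine ⟨by simp, by simp, fun y hy => ?_⟩
        rcases List.mem_cons.1 hy with rfl | hy
        · exact ⟨x, List.mem_cons_self, Or.inl rfl⟩
        · obtain ⟨z, hz, rfl⟩ := List.mem_map.1 hy
          exact ⟨z, hz, Or.inr rfl⟩
      · obtain ⟨l₁, h1, rfl⟩ := mem_support_cn h
        obtain ⟨h2, -, h3⟩ := ih l₁ h1
        refine ⟨by simp [h2], by simp, fun y hy => ?_⟩
        rcases List.mem_cons.1 hy with rfl | hy
        · exact ⟨x, List.mem_cons_self, Or.inl rfl⟩
        · obtain ⟨z, hz, h4⟩ := h3 y hy
          exact ⟨z, List.mem_cons_of_mem _ hz, h4⟩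
  obtain ⟨l', h1, h2⟩ := support_map h
  rw [pr_single, one_smul] at h2
  exact ⟨l', h1, key l' l h2⟩
@[simp] theorem sq_apply (F : ℕ → Ch R X →ₗ[R] Ch R Y) (c : Sq R X) (n : ℕ) :
    sq F c n = F n (c n) := rfl
@[simp] theorem sbd_apply (c : Sq R X) (n : ℕ) : sbd c n = bd (c n) := rfl
@[simp] theorem smp_apply (f : X → Y) (c : Sq R X) (n : ℕ) : smp f c n = mp f (c n) := rfl
theorem sbd_sbd (c : Sq R X) : sbd (sbd c) = 0 := by
  funext n; exact bd_bd _
theorem sbd_smp (f : X → Y) (c : Sq R X) : sbd (smp f c) = smp f (sbd c) := by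
  funext n; exact bd_mp _ _
theorem sq_smul (F : ℕ → Ch R X →ₗ[R] Ch R Y) (a : ℕ → R) (c : Sq R X) :
    sq F (a • c) = a • sq F c := by
  funext n; exact map_smul (F n) (a n) (c n)
theorem part_add (k : ℕ) (c d : Sq R X) : part k (c + d) = part k c + part k d := by
  funext n; exact Finsupp.filter_add
theorem part_sub (k : ℕ) (c d : Sq R X) : part k (c - d) = part k c - part k d := by
  funext n; exact Finsupp.filter_sub _ _ _
theorem part_smul (k : ℕ) (a : ℕ → R) (c : Sq R X) : part k (a • c) = a • part k c := by
  funext n; exact Finsupp.filter_smul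
theorem part_sbd (k : ℕ) (c : Sq R X) : part k (sbd c) = sbd (part (k + 1) c) := by
  have key : ∀ c : Ch R X, (bd c).filter (fun l => l.length = k) =
      bd (c.filter fun l => l.length = k + 1) := by
    intro c
    induction c using Finsupp.induction_linear with
    | zero => rw [map_zero, Finsupp.filter_zero, Finsupp.filter_zero, map_zero]
    | add a b ha hb => rw [map_add, Finsupp.filter_add, Finsupp.filter_add, map_add, ha, hb]
    | single l a =>
      have h1 : ∀ l' ∈ (bd (Finsupp.single l a : Ch R X)).support, l'.length + 1 = l.length := by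
        intro l' hl'
        obtain ⟨l₁, h1, -, h2⟩ := mem_support_bd hl'
        rwa [Finset.mem_singleton.1 (Finsupp.support_single_subset h1)] at h2
      by_cases h : l.length = k + 1
      · rw [Finsupp.filter_single_of_pos (fun l : List X => l.length = k + 1) h,
          Finsupp.filter_eq_self_iff]
        intro l' hl'
        have := h1 l' (Finsupp.mem_support_iff.2 hl')
        omega
      · rw [Finsupp.filter_single_of_neg (fun l : List X => l.length = k + 1) h, map_zero,
          Finsupp.filter_eq_zero_iff]
        intro l' hl'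
        by_contra h2
        have := h1 l' (Finsupp.mem_support_iff.2 h2)
        omega
  funext n; exact key (c n)
theorem len_part (k : ℕ) (c : Sq R X) : Len k (part k c) := by
  intro n l hl
  simp only [part, Finsupp.support_filter, Finset.mem_filter] at hl
  exact hl.2
theorem Len.part_eq {k : ℕ} {c : Sq R X} (h : Len k c) : part k c = c := by
  funext n
  exact (Finsupp.filter_eq_self_iff _ _).2 fun l hl => h n l (Finsupp.mem_support_iff.2 hl)
theorem Len.part_ne {k k' : ℕ} {c : Sq R X} (h : Len k c) (hk : k' ≠ k) : part k' c = 0 := by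
  funext n
  refine (Finsupp.filter_eq_zero_iff _ _).2 fun l hl => ?_
  by_contra h2
  exact hk (hl.symm.trans (h n l (Finsupp.mem_support_iff.2 h2)))
theorem Len.add {k : ℕ} {c d : Sq R X} (h : Len k c) (h' : Len k d) : Len k (c + d) := by
  classical
  intro n l hl
  rcases Finset.mem_union.1 (Finsupp.support_add hl) with h1 | h1
  exacts [h n l h1, h' n l h1]
theorem Len.sub {k : ℕ} {c d : Sq R X} (h : Len k c) (h' : Len k d) : Len k (c - d) := by
  classical
  intro n l hl
  rcases Finset.mem_union.1 (Finsupp.support_sub hl) with h1 | h1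
  exacts [h n l h1, h' n l h1]
theorem Len.sbd {k : ℕ} {c : Sq R X} (h : Len (k + 1) c) : Len k (sbd c) := by
  intro n l hl
  obtain ⟨l', h1, -, h2⟩ := mem_support_bd hl
  have := h n l' h1
  omega
theorem Len.smp {k : ℕ} {c : Sq R X} (h : Len k c) (f : X → Y) : Len k (smp f c) := by
  intro n l hl
  obtain ⟨l', h1, rfl⟩ := mem_support_mp hl
  rw [List.length_map, h n l' h1]
theorem Null.add {c d : Sq R X} (h : Null c) (h' : Null d) : Null (c + d) := by
  filter_upwards [h, h'] with n h1 h2
  rw [Pi.add_apply, h1, h2, add_zero]
theorem Null.sub {c d : Sq R X} (h : Null c) (h' : Null d) : Null (c - d) := by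
  filter_upwards [h, h'] with n h1 h2
  rw [Pi.sub_apply, h1, h2, sub_zero]
theorem Null.neg {c : Sq R X} (h : Null c) : Null (-c) := by
  filter_upwards [h] with n h1
  rw [Pi.neg_apply, h1, neg_zero]
theorem Null.smul {c : Sq R X} (h : Null c) (a : ℕ → R) : Null (a • c) := by
  filter_upwards [h] with n h1
  rw [Pi.smul_apply', h1, smul_zero]
theorem Null.sq {c : Sq R X} (h : Null c) (F : ℕ → Ch R X →ₗ[R] Ch R Y) : Null (sq F c) := by
  filter_upwards [h] with n h1
  rw [sq_apply, h1, map_zero]
theorem Null.part {c : Sq R X} (h : Null c) (k : ℕ) : Null (part k c) := by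
  filter_upwards [h] with n h1
  simp only [R224.part, h1, Finsupp.filter_zero]
theorem Supp.mono {A B : Set X} {c : Sq R X} (h : Supp A c) (hAB : A ⊆ B) : Supp B c := by
  filter_upwards [h] with n h1 l hl x hx
  exact hAB (h1 l hl x hx)
theorem Supp.inter {A B : Set X} {c : Sq R X} (h : Supp A c) (h' : Supp B c) : Supp (A ∩ B) c := by
  filter_upwards [h, h'] with n h1 h2 l hl x hx
  exact ⟨h1 l hl x hx, h2 l hl x hx⟩
theorem Supp.add {A : Set X} {c d : Sq R X} (h : Supp A c) (h' : Supp A d) : Supp A (c + d) := by
  classical
  filter_upwards [h, h'] with n h1 h2 l hl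
  rcases Finset.mem_union.1 (Finsupp.support_add hl) with h3 | h3
  exacts [h1 l h3, h2 l h3]
theorem Supp.smul {A : Set X} {c : Sq R X} (h : Supp A c) (a : ℕ → R) : Supp A (a • c) := by
  filter_upwards [h] with n h1 l hl
  exact h1 l (Finsupp.support_smul hl)
theorem Supp.sbd {A : Set X} {c : Sq R X} (h : Supp A c) : Supp A (sbd c) := by
  filter_upwards [h] with n h1 l hl x hx
  obtain ⟨l', h2, h3, -⟩ := mem_support_bd hl
  exact h1 l' h2 x (h3.subset hx)
theorem Supp.smp {A : Set X} {B : Set Y} {c : Sq R X} (h : Supp A c) {f : X → Y}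
    (hf : MapsTo f A B) : Supp B (smp f c) := by
  filter_upwards [h] with n h1 l hl y hy
  obtain ⟨l', h2, rfl⟩ := mem_support_mp hl
  obtain ⟨x, hx, rfl⟩ := List.mem_map.1 hy
  exact hf (h1 l' h2 x hx)
theorem Supp.sum {ι : Type} {A : Set X} (s : Finset ι) {c : ι → Sq R X} (h : ∀ i ∈ s, Supp A (c i)) :
    Supp A (∑ i ∈ s, c i) := by
  classical
  induction s using Finset.induction_on with
  | empty => exact Eventually.of_forall fun n l hl => by simp at hl
  | insert a s ha ih =>
    rw [Finset.sum_insert ha]
    exact (h a (Finset.mem_insert_self _ _)).add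
      (ih fun i hi => h i (Finset.mem_insert_of_mem hi))
end

end Crest.Agent.R224
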