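import Crest.Agent.R224.ADefs

/-! Bootstrap principle for compact subsets of a manifold. -/

set_option autoImplicit false
open Filter Topology Set
open scoped Pointwise

namespace Crest.Agent.R224

/-- Plan.  (1) In one chart: finite unions of compact convex sets, by induction on the number of sets
(`(C₁ ∪ … ∪ C_k) ∩ C` is a union of `k` compact convex sets).  (2) Any compact set in a chart: outer approximation by
finite unions of small closed balls.  (3) A compact set is a finite union of compact sets lying in charts; induction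
on the number of pieces (for all compact sets that are such unions of `k` pieces). -/
theorem bootstrap {E : Type} [TopologicalSpace E] [T2Space E] {n : ℕ}
    (chart : ∀ x : E, ∃ j : (Fin n → ℝ) → E, IsOpenEmbedding j ∧ x ∈ range j)
    {Ω : Set E} (hΩ : IsOpen Ω) (P : Set E → Prop) (h0 : P ∅)
    (hc : ∀ j : (Fin n → ℝ) → E, IsOpenEmbedding j → ∀ K, IsCompact K → Convex ℝ K → K.Nonempty →
      j '' K ⊆ Ω → P (j '' K))
    (hu : ∀ K L, IsCompact K → IsCompact L → K ⊆ Ω → L ⊆ Ω → P K → P L → P (K ∩ L) → P (K ∪ L))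
    (ho : ∀ K, IsCompact K → K ⊆ Ω →
      (∀ O ∈ 𝓝ˢ K, ∃ K', IsCompact K' ∧ K ⊆ K' ∧ K' ⊆ O ∧ P K') → P K) :
    ∀ K, IsCompact K → K ⊆ Ω → P K := by
  classical
  have fu : ∀ (𝒞 : Set E → Prop), (∀ A, 𝒞 A → IsCompact A ∧ A ⊆ Ω ∧ P A) →
      (∀ A B, 𝒞 A → 𝒞 B → 𝒞 (A ∩ B)) → ∀ {ι : Type} (s : Finset ι) (C : ι → Set E),
      (∀ i ∈ s, 𝒞 (C i)) → P (⋃ i ∈ s, C i) := by
    intro 𝒞 h1 h2 ι s
    induction s using Finset.induction_on with
    | empty => intro C _; simpa using h0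
    | insert a s _ ih =>
      intro C hC
      have hs : ∀ i ∈ s, 𝒞 (C i) := fun i hi => hC i (Finset.mem_insert_of_mem hi)
      have ha := hC a (Finset.mem_insert_self a s)
      rw [Finset.set_biUnion_insert]
      refine hu _ _ (h1 _ ha).1 (s.isCompact_biUnion fun i hi => (h1 _ (hs i hi)).1) (h1 _ ha).2.1
        (iUnion₂_subset fun i hi => (h1 _ (hs i hi)).2.1) (h1 _ ha).2.2 (ih C hs) ?_
      rw [inter_iUnion₂]
      exact ih (fun i => C a ∩ C i) fun i hi => h2 _ _ ha (hs i hi)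
  have step2 : ∀ j : (Fin n → ℝ) → E, IsOpenEmbedding j → ∀ A, IsCompact A → A ⊆ Ω → A ⊆ range j → P A := by
    intro j hj A hA hAΩ hAj
    refine ho A hA hAΩ fun O hO => ?_
    have hK : IsCompact (j ⁻¹' A) := (hj.isInducing.isCompact_preimage_iff hAj).2 hA
    have hε : ∀ x ∈ j ⁻¹' A, ∃ ε > 0, Metric.closedBall x ε ⊆ j ⁻¹' (O ∩ Ω) := fun x hx =>
      Metric.nhds_basis_closedBall.mem_iff.1 (hj.continuous.continuousAt.preimage_mem_nhds
        (inter_mem (mem_nhdsSet_iff_forall.1 hO _ hx) (hΩ.mem_nhds (hAΩ hx))))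
    choose! ε hε0 hε using hε
    obtain ⟨t, ht, hcov⟩ := hK.elim_nhds_subcover (fun x => Metric.closedBall x (ε x))
      fun x hx => Metric.closedBall_mem_nhds x (hε0 x hx)
    refine ⟨⋃ x ∈ t, j '' Metric.closedBall x (ε x),
      t.isCompact_biUnion fun x _ => (isCompact_closedBall _ _).image hj.continuous, fun y hy => ?_,
      iUnion₂_subset fun x hx => image_subset_iff.2 fun z hz => (hε x (ht x hx) hz).1, ?_⟩
    · obtain ⟨x, rfl⟩ := hAj hy
      obtain ⟨z, hz, hx⟩ := mem_iUnion₂.1 (hcov hy)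
      exact mem_iUnion₂.2 ⟨z, hz, mem_image_of_mem j hx⟩
    · refine fu (fun B => ∃ K, IsCompact K ∧ Convex ℝ K ∧ j '' K ⊆ Ω ∧ B = j '' K) ?_ ?_ t _ fun x hx =>
        ⟨_, isCompact_closedBall _ _, convex_closedBall _ _,
          image_subset_iff.2 fun z hz => (hε x (ht x hx) hz).2, rfl⟩
      · rintro _ ⟨K, h1, h2, h3, rfl⟩
        refine ⟨h1.image hj.continuous, h3, ?_⟩
        rcases K.eq_empty_or_nonempty with rfl | hne
        · simpa using h0
        · exact hc j hj K h1 h2 hne h3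
      · rintro _ _ ⟨K, h1, h2, h3, rfl⟩ ⟨L, h1', h2', -, rfl⟩
        exact ⟨K ∩ L, h1.inter h1', h2.inter h2', (image_mono inter_subset_left).trans h3,
          (image_inter hj.injective).symm⟩
  intro K hK hKΩ
  have hN : ∀ x : E, ∃ N ∈ 𝓝 x, IsCompact N ∧ ∃ j : (Fin n → ℝ) → E, IsOpenEmbedding j ∧ N ⊆ range j := by
    intro x
    obtain ⟨j, hj, y, rfl⟩ := chart x
    exact ⟨j '' Metric.closedBall y 1, hj.isOpenMap.image_mem_nhds (Metric.closedBall_mem_nhds y one_pos),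
      (isCompact_closedBall _ _).image hj.continuous, j, hj, image_subset_range _ _⟩
  choose N hN1 hN2 hN3 using hN
  obtain ⟨t, -, hcov⟩ := hK.elim_nhds_subcover N fun x _ => hN1 x
  have e : K = ⋃ x ∈ t, K ∩ N x := by
    rw [← inter_iUnion₂, inter_eq_left.2 hcov]
  rw [e]
  refine fu (fun B => IsCompact B ∧ B ⊆ Ω ∧ ∃ j : (Fin n → ℝ) → E, IsOpenEmbedding j ∧ B ⊆ range j) ?_ ?_ t _
    fun x _ => ⟨hK.inter (hN2 x), inter_subset_left.trans hKΩ, ?_⟩
  · rintro B ⟨h1, h2, j, hj, h3⟩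
    exact ⟨h1, h2, step2 j hj B h1 h2 h3⟩
  · rintro A B ⟨h1, h2, j, hj, h3⟩ ⟨h1', -⟩
    exact ⟨h1.inter h1', inter_subset_left.trans h2, j, hj, inter_subset_left.trans h3⟩
  · obtain ⟨j, hj, h3⟩ := hN3 x
    exact ⟨j, hj, inter_subset_right.trans h3⟩

end Crest.Agent.R224
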