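import Crest.Agent.R224.ACarAux

/-! Carrier lemma: cycles on a set with few colours bound nearby. -/

set_option autoImplicit false
open Filter Topology Set
open scoped Pointwise

namespace Crest.Agent.R224

variable {Γ E : Type} [Group Γ] [TopologicalSpace E] [MulAction Γ E] {G : Gen Γ}

open Classical in
/-- centre of a simplex of the nerve -/
noncomputable def carC (σ : Finset (ℕ × Γ)) : Γ := if h : σ.Nonempty then h.choose.2 else 1

/-- projection of the head -/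
def carH (π : E → Γ) : List E → Γ
  | [] => 1
  | x :: _ => π x

open Classical in
noncomputable def carK (F : Γ → ℕ → Ch (ZMod 2) E →ₗ[ZMod 2] Ch (ZMod 2) E) (lab : E → ℕ × Γ)
    (n : ℕ) : Ch (ZMod 2) E →ₗ[ZMod 2] Ch (ZMod 2) E :=
  kap (fun σ => F (carC σ) n) ∘ₗ th lab

noncomputable def carT (F : Γ → ℕ → Ch (ZMod 2) E →ₗ[ZMod 2] Ch (ZMod 2) E) (π : E → Γ)
    (lab : Γ → ℕ × Γ) (k n : ℕ) : Ch (ZMod 2) E →ₗ[ZMod 2] Ch (ZMod 2) E :=
  TT (fun l => F (lab (carH π l)).2 n) (carK F (lab ∘ π) n) k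

theorem car_mem_filter {X : Type} {c : Ch (ZMod 2) X} {P : List X → Prop} [DecidablePred P]
    {l : List X} (h : l ∈ (c.filter P).support) : l ∈ c.support ∧ P l := by
  rwa [Finsupp.support_filter, Finset.mem_filter] at h

theorem car_ball_sub {g g' : Γ} {a b c : ℕ} (h : G.D g g' ≤ a) (hc : a + b ≤ c) :
    G.ball g' b ⊆ G.ball g c := fun y (hy : G.D g' y ≤ b) =>
  (G.D_tri g g' y).trans ((add_le_add h hy).trans hc)

section
variable {π : E → Γ} {F : Γ → ℕ → Ch (ZMod 2) E →ₗ[ZMod 2] Ch (ZMod 2) E}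
  (hF : ∀ r : ℕ, ∃ r' : ℕ, ∀ g c, Good (π ⁻¹' G.ball g r) c → Good (π ⁻¹' G.ball g r') (sq (F g) c))
include hF

omit [MulAction Γ E] in
open Classical in
theorem car_kap (m d : ℕ) : ∃ R, ∀ (σ : Finset (ℕ × Γ)) (g : Γ), σ.card = m →
    (∀ a ∈ σ, G.D g a.2 ≤ d) → Good (π ⁻¹' G.ball g R) fun n => kapS (fun σ => F (carC σ) n) σ := by
  induction m generalizing d with
  | zero =>
    refine ⟨0, fun σ g hσ _ => ?_⟩
    obtain rfl := Finset.card_eq_zero.1 hσ
    simp only [kapS_empty]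
    refine ⟨fine_nil _ fun _ => 1, Eventually.of_forall fun n l hl => ?_⟩
    rw [Finset.mem_singleton.1 (Finsupp.support_single_subset hl)]
    simp
  | succ m ih =>
    obtain ⟨R₁, hR₁⟩ := ih (d + d)
    obtain ⟨R₂, hR₂⟩ := hF R₁
    refine ⟨d + R₂, fun σ g hσ hd => ?_⟩
    have hne : σ.Nonempty := Finset.card_pos.1 (by omega)
    have hc : G.D g (carC σ) ≤ d := by
      rw [carC, dif_pos hne]
      exact hd _ hne.choose_spec
    have h1 : Good (π ⁻¹' G.ball (carC σ) R₁)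
        (∑ a ∈ σ, fun n => kapS (fun σ => F (carC σ) n) (σ.erase a)) := by
      refine Good.sum σ fun a ha => hR₁ _ _ (by rw [Finset.card_erase_of_mem ha, hσ]; rfl) fun b hb => ?_
      refine (G.D_tri _ g _).trans (add_le_add ?_ (hd b (Finset.mem_of_mem_erase hb)))
      rwa [G.D_comm]
    refine ((hR₂ _ _ h1).mono (preimage_mono (car_ball_sub hc le_rfl))).congr
      (Eventually.of_forall fun n => ?_)
    rw [kapS_ne _ hne.ne_empty, sq_apply, Finset.sum_apply]

omit [MulAction Γ E] in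
theorem car_K (r k s : ℕ) : ∃ R, ∀ (Z : Set Γ) (lab : Γ → ℕ × Γ), (∀ g ∈ Z, G.D g (lab g).2 ≤ r) →
    ∀ g c, Len k c → Supp (π ⁻¹' (Z ∩ G.ball g s)) c →
      Good (π ⁻¹' G.ball g R) (sq (carK F (lab ∘ π)) c) := by
  classical
  obtain ⟨R, hR⟩ := car_kap hF k (s + r)
  refine ⟨R, fun Z lab hlab g c hk hc => ?_⟩
  let 𝒮 : Finset (Finset (ℕ × Γ)) := ((G.finite_ball g s).toFinset.image lab).powerset.filter
    fun σ => σ.card = k ∧ ∀ a ∈ σ, G.D g a.2 ≤ s + r
  have h1 : Good (π ⁻¹' G.ball g R) (∑ σ ∈ 𝒮, (fun n => th (lab ∘ π) (c n) σ) •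
      fun n => kapS (fun σ => F (carC σ) n) σ) := by
    refine Good.sum 𝒮 fun σ hσ => Good.smul ?_ _
    have := (Finset.mem_filter.1 hσ).2
    convert hR σ g this.1 this.2
  refine h1.congr ?_
  filter_upwards [hc] with n hn
  have h2 : (th (lab ∘ π) (c n)).support ⊆ 𝒮 := by
    intro σ hσ
    obtain ⟨l, hl, h3, h4⟩ := mem_support_th _ hσ
    refine Finset.mem_filter.2 ⟨Finset.mem_powerset.2 fun a ha => ?_, h3.trans (hk n l hl),
      fun a ha => ?_⟩
    · obtain ⟨x, hx, rfl⟩ := h4 a ha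
      exact Finset.mem_image.2 ⟨π x, by simpa using (hn l hl x hx).2, rfl⟩
    · obtain ⟨x, hx, rfl⟩ := h4 a ha
      exact (G.D_tri _ (π x) _).trans (add_le_add (hn l hl x hx).2 (hlab _ (hn l hl x hx).1))
  rw [sq_apply, carK, LinearMap.comp_apply, kap, Finsupp.linearCombination_apply, Finset.sum_apply]
  exact Finsupp.sum_of_support_subset _ h2 (fun i a => a • kapS (fun σ => F (carC σ) n) i)
    fun _ _ => zero_smul _ _

omit [MulAction Γ E] in
theorem car_T (r k s : ℕ) : ∃ R, ∀ (Z : Set Γ) (lab : Γ → ℕ × Γ), (∀ g ∈ Z, G.D g (lab g).2 ≤ r) →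
    ∀ g c, Len k c → Good (π ⁻¹' (Z ∩ G.ball g s)) c →
      Good (π ⁻¹' G.ball g R) (sq (carT F π lab k) c) := by
  classical
  induction k with
  | zero => exact ⟨0, fun Z lab _ g c _ _ => good_zero _⟩
  | succ k ih =>
    obtain ⟨R₁, hR₁⟩ := ih
    obtain ⟨R₂, hR₂⟩ := car_K hF r (k + 1) s
    obtain ⟨R₃, hR₃⟩ := hF (s + r + (s + R₂ + R₁))
    refine ⟨s + r + R₃, fun Z lab hlab g c hk hc => ?_⟩
    let B : Finset Γ := ((G.finite_ball g s).inter_of_right Z).toFinset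
    let d : Γ → Sq (ZMod 2) E := fun b n => (c n).filter fun l => carH π l = b
    have hd : ∀ b, Good (π ⁻¹' (Z ∩ G.ball g s)) (d b) := fun b => hc.filter _
    have hdk : ∀ b, Len (k + 1) (d b) := fun b n l hl =>
      hk n l (car_mem_filter hl).1
    have h1 : Good (π ⁻¹' G.ball g (s + r + R₃)) (∑ b ∈ B, sq (F (lab b).2)
        (d b + sq (carK F (lab ∘ π)) (d b) + sq (carT F π lab k) (sbd (d b)))) := by
      refine Good.sum B fun b hb => ?_
      have hb' : b ∈ Z ∩ G.ball g s := by simpa [B] using hb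
      have h2 : G.D g (lab b).2 ≤ s + r := (G.D_tri _ b _).trans (add_le_add hb'.2 (hlab _ hb'.1))
      have h3 : G.D (lab b).2 g ≤ s + r := by rwa [G.D_comm]
      refine (hR₃ _ _ ((Good.add ?_ ?_).add ?_)).mono (preimage_mono (car_ball_sub h2 le_rfl))
      · exact (hd b).mono (preimage_mono (inter_subset_right.trans (car_ball_sub h3 (by omega))))
      · exact (hR₂ Z lab hlab g _ (hdk b) (hd b).2).mono (preimage_mono (car_ball_sub h3 (by omega)))
      · exact (hR₁ Z lab hlab g _ (hdk b).sbd (hd b).sbd).mono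
          (preimage_mono (car_ball_sub h3 (by omega)))
    refine h1.congr ?_
    filter_upwards [hc.2] with n hn
    have h2 : c n = ∑ b ∈ B, d b n := by
      refine eq_sum_filter (carH π) B fun l hl => ?_
      have h3 := hk n l hl
      match l, hl, h3 with
      | x :: l, hl, _ => simpa [B, carH] using hn _ hl x List.mem_cons_self
    rw [sq_apply, h2, map_sum, Finset.sum_apply]
    refine Finset.sum_congr rfl fun b _ => ?_
    refine TT_succ _ k fun l hl => ?_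
    have h3 : carH π l = b := (car_mem_filter hl).2
    rw [h3]

end

theorem car_T' (p : Prj E G) {F : Γ → ℕ → Ch (ZMod 2) E →ₗ[ZMod 2] Ch (ZMod 2) E}
    (hF : ∀ r : ℕ, ∃ r' : ℕ, ∀ g c, Good (p.π ⁻¹' G.ball g r) c →
      Good (p.π ⁻¹' G.ball g r') (sq (F g) c)) (r k : ℕ) :
    ∃ R, ∀ (Z : Set Γ) (lab : Γ → ℕ × Γ), (∀ g ∈ Z, G.D g (lab g).2 ≤ r) →
    ∀ A c, Len k c → Good (p.π ⁻¹' (Z ∩ A)) c →
      Good (p.π ⁻¹' G.N R A) (sq (carT F p.π lab k) c) := by
  classical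
  cases k with
  | zero => exact ⟨0, fun Z lab _ g c _ _ => good_zero _⟩
  | succ k =>
    obtain ⟨R, hR⟩ := car_T hF r (k + 1) p.c₀
    refine ⟨R, fun Z lab hlab A c hk hc => ?_⟩
    obtain ⟨⟨K, hK, -, hKc⟩, hs⟩ := hc.1
    let B : Finset Γ := ((p.fin K hK).inter_of_left A).toFinset
    let d : Γ → Sq (ZMod 2) E := fun b n => (c n).filter fun l => carH p.π l = b
    have hdk : ∀ b, Len (k + 1) (d b) := fun b n l hl =>
      hk n l (car_mem_filter hl).1
    have hd : ∀ b, Good (p.π ⁻¹' (Z ∩ G.ball b p.c₀)) (d b) := by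
      refine fun b => ⟨(hc.filter _).1, ?_⟩
      filter_upwards [hc.2, hs _ p.near] with n hn hn' l hl x hx
      obtain ⟨h1, h2⟩ := car_mem_filter hl
      refine ⟨(hn l h1 x hx).1, ?_⟩
      match l, hx, h1, h2 with
      | y :: l, hx, h1, h2 =>
        rw [← h2]
        exact hn' _ h1 y List.mem_cons_self x hx
    have h1 : Good (p.π ⁻¹' G.N R A) (∑ b ∈ B, sq (carT F p.π lab (k + 1)) (d b)) := by
      refine Good.sum B fun b hb => ?_
      have hb' : b ∈ p.π '' K ∩ A := by simpa [B] using hb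
      exact (hR Z lab hlab b _ (hdk b) (hd b)).mono (preimage_mono fun y hy => ⟨b, hb'.2, hy⟩)
    refine h1.congr ?_
    filter_upwards [hc.2, hKc] with n hn hn'
    have h2 : c n = ∑ b ∈ B, d b n := by
      refine eq_sum_filter (carH p.π) B fun l hl => ?_
      have h3 := hk n l hl
      match l, hl, h3 with
      | x :: l, hl, _ =>
        exact (Finite.mem_toFinset _).2 ⟨⟨x, hn' _ hl x List.mem_cons_self, rfl⟩,
          (hn _ hl x List.mem_cons_self).2⟩
    rw [sq_apply, h2, map_sum, Finset.sum_apply]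
    rfl

theorem car_lab {q s r : ℕ} (Z : Fin q → Set Γ) (hZ : ∀ i, G.Clus s r (Z i)) :
    ∃ lab : Γ → ℕ × Γ, (∀ g ∈ ⋃ i, Z i, G.D g (lab g).2 ≤ r) ∧ (∀ g ∈ ⋃ i, Z i, (lab g).1 < q) ∧
      ∀ g ∈ ⋃ i, Z i, ∀ g' ∈ ⋃ i, Z i, G.D g g' ≤ s → (lab g).1 = (lab g').1 → lab g = lab g' := by
  classical
  have : Nonempty Γ := ⟨1⟩
  let rep : Fin q → Γ → Γ := fun i g => Classical.epsilon fun y => G.Chain s (Z i) g y
  have hrep : ∀ i g, G.Chain s (Z i) g (rep i g) := fun i g =>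
    Classical.epsilon_spec (p := fun y => G.Chain s (Z i) g y) ⟨g, Relation.ReflTransGen.refl⟩
  refine ⟨fun g => if h : ∃ i, g ∈ Z i then (h.choose.1, rep h.choose g) else (0, 1),
    fun g hg => ?_, fun g hg => ?_, fun g hg g' hg' hd => ?_⟩
  · simp only [dif_pos (mem_iUnion.1 hg)]
    exact hZ _ _ _ (hrep _ _)
  · simp only [dif_pos (mem_iUnion.1 hg)]
    exact Fin.is_lt _
  · simp only [dif_pos (mem_iUnion.1 hg), dif_pos (mem_iUnion.1 hg')]
    have h1 := (mem_iUnion.1 hg).choose_spec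
    have h2 := (mem_iUnion.1 hg').choose_spec
    generalize (mem_iUnion.1 hg).choose = i at h1 ⊢
    generalize (mem_iUnion.1 hg').choose = j at h2 ⊢
    intro h
    obtain rfl : i = j := Fin.ext h
    have h3 : G.Chain s (Z i) g g' := Relation.ReflTransGen.single ⟨h1, h2, hd⟩
    have h4 : (fun y => G.Chain s (Z i) g y) = fun y => G.Chain s (Z i) g' y :=
      funext fun y => propext ⟨fun h => h3.symm.trans h, fun h => h3.trans h⟩
    simp only [rep, h4]

/-- Carrier lemma.  Plan.  Label `lab x = (i, ρ) : Fin q × Γ`, `i` the least colour with `π x ∈ Z i`, `ρ` a chosen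
representative of the `c₀`-component of `π x` in `Z i` (`D ρ (π x) ≤ r`).  Oriented chains mod 2: `Finset L →₀ ZMod 2`,
`∂σ = ∑_{a ∈ σ} σ.erase a`, `θ (x :: l) = c_{lab x} (θ l)` with `c_a σ = if a ∈ σ then 0 else insert a σ`; `θ` is a chain map, and
`θ l = 0` for a `near`-small list of length `> q` in `π⁻¹ Z` (equal colours ⇒ equal labels).  `κ n ∅ = []`,
`κ n σ = F ρ(σ) n (κ n ∂σ)` (recursion on the cardinality, `ρ(σ)` from a chosen element), `T n [] = 0`,
`T n (x :: l) = F ρ(x) n ((x :: l) + κ n θ (x :: l) + T n ∂(x :: l))` (recursion on the length).  Unconditionally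
`∂κ = κ∂` and `∂ T l + T ∂ l = l + κ θ l`.  Support: by induction on `k` there is `R_k` such that for `c` fine of length `k` supported in
`π⁻¹ (Z ∩ ball g R)`, `T c` is fine and supported in `π⁻¹ (ball g (R + R_k))` (split `c` by the label of the head, finitely many
labels occur by `p.fin`; `κ θ c` is a finite sum of scalar sequences times `κ σ`).  `t = T z`; split `z` and `∂z` by `π` of
the head. -/
theorem Geo.carrier (h : Geo Γ E) (p : Prj E G) (q k r : ℕ) (hqk : q < k) : ∃ R : ℕ,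
    ∀ (Z : Fin q → Set Γ) (A : Set Γ) (z : Sq (ZMod 2) E), (∀ i, G.Clus p.c₀ r (Z i)) →
      Fine univ z → Len k z → Supp (p.π ⁻¹' ⋃ i, Z i) z → Supp (p.π ⁻¹' A) (sbd z) →
      ∃ t, Fine univ t ∧ Supp (p.π ⁻¹' G.N R (⋃ i, Z i)) t ∧
        Supp (p.π ⁻¹' G.N R A) (z + sbd t) := by
  classical
  obtain ⟨F, hid, -, hfine, hsupp⟩ := h.fill_ball p
  have hF : ∀ r : ℕ, ∃ r' : ℕ, ∀ g c, Good (p.π ⁻¹' G.ball g r) c →
      Good (p.π ⁻¹' G.ball g r') (sq (F g) c) := fun r =>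
    (hsupp r).imp fun r' hr g c hc => ⟨hfine g c hc.1, hr g c hc.1 hc.2⟩
  obtain ⟨k, rfl⟩ : ∃ k', k = k' + 1 := ⟨k - 1, by omega⟩
  obtain ⟨R₁, hR₁⟩ := car_T' p hF r (k + 1)
  obtain ⟨R₂, hR₂⟩ := car_T' p hF r k
  refine ⟨R₁ + R₂, fun Z A z hZ hz hk hs hA => ?_⟩
  obtain ⟨lab, l1, l2, l3⟩ := car_lab Z hZ
  have h1 := hR₁ _ lab l1 (⋃ i, Z i) z hk ⟨hz, by rwa [inter_self]⟩
  have h2 := hR₂ _ lab l1 A (sbd z) hk.sbd ⟨hz.sbd, hs.sbd.inter hA⟩
  refine ⟨_, h1.1, h1.2.mono (preimage_mono (G.N_mono (by omega) subset_rfl)),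
    Supp.mono ?_ (preimage_mono (G.N_mono (show R₂ ≤ R₁ + R₂ by omega) subset_rfl))⟩
  filter_upwards [h2.2, hs, hz.2 _ p.near] with n hn hn1 hn2
  have h3 : th (lab ∘ p.π) (z n) = 0 := by
    rw [← Finsupp.support_eq_empty, Finset.eq_empty_iff_forall_notMem]
    intro σ hσ
    obtain ⟨l, hl, h3, h4⟩ := mem_support_th _ hσ
    have h5 : σ.card ≤ (Finset.range q).card := by
      refine Finset.card_le_card_of_injOn Prod.fst (fun a ha => ?_) fun a ha b hb hab => ?_
      · obtain ⟨x, hx, rfl⟩ := h4 a ha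
        exact Finset.mem_coe.2 (Finset.mem_range.2 (l2 _ (hn1 l hl x hx)))
      · obtain ⟨x, hx, rfl⟩ := h4 a ha
        obtain ⟨y, hy, rfl⟩ := h4 b hb
        exact l3 _ (hn1 l hl x hx) _ (hn1 l hl y hy) (hn2 l hl x hx y hy) hab
    rw [Finset.card_range, h3, hk n l hl] at h5
    omega
  have h4 : carK F (lab ∘ p.π) n (z n) = 0 := by
    rw [carK, LinearMap.comp_apply, h3, map_zero]
  have h5 := bd_TT (Ψ := fun l => F (lab (carH p.π l)).2 n) (K := carK F (lab ∘ p.π) n)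
    (fun l c => hid _ n c) (fun c => by
      rw [carK, LinearMap.comp_apply, LinearMap.comp_apply, bd_kap fun σ c => hid _ n c, obd_th])
    (by rw [carK, LinearMap.comp_apply, th_single, thL, kap_single, kapS_empty]) (k + 1) (hk n)
  rw [h4, add_zero] at h5
  have h6 : (z + sbd (sq (carT F p.π lab (k + 1)) z)) n = sq (carT F p.π lab k) (sbd z) n := by
    rw [Pi.add_apply, sbd_apply, sq_apply, sq_apply, sbd_apply, carT, eq_add_of_add_eq_z2 h5,
      ← add_assoc, add_self_z2, zero_add]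
    rfl
  rwa [h6]

/-- thickening keeps clusters bounded -/
theorem Gen.Clus.N {s a r : ℕ} {Z : Set Γ} (h : G.Clus (s + 2 * a) r Z) :
    G.Clus s (r + 2 * a) (G.N a Z) := by
  intro x y hxy
  rcases hxy.cases_head with rfl | ⟨w, ⟨⟨x', hx', hx⟩, -, -⟩, -⟩
  · simp
  · have key : ∃ y' ∈ Z, G.D y' y ≤ a ∧ G.Chain (s + 2 * a) Z x' y' := by
      induction hxy with
      | refl => exact ⟨x', hx', hx, Relation.ReflTransGen.refl⟩
      | @tail u v _ huv ih =>
        obtain ⟨u', hu', hu, hc⟩ := ih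
        obtain ⟨-, ⟨v', hv', hv⟩, hd⟩ := huv
        refine ⟨v', hv', hv, hc.tail ⟨hu', hv', ?_⟩⟩
        have h1 := G.D_tri u' u v'
        have h2 := G.D_tri u v v'
        rw [G.D_comm] at hv
        omega
    obtain ⟨y', -, hy, hc⟩ := key
    have h1 := h _ _ hc
    have h2 := G.D_tri x x' y
    have h3 := G.D_tri x' y' y
    rw [G.D_comm] at hx
    omega

end Crest.Agent.R224
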