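import Crest.Agent.R224.AFine0

/-! Fine chains: lattice properties, functoriality, homotopies, filling. -/

set_option autoImplicit false
open Filter Topology Set
open scoped Pointwise

namespace Crest.Agent.R224

variable {R X Y : Type} [CommRing R] [TopologicalSpace X] [TopologicalSpace Y]

/-- prism operator of a homotopy, with `n + 1` steps at index `n` -/
noncomputable def prH (R : Type) [CommRing R] (H : ℝ → X → Y) (n : ℕ) : Ch R X →ₗ[R] Ch R Y :=
  ∑ i ∈ Finset.range (n + 1), pr (H (i / (n + 1 : ℝ))) (H ((i + 1 : ℝ) / (n + 1 : ℝ)))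

omit [TopologicalSpace X] [TopologicalSpace Y] in
theorem bd_prH (H : ℝ → X → Y) (n : ℕ) (c : Ch R X) :
    bd (prH R H n c) + prH R H n (bd c) = mp (H 1) c - mp (H 0) c := by
  have h := Finset.sum_range_sub (fun i : ℕ => mp (H (i / (n + 1 : ℝ))) c) (n + 1)
  have hn : ((n + 1 : ℕ) : ℝ) / (n + 1 : ℝ) = 1 := by
    push_cast; exact div_self (by positivity)
  simp only [hn, Nat.cast_zero, zero_div] at h
  rw [← h, prH, LinearMap.sum_apply, LinearMap.sum_apply, map_sum, ← Finset.sum_add_distrib]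
  refine Finset.sum_congr rfl fun i _ => ?_
  rw [bd_pr]
  push_cast
  rfl
omit [TopologicalSpace X] [TopologicalSpace Y] in
theorem mem_support_prH {H : ℝ → X → Y} {n : ℕ} {c : Ch R X} {l : List Y}
    (h : l ∈ (prH R H n c).support) : ∃ l' ∈ c.support, l.length = l'.length + 1 ∧ l' ≠ [] ∧
      ∃ s ∈ Icc (0:ℝ) 1, ∃ t ∈ Icc (0:ℝ) 1, |s - t| ≤ 1 / (n + 1 : ℝ) ∧
        ∀ y ∈ l, ∃ x ∈ l', y = H s x ∨ y = H t x := by
  classical
  rw [prH, LinearMap.sum_apply] at h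
  obtain ⟨i, hi, hl⟩ := Finsupp.mem_support_finsetSum _ h
  obtain ⟨l', h1, h2, h3, h4⟩ := mem_support_pr hl
  have hi' : (i : ℝ) + 1 ≤ n + 1 := by
    have := Finset.mem_range.1 hi
    exact_mod_cast this
  have hn : (0 : ℝ) < n + 1 := by positivity
  have hi0 : (0 : ℝ) ≤ i := Nat.cast_nonneg i
  refine ⟨l', h1, h2, h3, _, ⟨by positivity, ?_⟩, _, ⟨by positivity, ?_⟩, ?_, h4⟩
  · rw [div_le_one hn]; linarith
  · rw [div_le_one hn]; exact hi'
  · rw [← sub_div, abs_div, abs_of_pos hn]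
    have : (i : ℝ) - (i + 1) = -1 := by ring
    rw [this, abs_neg, abs_one]
omit [TopologicalSpace X] [TopologicalSpace Y] in
theorem Len.prH {k : ℕ} {c : Sq R X} (h : Len k c) (H : ℝ → X → Y) :
    Len (k + 1) (sq (Crest.Agent.R224.prH R H) c) := by
  intro n l hl
  obtain ⟨l', h1, h2, -⟩ := mem_support_prH hl
  rw [h2, h n l' h1]
/-- uniform continuity of a homotopy on a compact set -/
theorem homotopy_small [T2Space X] {K : Set X} (hK : IsCompact K) {H : ℝ → X → Y}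
    (hH : ContinuousOn (fun p : ℝ × X => H p.1 p.2) (Icc 0 1 ×ˢ K)) {W : Set (Y × Y)}
    (hW : W ∈ 𝓝ˢ (diagonal Y)) : ∃ W' ∈ 𝓝ˢ (diagonal X), ∃ δ > 0, ∀ s ∈ Icc (0:ℝ) 1, ∀ t ∈ Icc (0:ℝ) 1,
      |s - t| ≤ δ → ∀ x ∈ K, ∀ y ∈ K, (x, y) ∈ W' → (H s x, H t y) ∈ W := by
  let S : Set ((ℝ × X) × (ℝ × X)) := (Icc 0 1 ×ˢ K) ×ˢ (Icc 0 1 ×ˢ K)
  have hS : IsCompact S := (isCompact_Icc.prod hK).prod (isCompact_Icc.prod hK)
  let f : (ℝ × X) × (ℝ × X) → Y × Y := fun q => (H q.1.1 q.1.2, H q.2.1 q.2.2)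
  have hf : ContinuousOn f S :=
    (hH.comp continuous_fst.continuousOn fun q hq => hq.1).prodMk
      (hH.comp continuous_snd.continuousOn fun q hq => hq.2)
  let C := S ∩ f ⁻¹' (interior W)ᶜ
  have hC : IsCompact C := hS.of_isClosed_subset
    (hf.preimage_isClosed_of_isClosed hS.isClosed isOpen_interior.isClosed_compl) inter_subset_left
  have hdiag : diagonal Y ⊆ interior W := subset_interior_iff_mem_nhdsSet.2 hW
  have hC1 : IsCompact (C ∩ {q | q.1.2 = q.2.2}) :=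
    hC.inter_right (isClosed_eq (by fun_prop) (by fun_prop))
  obtain ⟨a, ha, hle⟩ := hC1.exists_forall_le' (f := fun q => |q.1.1 - q.2.1|) (a := 0)
    (by fun_prop) (by
      rintro ⟨⟨s, x⟩, t, y⟩ ⟨⟨-, h2⟩, h3⟩
      obtain rfl : x = y := h3
      refine abs_pos.2 (sub_ne_zero.2 fun hst => h2 ?_)
      obtain rfl : s = t := hst
      exact hdiag rfl)
  have hC2 : IsCompact (C ∩ {q | |q.1.1 - q.2.1| ≤ a / 2}) :=
    hC.inter_right (isClosed_le (by fun_prop) continuous_const)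
  have hD := hC2.image (f := fun q : (ℝ × X) × (ℝ × X) => (q.1.2, q.2.2)) (by fun_prop)
  refine ⟨_, hD.isClosed.isOpen_compl.mem_nhdsSet.2 ?_, a / 2, half_pos ha, ?_⟩
  · rintro ⟨x, y⟩ hxy ⟨q, ⟨h1, h2⟩, h3⟩
    have hxy' : x = y := hxy
    have h4 : q.1.2 = q.2.2 := by
      have e1 := congrArg Prod.fst h3
      have e2 := congrArg Prod.snd h3
      exact e1.trans (hxy'.trans e2.symm)
    have h5 := hle q ⟨h1, h4⟩
    have h6 : |q.1.1 - q.2.1| ≤ a / 2 := h2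
    linarith
  · intro s hs t ht hst x hx y hy hxy
    by_contra hn
    exact hxy ⟨((s, x), (t, y)), ⟨⟨⟨⟨hs, hx⟩, ht, hy⟩, fun h => hn (interior_subset h)⟩, hst⟩, rfl⟩
theorem Fine.prH [T2Space X] {U : Set X} {V : Set Y} {c : Sq R X} (h : Fine U c) {H : ℝ → X → Y}
    (hH : ContinuousOn (fun p : ℝ × X => H p.1 p.2) (Icc 0 1 ×ˢ U))
    (hm : ∀ t ∈ Icc (0:ℝ) 1, MapsTo (H t) U V) : Fine V (sq (Crest.Agent.R224.prH R H) c) := by
  obtain ⟨⟨K, hK, hKU, hs⟩, hsm⟩ := h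
  have hH' : ContinuousOn (fun p : ℝ × X => H p.1 p.2) (Icc 0 1 ×ˢ K) :=
    hH.mono (prod_mono subset_rfl hKU)
  refine ⟨⟨_, (isCompact_Icc.prod hK).image_of_continuousOn hH', ?_, ?_⟩, fun W hW => ?_⟩
  · rintro _ ⟨⟨t, x⟩, ⟨ht, hx⟩, rfl⟩
    exact hm t ht (hKU hx)
  · filter_upwards [hs] with n hn l hl y hy
    obtain ⟨l', h1, -, -, s, hs, t, ht, -, h4⟩ := mem_support_prH hl
    obtain ⟨x, hx, rfl | rfl⟩ := h4 y hy
    · exact ⟨(s, x), ⟨hs, hn l' h1 x hx⟩, rfl⟩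
    · exact ⟨(t, x), ⟨ht, hn l' h1 x hx⟩, rfl⟩
  · obtain ⟨W', hW', δ, hδ, hW2⟩ := homotopy_small hK hH' hW
    have hev : ∀ᶠ n : ℕ in atTop, 1 / (n + 1 : ℝ) ≤ δ :=
      (tendsto_one_div_add_atTop_nhds_zero_nat.eventually (ge_mem_nhds hδ))
    filter_upwards [hs, hsm W' hW', hev] with n hn hn' hδn l hl y hy y' hy'
    obtain ⟨l', h1, -, -, s, hs, t, ht, hst, h4⟩ := mem_support_prH hl
    have hst' : |s - t| ≤ δ := hst.trans hδn
    obtain ⟨x, hx, hyx⟩ := h4 y hy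
    obtain ⟨x', hx', hyx'⟩ := h4 y' hy'
    have k1 := hn l' h1 x hx
    have k2 := hn l' h1 x' hx'
    have k3 := hn' l' h1 x hx x' hx'
    rcases hyx with rfl | rfl <;> rcases hyx' with rfl | rfl
    · exact hW2 s hs s hs (by simpa using hδ.le) x k1 x' k2 k3
    · exact hW2 s hs t ht hst' x k1 x' k2 k3
    · exact hW2 t ht s hs (by rwa [abs_sub_comm]) x k1 x' k2 k3
    · exact hW2 t ht t ht (by simpa using hδ.le) x k1 x' k2 k3
/-- the cone over the constant map -/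
noncomputable def cnC (R : Type) [CommRing R] (y₀ : Y) : Ch R X →ₗ[R] Ch R Y :=
  cn y₀ ∘ₗ mp fun _ => y₀
omit [TopologicalSpace X] [TopologicalSpace Y] in
theorem mem_support_cnC {y₀ : Y} {c : Ch R X} {l : List Y} (h : l ∈ (cnC R y₀ c).support) :
    ∃ l' ∈ c.support, l.length = l'.length + 1 ∧ ∀ y ∈ l, y = y₀ := by
  obtain ⟨l₁, h1, rfl⟩ := mem_support_cn h
  obtain ⟨l', h2, rfl⟩ := mem_support_mp h1
  refine ⟨l', h2, by simp, fun y hy => ?_⟩
  rcases List.mem_cons.1 hy with rfl | hy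
  · rfl
  · obtain ⟨_, -, rfl⟩ := List.mem_map.1 hy
    rfl
omit [TopologicalSpace X] [TopologicalSpace Y] in
theorem bd_cnC (y₀ : Y) (c : Ch R X) :
    bd (cnC R y₀ c) + cnC R y₀ (bd c) = mp (fun _ => y₀) c := by
  simp only [cnC, LinearMap.comp_apply, bd_cn, bd_mp, sub_add_cancel]
omit [TopologicalSpace X] in
theorem fine_cnC {V : Set Y} {y₀ : Y} (hy : y₀ ∈ V) (c : Sq R X) :
    Fine V (sq (fun _ => cnC R y₀) c) := by
  refine ⟨⟨{y₀}, isCompact_singleton, singleton_subset_iff.2 hy,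
    Eventually.of_forall fun n l hl y hy => ?_⟩, fun W hW =>
    Eventually.of_forall fun n l hl y hy y' hy' => ?_⟩
  · obtain ⟨_, -, -, h⟩ := mem_support_cnC hl
    exact h y hy
  · obtain ⟨_, -, -, h⟩ := mem_support_cnC hl
    rw [h y hy, h y' hy']
    exact subset_of_mem_nhdsSet hW rfl
omit [TopologicalSpace X] [TopologicalSpace Y] in
theorem bd_cnC_sub_prH (y₀ : Y) (H : ℝ → X → Y) (n : ℕ) (c : Ch R X) :
    bd (cnC R y₀ c - prH R H n c) + (cnC R y₀ (bd c) - prH R H n (bd c)) =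
      mp (fun _ => y₀) c - mp (H 1) c + mp (H 0) c := by
  have h1 := bd_cnC (R := R) y₀ c
  have h2 := bd_prH H n c
  rw [map_sub, ← h1, sub_add _ (mp (H 1) c), ← h2]
  abel
/-- Plan: `H 0 = id`, `H 1 = const y₀`, `F n c = cn y₀ (mp (const y₀) c) - prH H n c`. -/
theorem exists_fill (R X : Type) [CommRing R] [TopologicalSpace X] [T2Space X] [ContractibleSpace X] :
    ∃ F : ℕ → Ch R X →ₗ[R] Ch R X, IsFill F := by
  obtain ⟨y₀, ⟨Hm⟩⟩ := (contractible_iff_id_nullhomotopic X).1 inferInstance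
  let H : ℝ → X → X := fun t x => Hm (projIcc 0 1 zero_le_one t, x)
  have hH : Continuous fun p : ℝ × X => H p.1 p.2 :=
    Hm.continuous.comp ((continuous_projIcc.comp continuous_fst).prodMk continuous_snd)
  have h0 : H 0 = id := funext fun x => by simp [H]
  have h1 : H 1 = fun _ => y₀ := funext fun x => by simp [H]
  have hsq : ∀ c : Sq R X, sq (fun n => cnC R y₀ - prH R H n) c =
      sq (fun _ => cnC R y₀) c - sq (prH R H) c := fun c => rfl
  refine ⟨fun n => cnC R y₀ - prH R H n, fun n c => ?_, fun k c hc => ?_, fun K hK => ?_⟩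
  · rw [LinearMap.sub_apply, LinearMap.sub_apply, bd_cnC_sub_prH, h0, h1, sub_self, zero_add, mp_id]
  · rw [hsq]
    refine Len.sub (fun n l hl => ?_) (hc.prH H)
    obtain ⟨l', h1, h2, -⟩ := mem_support_cnC hl
    rw [h2, hc n l' h1]
  · refine ⟨(K ∪ {y₀}) ∪ (fun p : ℝ × X => H p.1 p.2) '' (Icc 0 1 ×ˢ K),
      (hK.union isCompact_singleton).union ((isCompact_Icc.prod hK).image hH),
      subset_union_left.trans subset_union_left, fun c hc => ?_⟩
    rw [hsq]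
    refine Fine.sub (fine_cnC ?_ c) (hc.prH (H := H) hH.continuousOn fun t ht x hx => ?_)
    · exact Or.inl (Or.inr rfl)
    · exact Or.inr ⟨(t, x), ⟨ht, hx⟩, rfl⟩
theorem IsFill.ac {F : ℕ → Ch R X →ₗ[R] Ch R X} (h : IsFill F) : Ac R (univ : Set X) := by
  rintro c ⟨⟨K, hK, -, hs⟩, hsm⟩ hc
  obtain ⟨K', -, -, hK'⟩ := h.fine K hK
  refine ⟨sq F c, (hK' c ⟨⟨K, hK, subset_rfl, hs⟩, hsm⟩).mono (subset_univ _), ?_⟩
  filter_upwards [hc] with n hn
  have := h.id n (c n)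
  rw [sbd_apply] at hn
  rw [hn, map_zero, add_zero] at this
  rw [Pi.sub_apply, sbd_apply, sq_apply, this, sub_self]
/-- a set that contracts inside itself is acyclic -/
theorem ac_of_contraction [T2Space X] {U : Set X} {H : ℝ → X → X} {y₀ : X} (hy : y₀ ∈ U)
    (hH : ContinuousOn (fun p : ℝ × X => H p.1 p.2) (Icc 0 1 ×ˢ U))
    (hm : ∀ t ∈ Icc (0:ℝ) 1, MapsTo (H t) U U) (h0 : ∀ x ∈ U, H 0 x = x) (h1 : ∀ x ∈ U, H 1 x = y₀) :
    Ac R U := by
  intro c hc hn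
  refine ⟨sq (fun _ => cnC R y₀) c - sq (prH R H) c, (fine_cnC hy c).sub (hc.prH hH hm), ?_⟩
  filter_upwards [hn, hc.supp] with n hn hs
  have := bd_cnC_sub_prH y₀ H n (c n)
  rw [sbd_apply] at hn
  rw [hn, map_zero, map_zero, sub_zero, add_zero, mp_congr (f := H 1) (g := fun _ => y₀) fun l hl x hx =>
    h1 x (hs l hl x hx), sub_self, zero_add, mp_congr (f := H 0) (g := id) fun l hl x hx =>
    h0 x (hs l hl x hx), mp_id] at this
  rw [Pi.sub_apply, sbd_apply, sub_eq_zero]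
  exact this.symm

end Crest.Agent.R224
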