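import Crest.Agent.R224.AGeo
import Crest.Agent.R224.AFine

/-! Carrier lemma: cycles on a set with few colours bound nearby. -/

set_option autoImplicit false
open Filter Topology Set
open scoped Pointwise

namespace Crest.Agent.R224

variable {Γ E : Type} [Group Γ] [TopologicalSpace E] [MulAction Γ E] {G : Gen Γ}

/-- Translated fillings with uniform support control.
Plan: `F g n = mp (g • ·) ∘ F₀ n ∘ mp (g⁻¹ • ·)` with `F₀` from `exists_fill`; `p.cpt`, `Fine.of_supp`, `p.fin`. -/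
theorem Geo.fill_ball (h : Geo Γ E) (p : Prj E G) :
    ∃ F : Γ → ℕ → Ch (ZMod 2) E →ₗ[ZMod 2] Ch (ZMod 2) E,
      (∀ g n c, bd (F g n c) + F g n (bd c) = c) ∧
      (∀ g k c, Len k c → Len (k + 1) (sq (F g) c)) ∧
      (∀ g c, Fine univ c → Fine univ (sq (F g) c)) ∧
      ∀ r : ℕ, ∃ r' : ℕ, ∀ g c, Fine univ c → Supp (p.π ⁻¹' G.ball g r) c →
        Supp (p.π ⁻¹' G.ball g r') (sq (F g) c) := by
  have := h.t2
  have := h.contr
  obtain ⟨F₀, hF⟩ := exists_fill (ZMod 2) E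
  have hsq : ∀ (g : Γ) (c : Sq (ZMod 2) E),
      sq (fun n => mp (fun x : E => g • x) ∘ₗ F₀ n ∘ₗ mp fun x : E => g⁻¹ • x) c =
      smp (fun x : E => g • x) (sq F₀ (smp (fun x : E => g⁻¹ • x) c)) := fun _ _ => rfl
  have hsm : ∀ (g : Γ) (c : Sq (ZMod 2) E), Fine univ c → Fine univ (smp (fun x : E => g • x) c) :=
    fun g c hc => hc.smp (h.cont g).continuousOn (mapsTo_univ _ _)
  refine ⟨fun g n => mp (fun x : E => g • x) ∘ₗ F₀ n ∘ₗ mp fun x : E => g⁻¹ • x, fun g n c => ?_,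
    fun g k c hc => ?_, fun g c hc => ?_, fun r => ?_⟩
  · simp only [LinearMap.comp_apply]
    rw [bd_mp, ← bd_mp, ← bd_mp (fun x : E => g⁻¹ • x), bd_mp, ← map_add, hF.id, mp_mp]
    convert mp_id c
    ext x
    simp
  · rw [hsq]
    exact (hF.len _ _ (hc.smp _)).smp _
  · rw [hsq]
    have h1 := hsm g⁻¹ c hc
    obtain ⟨K, hK, -, hKc⟩ := h1.1
    obtain ⟨K', -, -, h2⟩ := hF.fine K hK
    exact hsm g _ ((h2 _ (h1.of_supp hK.isClosed hKc)).mono (subset_univ _))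
  · obtain ⟨K, hK, hKr⟩ := p.cpt r
    obtain ⟨K', hK', -, h2⟩ := hF.fine K hK
    obtain ⟨r', hr'⟩ := ((p.fin K' hK').image G.len).bddAbove
    refine ⟨r', fun g c hc hs => ?_⟩
    rw [hsq]
    have h3 : Supp K (smp (fun x : E => g⁻¹ • x) c) := by
      refine hs.smp fun x hx => hKr ?_
      change G.D 1 (p.π (g⁻¹ • x)) ≤ r
      rw [p.π_smul, ← G.D_mul_left g, mul_one, mul_inv_cancel_left]
      exact hx
    refine (h2 _ ((hsm g⁻¹ c hc).of_supp hK.isClosed h3)).supp.smp fun x hx => ?_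
    change G.D g (p.π (g • x)) ≤ r'
    rw [p.π_smul, G.D_mul_right]
    exact hr' ⟨_, ⟨x, hx, rfl⟩, rfl⟩

end Crest.Agent.R224
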