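import Crest.Agent.R224.ACar0

/-! Algebra for the carrier lemma: oriented chains mod 2, the nerve map and the homotopy `T`. -/

set_option autoImplicit false
open Filter Topology Set
open scoped Pointwise

namespace Crest.Agent.R224

theorem lin_eq_of_support {ι M : Type} [AddCommGroup M] [Module (ZMod 2) M]
    {A B : (ι →₀ ZMod 2) →ₗ[ZMod 2] M} {c : ι →₀ ZMod 2}
    (h : ∀ l ∈ c.support, A (Finsupp.single l 1) = B (Finsupp.single l 1)) : A c = B c := by
  rw [← c.sum_single, Finsupp.sum, map_sum, map_sum]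
  refine Finset.sum_congr rfl fun l hl => ?_
  rw [← mul_one (c l), ← smul_eq_mul, ← Finsupp.smul_single, map_smul, map_smul, h l hl]

theorem add_self_z2 {M : Type} [AddCommGroup M] [Module (ZMod 2) M] (c : M) : c + c = 0 := by
  rw [← two_smul (ZMod 2) c, show (2 : ZMod 2) = 0 from rfl, zero_smul]

theorem eq_add_of_add_eq_z2 {M : Type} [AddCommGroup M] [Module (ZMod 2) M] {a b c : M}
    (h : a + b = c) : a = c + b := by
  rw [← h, add_assoc, add_self_z2, add_zero]

section
variable {L X : Type} [DecidableEq L]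

/-- oriented chains mod 2 -/
abbrev Oc (L : Type) : Type := Finset L →₀ ZMod 2

noncomputable def obd : Oc L →ₗ[ZMod 2] Oc L :=
  Finsupp.linearCombination _ fun σ => ∑ a ∈ σ, Finsupp.single (σ.erase a) 1

noncomputable def ocn (a : L) : Oc L →ₗ[ZMod 2] Oc L :=
  Finsupp.linearCombination _ fun σ => if a ∈ σ then 0 else Finsupp.single (insert a σ) 1

theorem obd_single (σ : Finset L) :
    obd (Finsupp.single σ 1) = ∑ a ∈ σ, Finsupp.single (σ.erase a) (1 : ZMod 2) := by
  simp [obd]

theorem ocn_single (a : L) (σ : Finset L) :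
    ocn a (Finsupp.single σ 1) = if a ∈ σ then 0 else Finsupp.single (insert a σ) (1 : ZMod 2) := by
  simp [ocn]

theorem obd_ocn (a : L) (c : Oc L) : obd (ocn a c) + ocn a (obd c) = c := by
  refine lin_eq_of_support (A := obd ∘ₗ ocn a + ocn a ∘ₗ obd) (B := LinearMap.id) fun σ _ => ?_
  simp only [LinearMap.add_apply, LinearMap.comp_apply, LinearMap.id_apply, obd_single, ocn_single,
    map_sum]
  by_cases ha : a ∈ σ
  · rw [if_pos ha, map_zero, zero_add, Finset.sum_eq_single a]
    · rw [if_neg (Finset.notMem_erase _ _), Finset.insert_erase ha]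
    · intro b _ hb
      exact if_pos (Finset.mem_erase.2 ⟨hb.symm, ha⟩)
    · exact fun h => absurd ha h
  · rw [if_neg ha, obd_single, Finset.sum_insert ha, Finset.erase_insert ha, add_assoc,
      ← Finset.sum_add_distrib, Finset.sum_eq_zero, add_zero]
    intro b hb
    have hab : a ≠ b := fun h => ha (h ▸ hb)
    rw [if_neg fun h => ha (Finset.mem_of_mem_erase h), Finset.erase_insert_of_ne hab, add_self_z2]

theorem obd_obd (c : Oc L) : obd (obd c) = 0 := by
  suffices h : ∀ σ : Finset L, obd (obd (Finsupp.single σ 1 : Oc L)) = 0 by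
    have := lin_eq_of_support (A := obd ∘ₗ obd) (B := 0) (c := c) fun σ _ => by
      rw [LinearMap.comp_apply, LinearMap.zero_apply, h]
    rwa [LinearMap.comp_apply, LinearMap.zero_apply] at this
  intro σ
  induction σ using Finset.induction_on with
  | empty => simp [obd_single]
  | insert a σ ha ih =>
    have h1 : (Finsupp.single (insert a σ) 1 : Oc L) = ocn a (Finsupp.single σ 1) := by
      rw [ocn_single, if_neg ha]
    rw [h1, eq_add_of_add_eq_z2 (obd_ocn a _), map_add, eq_add_of_add_eq_z2 (obd_ocn a _), ih,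
      map_zero, add_zero, add_self_z2]

/-- nerve map of a list -/
noncomputable def thL (lab : X → L) : List X → Oc L
  | [] => Finsupp.single ∅ 1
  | x :: l => ocn (lab x) (thL lab l)

/-- nerve map -/
noncomputable def th (lab : X → L) : Ch (ZMod 2) X →ₗ[ZMod 2] Oc L :=
  Finsupp.linearCombination _ (thL lab)

theorem th_single (lab : X → L) (l : List X) : th lab (Finsupp.single l 1) = thL lab l := by
  simp [th]

theorem th_cn (lab : X → L) (x : X) (c : Ch (ZMod 2) X) :
    th lab (cn x c) = ocn (lab x) (th lab c) := by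
  refine lin_eq_of_support (A := th lab ∘ₗ cn x) (B := ocn (lab x) ∘ₗ th lab) fun l _ => ?_
  simp only [LinearMap.comp_apply, cn_single, th_single, thL]

theorem obd_th (lab : X → L) (c : Ch (ZMod 2) X) : obd (th lab c) = th lab (bd c) := by
  refine lin_eq_of_support (A := obd ∘ₗ th lab) (B := th lab ∘ₗ bd) fun l h => ?_
  clear h
  simp only [LinearMap.comp_apply, th_single, bd_single, one_smul]
  induction l with
  | nil => simp [thL, bdL, obd_single]
  | cons x l ih =>
    rw [thL, bdL, map_sub, th_cn, th_single, ← ih, eq_sub_iff_add_eq, obd_ocn]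

theorem mem_support_thL (lab : X → L) {l : List X} {σ : Finset L} (h : σ ∈ (thL lab l).support) :
    σ.card = l.length ∧ ∀ a ∈ σ, ∃ x ∈ l, lab x = a := by
  induction l generalizing σ with
  | nil =>
    have := Finsupp.support_single_subset h
    rw [Finset.mem_singleton] at this
    subst this
    simp
  | cons x l ih =>
    rw [thL, ocn, Finsupp.linearCombination_apply, Finsupp.sum] at h
    obtain ⟨τ, hτ, h⟩ := Finsupp.mem_support_finsetSum _ h
    have h := Finsupp.support_smul h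
    split_ifs at h with ha
    · simp at h
    · have := Finsupp.support_single_subset h
      rw [Finset.mem_singleton] at this
      subst this
      obtain ⟨h1, h2⟩ := ih hτ
      refine ⟨by rw [Finset.card_insert_of_notMem ha, h1, List.length_cons], fun a haa => ?_⟩
      rcases Finset.mem_insert.1 haa with rfl | haa
      · exact ⟨x, List.mem_cons_self, rfl⟩
      · obtain ⟨y, hy, rfl⟩ := h2 a haa
        exact ⟨y, List.mem_cons_of_mem _ hy, rfl⟩

theorem mem_support_th (lab : X → L) {c : Ch (ZMod 2) X} {σ : Finset L} (h : σ ∈ (th lab c).support) :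
    ∃ l ∈ c.support, σ.card = l.length ∧ ∀ a ∈ σ, ∃ x ∈ l, lab x = a := by
  rw [th, Finsupp.linearCombination_apply, Finsupp.sum] at h
  obtain ⟨l, hl, h⟩ := Finsupp.mem_support_finsetSum _ h
  exact ⟨l, hl, mem_support_thL lab (Finsupp.support_smul h)⟩

/-- realisation of a simplex of the nerve -/
noncomputable def kapS (Φ : Finset L → Ch (ZMod 2) X →ₗ[ZMod 2] Ch (ZMod 2) X) (σ : Finset L) :
    Ch (ZMod 2) X :=
  if σ = ∅ then Finsupp.single [] 1 else Φ σ (∑ a ∈ σ.attach, kapS Φ (σ.erase a.1))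
termination_by σ.card
decreasing_by exact Finset.card_erase_lt_of_mem a.2

theorem kapS_empty (Φ : Finset L → Ch (ZMod 2) X →ₗ[ZMod 2] Ch (ZMod 2) X) :
    kapS Φ ∅ = Finsupp.single [] 1 := by
  rw [kapS, if_pos rfl]

theorem kapS_ne (Φ : Finset L → Ch (ZMod 2) X →ₗ[ZMod 2] Ch (ZMod 2) X) {σ : Finset L}
    (h : σ ≠ ∅) : kapS Φ σ = Φ σ (∑ a ∈ σ, kapS Φ (σ.erase a)) := by
  rw [kapS, if_neg h, Finset.sum_attach σ fun a => kapS Φ (σ.erase a)]

noncomputable def kap (Φ : Finset L → Ch (ZMod 2) X →ₗ[ZMod 2] Ch (ZMod 2) X) :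
    Oc L →ₗ[ZMod 2] Ch (ZMod 2) X := Finsupp.linearCombination _ (kapS Φ)

theorem kap_single (Φ : Finset L → Ch (ZMod 2) X →ₗ[ZMod 2] Ch (ZMod 2) X) (σ : Finset L) :
    kap Φ (Finsupp.single σ 1) = kapS Φ σ := by
  simp [kap]

theorem bd_kap {Φ : Finset L → Ch (ZMod 2) X →ₗ[ZMod 2] Ch (ZMod 2) X}
    (hΦ : ∀ σ c, bd (Φ σ c) + Φ σ (bd c) = c) (c : Oc L) : bd (kap Φ c) = kap Φ (obd c) := by
  refine lin_eq_of_support (A := bd ∘ₗ kap Φ) (B := kap Φ ∘ₗ obd) fun σ h => ?_
  clear h
  simp only [LinearMap.comp_apply, kap_single]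
  induction σ using Finset.strongInduction with
  | H σ ih =>
    by_cases h : σ = ∅
    · subst h
      simp [kapS_empty, obd_single, bdL]
    · have h1 : kap Φ (obd (Finsupp.single σ 1)) = ∑ a ∈ σ, kapS Φ (σ.erase a) := by
        simp only [obd_single, map_sum, kap_single]
      have h2 : bd (∑ a ∈ σ, kapS Φ (σ.erase a)) = 0 := by
        rw [map_sum, Finset.sum_congr rfl fun a ha => ih _ (Finset.erase_ssubset ha), ← map_sum,
          ← map_sum, ← obd_single, obd_obd, map_zero]
      rw [h1, kapS_ne Φ h, eq_add_of_add_eq_z2 (hΦ σ _), h2, map_zero, add_zero]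

/-- the homotopy on lists of length `k` -/
noncomputable def TT (Ψ : List X → Ch (ZMod 2) X →ₗ[ZMod 2] Ch (ZMod 2) X)
    (K : Ch (ZMod 2) X →ₗ[ZMod 2] Ch (ZMod 2) X) : ℕ → Ch (ZMod 2) X →ₗ[ZMod 2] Ch (ZMod 2) X
  | 0 => 0
  | k + 1 => Finsupp.linearCombination _ fun l =>
      Ψ l (Finsupp.single l 1 + K (Finsupp.single l 1) + TT Ψ K k (bdL l))

theorem TT_succ {Ψ : List X → Ch (ZMod 2) X →ₗ[ZMod 2] Ch (ZMod 2) X}
    (K : Ch (ZMod 2) X →ₗ[ZMod 2] Ch (ZMod 2) X) (k : ℕ) {c : Ch (ZMod 2) X}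
    {Ψ₀ : Ch (ZMod 2) X →ₗ[ZMod 2] Ch (ZMod 2) X} (h : ∀ l ∈ c.support, Ψ l = Ψ₀) :
    TT Ψ K (k + 1) c = Ψ₀ (c + K c + TT Ψ K k (bd c)) := by
  refine lin_eq_of_support (A := TT Ψ K (k + 1))
    (B := Ψ₀ ∘ₗ (LinearMap.id + K + TT Ψ K k ∘ₗ bd)) fun l hl => ?_
  simp only [TT, Finsupp.linearCombination_single, one_smul, h l hl, LinearMap.comp_apply,
    LinearMap.add_apply, LinearMap.id_apply, bd_single]

theorem bd_TT {Ψ : List X → Ch (ZMod 2) X →ₗ[ZMod 2] Ch (ZMod 2) X}
    {K : Ch (ZMod 2) X →ₗ[ZMod 2] Ch (ZMod 2) X} (hΨ : ∀ l c, bd (Ψ l c) + Ψ l (bd c) = c)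
    (hK : ∀ c, bd (K c) = K (bd c)) (hK0 : K (Finsupp.single [] 1) = Finsupp.single [] 1) (k : ℕ)
    {c : Ch (ZMod 2) X} (hc : ∀ l ∈ c.support, l.length = k) :
    bd (TT Ψ K k c) + TT Ψ K (k - 1) (bd c) = c + K c := by
  induction k generalizing c with
  | zero =>
    have : (0 : Ch (ZMod 2) X →ₗ[ZMod 2] Ch (ZMod 2) X) c = (LinearMap.id + K :) c := by
      refine lin_eq_of_support fun l hl => ?_
      obtain rfl := List.length_eq_zero_iff.1 (hc l hl)
      simp only [LinearMap.add_apply, LinearMap.zero_apply, LinearMap.id_apply, hK0, add_self_z2]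
    simpa [TT] using this
  | succ k ih =>
    refine lin_eq_of_support (A := bd ∘ₗ TT Ψ K (k + 1) + TT Ψ K k ∘ₗ bd) (B := LinearMap.id + K)
      fun l hl => ?_
    simp only [LinearMap.add_apply, LinearMap.comp_apply, LinearMap.id_apply]
    have h1 : ∀ l' ∈ (bd (Finsupp.single l 1 : Ch (ZMod 2) X)).support, l'.length = k := by
      intro l' hl'
      obtain ⟨l'', h, -, h'⟩ := mem_support_bd hl'
      have := Finsupp.support_single_subset h
      rw [Finset.mem_singleton] at this
      subst this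
      have := hc _ hl
      omega
    have h2 := ih h1
    rw [bd_bd, map_zero, add_zero] at h2
    rw [TT_succ K k (Ψ₀ := Ψ l) fun l' hl' => by
      rw [Finset.mem_singleton.1 (Finsupp.support_single_subset hl')],
      eq_add_of_add_eq_z2 (hΨ l _), map_add bd, map_add bd, h2, hK, add_self_z2, map_zero, add_zero,
      add_assoc, add_self_z2, add_zero]

theorem eq_sum_filter {ι : Type} [DecidableEq ι] (φ : List X → ι) (B : Finset ι) {c : Ch (ZMod 2) X}
    (h : ∀ l ∈ c.support, φ l ∈ B) : c = ∑ b ∈ B, c.filter fun l => φ l = b := by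
  ext l
  simp only [Finsupp.finsetSum_apply, Finsupp.filter_apply, Finset.sum_ite_eq]
  split_ifs with hl
  · rfl
  · by_contra h0
    exact hl (h l (Finsupp.mem_support_iff.2 h0))

end

section
variable {X : Type} [TopologicalSpace X]

/-- fine and supported in `U` -/
def Good (U : Set X) (c : Sq (ZMod 2) X) : Prop := Fine univ c ∧ Supp U c

theorem Good.congr {U : Set X} {c d : Sq (ZMod 2) X} (h : Good U c) (e : ∀ᶠ n in atTop, d n = c n) :
    Good U d := by
  refine ⟨h.1.of_support (e.mono fun n hn => by rw [hn]), ?_⟩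
  filter_upwards [h.2, e] with n hn hn'
  rwa [hn']

theorem Good.mono {U V : Set X} {c : Sq (ZMod 2) X} (h : Good U c) (e : U ⊆ V) : Good V c :=
  ⟨h.1, h.2.mono e⟩

theorem Good.add {U : Set X} {c d : Sq (ZMod 2) X} (h : Good U c) (h' : Good U d) : Good U (c + d) :=
  ⟨h.1.add h'.1, h.2.add h'.2⟩

theorem Good.smul {U : Set X} {c : Sq (ZMod 2) X} (h : Good U c) (a : ℕ → ZMod 2) : Good U (a • c) :=
  ⟨h.1.smul a, h.2.smul a⟩

theorem Good.sbd {U : Set X} {c : Sq (ZMod 2) X} (h : Good U c) : Good U (sbd c) :=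
  ⟨h.1.sbd, h.2.sbd⟩

theorem Good.sum {ι : Type} {U : Set X} (s : Finset ι) {c : ι → Sq (ZMod 2) X}
    (h : ∀ i ∈ s, Good U (c i)) : Good U (∑ i ∈ s, c i) :=
  ⟨Fine.sum s fun i hi => (h i hi).1, Supp.sum s fun i hi => (h i hi).2⟩

theorem Good.filter {U : Set X} {c : Sq (ZMod 2) X} (h : Good U c) (P : List X → Prop)
    [DecidablePred P] : Good U fun n => (c n).filter P := by
  have h1 : ∀ n, ((c n).filter P).support ⊆ (c n).support := fun n => by
    rw [Finsupp.support_filter]; exact Finset.filter_subset _ _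
  refine ⟨h.1.of_support (Eventually.of_forall h1), ?_⟩
  filter_upwards [h.2] with n hn l hl using hn l (h1 n hl)

theorem good_zero (U : Set X) : Good U (0 : Sq (ZMod 2) X) :=
  ⟨fine_zero _, Eventually.of_forall fun n l hl => by simp at hl⟩

end

end Crest.Agent.R224
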