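import Crest.Agent.R224.ACo0

/-! Cochains that vanish locally near a compact set; the Poincaré lemma. -/

set_option autoImplicit false
open Filter Topology Set
open scoped Pointwise

namespace Crest.Agent.R224

section
variable {X : Type}

theorem aco_ev_cons (φ : List X → ZMod 2) (x : X) (l : List X) (a : ZMod 2) :
    ev φ (Finsupp.single (x :: l) a) = a * φ (x :: l) := by
  simp [ev]

theorem aco_ev_nil (φ : List X → ZMod 2) (a : ZMod 2) : ev φ (Finsupp.single [] a) = 0 := by
  simp [ev]

theorem aco_ev_comp (φ : List X → ZMod 2) (F : Ch (ZMod 2) X →ₗ[ZMod 2] Ch (ZMod 2) X)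
    (c : Ch (ZMod 2) X) : ev φ (F c) =
      ev (fun l => ev φ (F (Finsupp.single l 1))) c + c [] * ev φ (F (Finsupp.single [] 1)) := by
  induction c using Finsupp.induction_linear with
  | zero => simp
  | add c d hc hd => simp only [map_add, hc, hd, Finsupp.add_apply]; ring
  | single l a =>
    have e : (Finsupp.single l a : Ch (ZMod 2) X) = a • Finsupp.single l 1 := by simp
    cases l with
    | nil => rw [aco_ev_nil, Finsupp.single_eq_same, e, map_smul, map_smul, smul_eq_mul, zero_add]
    | cons x l =>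
      rw [aco_ev_cons, Finsupp.single_eq_of_ne (by simp), zero_mul, add_zero, e, map_smul, map_smul,
        smul_eq_mul]

theorem aco_bdL_nil (x : X) (l : List X) : (bdL (x :: l) : Ch (ZMod 2) X) [] = eps (x :: l) := by
  have h : (cn x (bdL l) : Ch (ZMod 2) X) [] = 0 := by
    by_contra h
    obtain ⟨l', -, h'⟩ := mem_support_cn (Finsupp.mem_support_iff.2 h)
    cases h'
  rw [bdL, Finsupp.sub_apply, h, sub_zero]
  cases l with
  | nil => simp [eps]
  | cons y l => rw [Finsupp.single_eq_of_ne (by simp)]; simp [eps]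

end

variable {X : Type} [TopologicalSpace X]
variable [T2Space X] [LocallyCompactSpace X]

/-- Poincaré lemma.  Plan: `W, O` from the hypothesis; `C'` = closed `ε`-thickening of `K` (compact, convex) with `j '' C' ⊆ O`;
`H t y = j ((1-t) • j⁻¹ y + t • x₀)`; with `homotopy_small` choose one `m` and `F = cn y₀ ∘ mp (const y₀) - prH H m`; for lists in
`j '' C'`, `l = ∂ F l + F ∂ l` (`mp_congr`), and for small lists the lists in `F l` are `W`-small with head in `O`.
`ψ n l = ev (φ n) (F l)`, `a n = φ n [y₀]` (`F [] = [y₀]`). -/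
theorem poincare {n : ℕ} {j : (Fin n → ℝ) → X} (hj : IsOpenEmbedding j) {K : Set (Fin n → ℝ)}
    (hK : IsCompact K) (hc : Convex ℝ K) (hne : K.Nonempty) {φ : Co X} (h : LocZ (j '' K) (scob φ)) :
    ∃ (ψ : Co X) (a : ℕ → ZMod 2), LocZ (j '' K) (φ + scob ψ + fun n => a n • eps) := by
  classical
  obtain ⟨W, hW, O, hO, hφ⟩ := h
  obtain ⟨x₀, hx₀⟩ := hne
  have hKO : K ⊆ j ⁻¹' interior O := fun x hx =>
    subset_interior_iff_mem_nhdsSet.2 hO ⟨x, hx, rfl⟩
  obtain ⟨ε, hε, hεO⟩ := hK.exists_cthickening_subset_open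
    (isOpen_interior.preimage hj.continuous) hKO
  have hC : IsCompact (Metric.cthickening ε K) := hK.cthickening
  have hCc : Convex ℝ (Metric.cthickening ε K) := hc.cthickening ε
  set A := j '' Metric.cthickening ε K with hA
  have hAc : IsCompact A := hC.image hj.continuous
  have hAO : A ⊆ O := by
    rintro _ ⟨x, hx, rfl⟩
    exact interior_subset (hεO hx)
  let e := hj.toOpenPartialHomeomorph j
  have he : ∀ x, e.symm (j x) = x := fun x => hj.toOpenPartialHomeomorph_left_inv
  have hec : ContinuousOn e.symm A := e.continuousOn_symm.mono (by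
    rintro _ ⟨x, -, rfl⟩
    simp [e])
  let H : ℝ → X → X := fun t y => j ((1 - t) • e.symm y + t • x₀)
  have hH : ContinuousOn (fun p : ℝ × X => H p.1 p.2) (Icc 0 1 ×ˢ A) := by
    have h2 : ContinuousOn (fun p : ℝ × X => e.symm p.2) (Icc 0 1 ×ˢ A) :=
      hec.comp continuous_snd.continuousOn fun p hp => hp.2
    have h3 : Continuous fun p : ℝ × X => (1 - p.1) := by fun_prop
    have h4 : Continuous fun p : ℝ × X => p.1 • x₀ := by fun_prop
    exact hj.continuous.comp_continuousOn ((h3.continuousOn.smul h2).add h4.continuousOn)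
  have hx₀C : x₀ ∈ Metric.cthickening ε K := Metric.self_subset_cthickening _ hx₀
  have hm : ∀ t ∈ Icc (0:ℝ) 1, ∀ y ∈ A, H t y ∈ A := by
    rintro t ht _ ⟨x, hx, rfl⟩
    refine ⟨_, ?_, rfl⟩
    rw [he]
    exact hCc hx hx₀C (by linarith [ht.2]) ht.1 (by ring)
  have h0 : ∀ y ∈ A, H 0 y = y := by
    rintro _ ⟨x, hx, rfl⟩
    simp [H, he]
  have h1 : H 1 = fun _ => j x₀ := funext fun y => by simp [H]
  obtain ⟨W', hW', δ, hδ, hW2⟩ := homotopy_small hAc hH hW
  obtain ⟨m, hm'⟩ := exists_nat_one_div_lt hδ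
  let F : Ch (ZMod 2) X →ₗ[ZMod 2] Ch (ZMod 2) X := cnC (ZMod 2) (j x₀) - prH (ZMod 2) H m
  have hFnil : F (Finsupp.single [] 1) = Finsupp.single [j x₀] 1 := by
    have e1 : prH (ZMod 2) H m (Finsupp.single [] 1) = 0 := by
      by_contra hne
      obtain ⟨l, hl⟩ := Finsupp.support_nonempty_iff.2 hne
      obtain ⟨l', k1, -, k2, -⟩ := mem_support_prH hl
      exact k2 (Finset.mem_singleton.1 (Finsupp.support_single_subset k1))
    simp only [F, LinearMap.sub_apply, e1, sub_zero, cnC, LinearMap.comp_apply, mp_single,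
      List.map_nil, cn_single]
  have hA₁ : IsCompact (j '' Metric.cthickening (ε / 2) K) := hK.cthickening.image hj.continuous
  have hU : IsOpen (j '' Metric.thickening ε K) := hj.isOpenMap _ Metric.isOpen_thickening
  have hW3 : (j '' Metric.thickening ε K) ×ˢ (j '' Metric.thickening ε K) ∪
      (j '' Metric.cthickening (ε / 2) K)ᶜ ×ˢ univ ∈ 𝓝ˢ (diagonal X) := by
    refine ((hU.prod hU).union (hA₁.isClosed.isOpen_compl.prod isOpen_univ)).mem_nhdsSet.2 ?_
    rintro ⟨x, y⟩ hxy
    obtain rfl : x = y := hxy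
    by_cases hx : x ∈ j '' Metric.cthickening (ε / 2) K
    · have := image_mono (Metric.cthickening_subset_thickening' hε (half_lt_self hε) K) hx
      exact Or.inl ⟨this, this⟩
    · exact Or.inr ⟨hx, trivial⟩
  have hO' : j '' Metric.cthickening (ε / 2) K ∈ 𝓝ˢ (j '' K) :=
    mem_of_superset ((hj.isOpenMap _ Metric.isOpen_thickening).mem_nhdsSet.2
      (image_mono (Metric.self_subset_thickening (half_pos hε) K)))
      (image_mono (Metric.thickening_subset_cthickening _ _))
  refine ⟨fun n l => ev (φ n) (F (Finsupp.single l 1)), fun n => φ n [j x₀], _,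
    inter_mem hW' hW3, _, hO', ?_⟩
  filter_upwards [hφ] with n hn x l hx hs
  have hlA : ∀ y ∈ x :: l, y ∈ A := fun y hy => by
    rcases (hs x List.mem_cons_self y hy).2 with h | h
    · exact image_mono (Metric.thickening_subset_cthickening _ _) h.2
    · exact absurd hx h.1
  have hid : bd (F (Finsupp.single (x :: l) 1)) + F (bd (Finsupp.single (x :: l) 1)) =
      Finsupp.single (x :: l) 1 := by
    simp only [F, LinearMap.sub_apply]
    rw [bd_cnC_sub_prH, h1, sub_self, zero_add, mp_congr (g := id), mp_id]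
    intro l' hl' y hy
    rw [Finset.mem_singleton.1 (Finsupp.support_single_subset hl')] at hy
    exact h0 y (hlA y hy)
  have hz : ev (cob (φ n)) (F (Finsupp.single (x :: l) 1)) = 0 := by
    refine ev_eq_zero fun y l' hl' => ?_
    rcases Finset.mem_union.1 (Finsupp.support_sub hl') with h | h
    · obtain ⟨_, -, -, h⟩ := mem_support_cnC h
      refine hn y l' ?_ fun a ha b hb => ?_
      · rw [h y List.mem_cons_self]; exact hAO ⟨x₀, hx₀C, rfl⟩
      · rw [h a ha, h b hb]; exact subset_of_mem_nhdsSet hW rfl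
    · obtain ⟨l₀, k1, -, -, s, hs', t, ht, hst, k4⟩ := mem_support_prH h
      rw [Finset.mem_singleton.1 (Finsupp.support_single_subset k1)] at k4
      have hst' : |s - t| ≤ δ := hst.trans hm'.le
      refine hn y l' ?_ fun a ha b hb => ?_
      · obtain ⟨z, hz, rfl | rfl⟩ := k4 y List.mem_cons_self
        · exact hAO (hm s hs' z (hlA z hz))
        · exact hAO (hm t ht z (hlA z hz))
      · obtain ⟨z, hz, ha'⟩ := k4 a ha
        obtain ⟨z', hz', hb'⟩ := k4 b hb
        have k1 := hlA z hz
        have k2 := hlA z' hz'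
        have k3 := (hs z hz z' hz').1
        rcases ha' with rfl | rfl <;> rcases hb' with rfl | rfl
        · exact hW2 s hs' s hs' (by simpa using hδ.le) z k1 z' k2 k3
        · exact hW2 s hs' t ht hst' z k1 z' k2 k3
        · exact hW2 t ht s hs' (by rwa [abs_sub_comm]) z k1 z' k2 k3
        · exact hW2 t ht t ht (by simpa using hδ.le) z k1 z' k2 k3
  have key := congrArg (ev (φ n)) hid
  rw [map_add, ← ev_cob, hz, zero_add, aco_ev_cons, one_mul, aco_ev_comp, hFnil, aco_ev_cons,
    one_mul, bd_single, one_smul, aco_bdL_nil] at key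
  show φ n (x :: l) + ev (fun l => ev (φ n) (F (Finsupp.single l 1))) (bdL (x :: l)) +
    φ n [j x₀] * eps (x :: l) = 0
  rw [add_assoc, mul_comm, key]
  exact CharTwo.add_self_eq_zero _

end Crest.Agent.R224
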