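import Crest.Agent.R224.AFine

/-! Cochains that vanish locally near a compact set; the Poincaré lemma. -/

set_option autoImplicit false
set_option linter.unusedSectionVars false
open Filter Topology Set
open scoped Pointwise

namespace Crest.Agent.R224

variable {X : Type} [TopologicalSpace X]

theorem Small.mono {W W' : Set (X × X)} {l l' : List X} (h : Small W l) (hW : W ⊆ W')
    (hl : l' ⊆ l) : Small W' l' :=
  fun x hx y hy => hW (h x (hl hx) y (hl hy))

theorem LocZ.mono {K L : Set X} {φ : Co X} (h : LocZ L φ) (hKL : K ⊆ L) : LocZ K φ := by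
  obtain ⟨W, hW, O, hO, H⟩ := h
  exact ⟨W, hW, O, nhdsSet_mono hKL hO, H⟩
theorem locZ_zero (K : Set X) : LocZ K (0 : Co X) := by
  exact ⟨univ, univ_mem, univ, univ_mem, Eventually.of_forall fun _ _ _ _ _ => rfl⟩
theorem locZ_empty (φ : Co X) : LocZ (∅ : Set X) φ := by
  exact ⟨univ, univ_mem, ∅, by simp, Eventually.of_forall fun _ _ _ h => h.elim⟩
theorem LocZ.add {K : Set X} {φ ψ : Co X} (h : LocZ K φ) (h' : LocZ K ψ) : LocZ K (φ + ψ) := by
  obtain ⟨W, hW, O, hO, H⟩ := h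
  obtain ⟨W', hW', O', hO', H'⟩ := h'
  refine ⟨W ∩ W', inter_mem hW hW', O ∩ O', inter_mem hO hO', ?_⟩
  filter_upwards [H, H'] with n h1 h2 x l hx hl
  rw [Pi.add_apply, Pi.add_apply, h1 x l hx.1 (hl.mono inter_subset_left (List.Subset.refl _)),
    h2 x l hx.2 (hl.mono inter_subset_right (List.Subset.refl _)), add_zero]
theorem LocZ.union {K L : Set X} {φ : Co X} (h : LocZ K φ) (h' : LocZ L φ) : LocZ (K ∪ L) φ := by
  obtain ⟨W, hW, O, hO, H⟩ := h
  obtain ⟨W', hW', O', hO', H'⟩ := h'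
  refine ⟨W ∩ W', inter_mem hW hW', O ∪ O', union_mem_nhdsSet hO hO', ?_⟩
  filter_upwards [H, H'] with n h1 h2 x l hx hl
  rcases hx with hx | hx
  · exact h1 x l hx (hl.mono inter_subset_left (List.Subset.refl _))
  · exact h2 x l hx (hl.mono inter_subset_right (List.Subset.refl _))
theorem LocZ.exists_nhds {K : Set X} {φ : Co X} (h : LocZ K φ) : ∃ O ∈ 𝓝ˢ K, LocZ O φ := by
  obtain ⟨W, hW, O, hO, H⟩ := h
  exact ⟨interior O, isOpen_interior.mem_nhdsSet.2 (subset_interior_iff_mem_nhdsSet.2 hO),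
    W, hW, O, subset_interior_iff_mem_nhdsSet.1 Subset.rfl, H⟩
theorem locZ_smul_of_eventually (K : Set X) {a : ℕ → ZMod 2} (ha : ∀ᶠ n in atTop, a n = 0)
    (φ : List X → ZMod 2) : LocZ K fun n => a n • φ := by
  refine ⟨univ, univ_mem, univ, univ_mem, ?_⟩
  filter_upwards [ha] with n h1 x l _ _
  simp [h1]
variable [T2Space X] [LocallyCompactSpace X]
theorem exists_shrink {K O : Set X} (hK : IsCompact K) (hO : O ∈ 𝓝ˢ K) :
    ∃ O' ∈ 𝓝ˢ K, ∃ W ∈ 𝓝ˢ (diagonal X), ∀ x y, (x, y) ∈ W → x ∈ O' → y ∈ O := by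
  obtain ⟨O', hO', hi, hO'O⟩ := exists_compact_between hK isOpen_interior
    (subset_interior_iff_mem_nhdsSet.2 hO)
  refine ⟨O', subset_interior_iff_mem_nhdsSet.1 hi,
    O'ᶜ ×ˢ (univ : Set X) ∪ (univ : Set X) ×ˢ interior O, ?_, ?_⟩
  · refine mem_nhds_diag ((hO'.isClosed.isOpen_compl.prod isOpen_univ).union
      (isOpen_univ.prod isOpen_interior)) fun x => ?_
    by_cases hx : x ∈ O'
    · exact Or.inr ⟨trivial, hO'O hx⟩
    · exact Or.inl ⟨hx, trivial⟩
  · rintro x y (h | h) hx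
    · exact absurd hx h.1
    · exact interior_subset h.2

/-- shrink `O` to a compact neighbourhood `O'` of `K` inside `interior O` and intersect `W` with
`interior O ×ˢ interior O ∪ O'ᶜ ×ˢ univ` -/
theorem LocZ.scob {K : Set X} (hK : IsCompact K) {φ : Co X} (h : LocZ K φ) : LocZ K (scob φ) := by
  obtain ⟨W, hW, O, hO, H⟩ := h
  obtain ⟨O', hO', W', hW', H'⟩ := exists_shrink hK hO
  refine ⟨W ∩ W', inter_mem hW hW', O', hO', ?_⟩
  filter_upwards [H] with n h1 x l hx hl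
  refine ev_eq_zero fun y l' hl' => ?_
  have e : (bdL (x :: l) : Ch (ZMod 2) X) = bd (Finsupp.single (x :: l) 1) := by simp
  rw [e] at hl'
  obtain ⟨l₁, h2, h3, -⟩ := mem_support_bd hl'
  rw [Finset.mem_singleton.1 (Finsupp.support_single_subset h2)] at h3
  exact h1 y l' (H' x y (hl x List.mem_cons_self y (h3.subset List.mem_cons_self)).2 hx)
    (hl.mono inter_subset_left h3.subset)
/-- Plan: `K \ O` and `L \ O` (`O` open) are disjoint compact sets; separate: there is an open `A ⊇ K \ O`... precisely,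
choose disjoint open `A ⊇ K \ O`, `A' ⊇ L \ O`; `φ₁ = φ · 1[head ∉ A]` is locally zero near `K ⊆ A ∪ O`,
`φ₂ = φ · 1[head ∈ A]` is locally zero near `L ⊆ A' ∪ O`. -/
theorem LocZ.split {K L : Set X} (hK : IsCompact K) (hL : IsCompact L) {φ : Co X}
    (h : LocZ (K ∩ L) φ) : ∃ φ₁ φ₂, LocZ K φ₁ ∧ LocZ L φ₂ ∧ φ = φ₁ + φ₂ := by
  classical
  obtain ⟨W, hW, O, hO, H⟩ := h
  have hO' := subset_interior_iff_mem_nhdsSet.2 hO
  obtain ⟨A, A', hA, hA', hKA, hLA, hd⟩ := SeparatedNhds.of_isCompact_isCompact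
    (hK.diff (isOpen_interior (s := O))) (hL.diff (isOpen_interior (s := O)))
    (Set.disjoint_left.2 fun x hx hx' => hx.2 (hO' ⟨hx.1, hx'.1⟩))
  refine ⟨fun n l => if ∃ x ∈ l.head?, x ∈ A then 0 else φ n l,
    fun n l => if ∃ x ∈ l.head?, x ∈ A then φ n l else 0, ?_, ?_, ?_⟩
  · refine ⟨W, hW, A ∪ interior O, (hA.union isOpen_interior).mem_nhdsSet.2 fun x hx => ?_, ?_⟩
    · by_cases h : x ∈ interior O
      exacts [Or.inr h, Or.inl (hKA ⟨hx, h⟩)]
    · filter_upwards [H] with n h1 x l hx hl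
      split_ifs with h2
      · rfl
      · refine h1 x l (interior_subset (hx.resolve_left fun h3 => h2 ⟨x, rfl, h3⟩)) hl
  · refine ⟨W, hW, A' ∪ interior O, (hA'.union isOpen_interior).mem_nhdsSet.2 fun x hx => ?_, ?_⟩
    · by_cases h : x ∈ interior O
      exacts [Or.inr h, Or.inl (hLA ⟨hx, h⟩)]
    · filter_upwards [H] with n h1 x l hx hl
      split_ifs with h2
      · obtain ⟨y, hy, hyA⟩ := h2
        obtain rfl : x = y := by simpa using hy
        exact h1 x l (interior_subset (hx.resolve_left fun h3 =>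
          Set.disjoint_left.1 hd hyA h3)) hl
      · rfl
  · funext n l
    simp only [Pi.add_apply]
    split_ifs <;> simp
theorem LocZ.ev {K : Set X} {φ : Co X} (h : LocZ K φ) {c : Sq (ZMod 2) X} (hc : Fine K c) :
    ∀ᶠ n in atTop, ev (φ n) (c n) = 0 := by
  obtain ⟨W, hW, O, hO, H⟩ := h
  filter_upwards [H, hc.supp, hc.2 W hW] with n h1 h2 h3
  exact ev_eq_zero fun x l hl =>
    h1 x l (subset_of_mem_nhdsSet hO (h2 _ hl x List.mem_cons_self)) (h3 _ hl)
theorem Fine.scap {U : Set X} {c : Sq (ZMod 2) X} (hc : Fine U c) (φ : Co X) : Fine U (scap φ c) := by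
  refine hc.of_subset (Eventually.of_forall fun n l hl => ?_)
  obtain ⟨l₁, x, l₂, h1, rfl, -⟩ := mem_support_cap hl
  exact Or.inr ⟨_, h1, List.subset_append_right _ _⟩
theorem LocZ.scap {K : Set X} (hK : IsCompact K) {φ : Co X} (h : LocZ K φ) {c : Sq (ZMod 2) X}
    (hc : Fine univ c) : Fine Kᶜ (scap φ c) := by
  obtain ⟨W, hW, O, hO, H⟩ := h
  obtain ⟨O', hO', W', hW', H'⟩ := exists_shrink hK hO
  refine (hc.scap φ).compl_of_supp hO' ?_
  filter_upwards [H, hc.2 _ (inter_mem hW hW')] with n h1 h2 l hl z hz hzO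
  obtain ⟨l₁, x, l₂, h3, rfl, h4⟩ := mem_support_cap hl
  have h5 := h2 _ h3
  have h6 : l₁ ++ [x] ⊆ l₁ ++ x :: l₂ := by
    intro a ha
    simp only [List.mem_append, List.mem_cons, List.not_mem_nil, or_false] at ha ⊢
    tauto
  obtain ⟨y, l', e⟩ : ∃ y l', l₁ ++ [x] = y :: l' := List.exists_cons_of_ne_nil (by simp)
  rw [e] at h4 h6
  exact h4 (h1 y l' (H' z y (h5 z (List.mem_append_right _ hz) y (h6 List.mem_cons_self)).2 hzO)
    (h5.mono inter_subset_left h6))
/-- the cap identity modulo chains away from `K` -/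
theorem fine_sbd_scap {K : Set X} (φ : Co X) {μ : Sq (ZMod 2) X} (h : Fine Kᶜ (sbd μ)) :
    Fine Kᶜ (sbd (scap φ μ) + scap (scob φ) μ) := by
  have e : sbd (scap φ μ) + scap (scob φ) μ =
      (fun n => (Finsupp.single [] (ev (φ n) (μ n)) : Ch (ZMod 2) X)) - scap φ (sbd μ) := by
    funext n
    exact eq_sub_of_add_eq (bd_cap (φ n) (μ n))
  rw [e]
  exact (fine_nil _ _).sub (h.scap φ)

end Crest.Agent.R224
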