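import Crest.Agent.R224.ACyc

/-! The coarse facts (L) and (S). -/

set_option autoImplicit false
open Filter Topology Set
open scoped Pointwise

namespace Crest.Agent.R224

variable {Γ E : Type} [Group Γ] [TopologicalSpace E] [MulAction Γ E]

/-- Plan: `φ [x] = 1[π x ∈ V]`, colours `N c₀ Z_i` (two `c₀`-close points on different sides have a point of `Z` within `c₀`:
`exists_geod`), `cocycle` with `q = 3`, `m = 1`.  For `x, y` far from `Z`, `a = x • e₀`, `b = y • e₀`, `γ = F ([a] + [b])` is fine in a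
compact `K' ∋ a, b` with `∂γ = [a] + [b]`; `LocZ.ev` gives `ψ [a] = ψ [b]` eventually, and `L = {a}`, `{b}` give `φ [a] = ψ [a]`,
`φ [b] = ψ [b]` (`cob_one`). -/
theorem Geo.coarse_S (h : Geo Γ E) (G : Gen Γ) : ∃ s : ℕ, ∀ r : ℕ, ∃ R : ℕ, ∀ Z₁ Z₂ Z₃ V : Set Γ,
    G.Clus s r Z₁ → G.Clus s r Z₂ → G.Clus s r Z₃ →
    (∀ x y, G.D x y ≤ 1 → cross V x y → x ∈ Z₁ ∪ Z₂ ∪ Z₃ ∨ y ∈ Z₁ ∪ Z₂ ∪ Z₃) →
    ∀ x ∉ G.N R (Z₁ ∪ Z₂ ∪ Z₃), ∀ y ∉ G.N R (Z₁ ∪ Z₂ ∪ Z₃), (x ∈ V ↔ y ∈ V) := by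
  classical
  haveI := h.t2
  haveI := h.lc
  haveI := h.contr
  obtain ⟨p⟩ := h.exists_prj G
  refine ⟨3 * p.c₀ + 2 * p.c₀, fun r => ?_⟩
  obtain ⟨R, hR⟩ := h.cocycle p 3 1 (r + 2 * p.c₀) (by norm_num) (by norm_num)
  refine ⟨p.c₀ + R, fun Z₁ Z₂ Z₃ V h₁ h₂ h₃ hV x hx y hy => ?_⟩
  set Z : Set Γ := Z₁ ∪ Z₂ ∪ Z₃ with hZ
  set W : Fin 3 → Set Γ := ![G.N p.c₀ Z₁, G.N p.c₀ Z₂, G.N p.c₀ Z₃] with hW
  have hWU : (⋃ i, W i) = G.N p.c₀ Z := by
    rw [hZ, G.N_union, G.N_union]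
    ext u
    simp only [mem_iUnion, mem_union, hW, Fin.exists_fin_succ]
    simp [or_assoc]
  have hWc : ∀ i, G.Clus (3 * p.c₀) (r + 2 * p.c₀) (W i) := by
    intro i
    fin_cases i
    · exact h₁.N
    · exact h₂.N
    · exact h₃.N
  set χ : Γ → ZMod 2 := fun u => if u ∈ V then 1 else 0 with hχ
  set φ : List E → ZMod 2 := fun l => if l.length = 1 then (l.map fun a => χ (p.π a)).sum else 0 with hφ
  have hφ1 : ∀ a, φ [a] = χ (p.π a) := fun a => by simp [hφ]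
  have hφl : ∀ l, l.length ≠ 1 → φ l = 0 := fun l hl => by simp [hφ, hl]
  have hside : ∀ u v, G.D u v ≤ p.c₀ → u ∉ G.N p.c₀ Z → (u ∈ V ↔ v ∈ V) := by
    intro u v huv hu
    have hch := G.chain_geod u v
    have hA : ∀ z, G.D u z + G.D z v = G.D u v → z ∉ Z := by
      intro z hz hzZ
      exact hu ⟨z, hzZ, by rw [G.D_comm]; omega⟩
    generalize G.D u v = d at hch hA
    clear huv
    generalize hB : {z | G.D u z + G.D z v = d} = B at hch
    have hA' : ∀ z ∈ B, z ∉ Z := by rw [← hB]; exact hA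
    clear hB hA
    induction hch with
    | refl => rfl
    | tail _ hbc ih =>
      refine ih.trans ?_
      by_contra hcr
      rcases hV _ _ hbc.2.2 hcr with h' | h'
      · exact hA' _ hbc.1 h'
      · exact hA' _ hbc.2.1 h'
  have hcob : ∀ l : List E, (∀ a ∈ l, ∀ b ∈ l, G.D (p.π a) (p.π b) ≤ p.c₀) →
      (∀ a ∈ l, p.π a ∉ ⋃ i, W i) → cob φ l = 0 := by
    intro l hl1 hl2
    by_cases hl : l.length = 2
    · obtain ⟨a, b, rfl⟩ := List.length_eq_two.1 hl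
      rw [cob_two, hφ1, hφ1]
      have := hside _ _ (hl1 a (by simp) b (by simp)) (hWU ▸ hl2 a (by simp))
      have e : χ (p.π a) = χ (p.π b) := by simp only [hχ, this]
      rw [e]
      exact CharTwo.add_self_eq_zero _
    · exact cob_eq_zero_of_length hφl l hl
  set a : E := x • p.e₀ with ha
  set b : E := y • p.e₀ with hb
  have hπa : p.π a = x := by rw [ha, p.π_smul, p.π_e₀, mul_one]
  have hπb : p.π b = y := by rw [hb, p.π_smul, p.π_e₀, mul_one]
  obtain ⟨F, hF⟩ := exists_fill (ZMod 2) E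
  obtain ⟨K', hK', hKK', hfine⟩ := hF.fine {a, b} (Set.toFinite _).isCompact
  obtain ⟨ψ, hψ, hL⟩ := hR W φ hWc hφl hcob K' hK'
  have hev : ∀ (θ : List E → ZMod 2) (u : E), ev θ (Finsupp.single [u] 1) = θ [u] := by
    intro θ u; simp [ev]
  have hpt : ∀ u ∈ ({a, b} : Set E), p.π u ∉ G.N (p.c₀ + R) Z →
      ∀ᶠ n in atTop, φ [u] + ψ n [u] = 0 := by
    intro u hu hu'
    obtain ⟨ψ', hψ'⟩ := hL {u} (singleton_subset_iff.2 (hKK' hu)) isCompact_singleton (by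
      rw [image_singleton, disjoint_singleton_left, hWU]
      exact fun h' => hu' (G.N_N _ _ _ h'))
    filter_upwards [hψ'.ev (fine_pt (mem_singleton u))] with n hn
    rw [hev] at hn
    simpa [scob, cob_one] using hn
  have hc : Fine ({a, b} : Set E)
      ((fun _ => (Finsupp.single [a] 1 : Ch (ZMod 2) E)) + fun _ => Finsupp.single [b] 1) :=
    (fine_pt (by simp)).add (fine_pt (by simp))
  have hab : ∀ᶠ n in atTop, ψ n [a] + ψ n [b] = 0 := by
    filter_upwards [hψ.ev (hfine _ hc)] with n hn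
    change ev (cob (ψ n)) (F n (Finsupp.single [a] 1 + Finsupp.single [b] 1)) = 0 at hn
    have hid := hF.id n (Finsupp.single [a] 1 + Finsupp.single [b] 1)
    have hbd : bd (Finsupp.single [a] 1 + Finsupp.single [b] 1 : Ch (ZMod 2) E) = 0 := by
      have e : ∀ u : E, bd (Finsupp.single [u] 1 : Ch (ZMod 2) E) = Finsupp.single [] 1 := by
        intro u; simp [bd, bdL]
      rw [map_add, e, e, add_self_ch]
    rw [hbd, map_zero, add_zero] at hid
    rwa [ev_cob, hid, map_add, hev, hev] at hn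
  obtain ⟨n, hn1, hn2, hn3⟩ := ((hpt a (by simp) (hπa ▸ hx)).and
    ((hpt b (by simp) (hπb ▸ hy)).and hab)).exists
  rw [hφ1, hπa] at hn1
  rw [hφ1, hπb] at hn2
  have e : χ x = χ y := by
    have : ∀ s t u v : ZMod 2, s + u = 0 → t + v = 0 → u + v = 0 → s = t := by decide
    exact this _ _ _ _ hn1 hn2 hn3
  simp only [hχ] at e
  by_cases h1 : x ∈ V <;> by_cases h2 : y ∈ V
  · exact iff_of_true h1 h2
  · rw [if_pos h1, if_neg h2] at e; exact absurd e one_ne_zero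
  · rw [if_neg h1, if_pos h2] at e; exact absurd e zero_ne_one
  · exact iff_of_false h1 h2

end Crest.Agent.R224
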