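import Crest.Agent.R224.ACoS

/-! The coarse facts (L) and (S). -/

set_option autoImplicit false
open Filter Topology Set
open scoped Pointwise

namespace Crest.Agent.R224

variable {Γ E : Type} [Group Γ] [TopologicalSpace E] [MulAction Γ E]

/-- Linear algebra: a functional on edges that vanishes on cycles is a coboundary.
Plan: it factors through the image of the boundary map `(Γ × Γ →₀ ZMod 2) ⊇ span edges → (Γ →₀ ZMod 2)`; extend. -/
theorem exists_potential {Γ : Type} (A : Set (Γ × Γ)) (α : Γ → Γ → Prop)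
    [∀ x y, Decidable (α x y)]
    (h : ∀ s : Finset (Γ × Γ), (s : Set (Γ × Γ)) ⊆ A →
      ∑ e ∈ s, ((Finsupp.single e.1 1 + Finsupp.single e.2 1 : Γ →₀ ZMod 2)) = 0 →
      ∑ e ∈ s, (if α e.1 e.2 then (1 : ZMod 2) else 0) = 0) :
    ∃ U : Set Γ, ∀ e ∈ A, (α e.1 e.2 ↔ cross U e.1 e.2) := by
  have z1 : ∀ a : ZMod 2, a ≠ 0 → a = 1 := by decide
  have h2 : ∀ a b : ZMod 2, (a + b = 1 → ¬ (a = 1 ↔ b = 1)) ∧ (a + b = 0 → (a = 1 ↔ b = 1)) := by
    decide
  classical
  have : Fact (Nat.Prime 2) := ⟨Nat.prime_two⟩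
  let d : (A →₀ ZMod 2) →ₗ[ZMod 2] (Γ →₀ ZMod 2) :=
    Finsupp.linearCombination _ fun e => Finsupp.single e.1.1 1 + Finsupp.single e.1.2 1
  let f : (A →₀ ZMod 2) →ₗ[ZMod 2] ZMod 2 :=
    Finsupp.linearCombination _ fun e => if α e.1.1 e.1.2 then 1 else 0
  have hf : f ∈ (LinearMap.ker d).dualAnnihilator := by
    rw [Submodule.mem_dualAnnihilator]
    intro c hc
    have h1 : ∀ e ∈ c.support, c e = 1 := fun e he => z1 _ (Finsupp.mem_support_iff.1 he)
    have h2 := h (c.support.map (Function.Embedding.subtype _)) (fun e he => by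
      obtain ⟨e, -, rfl⟩ := Finset.mem_map.1 he
      exact e.2) (by
      rw [Finset.sum_map, ← LinearMap.mem_ker.1 hc, Finsupp.linearCombination_apply, Finsupp.sum]
      exact Finset.sum_congr rfl fun e he => by rw [h1 e he, one_smul]; rfl)
    rw [Finset.sum_map] at h2
    rw [← h2, Finsupp.linearCombination_apply, Finsupp.sum]
    exact Finset.sum_congr rfl fun e he => by rw [h1 e he, one_smul]; rfl
  rw [← LinearMap.range_dualMap_eq_dualAnnihilator_ker] at hf
  obtain ⟨μ, hμ⟩ := hf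
  refine ⟨{g | μ (Finsupp.single g 1) = 1}, fun e he => ?_⟩
  have h1 := LinearMap.congr_fun hμ (Finsupp.single ⟨e, he⟩ 1)
  simp only [LinearMap.dualMap_apply, d, f, Finsupp.linearCombination_single, one_smul, map_add] at h1
  simp only [cross, mem_ofPred_eq]
  generalize μ (Finsupp.single e.1 1) = a at h1 ⊢
  generalize μ (Finsupp.single e.2 1) = b at h1 ⊢
  split_ifs at h1 with h3
  · exact iff_of_true h3 ((h2 a b).1 h1)
  · exact iff_of_false h3 (not_not.2 ((h2 a b).2 h1))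

/-- two local potentials agree along geodesics -/
theorem cross_agree (G : Gen Γ) {α : Γ → Γ → Prop} {U U' : Set Γ} {v w : Γ} {r₀ : ℕ}
    (hU : ∀ x y, G.D v x ≤ r₀ → G.D v y ≤ r₀ → G.D x y ≤ 1 → (α x y ↔ cross U x y))
    (hU' : ∀ x y, G.D w x ≤ r₀ → G.D w y ≤ r₀ → G.D x y ≤ 1 → (α x y ↔ cross U' x y))
    {x y : Γ} (hv : G.D v x + G.D x y ≤ r₀) (hw : G.D w x + G.D x y ≤ r₀) :
    cross U x y ↔ cross U' x y := by
  generalize hn : G.D x y = n at hv hw
  induction n generalizing x with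
  | zero =>
    obtain rfl := G.D_eq_zero.1 hn
    simp [cross]
  | succ n ih =>
    obtain ⟨z, hz, hz'⟩ := G.exists_step hn
    have h1 := G.D_tri v x z
    have h2 := G.D_tri w x z
    have h3 := ih hz' (by omega) (by omega)
    have h4 := (hU x z (by omega) (by omega) hz).symm.trans (hU' x z (by omega) (by omega) hz)
    unfold cross at h3 h4 ⊢
    tauto

open Classical in
theorem ite_cross {Γ : Type} (U : Set Γ) (x y : Γ) : (if cross U x y then (1 : ZMod 2) else 0) =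
    (if x ∈ U then 1 else 0) + if y ∈ U then 1 else 0 := by
  by_cases hx : x ∈ U <;> by_cases hy : y ∈ U <;> simp [cross, hx, hy]
  decide

open Classical in
/-- the cochain defined by local potentials -/
noncomputable def locCo {Γ E : Type} (π : E → Γ) (U : Γ → Set Γ) : List E → ZMod 2
  | [x, y] => if cross (U (π x)) (π x) (π y) then 1 else 0
  | _ => 0

open Classical in
/-- the indicator cochain -/
noncomputable def indCo {Γ E : Type} (π : E → Γ) (U : Set Γ) : List E → ZMod 2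
  | [x] => if π x ∈ U then 1 else 0
  | _ => 0

/-- Plan: for `v ∉ K` choose `U_v`; `φ [x,y] = 1[cross U_{π x} (π x) (π y)]` if `π x ∉ K`, else `0`.  Two local potentials agree up to
complement along a geodesic contained in both balls, so `cob φ` vanishes on `near`-small triples off `K` (`r₀ ≥ 2 c₀`).
`γ_s = F ([e₀] + [s • e₀])`, fine in a compact `K₁` with `π K₁ ⊆ ball 1 c₁`; `r₀ ≥ c₁ + c₀`.  For an edge `(g, g s)` off `N R K`,
`φ` agrees with the coboundary of `1[π · ∈ U_g]` on small pairs over `ball g c₁`, so `ev φ (g γ_s) = α g (g s)` eventually.  For a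
finite edge cycle, `ℓ = ∑ g γ_s` is a fine cycle in `L = ⋃ g • K₁`, `ℓ = ∂ D` with `D = F ℓ` fine in `K' ⊇ L`; `cocycle` (`q = 1`,
`m = 2`): `ev φ ℓ = ev ψ ℓ + ev ψ' ∂ℓ = ev (δψ) D = 0` eventually.  `exists_potential`. -/
theorem Geo.coarse_L (h : Geo Γ E) (G : Gen Γ) : ∃ s r₀ : ℕ, ∀ r : ℕ, ∃ R : ℕ,
    ∀ (K : Set Γ) (α : Γ → Γ → Prop), G.Clus s r K →
    (∀ v ∉ K, ∃ U : Set Γ, ∀ x y, G.D v x ≤ r₀ → G.D v y ≤ r₀ → G.D x y ≤ 1 →
      (α x y ↔ cross U x y)) →
    ∃ U : Set Γ, ∀ x y, G.D x y ≤ 1 → x ∉ G.N R K → y ∉ G.N R K → (α x y ↔ cross U x y) := by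
  classical
  have := h.t2
  have := h.lc
  have := h.contr
  obtain ⟨p⟩ := h.exists_prj G
  obtain ⟨F, hF⟩ := exists_fill (ZMod 2) E
  obtain ⟨K₁, hK₁, -, hK₁F⟩ := hF.fine ((fun s : Γ => s • p.e₀) '' G.S)
    (G.S.finite_toSet.image _).isCompact
  obtain ⟨c₁, hc₁⟩ := ((p.fin K₁ hK₁).image G.len).bddAbove
  have hπ₀ : ∀ g : Γ, p.π (g • p.e₀) = g := fun g => by rw [p.π_smul, p.π_e₀, mul_one]
  let γ : Γ → Sq (ZMod 2) E := fun s =>
    sq F ((fun _ => Finsupp.single [p.e₀] 1) + fun _ => Finsupp.single [s • p.e₀] 1)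
  have hγ : ∀ s ∈ G.S, Fine K₁ (γ s) := fun s hs =>
    hK₁F _ (Fine.add (fine_pt ⟨1, G.one_mem, one_smul _ _⟩) (fine_pt ⟨s, hs, rfl⟩))
  have hγl : ∀ s, Len 2 (γ s) := fun s => hF.len _ _ (Len.add
    (fun n l hl => by rw [Finset.mem_singleton.1 (Finsupp.support_single_subset hl)]; rfl)
    fun n l hl => by rw [Finset.mem_singleton.1 (Finsupp.support_single_subset hl)]; rfl)
  have hγb : ∀ s n, bd (γ s n) = Finsupp.single [p.e₀] 1 + Finsupp.single [s • p.e₀] 1 := by
    intro s n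
    have h1 := hF.id n (Finsupp.single [p.e₀] 1 + Finsupp.single [s • p.e₀] 1)
    have h2 : bd (Finsupp.single [p.e₀] 1 + Finsupp.single [s • p.e₀] 1 : Ch (ZMod 2) E) = 0 := by
      simp only [map_add, bd_single, bdL, map_zero, sub_zero, add_self_z2]
    rwa [h2, map_zero, add_zero] at h1
  let δ : Γ × Γ → Sq (ZMod 2) E := fun e => smp (fun x : E => e.1 • x) (γ (e.1⁻¹ * e.2))
  have hδb : ∀ e n, bd (δ e n) = Finsupp.single [e.1 • p.e₀] 1 + Finsupp.single [e.2 • p.e₀] 1 := by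
    intro e n
    simp only [δ, smp_apply, bd_mp, hγb, map_add, mp_single, List.map_cons, List.map_nil, ← mul_smul,
      mul_inv_cancel_left]
  have hδ : ∀ e : Γ × Γ, G.D e.1 e.2 ≤ 1 → Fine ((fun x : E => e.1 • x) '' K₁) (δ e) := fun e he =>
    (hγ _ (G.len_le_one.1 he)).smp (h.cont _).continuousOn (mapsTo_image _ _)
  have hball : ∀ g : Γ, ∀ x ∈ (fun x : E => g • x) '' K₁, G.D g (p.π x) ≤ c₁ := by
    rintro g _ ⟨x, hx, rfl⟩
    rw [p.π_smul, G.D_mul_right]
    exact hc₁ ⟨_, ⟨x, hx, rfl⟩, rfl⟩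
  refine ⟨3 * p.c₀, c₁ + 2 * p.c₀ + 1, fun r => ?_⟩
  obtain ⟨R, hR⟩ := h.cocycle p 1 2 r (by omega) (by omega)
  refine ⟨R + c₁, fun K α hK hα => ?_⟩
  choose! U hU using hα
  let φ : List E → ZMod 2 := locCo p.π U
  have hφ : ∀ l, l.length ≠ 2 → φ l = 0 := by
    intro l hl
    match l, hl with
    | [], _ => rfl
    | [_], _ => rfl
    | [_, _], hl => exact absurd rfl hl
    | _ :: _ :: _ :: _, _ => rfl
  have hcoc := hR (fun _ => K) φ (fun _ => hK) hφ (by
    intro l hl hlK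
    by_cases h3 : l.length = 3
    · obtain ⟨x, y, z, rfl⟩ := List.length_eq_three.1 h3
      have hx : p.π x ∉ K := by simpa using hlK x (by simp)
      have hy : p.π y ∉ K := by simpa using hlK y (by simp)
      have h1 := hl x (by simp) y (by simp)
      have h2 := hl y (by simp) z (by simp)
      have h4 : cross (U (p.π y)) (p.π y) (p.π z) ↔ cross (U (p.π x)) (p.π y) (p.π z) :=
        cross_agree G (hU _ hy) (hU _ hx) (by rw [G.D_self]; omega) (by omega)
      rw [cob_three]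
      simp only [φ, locCo, h4, ite_cross]
      generalize (if p.π x ∈ U (p.π x) then (1 : ZMod 2) else 0) = a
      generalize (if p.π y ∈ U (p.π x) then (1 : ZMod 2) else 0) = b
      generalize (if p.π z ∈ U (p.π x) then (1 : ZMod 2) else 0) = c
      revert a b c
      decide
    · exact cob_eq_zero_of_length hφ l h3)
  have hedge : ∀ e : Γ × Γ, G.D e.1 e.2 ≤ 1 → e.1 ∉ G.N (R + c₁) K →
      ∀ᶠ n in atTop, ev φ (δ e n) = if α e.1 e.2 then 1 else 0 := by
    intro e he heK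
    have heK' : e.1 ∉ K := fun h => heK (G.subset_N _ _ h)
    filter_upwards [(hδ e he).supp, (hδ e he).2 _ p.near] with n hn hn'
    have h1 : ev φ (δ e n) = ev (cob (indCo p.π (U e.1))) (δ e n) := by
      refine lin_eq_of_support fun l hl => ?_
      obtain ⟨x, y, rfl⟩ := List.length_eq_two.1 ((hγl _).smp _ n l hl)
      have h2 := hball _ _ (hn _ hl x (by simp))
      have h3 : G.D (p.π x) (p.π y) ≤ p.c₀ := hn' _ hl x (by simp) y (by simp)
      have hx : p.π x ∉ K := fun h => heK ⟨_, h, by rw [G.D_comm]; omega⟩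
      have h4 : cross (U (p.π x)) (p.π x) (p.π y) ↔ cross (U e.1) (p.π x) (p.π y) :=
        cross_agree G (hU _ hx) (hU _ heK') (by rw [G.D_self]; omega) (by omega)
      simp only [ev_single_cons, cob_two, φ, locCo, indCo, h4, ite_cross]
    rw [h1, ev_cob, hδb, map_add, ev_single_cons, ev_single_cons]
    simp only [indCo, hπ₀, one_mul, ← ite_cross,
      hU _ heK' e.1 e.2 (by rw [G.D_self]; omega) (by omega) he]
  obtain ⟨V, hV⟩ := exists_potential
    {e : Γ × Γ | G.D e.1 e.2 ≤ 1 ∧ e.1 ∉ G.N (R + c₁) K ∧ e.2 ∉ G.N (R + c₁) K} α (by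
    intro s hs hs0
    let L : Set E := ⋃ e ∈ s, (fun x : E => e.1 • x) '' K₁
    have hL : IsCompact L := s.isCompact_biUnion fun e _ => hK₁.image (h.cont _)
    have hℓ : Fine L (∑ e ∈ s, δ e) := Fine.sum s fun e he =>
      (hδ e (hs he).1).mono (subset_biUnion_of_mem (u := fun e : Γ × Γ => (fun x : E => e.1 • x) '' K₁) he)
    have hℓb : ∀ n, bd ((∑ e ∈ s, δ e) n) = 0 := by
      intro n
      have h1 := congrArg (Finsupp.lmapDomain (ZMod 2) (ZMod 2) fun g : Γ => [g • p.e₀]) hs0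
      simp only [map_sum, map_add, Finsupp.lmapDomain_apply, Finsupp.mapDomain_single, map_zero] at h1
      rw [Finset.sum_apply, map_sum, ← h1]
      exact Finset.sum_congr rfl fun e _ => hδb e n
    obtain ⟨K', hK', hLK', hK'F⟩ := hF.fine L hL
    obtain ⟨ψ, hψ, hψ'⟩ := hcoc K' hK'
    obtain ⟨ψ', hψ'⟩ := hψ' L hLK' hL (by
      rw [Set.disjoint_left]
      rintro _ ⟨x, hx, rfl⟩ ⟨k, hk, hk'⟩
      obtain ⟨e, he, hx⟩ := mem_iUnion₂.1 hx
      have h1 := hball _ _ hx
      have h2 := G.D_tri k (p.π x) e.1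
      rw [G.D_comm] at h1
      exact (hs he).2.1 ⟨k, by simpa using hk, by omega⟩)
    obtain ⟨n, h1, h2, h3⟩ := ((hψ.ev (hK'F _ hℓ)).and ((hψ'.ev hℓ).and
      ((eventually_all_finset s).2 fun e he => hedge e (hs he).1 (hs he).2.1))).exists
    have h4 := hF.id n ((∑ e ∈ s, δ e) n)
    rw [hℓb, map_zero, add_zero] at h4
    rw [scob, ev_cob, sq_apply, h4] at h1
    rw [Pi.add_apply, Pi.add_apply, ev_add, ev_add, h1, scob, ev_cob, hℓb, map_zero, add_zero,
      add_zero, Finset.sum_apply, map_sum] at h2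
    exact (Finset.sum_congr rfl fun e he => (h3 e he).symm).trans h2)
  exact ⟨V, fun x y hxy hx hy => hV (x, y) ⟨hxy, hx, hy⟩⟩

end Crest.Agent.R224
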