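import Crest.Agent.R224.AFund
import Crest.Agent.R224.ACo

/-! Duality. -/

set_option autoImplicit false
open Filter Topology Set
open scoped Pointwise

namespace Crest.Agent.R224

/-- identities in modules over `ZMod 2` -/
macro "char_two" : tactic =>
  `(tactic| (refine (one_smul (ZMod 2) _).symm.trans ?_; match_scalars <;> decide))

section
variable {X : Type}
theorem scap_add_left (φ ψ : Co X) (c : Sq (ZMod 2) X) : scap (φ + ψ) c = scap φ c + scap ψ c := by
  funext n
  exact cap_add _ _ _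
theorem scap_zero_left (c : Sq (ZMod 2) X) : scap 0 c = 0 := by
  have := scap_add_left 0 0 c
  rw [add_zero] at this
  exact left_eq_add.1 this
theorem scob_add' (φ ψ : Co X) : scob (φ + ψ) = scob φ + scob ψ := by
  funext n
  exact cob_add _ _
theorem scob_zero' : scob (0 : Co X) = 0 := by
  have := scob_add' (0 : Co X) 0
  rw [add_zero] at this
  exact left_eq_add.1 this
theorem scob_scob' (φ : Co X) : scob (scob φ) = 0 := by
  funext n
  exact cob_cob _
theorem scob_eps' (a : ℕ → ZMod 2) : scob (fun n => a n • eps : Co X) = 0 := by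
  funext n
  change cob (a n • eps) = 0
  rw [cob_smul, cob_eps, smul_zero]
theorem scap_eps' (a : ℕ → ZMod 2) {k : ℕ} {c : Sq (ZMod 2) X} (h : Len (k + 1) c) :
    scap (fun n => a n • eps) c = a • c := by
  funext n
  change cap (a n • eps) (c n) = a n • c n
  rw [cap_smul, cap_eps]
  intro h0
  simpa using h n _ h0
theorem null_smul_of_eventually {a : ℕ → ZMod 2} (ha : ∀ᶠ n in atTop, a n = 0) (c : Sq (ZMod 2) X) :
    Null (a • c) := by
  filter_upwards [ha] with n hn
  change a n • c n = 0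
  rw [hn, zero_smul]
end

variable {E : Type} [TopologicalSpace E] [T2Space E] [LocallyCompactSpace E]

/-- duality over a convex set -/
theorem dual_convex {j : (Fin 4 → ℝ) → E} (hj : IsOpenEmbedding j) {K : Set (Fin 4 → ℝ)}
    (hK : IsCompact K) (hc : Convex ℝ K) (hne : K.Nonempty) {μ : Sq (ZMod 2) E}
    (h : RGen (j '' K) 5 μ) : Dual μ (j '' K) := by
  intro φ c hcf hφ hφc
  have hK' : IsCompact (j '' K) := hK.image hj.continuous
  obtain ⟨ψ, a, hη⟩ := poincare hj hK hc hne hφ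
  have h1 := hη.scap hK' h.fine
  rw [scap_add_left, scap_add_left, scap_eps' a h.len] at h1
  have h2 := fine_sbd_scap ψ h.cyc
  have hcψ : Fine univ (c + scap ψ μ) := hcf.add (h.fine.scap ψ)
  have h3 : Fine (j '' K)ᶜ (a • μ - sbd (c + scap ψ μ)) := by
    convert (h1.add hφc).add h2 using 1
    rw [map_add]
    generalize a • μ = x
    char_two
  have ha := h.free a _ hcψ h3
  have h4 : Fine (j '' K)ᶜ (sbd (c + scap ψ μ)) := by
    convert h3.add ((null_smul_of_eventually ha μ).fine _) using 1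
    generalize a • μ = x
    char_two
  obtain ⟨a', b, hb, h5⟩ := h.gen _ hcψ h4
  refine ⟨ψ + fun n => a' n • eps, b, hb, ?_, ?_⟩
  · rw [scob_add', scob_eps', add_zero]
    convert hη.add (locZ_smul_of_eventually _ ha eps) using 1
    generalize (fun n => a n • eps : Co E) = x
    char_two
  · rw [scap_add_left, scap_eps' a' h.len]
    convert h5 using 1
    generalize a' • μ = x
    char_two

/-- Mayer--Vietoris step -/
theorem dual_union {μ : Sq (ZMod 2) E} (hμ : Fine univ μ) {K L : Set E} (hK : IsCompact K)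
    (hL : IsCompact L) (hb : Fine (K ∪ L)ᶜ (sbd μ)) (dK : Dual μ K) (dL : Dual μ L)
    (dI : Dual μ (K ∩ L)) : Dual μ (K ∪ L) := by
  intro φ c hc hφ hφc
  have sK : (K ∪ L)ᶜ ⊆ Kᶜ := compl_subset_compl.2 subset_union_left
  have sL : (K ∪ L)ᶜ ⊆ Lᶜ := compl_subset_compl.2 subset_union_right
  have iK : Kᶜ ⊆ (K ∩ L)ᶜ := compl_subset_compl.2 inter_subset_left
  have iL : Lᶜ ⊆ (K ∩ L)ᶜ := compl_subset_compl.2 inter_subset_right
  obtain ⟨ψ₁, b₁, hb₁, hψ₁, hc₁⟩ := dK φ c hc (hφ.mono subset_union_left) (hφc.mono sK)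
  obtain ⟨ψ₂, b₂, hb₂, hψ₂, hc₂⟩ := dL φ c hc (hφ.mono subset_union_right) (hφc.mono sL)
  obtain ⟨θ, e, he, hθ, hw⟩ := dI (ψ₁ + ψ₂) (b₁ + b₂) (hb₁.add hb₂)
    (by
      convert (hψ₁.mono inter_subset_left).add (hψ₂.mono inter_subset_right) using 1
      rw [scob_add']
      char_two)
    (by
      convert (hc₁.mono iK).add (hc₂.mono iL) using 1
      rw [scap_add_left, map_add]
      char_two)
  obtain ⟨η₁, η₂, hη₁, hη₂, hη⟩ := hθ.split hK hL
  rw [compl_inter] at hw
  obtain ⟨m₁, m₂, hm₁, hm₂, hm⟩ := hw.split hK.isClosed.isOpen_compl hL.isClosed.isOpen_compl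
  have e1 : ψ₁ + η₁ = ψ₂ + η₂ + scob θ := by
    have : η₁ = ψ₁ + ψ₂ + scob θ + η₂ := by rw [hη]; char_two
    rw [this]; char_two
  have e2 : b₁ + m₁ = b₂ + m₂ + scap θ μ + sbd e := by
    have : m₁ = b₁ + b₂ + scap θ μ + sbd e + m₂ := by rw [hm]; char_two
    rw [this]; char_two
  refine ⟨ψ₁ + η₁, b₁ + m₁, hb₁.add (hm₁.mono (subset_univ _)), LocZ.union ?_ ?_, ?_⟩
  · rw [scob_add', ← add_assoc]
    exact hψ₁.add (hη₁.scob hK)
  · rw [e1, scob_add', scob_add', scob_scob', add_zero, ← add_assoc]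
    exact hψ₂.add (hη₂.scob hL)
  · rw [compl_union]
    refine Fine.inter ?_ ?_
    · convert (hc₁.add (hη₁.scap hK hμ)).add hm₁.sbd using 1
      rw [scap_add_left, map_add]
      char_two
    · convert ((hc₂.add (hη₂.scap hL hμ)).add hm₂.sbd).add (fine_sbd_scap θ (hb.mono sL)) using 1
      rw [e1, e2, scap_add_left, scap_add_left, map_add, map_add, map_add, sbd_sbd]
      char_two

/-- `bootstrap` with `Ω = interior B` -/
theorem Fund.dual (chart : ∀ x : E, ∃ j : (Fin 4 → ℝ) → E, IsOpenEmbedding j ∧ x ∈ range j)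
    {B : Set E} {μ : Sq (ZMod 2) E} (h : Fund B μ) {K : Set E} (hK : IsCompact K)
    (hKB : K ⊆ interior B) : Dual μ K := by
  refine bootstrap chart isOpen_interior (Dual μ) ?_ ?_ ?_ ?_ K hK hKB
  · intro φ c hc _ _
    refine ⟨0, 0, fine_zero _, locZ_empty _, ?_⟩
    rw [compl_empty, scap_zero_left, map_zero, add_zero, add_zero]
    exact hc
  · intro j hj K hK hc hne hKB
    exact dual_convex hj hK hc hne (h.rgen chart hj hK hc hne (hKB.trans interior_subset))
  · intro K L hK hL hKB hLB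
    exact dual_union h.fine hK hL (h.cyc.mono (compl_subset_compl.2
      ((union_subset hKB hLB).trans interior_subset)))
  · intro K _ _ hO φ c hc hφ hφc
    obtain ⟨O₁, hO₁, h1⟩ := hφ.exists_nhds
    obtain ⟨O₂, hO₂, h2⟩ := hφc.exists_nhds
    obtain ⟨K', -, hKK', hK'O, dK'⟩ := hO _ (inter_mem hO₁ hO₂)
    obtain ⟨ψ, b, hb, h3, h4⟩ := dK' φ c hc (h1.mono (hK'O.trans inter_subset_left))
      (h2.mono (compl_subset_compl.2 (hK'O.trans inter_subset_right)))
    exact ⟨ψ, b, hb, h3.mono hKK', h4.mono (compl_subset_compl.2 hKK')⟩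

/-- The form in which duality is used.  If `φ ∩ μ + t` is a relative cycle over `K'`, `t` is away from `L ⊆ K'` and `φ` is a
cocycle near `L`, then near `L`, `φ` is cohomologous to a cocycle over `K'`. -/
theorem dual_use {μ t : Sq (ZMod 2) E} (hμ : Fine univ μ) (ht : Fine univ t) {K' : Set E}
    (dK' : Dual μ K') {φ : Co E} (hw : Fine K'ᶜ (sbd (scap φ μ + t))) :
    ∃ ψ : Co E, LocZ K' (scob ψ) ∧ ∀ L ⊆ K', Dual μ L → Fine Lᶜ t → LocZ L (scob φ) →
      ∃ ψ' : Co E, LocZ L (φ + ψ + scob ψ') := by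
  obtain ⟨ψ, b, hb, hψ, h1⟩ := dK' 0 (scap φ μ + t) ((hμ.scap φ).add ht)
    (by rw [scob_zero']; exact locZ_zero _) (by rwa [scap_zero_left, zero_add])
  rw [zero_add] at hψ
  refine ⟨ψ, hψ, fun L hL dL htL hφ => ?_⟩
  obtain ⟨ψ', -, -, h2, -⟩ := dL (φ + ψ) b hb
    (by rw [scob_add']; exact hφ.add (hψ.mono hL))
    (by
      convert (h1.mono (compl_subset_compl.2 hL)).add htL using 1
      rw [scap_add_left]
      char_two)
  exact ⟨ψ', h2⟩

end Crest.Agent.R224
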