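import Crest.Agent.R224.ACar
import Crest.Agent.R224.ADual

/-! Combination of duality and the carrier lemma. -/

set_option autoImplicit false
open Filter Topology Set
open scoped Pointwise

namespace Crest.Agent.R224

variable {Γ E : Type} [Group Γ] [TopologicalSpace E] [MulAction Γ E] {G : Gen Γ}

/-- Let `φ` be a cochain of length `m` whose coboundary vanishes on `near`-small lists that have no entry over `Z`.  Then for
every compact `K'` there is a cocycle `ψ` over `K'` that is cohomologous to `φ` near every compact `L ⊆ K'` far from `Z`. -/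
theorem Geo.cocycle (h : Geo Γ E) (p : Prj E G) (q m r : ℕ) (hm : q + m < 5) (hm4 : m ≠ 4) :
    ∃ R : ℕ, ∀ (Z : Fin q → Set Γ) (φ : List E → ZMod 2), (∀ i, G.Clus (3 * p.c₀) r (Z i)) →
      (∀ l, l.length ≠ m → φ l = 0) →
      (∀ l, (∀ x ∈ l, ∀ y ∈ l, G.D (p.π x) (p.π y) ≤ p.c₀) → (∀ x ∈ l, p.π x ∉ ⋃ i, Z i) →
        cob φ l = 0) →
      ∀ K' : Set E, IsCompact K' → ∃ ψ : Co E, LocZ K' (scob ψ) ∧
        ∀ L ⊆ K', IsCompact L → Disjoint (p.π '' L) (G.N R (⋃ i, Z i)) →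
          ∃ ψ' : Co E, LocZ L ((fun _ => φ) + ψ + scob ψ') := by
  have := h.t2
  have := h.lc
  obtain ⟨R₁, hR₁⟩ := h.carrier p q (5 - m) (r + 2 * p.c₀) (by omega)
  refine ⟨R₁ + 2 * p.c₀, fun Z φ hZ hφ hcob K' hK' => ?_⟩
  have hP : (G.N (R₁ + p.c₀) (p.π '' K')).Finite := G.finite_N _ (p.fin K' hK')
  obtain ⟨K₂, hK₂, hK₂'⟩ := p.cpt_N h hP
  obtain ⟨B, hB, hB'⟩ := exists_compact_superset (hK'.union hK₂)
  obtain ⟨μ, hμ⟩ := exists_fund h.chart hB
  have hK'B : K' ⊆ interior B := subset_union_left.trans hB'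
  set Φ : Co E := fun _ => φ with hΦ
  have hzf : Fine univ (scap (scob Φ) μ) := hμ.fine.scap _
  have hlen : ∀ l, cob φ l ≠ 0 → l.length = m + 1 := fun l hl => by
    by_contra hne
    exact hl (cob_eq_zero_of_length hφ l hne)
  have hz1 : Len (5 - m) (scap (scob Φ) μ) := by
    intro n l hl
    obtain ⟨l₁, x, l₂, h1, rfl, h2⟩ := mem_support_cap hl
    have h3 := hμ.len n _ h1
    have h4 := hlen _ h2
    simp only [List.length_append, List.length_cons, List.length_nil] at h3 h4 ⊢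
    omega
  have hz2 : Supp (p.π ⁻¹' ⋃ i, G.N p.c₀ (Z i)) (scap (scob Φ) μ) := by
    filter_upwards [hμ.fine.2 _ p.near] with n hn l hl w hw
    obtain ⟨l₁, x, l₂, h1, rfl, h2⟩ := mem_support_cap hl
    have hs := hn _ h1
    have hsub : ∀ y ∈ l₁ ++ [x], y ∈ l₁ ++ x :: l₂ := by
      intro y hy
      simp only [List.mem_append, List.mem_cons, List.not_mem_nil, or_false] at hy ⊢
      tauto
    by_contra hcon
    refine h2 (hcob _ (fun a ha b hb => hs a (hsub a ha) b (hsub b hb)) fun y hy hyZ => hcon ?_)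
    obtain ⟨i, hi⟩ := mem_iUnion.1 hyZ
    exact mem_iUnion.2 ⟨i, p.π y, hi, hs y (hsub y hy) w (List.mem_append_right _ hw)⟩
  have hz3 : sbd (scap (scob Φ) μ) = scap (scob Φ) (sbd μ) := by
    funext n
    have h1 := bd_cap (cob φ) (μ n)
    have h2 : ev (cob φ) (μ n) = 0 := ev_eq_zero fun x l hl => by
      by_contra hne
      have h3 := hμ.len n _ hl
      have h4 := hlen _ hne
      omega
    have h3 : cap (cob (cob φ)) (μ n) = 0 := by
      rw [cob_cob]
      exact congrFun (scap_zero_left μ) n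
    rw [h2, h3, add_zero, Finsupp.single_zero] at h1
    change bd (cap (cob φ) (μ n)) = cap (cob φ) (bd (μ n))
    rw [← add_zero (bd _), ← h1]
    char_two
  have hz4 : Supp (p.π ⁻¹' (G.N (R₁ + p.c₀) (p.π '' K'))ᶜ) (sbd (scap (scob Φ) μ)) := by
    rw [hz3]
    refine (hμ.cyc.scap _).supp.mono fun x hx hx' => hx ?_
    exact interior_subset (hB' (Or.inr (hK₂' hx')))
  obtain ⟨t, ht, ht1, ht2⟩ := hR₁ (fun i => G.N p.c₀ (Z i)) _ _
    (fun i => Gen.Clus.N (by convert hZ i using 1; ring)) hzf hz1 hz2 hz4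
  have hw : Fine K'ᶜ (sbd (scap Φ μ + t)) := by
    have h1 : Fine K'ᶜ (scap (scob Φ) μ + sbd t) := by
      refine (hzf.add ht.sbd).compl_of_supp (p.nhds K') (ht2.mono ?_)
      rintro x ⟨a, ha, ha'⟩ ⟨b, hb, hb'⟩
      refine ha ⟨b, hb, ?_⟩
      have := G.D_tri b (p.π x) a
      rw [G.D_comm (p.π x) a] at this
      omega
    have h2 := (fine_sbd_scap Φ hμ.cyc).mono
      (compl_subset_compl.2 (hK'B.trans interior_subset))
    convert h1.add h2 using 1
    rw [map_add]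
    char_two
  obtain ⟨ψ, hψ, hψ'⟩ := dual_use hμ.fine ht (hμ.dual h.chart hK' hK'B) hw
  refine ⟨ψ, hψ, fun L hLK hL hd => hψ' L hLK (hμ.dual h.chart hL (hLK.trans hK'B)) ?_ ?_⟩
  · refine ht.compl_of_supp (p.nhds L) (ht1.mono ?_)
    rintro x ⟨a, ha, ha'⟩ ⟨b, hb, hb'⟩
    obtain ⟨i, z, hz, hz'⟩ := mem_iUnion.1 ha
    refine hd.le_bot ⟨hb, z, mem_iUnion.2 ⟨i, hz⟩, ?_⟩
    have h1 := G.D_tri z a (p.π x)
    have h2 := G.D_tri z (p.π x) b
    rw [G.D_comm (p.π x) b] at h2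
    omega
  · refine ⟨_, p.near, _, p.nhds L, Eventually.of_forall fun n x l hx hs => ?_⟩
    refine hcob _ hs fun y hy hyZ => ?_
    obtain ⟨b, hb, hb'⟩ := hx
    refine hd.le_bot ⟨hb, p.π y, hyZ, ?_⟩
    have h1 : G.D (p.π y) (p.π x) ≤ p.c₀ := hs y hy x List.mem_cons_self
    have h2 := G.D_tri (p.π y) (p.π x) b
    rw [G.D_comm (p.π x) b] at h2
    omega

end Crest.Agent.R224
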