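import Crest.Agent.R224.Defs

/-!
# Part A: definitions

A homology theory without subdivision: chains are sequences of finite combinations of lists of points whose
mesh tends to zero inside a fixed compact set.  The complex is augmented (the empty list has degree `-1`).
-/

set_option autoImplicit false
open Filter Topology Set
open scoped Pointwise

namespace Crest.Agent.R224

/-- The universal cover with its deck action. -/
structure Geo (Γ E : Type) [Group Γ] [TopologicalSpace E] [MulAction Γ E] : Prop where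
  t2 : T2Space E
  lc : LocallyCompactSpace E
  contr : ContractibleSpace E
  chart : ∀ x : E, ∃ j : (Fin 4 → ℝ) → E, IsOpenEmbedding j ∧ x ∈ range j
  cont : ∀ g : Γ, Continuous fun x : E => g • x
  free : ∀ (g : Γ) (x : E), g • x = x → g = 1
  proper : ∀ K : Set E, IsCompact K → {g : Γ | (g • K ∩ K).Nonempty}.Finite
  cocpt : ∃ K : Set E, IsCompact K ∧ ∀ x, ∃ g : Γ, x ∈ g • K

/-- An equivariant coarse projection `E → Γ`. -/
structure Prj {Γ : Type} (E : Type) [Group Γ] [TopologicalSpace E] [MulAction Γ E] (G : Gen Γ) where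
  π : E → Γ
  e₀ : E
  π_e₀ : π e₀ = 1
  π_smul : ∀ (g : Γ) x, π (g • x) = g * π x
  fin : ∀ K : Set E, IsCompact K → (π '' K).Finite
  cpt : ∀ r : ℕ, ∃ K : Set E, IsCompact K ∧ π ⁻¹' G.ball 1 r ⊆ K
  c₀ : ℕ
  near : {p : E × E | G.D (π p.1) (π p.2) ≤ c₀} ∈ 𝓝ˢ (diagonal E)

/-- chains -/
abbrev Ch (R X : Type) [CommRing R] : Type := List X →₀ R
/-- sequences of chains -/
abbrev Sq (R X : Type) [CommRing R] : Type := ℕ → Ch R X

section
variable {R X Y : Type} [CommRing R]

/-- cone -/
noncomputable def cn (x : X) : Ch R X →ₗ[R] Ch R X := Finsupp.lmapDomain R R (List.cons x)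
/-- push forward -/
noncomputable def mp (f : X → Y) : Ch R X →ₗ[R] Ch R Y := Finsupp.lmapDomain R R (List.map f)
/-- boundary of a list -/
noncomputable def bdL : List X → Ch R X
  | [] => 0
  | x :: l => Finsupp.single l 1 - cn x (bdL l)
/-- boundary -/
noncomputable def bd : Ch R X →ₗ[R] Ch R X := Finsupp.linearCombination R bdL
/-- prism of a list between `f` and `g` -/
noncomputable def prL (f g : X → Y) : List X → Ch R Y
  | [] => 0
  | x :: l => Finsupp.single (f x :: (x :: l).map g) 1 - cn (f x) (prL f g l)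
/-- prism operator -/
noncomputable def pr (f g : X → Y) : Ch R X →ₗ[R] Ch R Y := Finsupp.linearCombination R (prL f g)
/-- apply a family of operators termwise -/
noncomputable def sq (F : ℕ → Ch R X →ₗ[R] Ch R Y) : Sq R X →ₗ[R] Sq R Y where
  toFun c n := F n (c n)
  map_add' _ _ := funext fun n => map_add (F n) _ _
  map_smul' _ _ := funext fun n => map_smul (F n) _ _
/-- boundary of sequences -/
noncomputable def sbd : Sq R X →ₗ[R] Sq R X := sq fun _ => bd
/-- push forward of sequences -/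
noncomputable def smp (f : X → Y) : Sq R X →ₗ[R] Sq R Y := sq fun _ => mp f
/-- all lists have length `k` -/
def Len (k : ℕ) (c : Sq R X) : Prop := ∀ n, ∀ l ∈ (c n).support, l.length = k
/-- the part of length `k` -/
noncomputable def part (k : ℕ) (c : Sq R X) : Sq R X := fun n => (c n).filter fun l => l.length = k
/-- eventually zero -/
def Null (c : Sq R X) : Prop := ∀ᶠ n in atTop, c n = 0
/-- eventually supported in `A` -/
def Supp (A : Set X) (c : Sq R X) : Prop := ∀ᶠ n in atTop, ∀ l ∈ (c n).support, ∀ x ∈ l, x ∈ A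
/-- all pairs of entries lie in `W` -/
def Small (W : Set (X × X)) (l : List X) : Prop := ∀ x ∈ l, ∀ y ∈ l, (x, y) ∈ W

variable [TopologicalSpace X]
/-- fine chains in `U` -/
def Fine (U : Set X) (c : Sq R X) : Prop :=
  (∃ K, IsCompact K ∧ K ⊆ U ∧ Supp K c) ∧
    ∀ W ∈ 𝓝ˢ (diagonal X), ∀ᶠ n in atTop, ∀ l ∈ (c n).support, Small W l
/-- reduced homology of `U` vanishes -/
def Ac (R : Type) [CommRing R] (U : Set X) : Prop :=
  ∀ c : Sq R X, Fine U c → Null (sbd c) → ∃ b, Fine U b ∧ Null (c - sbd b)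
/-- the reduced homology of `U` is free of rank one (over germs of scalar sequences) on the cycle `z` -/
structure Gen1 (U : Set X) (k : ℕ) (z : Sq R X) : Prop where
  fine : Fine U z
  len : Len k z
  cyc : Null (sbd z)
  gen : ∀ c, Fine U c → Null (sbd c) → ∃ (a : ℕ → R) (b : Sq R X), Fine U b ∧ Null (c - a • z - sbd b)
  free : ∀ (a : ℕ → R) (b : Sq R X), Fine U b → Null (a • z - sbd b) → ∀ᶠ n in atTop, a n = 0
/-- the homology of `X` relative to `Kᶜ` is free of rank one on `μ` -/
structure RGen (K : Set X) (k : ℕ) (μ : Sq R X) : Prop where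
  fine : Fine univ μ
  len : Len k μ
  cyc : Fine Kᶜ (sbd μ)
  gen : ∀ c, Fine univ c → Fine Kᶜ (sbd c) →
    ∃ (a : ℕ → R) (b : Sq R X), Fine univ b ∧ Fine Kᶜ (c - a • μ - sbd b)
  free : ∀ (a : ℕ → R) (b : Sq R X), Fine univ b → Fine Kᶜ (a • μ - sbd b) →
    ∀ᶠ n in atTop, a n = 0
/-- a contracting homotopy of the fine chain complex with compact support control -/
structure IsFill (F : ℕ → Ch R X →ₗ[R] Ch R X) : Prop where
  id : ∀ n c, bd (F n c) + F n (bd c) = c
  len : ∀ k c, Len k c → Len (k + 1) (sq F c)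
  fine : ∀ K : Set X, IsCompact K → ∃ K', IsCompact K' ∧ K ⊆ K' ∧
    ∀ c : Sq R X, Fine K c → Fine K' (sq F c)
end

section
variable {X : Type}
/-- evaluation of a cochain (the empty list is ignored) -/
noncomputable def ev (φ : List X → ZMod 2) : Ch (ZMod 2) X →ₗ[ZMod 2] ZMod 2 :=
  Finsupp.linearCombination (ZMod 2) fun l => match l with
    | [] => 0
    | x :: l => φ (x :: l)
/-- coboundary -/
noncomputable def cob (φ : List X → ZMod 2) : List X → ZMod 2 := fun l => ev φ (bdL l)
/-- cap product with a list: `∑_i φ (x₀ … x_i) • (x_i … x_q)` -/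
noncomputable def capL : (List X → ZMod 2) → List X → Ch (ZMod 2) X
  | _, [] => 0
  | φ, x :: l => Finsupp.single (x :: l) (φ [x]) + capL (fun l' => φ (x :: l')) l
/-- cap product -/
noncomputable def cap (φ : List X → ZMod 2) : Ch (ZMod 2) X →ₗ[ZMod 2] Ch (ZMod 2) X :=
  Finsupp.linearCombination (ZMod 2) (capL φ)
/-- sequences of cochains -/
abbrev Co (X : Type) : Type := ℕ → List X → ZMod 2
noncomputable def scob (φ : Co X) : Co X := fun n => cob (φ n)
noncomputable def scap (φ : Co X) : Sq (ZMod 2) X →ₗ[ZMod 2] Sq (ZMod 2) X := sq fun n => cap (φ n)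
/-- the unit cochain -/
def eps : List X → ZMod 2 := fun l => if l.length = 1 then 1 else 0

variable [TopologicalSpace X]
/-- locally zero near `K` -/
def LocZ (K : Set X) (φ : Co X) : Prop :=
  ∃ W ∈ 𝓝ˢ (diagonal X), ∃ O ∈ 𝓝ˢ K, ∀ᶠ n in atTop, ∀ x l, x ∈ O → Small W (x :: l) → φ n (x :: l) = 0
/-- fundamental chain over `B` -/
structure Fund (B : Set X) (μ : Sq (ZMod 2) X) : Prop where
  fine : Fine univ μ
  len : Len 5 μ
  cyc : Fine Bᶜ (sbd μ)
  loc : ∀ x ∈ B, RGen {x} 5 μ
/-- Alexander--Poincaré duality at `K`: the mapping cone of `φ ↦ φ ∩ μ` is acyclic modulo what vanishes near `K` -/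
def Dual (μ : Sq (ZMod 2) X) (K : Set X) : Prop :=
  ∀ (φ : Co X) (c : Sq (ZMod 2) X), Fine univ c → LocZ K (scob φ) → Fine Kᶜ (scap φ μ + sbd c) →
    ∃ (ψ : Co X) (b : Sq (ZMod 2) X), Fine univ b ∧ LocZ K (φ + scob ψ) ∧
      Fine Kᶜ (c + scap ψ μ + sbd b)
end

end Crest.Agent.R224
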