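import Crest.Agent.R224.AAlg

/-! Fine chains: lattice properties, functoriality, homotopies, filling. -/

set_option autoImplicit false
set_option linter.unusedSectionVars false
open Filter Topology Set
open scoped Pointwise

namespace Crest.Agent.R224

variable {R X Y : Type} [CommRing R] [TopologicalSpace X] [TopologicalSpace Y]

theorem mem_nhds_diag {W : Set (X × X)} (hW : IsOpen W) (h : ∀ x, (x, x) ∈ W) :
    W ∈ 𝓝ˢ (diagonal X) :=
  hW.mem_nhdsSet.2 fun p hp => by
    obtain ⟨x, y⟩ := p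
    obtain rfl : x = y := hp
    exact h x

theorem diag_mem_of_nhds {W : Set (X × X)} (hW : W ∈ 𝓝ˢ (diagonal X)) (x : X) : (x, x) ∈ W :=
  subset_of_mem_nhdsSet hW (mem_diagonal x)

theorem diag_mem_interior {W : Set (X × X)} (hW : W ∈ 𝓝ˢ (diagonal X)) (x : X) :
    (x, x) ∈ interior W :=
  subset_interior_iff_mem_nhdsSet.2 hW (mem_diagonal x)

/-- lists of `d` are contained (as sets) in lists of `c` -/
theorem Fine.of_subset {U : Set X} {c d : Sq R X} (h : Fine U c)
    (hd : ∀ᶠ n in atTop, ∀ l ∈ (d n).support, l = [] ∨ ∃ l' ∈ (c n).support, l ⊆ l') :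
    Fine U d := by
  obtain ⟨⟨K, hK, hKU, hs⟩, hW⟩ := h
  refine ⟨⟨K, hK, hKU, ?_⟩, fun W hW' => ?_⟩
  · filter_upwards [hs, hd] with n h1 h2 l hl x hx
    rcases h2 l hl with rfl | ⟨l', h3, h4⟩
    · simp at hx
    · exact h1 l' h3 x (h4 hx)
  · filter_upwards [hW W hW', hd] with n h1 h2 l hl x hx y hy
    rcases h2 l hl with rfl | ⟨l', h3, h4⟩
    · simp at hx
    · exact h1 l' h3 x (h4 hx) y (h4 hy)

theorem Fine.mono {U V : Set X} {c : Sq R X} (h : Fine U c) (hUV : U ⊆ V) : Fine V c := by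
  obtain ⟨⟨K, hK, hKU, hs⟩, hW⟩ := h
  exact ⟨⟨K, hK, hKU.trans hUV, hs⟩, hW⟩
theorem Fine.supp {U : Set X} {c : Sq R X} (h : Fine U c) : Supp U c := by
  obtain ⟨⟨K, -, hKU, hs⟩, -⟩ := h
  exact hs.mono hKU
theorem Null.fine {c : Sq R X} (h : Null c) (U : Set X) : Fine U c := by
  refine ⟨⟨∅, isCompact_empty, empty_subset _, ?_⟩, fun W _ => ?_⟩
  · filter_upwards [h] with n h1 l hl
    simp [h1] at hl
  · filter_upwards [h] with n h1 l hl
    simp [h1] at hl
theorem fine_zero (U : Set X) : Fine U (0 : Sq R X) := by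
  exact Null.fine (Eventually.of_forall fun _ => rfl) U
/-- multiples of the empty list -/
theorem fine_nil (U : Set X) (a : ℕ → R) : Fine U fun n => (Finsupp.single [] (a n) : Ch R X) := by
  exact (fine_zero U).of_subset (Eventually.of_forall fun n l hl =>
    Or.inl (Finset.mem_singleton.1 (Finsupp.support_single_subset hl)))
/-- a point -/
theorem fine_pt {U : Set X} {x : X} (hx : x ∈ U) : Fine U fun _ => (Finsupp.single [x] 1 : Ch R X) := by
  refine ⟨⟨{x}, isCompact_singleton, singleton_subset_iff.2 hx, Eventually.of_forall ?_⟩,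
    fun W hW => Eventually.of_forall ?_⟩
  · intro n l hl y hy
    rw [Finset.mem_singleton.1 (Finsupp.support_single_subset hl)] at hy
    simpa using hy
  · intro n l hl y hy z hz
    rw [Finset.mem_singleton.1 (Finsupp.support_single_subset hl), List.mem_singleton] at hy hz
    rw [hy, hz]
    exact diag_mem_of_nhds hW x
theorem Fine.add {U : Set X} {c d : Sq R X} (h : Fine U c) (h' : Fine U d) : Fine U (c + d) := by
  classical
  obtain ⟨⟨K, hK, hKU, hs⟩, hW⟩ := h
  obtain ⟨⟨K', hK', hKU', hs'⟩, hW'⟩ := h'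
  refine ⟨⟨K ∪ K', hK.union hK', union_subset hKU hKU',
    (hs.mono subset_union_left).add (hs'.mono subset_union_right)⟩, fun W hW₀ => ?_⟩
  filter_upwards [hW W hW₀, hW' W hW₀] with n h1 h2 l hl
  rcases Finset.mem_union.1 (Finsupp.support_add hl) with h3 | h3
  exacts [h1 l h3, h2 l h3]
theorem Fine.neg {U : Set X} {c : Sq R X} (h : Fine U c) : Fine U (-c) := by
  refine h.of_subset (Eventually.of_forall fun n l hl => Or.inr ⟨l, ?_, List.Subset.refl _⟩)
  rwa [Pi.neg_apply, Finsupp.support_neg] at hl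
theorem Fine.sub {U : Set X} {c d : Sq R X} (h : Fine U c) (h' : Fine U d) : Fine U (c - d) := by
  rw [sub_eq_add_neg]; exact h.add h'.neg
theorem Fine.smul {U : Set X} {c : Sq R X} (h : Fine U c) (a : ℕ → R) : Fine U (a • c) := by
  exact h.of_subset (Eventually.of_forall fun n l hl =>
    Or.inr ⟨l, Finsupp.support_smul hl, List.Subset.refl _⟩)
theorem Fine.sum {ι : Type} {U : Set X} (s : Finset ι) {c : ι → Sq R X} (h : ∀ i ∈ s, Fine U (c i)) :
    Fine U (∑ i ∈ s, c i) := by
  classical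
  induction s using Finset.induction_on with
  | empty => rw [Finset.sum_empty]; exact fine_zero U
  | insert a s ha ih =>
    rw [Finset.sum_insert ha]
    exact (h a (Finset.mem_insert_self _ _)).add
      (ih fun i hi => h i (Finset.mem_insert_of_mem hi))
theorem Fine.sbd {U : Set X} {c : Sq R X} (h : Fine U c) : Fine U (sbd c) := by
  refine h.of_subset (Eventually.of_forall fun n l hl => ?_)
  obtain ⟨l', h1, h2, -⟩ := mem_support_bd hl
  exact Or.inr ⟨l', h1, h2.subset⟩
/-- any sequence whose supports are eventually contained in those of `c` -/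
theorem Fine.of_support {U : Set X} {c d : Sq R X} (h : Fine U c)
    (hd : ∀ᶠ n in atTop, (d n).support ⊆ (c n).support) : Fine U d := by
  refine h.of_subset ?_
  filter_upwards [hd] with n h1 l hl
  exact Or.inr ⟨l, h1 hl, List.Subset.refl _⟩
theorem Fine.part {U : Set X} {c : Sq R X} (h : Fine U c) (k : ℕ) : Fine U (part k c) := by
  refine h.of_support (Eventually.of_forall fun n => ?_)
  simp only [R224.part, Finsupp.support_filter]
  exact Finset.filter_subset _ _
theorem Fine.congr {U : Set X} {c d : Sq R X} (h : Fine U c) (hd : Null (c - d)) : Fine U d := by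
  refine h.of_support ?_
  filter_upwards [hd] with n h1
  rw [Pi.sub_apply, sub_eq_zero] at h1
  rw [h1]
theorem Fine.inter [T2Space X] {U V : Set X} {c : Sq R X} (h : Fine U c) (h' : Fine V c) :
    Fine (U ∩ V) c := by
  obtain ⟨⟨K, hK, hKU, hs⟩, hW⟩ := h
  obtain ⟨⟨K', hK', hKU', hs'⟩, -⟩ := h'
  exact ⟨⟨K ∩ K', hK.inter hK', inter_subset_inter hKU hKU', hs.inter hs'⟩, hW⟩
/-- a fine chain supported in a closed set -/
theorem Fine.of_supp {U A : Set X} {c : Sq R X} (h : Fine U c) (hA : IsClosed A) (hs : Supp A c) :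
    Fine A c := by
  obtain ⟨⟨K, hK, -, hs'⟩, hW⟩ := h
  exact ⟨⟨K ∩ A, hK.inter_right hA, inter_subset_right, hs'.inter hs⟩, hW⟩
/-- a fine chain supported away from a neighbourhood of `K` -/
theorem Fine.compl_of_supp {U K O : Set X} {c : Sq R X} (h : Fine U c) (hO : O ∈ 𝓝ˢ K)
    (hs : Supp Oᶜ c) : Fine Kᶜ c := by
  refine (h.of_supp (A := (interior O)ᶜ) isOpen_interior.isClosed_compl
    (hs.mono (compl_subset_compl.2 interior_subset))).mono ?_
  exact compl_subset_compl.2 (subset_interior_iff_mem_nhdsSet.2 hO)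
/-- a chain in `Kᶜ` is a chain in `Oᶜ` for a neighbourhood `O` of `K` -/
theorem Fine.exists_nhds [T2Space X] {K : Set X} {c : Sq R X} (h : Fine Kᶜ c) :
    ∃ O ∈ 𝓝ˢ K, Fine Oᶜ c := by
  obtain ⟨⟨K', hK', hKU, hs⟩, hW⟩ := h
  refine ⟨K'ᶜ, hK'.isClosed.isOpen_compl.mem_nhdsSet.2 (subset_compl_comm.1 hKU), ?_⟩
  rw [compl_compl]
  exact ⟨⟨K', hK', Subset.rfl, hs⟩, hW⟩
/-- Splitting.  Plan: `K = K₁ ∪ K₂` with `K₁ ⊆ U`, `K₂ ⊆ V` compact; compact neighbourhoods `K_i'`; split by whether the head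
of the list lies in `K₁`; `W = ⋂_i (int K_i' ×ˢ int K_i' ∪ K_iᶜ ×ˢ univ)` is a neighbourhood of the diagonal. -/
theorem Fine.split [T2Space X] [LocallyCompactSpace X] {U V : Set X} (hU : IsOpen U) (hV : IsOpen V)
    {c : Sq R X} (h : Fine (U ∪ V) c) : ∃ a b, Fine U a ∧ Fine V b ∧ c = a + b := by
  classical
  obtain ⟨⟨K, hK, hKU, hs⟩, hW⟩ := id h
  obtain ⟨K₁, K₂, h1, h2, h1U, h2V, rfl⟩ := hK.binary_compact_cover hU hV hKU
  obtain ⟨K', hK', hi, hK'U⟩ := exists_compact_between h1 hU h1U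
  have hW₀ : K₁ᶜ ×ˢ (univ : Set X) ∪ (univ : Set X) ×ˢ interior K' ∈ 𝓝ˢ (diagonal X) := by
    refine mem_nhds_diag ((h1.isClosed.isOpen_compl.prod isOpen_univ).union
      (isOpen_univ.prod isOpen_interior)) fun x => ?_
    by_cases hx : x ∈ K₁
    · exact Or.inr ⟨trivial, hi hx⟩
    · exact Or.inl ⟨hx, trivial⟩
  let p : List X → Prop := fun l => ∀ x ∈ l, x ∈ K'
  have hsub : ∀ (q : List X → Prop) [DecidablePred q], Fine (U ∪ V) fun n => (c n).filter q :=
    fun q _ => h.of_support (Eventually.of_forall fun n => by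
      simp only [Finsupp.support_filter]; exact Finset.filter_subset _ _)
  refine ⟨fun n => (c n).filter p, fun n => (c n).filter fun l => ¬ p l, ?_, ?_, ?_⟩
  · refine ((hsub p).of_supp hK'.isClosed (Eventually.of_forall fun n l hl => ?_)).mono hK'U
    simp only [Finsupp.support_filter, Finset.mem_filter] at hl
    exact hl.2
  · refine ((hsub fun l => ¬ p l).of_supp h2.isClosed ?_).mono h2V
    filter_upwards [hs, hW _ hW₀] with n h3 h4 l hl y hy
    simp only [Finsupp.support_filter, Finset.mem_filter, p, not_forall] at hl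
    obtain ⟨hl, x, hx, hxK⟩ := hl
    rcases h4 l hl y hy x hx with h5 | h5
    · exact (h3 l hl y hy).resolve_left h5.1
    · exact absurd (interior_subset h5.2) hxK
  · funext n
    exact (Finsupp.filter_add_filter_not (c n) p).symm
/-- Plan: `{(x,y) ∈ K × K | (f x, f y) ∉ interior W}` is compact, so closed, and misses the diagonal. -/
theorem Fine.smp [T2Space X] {U : Set X} {V : Set Y} {c : Sq R X} (h : Fine U c) {f : X → Y}
    (hf : ContinuousOn f U) (hm : MapsTo f U V) : Fine V (smp f c) := by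
  obtain ⟨⟨K, hK, hKU, hs⟩, hW⟩ := h
  refine ⟨⟨f '' K, hK.image_of_continuousOn (hf.mono hKU), (hm.mono_left hKU).image_subset,
    hs.smp (mapsTo_image f K)⟩, fun W hW₀ => ?_⟩
  have hc : IsClosed ((K ×ˢ K) ∩ Prod.map f f ⁻¹' (interior W)ᶜ) :=
    ((hf.mono hKU).prodMap (hf.mono hKU)).preimage_isClosed_of_isClosed
      (hK.isClosed.prod hK.isClosed) isOpen_interior.isClosed_compl
  have hW' := mem_nhds_diag hc.isOpen_compl fun x hx => hx.2 (diag_mem_interior hW₀ (f x))
  filter_upwards [hs, hW _ hW'] with n h1 h2 l hl y hy z hz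
  obtain ⟨l', h3, rfl⟩ := mem_support_mp hl
  obtain ⟨a, ha, rfl⟩ := List.mem_map.1 hy
  obtain ⟨b, hb, rfl⟩ := List.mem_map.1 hz
  by_contra h4
  exact h2 l' h3 a ha b hb ⟨⟨h1 l' h3 a ha, h1 l' h3 b hb⟩, fun h5 => h4 (interior_subset h5)⟩

end Crest.Agent.R224
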