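import Crest.Agent.R224.ASph
import Crest.Agent.R224.ABoot

/-! The fundamental chain mod 2. -/

set_option autoImplicit false
open Filter Topology Set
open scoped Pointwise

namespace Crest.Agent.R224

variable {E : Type} [TopologicalSpace E] [T2Space E] [LocallyCompactSpace E]

/-- A relative cycle of length `≥ 5` that is null at every point of `K` is null.
Plan: `bootstrap` (for all `k ≥ 5` simultaneously).  Union: `c ≡ ∂b₁` mod `Kᶜ`, `c ≡ ∂b₂` mod `Lᶜ`, of length `k+1`;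
`b₁ - b₂` is a relative cycle for `K ∩ L` of length `≥ 6`, null at points (`rgen_chart` for a point, `RGen.null_of_len`), so
`b₁ - b₂ = ∂e + m₁ + m₂` (`Fine.split`), take `b = b₁ - m₁` (`Fine.inter`).  Convex: `c ≡ a • μ + ∂b`, and `a` is eventually
zero.  Outer approximation: `Fine.exists_nhds`. -/
theorem null_of_loc (chart : ∀ x : E, ∃ j : (Fin 4 → ℝ) → E, IsOpenEmbedding j ∧ x ∈ range j)
    {K : Set E} (hK : IsCompact K) {k : ℕ} (hk : 5 ≤ k) {c : Sq (ZMod 2) E} (hc : Fine univ c)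
    (hl : Len k c) (hb : Fine Kᶜ (sbd c))
    (hx : ∀ x ∈ K, ∃ b, Fine univ b ∧ Fine {x}ᶜ (c - sbd b)) :
    ∃ b, Fine univ b ∧ Fine Kᶜ (c - sbd b) := by
  have key := bootstrap chart isOpen_univ
    (fun K : Set E => ∀ k, 5 ≤ k → ∀ c : Sq (ZMod 2) E, Fine univ c → Len k c → Fine Kᶜ (sbd c) →
      (∀ x ∈ K, ∃ b, Fine univ b ∧ Fine {x}ᶜ (c - sbd b)) → ∃ b, Fine univ b ∧ Fine Kᶜ (c - sbd b))
    ?_ ?_ ?_ ?_ K hK (subset_univ _)
  · exact key k hk c hc hl hb hx
  · intro k _ c hc _ _ _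
    refine ⟨0, fine_zero _, ?_⟩
    rw [map_zero, sub_zero, compl_empty]; exact hc
  · intro j hj K hK hcv hne _ k _ c hc _ hb hx
    obtain ⟨μ, hμ, hμx⟩ := rgen_chart (R := ZMod 2) hj hK hcv hne
    obtain ⟨a, b, hb1, hb2⟩ := hμ.gen c hc hb
    obtain ⟨y, hy⟩ := hne
    have hyK : j y ∈ j '' K := mem_image_of_mem j hy
    obtain ⟨b', hb1', hb2'⟩ := hx (j y) hyK
    have ha : ∀ᶠ n in atTop, a n = 0 := by
      refine (hμx (j y) hyK).free a (b' - b) (hb1'.sub hb1) ?_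
      refine (hb2'.sub (hb2.mono (compl_subset_compl.2 (singleton_subset_iff.2 hyK)))).of_eq ?_
      rw [map_sub]; abel
    have hn : Null (a • μ) := by
      filter_upwards [ha] with n hn
      change a n • μ n = 0
      rw [hn, zero_smul]
    exact ⟨b, hb1, (hb2.add (hn.fine _)).of_eq (by abel)⟩
  · intro K L hK hL _ _ PK PL PKL k hk c hc hl hb hx
    have hlen : ∀ (M : Set E) (b : Sq (ZMod 2) E), Fine Mᶜ (c - sbd b) →
        Fine Mᶜ (c - sbd (part (k + 1) b)) := by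
      intro M b h
      refine (h.part k).of_eq ?_
      rw [part_sub, hl.part_eq, part_sbd]
    obtain ⟨b₁, f₁, g₁⟩ := PK k hk c hc hl (hb.mono (compl_subset_compl.2 subset_union_left))
      fun x hxK => hx x (Or.inl hxK)
    obtain ⟨b₂, f₂, g₂⟩ := PL k hk c hc hl (hb.mono (compl_subset_compl.2 subset_union_right))
      fun x hxL => hx x (Or.inr hxL)
    replace g₁ := hlen K b₁ g₁
    replace g₂ := hlen L b₂ g₂
    replace f₁ := f₁.part (k + 1)
    replace f₂ := f₂.part (k + 1)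
    have l₁ := len_part (k + 1) b₁
    have l₂ := len_part (k + 1) b₂
    generalize part (k + 1) b₁ = d₁ at g₁ f₁ l₁
    generalize part (k + 1) b₂ = d₂ at g₂ f₂ l₂
    have hcyc : Fine (K ∩ L)ᶜ (sbd (d₁ - d₂)) := by
      refine ((g₂.mono (compl_subset_compl.2 inter_subset_right)).sub
        (g₁.mono (compl_subset_compl.2 inter_subset_left))).of_eq ?_
      rw [map_sub]; abel
    obtain ⟨e, he, he'⟩ := PKL (k + 1) (by omega) (d₁ - d₂) (f₁.sub f₂) (l₁.sub l₂) hcyc (by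
      intro x hxKL
      obtain ⟨j, hj, y, rfl⟩ := chart x
      obtain ⟨μ, -, hμx⟩ := rgen_chart (R := ZMod 2) hj (K := {y}) isCompact_singleton
        (convex_singleton y) (singleton_nonempty y)
      exact (hμx (j y) (mem_image_of_mem j rfl)).null_of_len (by omega) (f₁.sub f₂) (l₁.sub l₂)
        (hcyc.mono (compl_subset_compl.2 (singleton_subset_iff.2 hxKL))))
    rw [compl_inter] at he'
    obtain ⟨m₁, m₂, hm₁, hm₂, hm⟩ := he'.split hK.isClosed.isOpen_compl hL.isClosed.isOpen_compl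
    refine ⟨d₁ - m₁, f₁.sub (hm₁.mono (subset_univ _)), ?_⟩
    rw [compl_union]
    refine Fine.inter ((g₁.add hm₁.sbd).of_eq (by rw [map_sub]; abel)) ((g₂.sub hm₂.sbd).of_eq ?_)
    have e1 : d₁ - m₁ = d₂ + sbd e + m₂ := by
      have : d₁ = (d₁ - d₂ - sbd e) + d₂ + sbd e := by abel
      rw [this, hm]; abel
    rw [e1, map_add, map_add, sbd_sbd]; abel
  · intro K _ _ hO k hk c hc hl hb hx
    obtain ⟨O₁, hO₁, hO₁'⟩ := hb.exists_nhds
    have hex : ∀ x ∈ K, ∃ O ∈ 𝓝 x, ∃ b, Fine univ b ∧ Fine Oᶜ (c - sbd b) := by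
      intro x hxK
      obtain ⟨b, h1, h2⟩ := hx x hxK
      obtain ⟨O, h3, h4⟩ := h2.exists_nhds
      exact ⟨O, by rwa [nhdsSet_singleton] at h3, b, h1, h4⟩
    choose! O hO1 hO2 using hex
    have hO₂ : (⋃ x ∈ K, O x) ∈ 𝓝ˢ K := by
      rw [mem_nhdsSet_iff_forall]
      exact fun x hxK => mem_of_superset (hO1 x hxK) (subset_biUnion_of_mem (u := O) hxK)
    obtain ⟨K', -, hKK', hK'O, PK'⟩ := hO _ (inter_mem hO₁ hO₂)
    obtain ⟨b, h1, h2⟩ := PK' k hk c hc hl
      (hO₁'.mono (compl_subset_compl.2 fun y hy => (hK'O hy).1)) (by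
        intro y hy
        obtain ⟨x, hxK, hyx⟩ := mem_iUnion₂.1 (hK'O hy).2
        obtain ⟨b, h1, h2⟩ := hO2 x hxK
        exact ⟨b, h1, h2.mono (compl_subset_compl.2 (singleton_subset_iff.2 hyx))⟩)
    exact ⟨b, h1, h2.mono (compl_subset_compl.2 hKK')⟩

/-- Plan: `bootstrap`; union: `μ_K - μ_L` is null at the points of `K ∩ L` (`RGen.unique`), so by `null_of_loc`
`μ_K - μ_L = ∂e + m₁ + m₂`; take the length 5 parts, `μ = μ_K - m₁`, `RGen.congr`. -/
theorem exists_fund (chart : ∀ x : E, ∃ j : (Fin 4 → ℝ) → E, IsOpenEmbedding j ∧ x ∈ range j)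
    {B : Set E} (hB : IsCompact B) : ∃ μ : Sq (ZMod 2) E, Fund B μ := by
  refine bootstrap chart isOpen_univ (fun B : Set E => ∃ μ : Sq (ZMod 2) E, Fund B μ)
    ?_ ?_ ?_ ?_ B hB (subset_univ _)
  · refine ⟨0, fine_zero _, fun n l hl => by simp at hl, ?_, fun x hx => hx.elim⟩
    rw [map_zero]; exact fine_zero _
  · intro j hj K hK hcv hne _
    obtain ⟨μ, hμ, hμx⟩ := rgen_chart (R := ZMod 2) hj hK hcv hne
    exact ⟨μ, hμ.fine, hμ.len, hμ.cyc, hμx⟩
  · rintro K L hK hL - - ⟨μ₁, h₁⟩ ⟨μ₂, h₂⟩ -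
    have hcyc : Fine (K ∩ L)ᶜ (sbd (μ₁ - μ₂)) := by
      rw [map_sub]
      exact (h₁.cyc.mono (compl_subset_compl.2 inter_subset_left)).sub
        (h₂.cyc.mono (compl_subset_compl.2 inter_subset_right))
    obtain ⟨e, he, he'⟩ := null_of_loc chart (hK.inter hL) le_rfl (h₁.fine.sub h₂.fine)
      (h₁.len.sub h₂.len) hcyc fun x hx => (h₁.loc x hx.1).unique (h₂.loc x hx.2)
    rw [compl_inter] at he'
    obtain ⟨m₁, m₂, hm₁, hm₂, hm⟩ := he'.split hK.isClosed.isOpen_compl hL.isClosed.isOpen_compl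
    have hm' : μ₁ - μ₂ - sbd (part 6 e) = part 5 m₁ + part 5 m₂ := by
      rw [← part_add, ← hm, part_sub, (h₁.len.sub h₂.len).part_eq, part_sbd]
    replace hm₁ := hm₁.part 5
    replace hm₂ := hm₂.part 5
    replace he := he.part 6
    have l₁ := len_part 5 m₁
    generalize part 5 m₁ = n₁ at hm' hm₁ l₁
    generalize part 5 m₂ = n₂ at hm' hm₂
    generalize part 6 e = e' at hm' he
    have e1 : μ₁ - n₁ = μ₂ + sbd e' + n₂ := by
      have : μ₁ = (μ₁ - μ₂ - sbd e') + μ₂ + sbd e' := by abel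
      rw [this, hm']; abel
    have hf : Fine univ (μ₁ - n₁) := h₁.fine.sub (hm₁.mono (subset_univ _))
    have hl : Len 5 (μ₁ - n₁) := h₁.len.sub l₁
    refine ⟨μ₁ - n₁, hf, hl, ?_, ?_⟩
    · rw [compl_union]
      refine Fine.inter ((h₁.cyc.sub hm₁.sbd).of_eq (map_sub _ _ _)) ((h₂.cyc.add hm₂.sbd).of_eq ?_)
      rw [e1, map_add, map_add, sbd_sbd, add_zero]
    · rintro x (hx | hx)
      · refine (h₁.loc x hx).congr hf hl (fine_zero _)
          ((hm₁.mono (compl_subset_compl.2 (singleton_subset_iff.2 hx))).of_eq ?_)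
        rw [map_zero]; abel
      · refine (h₂.loc x hx).congr hf hl he.neg
          ((hm₂.mono (compl_subset_compl.2 (singleton_subset_iff.2 hx))).neg.of_eq ?_)
        rw [e1, map_neg]; abel
  · intro K _ _ hO
    obtain ⟨K', -, hKK', -, μ, hμ⟩ := hO univ univ_mem
    exact ⟨μ, hμ.fine, hμ.len, hμ.cyc.mono (compl_subset_compl.2 hKK'), fun x hx => hμ.loc x (hKK' hx)⟩

/-- a fundamental chain generates over convex sets (`rgen_chart`, `RGen.unique`, `null_of_loc`, `RGen.congr`) -/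
theorem Fund.rgen (chart : ∀ x : E, ∃ j : (Fin 4 → ℝ) → E, IsOpenEmbedding j ∧ x ∈ range j)
    {B : Set E} {μ : Sq (ZMod 2) E} (h : Fund B μ) {j : (Fin 4 → ℝ) → E} (hj : IsOpenEmbedding j)
    {K : Set (Fin 4 → ℝ)} (hK : IsCompact K) (hc : Convex ℝ K) (hne : K.Nonempty) (hB : j '' K ⊆ B) :
    RGen (j '' K) 5 μ := by
  obtain ⟨μ₀, hμ, hμx⟩ := rgen_chart (R := ZMod 2) hj hK hc hne
  obtain ⟨b, hb, hb'⟩ := null_of_loc chart (hK.image hj.continuous) le_rfl (hμ.fine.sub h.fine)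
    (hμ.len.sub h.len) (by
      rw [map_sub]; exact hμ.cyc.sub (h.cyc.mono (compl_subset_compl.2 hB)))
    fun x hx => (hμx x hx).unique (h.loc x (hB hx))
  exact hμ.congr h.fine h.len hb hb'

end Crest.Agent.R224
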