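import Crest.Agent.R224.AGen0

/-! Rank one homology: Mayer--Vietoris, homotopy invariance, excision. -/

set_option autoImplicit false
open Filter Topology Set
open scoped Pointwise

namespace Crest.Agent.R224

variable {R X Y : Type} [CommRing R] [TopologicalSpace X] [TopologicalSpace Y]

private theorem agen_inv [Nonempty X] {j : X → Y} (hj : IsOpenEmbedding j) :
    ∃ g : Y → X, ContinuousOn g (range j) ∧ ∀ x, g (j x) = x := by
  refine ⟨(hj.toOpenPartialHomeomorph j).symm, ?_, fun x => hj.toOpenPartialHomeomorph_left_inv⟩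
  have := (hj.toOpenPartialHomeomorph j).continuousOn_symm
  rwa [hj.toOpenPartialHomeomorph_target] at this

/-- fineness can be tested after an open embedding -/
theorem Fine.of_smp [T2Space Y] [Nonempty X] {j : X → Y} (hj : IsOpenEmbedding j) {U : Set X} {d : Sq R X}
    (h : Fine (j '' U) (R224.smp j d)) : Fine U d := by
  obtain ⟨g, hg, hgj⟩ := agen_inv hj
  refine (h.smp (V := U) (hg.mono (image_subset_range _ _)) ?_).of_eq (funext fun n => ?_)
  · rintro _ ⟨x, hx, rfl⟩
    rwa [hgj]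
  · rw [smp_apply, smp_apply, mp_mp, show g ∘ j = id from funext hgj, mp_id]

/-- chains in the range of an open embedding come from the source -/
theorem Fine.pull [T2Space Y] [Nonempty X] {j : X → Y} (hj : IsOpenEmbedding j) {U : Set X} {c : Sq R Y}
    (h : Fine (j '' U) c) : ∃ d : Sq R X, Fine U d ∧ Null (c - R224.smp j d) := by
  obtain ⟨g, hg, hgj⟩ := agen_inv hj
  refine ⟨R224.smp g c, h.smp (hg.mono (image_subset_range _ _)) ?_, ?_⟩
  · rintro _ ⟨x, hx, rfl⟩
    rwa [hgj]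
  · filter_upwards [h.supp] with n hn
    simp only [Pi.sub_apply, smp_apply]
    rw [mp_mp, mp_congr (g := id), mp_id, sub_self]
    intro l hl y hy
    obtain ⟨x, -, rfl⟩ := hn l hl y hy
    simp [hgj]
/-- Excision.  Plan: `univ = range j ∪ (j '' K)ᶜ`, `range j ∩ (j '' K)ᶜ = j '' Kᶜ`, `Fine.split`, `Fine.inter`, `Fine.pull`,
injectivity of `mp j` (left inverse). -/
theorem RGen.excision [T2Space X] [T2Space Y] [LocallyCompactSpace Y] [Nonempty X] {j : X → Y}
    (hj : IsOpenEmbedding j) {K : Set X} (hK : IsCompact K) {k : ℕ} {μ : Sq R X} (h : RGen K k μ) :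
    RGen (j '' K) k (smp j μ) := by
  have ho : IsOpen (j '' K)ᶜ := (hK.image hj.continuous).isClosed.isOpen_compl
  have hu : (univ : Set Y) ⊆ j '' univ ∪ (j '' K)ᶜ := fun y _ => by
    by_cases hy : y ∈ j '' K
    · exact Or.inl (image_mono (subset_univ _) hy)
    · exact Or.inr hy
  have hi : j '' univ ∩ (j '' K)ᶜ ⊆ j '' Kᶜ := by
    rintro _ ⟨⟨x, -, rfl⟩, hx⟩
    exact ⟨x, fun hx' => hx ⟨x, hx', rfl⟩, rfl⟩
  have hor : IsOpen (j '' univ) := hj.isOpenMap _ isOpen_univ
  have hc : ∀ U, ContinuousOn j U := fun U => hj.continuous.continuousOn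
  have hm : MapsTo j Kᶜ (j '' K)ᶜ := fun x hx hx' => hx ((hj.injective.mem_set_image).1 hx')
  refine ⟨h.fine.smp (hc _) (mapsTo_univ _ _), h.len.smp j, (h.cyc.smp (hc _) hm).of_eq (sbd_smp j μ),
    fun c hc1 hc2 => ?_, fun a b hb h' => ?_⟩
  · obtain ⟨c1, c2, h1, h2, rfl⟩ := (hc1.mono hu).split hor ho
    obtain ⟨d, hd, n1⟩ := h1.pull hj
    have h3 : Fine (j '' Kᶜ) (sbd c1) :=
      (h1.sbd.inter ((hc2.sub h2.sbd).of_eq (by rw [map_add]; abel))).mono hi
    have h4 : Fine Kᶜ (sbd d) := Fine.of_smp hj (h3.congr ((n1.sq fun _ => bd).of_eq (by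
      change _ = sbd (c1 - smp j d)
      rw [map_sub, sbd_smp])))
    obtain ⟨a, b, hb, h5⟩ := h.gen d hd h4
    refine ⟨a, smp j b, hb.smp (hc _) (mapsTo_univ _ _),
      (((h5.smp (hc _) hm).add h2).add (n1.fine _)).of_eq ?_⟩
    rw [map_sub, map_sub, smp_smul', sbd_smp]
    abel
  · obtain ⟨b1, b2, h1, h2, rfl⟩ := (hb.mono hu).split hor ho
    obtain ⟨d, hd, n1⟩ := h1.pull hj
    refine h.free a d hd (Fine.of_smp hj (Fine.mono (Fine.inter ?_ ?_) hi))
    · exact ((h.fine.smul a).sub hd.sbd).smp (hc _) (mapsTo_image _ _)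
    · refine ((h'.add h2.sbd).add ((n1.sq fun _ => bd).fine _)).of_eq ?_
      change _ = _ + sbd (b1 - smp j d)
      rw [map_sub, map_sub, map_add, smp_smul', sbd_smp]
      abel

end Crest.Agent.R224
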