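import Crest.Agent.R224.AFine

/-! Rank one homology: Mayer--Vietoris, homotopy invariance, excision. -/

set_option autoImplicit false
open Filter Topology Set
open scoped Pointwise

namespace Crest.Agent.R224

variable {R X Y : Type} [CommRing R] [TopologicalSpace X] [TopologicalSpace Y]

omit [TopologicalSpace X] in
theorem sbd_smul' (a : ℕ → R) (c : Sq R X) : sbd (a • c) = a • sbd c := sq_smul _ a c

omit [TopologicalSpace X] [TopologicalSpace Y] in
theorem smp_smul' (f : X → Y) (a : ℕ → R) (c : Sq R X) : smp f (a • c) = a • smp f c := sq_smul _ a c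

omit [TopologicalSpace X] in
theorem Null.of_eq {c d : Sq R X} (h : Null c) (e : d = c) : Null d := e ▸ h

theorem Fine.of_eq {U : Set X} {c d : Sq R X} (h : Fine U c) (e : d = c) : Fine U d := e ▸ h

omit [TopologicalSpace X] in
theorem null_sbd_sbd (c : Sq R X) : Null (sbd (sbd c)) := by
  rw [sbd_sbd]
  exact Eventually.of_forall fun _ => rfl

omit [TopologicalSpace X] [TopologicalSpace Y] in
theorem Null.smp' {c : Sq R X} (h : Null c) (f : X → Y) : Null (smp f c) := h.sq _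

/-- a cycle of pure length bounds a chain of pure length -/
theorem Ac.fill_len {U : Set X} (hU : Ac R U) {k : ℕ} {z : Sq R X} (hz : Fine U z) (hl : Len k z)
    (hc : Null (sbd z)) : ∃ b, Fine U b ∧ Len (k + 1) b ∧ Null (z - sbd b) := by
  obtain ⟨b, hb, h⟩ := hU z hz hc
  refine ⟨part (k + 1) b, hb.part _, len_part _ _, (h.part k).of_eq ?_⟩
  rw [part_sub, hl.part_eq, part_sbd]

/-- the prism identity for a homotopy from the identity -/
theorem null_prH {U : Set X} {c : Sq R X} (hc : Fine U c) {H : ℝ → X → X} {φ : X → X}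
    (h0 : ∀ x ∈ U, H 0 x = x) (h1 : ∀ x ∈ U, H 1 x = φ x) :
    Null (smp φ c - c - sbd (sq (prH R H) c) - sq (prH R H) (sbd c)) := by
  filter_upwards [hc.supp] with n hn
  have e := bd_prH (R := R) H n (c n)
  rw [mp_congr (g := φ) (fun l hl x hx => h1 x (hn l hl x hx)),
    mp_congr (f := H 0) (g := id) (fun l hl x hx => h0 x (hn l hl x hx)), mp_id] at e
  simp only [Pi.sub_apply, smp_apply, sbd_apply, sq_apply]
  rw [← e]
  abel

private theorem gen1_congr {U : Set X} {k : ℕ} {z z' : Sq R X} (h : Gen1 U k z) (hl : Len k z')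
    (hz : Null (z - z')) : Gen1 U k z' := by
  refine ⟨h.fine.congr hz, hl, (h.cyc.sub (hz.sq fun _ => bd)).of_eq ?_, fun c hc hc' => ?_, fun a b hb h' => ?_⟩
  · change _ = sbd z - sbd (z - z')
    rw [map_sub, sub_sub_cancel]
  · obtain ⟨a, b, hb, h1⟩ := h.gen c hc hc'
    exact ⟨a, b, hb, (h1.add (hz.smul a)).of_eq (by module)⟩
  · exact h.free a b hb ((h'.add (hz.smul a)).of_eq (by module))

theorem gen1_empty : Gen1 (∅ : Set X) 0 fun _ => (Finsupp.single [] 1 : Ch R X) := by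
  have key : ∀ c : Sq R X, Fine ∅ c → ∀ᶠ n in atTop, c n = Finsupp.single [] (c n []) := fun c hc => by
    filter_upwards [hc.supp] with n hn
    refine Finsupp.support_subset_singleton.1 fun l hl => ?_
    rw [Finset.mem_singleton, List.eq_nil_iff_forall_not_mem]
    exact fun x hx => hn l hl x hx
  refine ⟨fine_nil ∅ fun _ => 1, fun n l hl => ?_, Eventually.of_forall fun n => by simp [bdL],
    fun c hc _ => ⟨fun n => c n [], 0, fine_zero _, ?_⟩, fun a b hb h => ?_⟩
  · rw [Finset.mem_singleton.1 (Finsupp.support_single_subset hl)]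
    rfl
  · filter_upwards [key c hc] with n hn
    rw [map_zero, sub_zero]
    simp only [Pi.sub_apply, Pi.smul_apply', Finsupp.smul_single, smul_eq_mul, mul_one]
    exact sub_eq_zero.2 hn
  · filter_upwards [key b hb, h] with n hn h
    simp only [Pi.sub_apply, Pi.smul_apply', sbd_apply, Finsupp.smul_single, smul_eq_mul, mul_one] at h
    rw [hn, bd_single, bdL, smul_zero, sub_zero] at h
    exact Finsupp.single_eq_zero.1 h
/-- Mayer--Vietoris.  Plan: `z = ∂a = ∂b` with `a` in `U`, `b` in `V` of length `k+1` (`part`), `z' = a - b`. -/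
theorem Gen1.mv [T2Space X] [LocallyCompactSpace X] {U V : Set X} (hU : IsOpen U) (hV : IsOpen V)
    (aU : Ac R U) (aV : Ac R V) {k : ℕ} {z : Sq R X} (h : Gen1 (U ∩ V) k z) :
    ∃ z' : Sq R X, Gen1 (U ∪ V) (k + 1) z' := by
  obtain ⟨a, ha, la, na⟩ := aU.fill_len (h.fine.mono inter_subset_left) h.len h.cyc
  obtain ⟨b, hb, lb, nb⟩ := aV.fill_len (h.fine.mono inter_subset_right) h.len h.cyc
  refine ⟨a - b, (ha.mono subset_union_left).sub (hb.mono subset_union_right), la.sub lb,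
    (nb.sub na).of_eq (by rw [map_sub]; abel), fun c hc hc' => ?_, fun α e he h' => ?_⟩
  · obtain ⟨c1, c2, h1, h2, rfl⟩ := hc.split hU hV
    rw [map_add] at hc'
    have h3 : Fine (U ∩ V) (sbd c1) := h1.sbd.inter (h2.sbd.neg.congr (hc'.neg.of_eq (by abel)))
    obtain ⟨α, d, hd, h4⟩ := h.gen _ h3 (null_sbd_sbd c1)
    obtain ⟨e1, he1, n1⟩ := aU (c1 - α • a - d) ((h1.sub (ha.smul α)).sub (hd.mono inter_subset_left))
      ((h4.add (na.smul α)).of_eq (by rw [map_sub, map_sub, sbd_smul']; module))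
    obtain ⟨e2, he2, n2⟩ := aV (c2 + α • b + d) ((h2.add (hb.smul α)).add (hd.mono inter_subset_right))
      (((hc'.sub h4).sub (nb.smul α)).of_eq (by rw [map_add, map_add, sbd_smul']; module))
    exact ⟨α, e1 + e2, (he1.mono subset_union_left).add (he2.mono subset_union_right),
      (n1.add n2).of_eq (by rw [map_add]; module)⟩
  · obtain ⟨e1, e2, h1, h2, rfl⟩ := he.split hU hV
    rw [map_add] at h'
    have h3 : Fine (U ∩ V) (α • a - sbd e1) :=
      ((ha.smul α).sub h1.sbd).inter (((hb.smul α).add h2.sbd).congr (h'.neg.of_eq (by module)))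
    exact h.free α _ h3 ((na.smul α).of_eq (by rw [map_sub, sbd_sbd, sbd_smul']; module))
/-- homotopy invariance -/
theorem Gen1.hequiv [T2Space X] [T2Space Y] {U : Set X} {V : Set Y} {k : ℕ} {z : Sq R X}
    (h : Gen1 U k z) {f : X → Y} {g : Y → X} (hf : ContinuousOn f U) (hfm : MapsTo f U V)
    (hg : ContinuousOn g V) (hgm : MapsTo g V U) {H : ℝ → X → X} {H' : ℝ → Y → Y}
    (hH : ContinuousOn (fun p : ℝ × X => H p.1 p.2) (Icc 0 1 ×ˢ U))
    (hm : ∀ t ∈ Icc (0:ℝ) 1, MapsTo (H t) U U) (h0 : ∀ x ∈ U, H 0 x = x)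
    (h1 : ∀ x ∈ U, H 1 x = g (f x))
    (hH' : ContinuousOn (fun p : ℝ × Y => H' p.1 p.2) (Icc 0 1 ×ˢ V))
    (hm' : ∀ t ∈ Icc (0:ℝ) 1, MapsTo (H' t) V V) (h0' : ∀ y ∈ V, H' 0 y = y)
    (h1' : ∀ y ∈ V, H' 1 y = f (g y)) : Gen1 V k (smp f z) := by
  refine ⟨h.fine.smp hf hfm, h.len.smp f, (h.cyc.smp' f).of_eq (sbd_smp f z), fun c hc hc' => ?_,
    fun a b hb h' => ?_⟩
  · obtain ⟨a, b, hb, n1⟩ := h.gen (smp g c) (hc.smp hg hgm) ((hc'.smp' g).of_eq (sbd_smp g c))
    have n2 := null_prH (φ := f ∘ g) hc h0' h1'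
    have e : smp (f ∘ g) c = smp f (smp g c) := funext fun n => (mp_mp g f (c n)).symm
    refine ⟨a, smp f b - sq (prH R H') c, (hb.smp hf hfm).sub (hc.prH hH' hm'),
      (((n1.smp' f).sub n2).sub (hc'.sq (prH R H'))).of_eq ?_⟩
    rw [e, map_sub, map_sub, map_sub, smp_smul', sbd_smp]
    abel
  · have n2 := null_prH (φ := g ∘ f) h.fine h0 h1
    have e : smp (g ∘ f) z = smp g (smp f z) := funext fun n => (mp_mp f g (z n)).symm
    refine h.free a (smp g b - a • sq (prH R H) z) ((hb.smp hg hgm).sub ((h.fine.prH hH hm).smul a))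
      ((((h'.smp' g).sub (n2.smul a)).sub ((h.cyc.sq (prH R H)).smul a)).of_eq ?_)
    rw [e, map_sub, map_sub, smp_smul', sbd_smp, sbd_smul']
    module
/-- in an acyclic space, `RGen` is `Gen1` of the boundary -/
theorem rgen_iff (hX : Ac R (univ : Set X)) {K : Set X} {k : ℕ} {μ : Sq R X} (hf : Fine univ μ)
    (hl : Len (k + 1) μ) : RGen K (k + 1) μ ↔ Gen1 Kᶜ k (sbd μ) := by
  constructor
  · intro h
    refine ⟨h.cyc, hl.sbd, null_sbd_sbd μ, fun c hc hc' => ?_, fun a b hb h' => ?_⟩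
    · obtain ⟨d, hd, n1⟩ := hX c (hc.mono (subset_univ _)) hc'
      obtain ⟨a, b, -, h2⟩ := h.gen d hd (hc.congr n1)
      exact ⟨a, _, h2, n1.of_eq (by rw [map_sub, map_sub, sbd_sbd, sbd_smul']; abel)⟩
    · obtain ⟨e, he, n1⟩ := hX (a • μ - b) ((hf.smul a).sub (hb.mono (subset_univ _)))
        (h'.of_eq (by rw [map_sub, sbd_smul']))
      exact h.free a e he (hb.congr (n1.neg.of_eq (by abel)))
  · intro h
    refine ⟨hf, hl, h.fine, fun c hc hc' => ?_, fun a b _ h' => ?_⟩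
    · obtain ⟨a, b, hb, n1⟩ := h.gen _ hc' (null_sbd_sbd c)
      obtain ⟨e, he, n2⟩ := hX (c - a • μ - b) ((hc.sub (hf.smul a)).sub (hb.mono (subset_univ _)))
        (n1.of_eq (by rw [map_sub, map_sub, sbd_smul']))
      exact ⟨a, e, he, hb.congr (n2.neg.of_eq (by abel))⟩
    · refine h.free a _ h' (Eventually.of_forall fun n => ?_)
      rw [map_sub, sbd_sbd, sbd_smul', sub_zero, sub_self]
      rfl
theorem Gen1.exists_rgen (hX : Ac R (univ : Set X)) {K : Set X} {k : ℕ} {z : Sq R X}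
    (h : Gen1 Kᶜ k z) : ∃ μ : Sq R X, RGen K (k + 1) μ ∧ Null (sbd μ - z) := by
  obtain ⟨μ, hμ, hl, n1⟩ := hX.fill_len (h.fine.mono (subset_univ _)) h.len h.cyc
  exact ⟨μ, (rgen_iff hX hμ hl).2 (gen1_congr h hl.sbd n1), n1.neg.of_eq (by abel)⟩
theorem Gen1.congr {U : Set X} {k : ℕ} {z z' : Sq R X} (h : Gen1 U k z) (hl : Len k z')
    (hz : Null (z - z')) : Gen1 U k z' := by
  exact gen1_congr h hl hz
/-- changing the generator by boundaries and chains away from `K` -/
theorem RGen.congr {K : Set X} {k : ℕ} {μ μ' b : Sq R X} (h : RGen K k μ) (hf : Fine univ μ')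
    (hl : Len k μ') (hb : Fine univ b) (h' : Fine Kᶜ (μ - μ' - sbd b)) : RGen K k μ' := by
  refine ⟨hf, hl, (h.cyc.sub h'.sbd).of_eq (by rw [map_sub, map_sub, sbd_sbd]; abel), fun c hc hc' => ?_,
    fun a b1 hb1 h1 => ?_⟩
  · obtain ⟨a, b1, hb1, h1⟩ := h.gen c hc hc'
    exact ⟨a, b1 + a • b, hb1.add (hb.smul a),
      (h1.add (h'.smul a)).of_eq (by rw [map_add, sbd_smul']; module)⟩
  · exact h.free a (b1 + a • b) (hb1.add (hb.smul a))
      ((h1.add (h'.smul a)).of_eq (by rw [map_add, sbd_smul']; module))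
/-- mod 2 the generator is unique -/
theorem RGen.unique {K : Set X} {k : ℕ} {μ μ' : Sq (ZMod 2) X} (h : RGen K k μ) (h' : RGen K k μ') :
    ∃ b, Fine univ b ∧ Fine Kᶜ (μ - μ' - sbd b) := by
  obtain ⟨a, b, hb, h1⟩ := h'.gen μ h.fine h.cyc
  have e : (1 - a) * a = 0 := funext fun n => by
    change (1 - a n) * a n = 0
    generalize a n = t
    revert t
    decide
  have h2 := h.free (1 - a) ((1 - a) • b) (hb.smul _) ((h1.smul (1 - a)).of_eq (by
    rw [smul_sub, smul_sub, smul_smul, e, zero_smul, sub_zero, sbd_smul']))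
  refine ⟨b, hb, h1.congr ?_⟩
  filter_upwards [h2] with n hn
  have : a n = 1 := (sub_eq_zero.1 hn).symm
  simp [this]
/-- relative cycles of another length are null -/
theorem RGen.null_of_len {K : Set X} {k k' : ℕ} {μ c : Sq R X} (h : RGen K k μ) (hk : k ≠ k')
    (hc : Fine univ c) (hl : Len k' c) (hb : Fine Kᶜ (sbd c)) :
    ∃ b, Fine univ b ∧ Fine Kᶜ (c - sbd b) := by
  obtain ⟨a, b, hb', h1⟩ := h.gen c hc hb
  refine ⟨part (k' + 1) b, hb'.part _, (h1.part k').of_eq ?_⟩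
  rw [part_sub, part_sub, part_smul, hl.part_eq, h.len.part_ne hk.symm, smul_zero, sub_zero, part_sbd]

end Crest.Agent.R224
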