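import Crest.Agent.R224.AGeo0

/-! The universal cover as a `Geo`, and the coarse projection. -/

set_option autoImplicit false
open Filter Topology Set
open scoped Pointwise

namespace Crest.Agent.R224


/-- Plan: choose in every orbit a representative in the compact set `K₀ ∪ {e₀}` (the orbit of `e₀` represented by `e₀`),
`π (g • rep) = g`.  `near`: `K₁` a compact neighbourhood of `K₀`, `⋃ g, g • int K₁ ×ˢ g • int K₁`. -/
theorem Geo.exists_prj {Γ E : Type} [Group Γ] [TopologicalSpace E] [MulAction Γ E] (h : Geo Γ E)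
    (G : Gen Γ) : Nonempty (Prj E G) := by
  classical
  have := h.t2
  have := h.lc
  have := h.contr
  obtain ⟨e₀⟩ : Nonempty E := inferInstance
  obtain ⟨K₀, hK₀, hco⟩ := h.cocpt
  have hfree : ∀ (a b : Γ) (y : E), a • y = b • y → a = b := fun a b y e =>
    (inv_mul_eq_one.1 (h.free (b⁻¹ * a) y (by rw [mul_smul, e, inv_smul_smul]))).symm
  have hex : ∀ q : MulAction.orbitRel.Quotient Γ E, ∃ y, Quotient.mk _ y = q ∧ y ∈ insert e₀ K₀ ∧
      (q = Quotient.mk _ e₀ → y = e₀) := by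
    intro q
    by_cases hq : q = Quotient.mk _ e₀
    · exact ⟨e₀, hq.symm, mem_insert _ _, fun _ => rfl⟩
    · obtain ⟨x, rfl⟩ := Quotient.exists_rep q
      obtain ⟨g, y, hy, rfl⟩ := hco x
      exact ⟨y, Eq.symm (Quotient.sound ⟨g, rfl⟩), mem_insert_of_mem _ hy, fun h => absurd h hq⟩
  choose rep hrep hrepK hrep₀ using hex
  have hπ : ∀ x : E, ∃ g : Γ, g • rep (Quotient.mk _ x) = x := fun x =>
    Quotient.exact (hrep (Quotient.mk _ x)).symm
  choose π hπ using hπ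
  have hK₁ : IsCompact (insert e₀ K₀) := hK₀.insert e₀
  obtain ⟨K₃, hK₃, hsub⟩ := exists_compact_superset hK₁
  obtain ⟨b, hb⟩ := ((h.proper K₃ hK₃).image G.len).bddAbove
  refine ⟨⟨π, e₀, ?_, fun g x => ?_, fun K hK => ?_, fun r => ?_, b + b, ?_⟩⟩
  · have := hπ e₀
    rw [hrep₀ _ rfl] at this
    exact h.free _ _ this
  · have h1 := hπ (g • x)
    have h2 : (Quotient.mk _ (g • x) : MulAction.orbitRel.Quotient Γ E) = Quotient.mk _ x :=
      Quotient.sound ⟨g, rfl⟩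
    rw [h2] at h1
    refine hfree _ _ (rep (Quotient.mk _ x)) ?_
    rw [h1, mul_smul, hπ]
  · refine (h.proper _ (hK.union hK₁)).subset ?_
    rintro _ ⟨x, hx, rfl⟩
    exact ⟨x, ⟨_, Or.inr (hrepK _), hπ x⟩, Or.inl hx⟩
  · refine ⟨⋃ g ∈ G.ball 1 r, (fun x : E => g • x) '' insert e₀ K₀,
      (G.finite_ball 1 r).isCompact_biUnion fun g _ => hK₁.image (h.cont g), fun x hx => ?_⟩
    exact mem_iUnion₂.2 ⟨π x, hx, _, hrepK _, hπ x⟩
  · rw [mem_nhdsSet_iff_forall]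
    rintro ⟨x, x'⟩ (rfl : x = x')
    have h1 : (fun y : E => (π x)⁻¹ • y) ⁻¹' K₃ ∈ 𝓝 x := by
      refine (h.cont _).continuousAt.preimage_mem_nhds (mem_interior_iff_mem_nhds.1 (hsub ?_))
      have h2 : (π x)⁻¹ • x = rep (Quotient.mk _ x) := by rw [inv_smul_eq_iff, hπ]
      rw [h2]
      exact hrepK _
    have h2 : ∀ y : E, (π x)⁻¹ • y ∈ K₃ → G.D (π x) (π y) ≤ b := fun y hy =>
      hb ⟨(π x)⁻¹ * π y, ⟨_, ⟨_, interior_subset (hsub (hrepK (Quotient.mk _ y))), by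
        change ((π x)⁻¹ * π y) • _ = _
        rw [mul_smul, hπ]⟩, hy⟩, rfl⟩
    refine mem_of_superset (prod_mem_nhds h1 h1) fun q hq => ?_
    refine (G.D_tri _ (π x) _).trans (add_le_add ?_ (h2 _ hq.2))
    rw [G.D_comm]
    exact h2 _ hq.1

/-- neighbourhoods of finite sets have relatively compact preimage -/
theorem Prj.cpt_N {Γ E : Type} [Group Γ] [TopologicalSpace E] [MulAction Γ E] (h : Geo Γ E)
    {G : Gen Γ} (p : Prj E G) {A : Set Γ} (hA : A.Finite) :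
    ∃ K : Set E, IsCompact K ∧ p.π ⁻¹' A ⊆ K := by
  obtain ⟨r, hr⟩ := (hA.image G.len).bddAbove
  obtain ⟨K, hK, hKr⟩ := p.cpt r
  refine ⟨K, hK, fun x hx => hKr ?_⟩
  change G.D 1 (p.π x) ≤ r
  rw [G.D_one]
  exact hr ⟨_, hx, rfl⟩

/-- `π⁻¹ (N c₀ (π L))` is a neighbourhood of `L` -/
theorem Prj.nhds {Γ E : Type} [Group Γ] [TopologicalSpace E] [MulAction Γ E]
    {G : Gen Γ} (p : Prj E G) (L : Set E) : p.π ⁻¹' G.N p.c₀ (p.π '' L) ∈ 𝓝ˢ L := by
  rw [mem_nhdsSet_iff_forall]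
  intro x hx
  have h1 := (Continuous.prodMk_right x).continuousAt.preimage_mem_nhds
    (mem_nhdsSet_iff_forall.1 p.near (x, x) rfl)
  exact mem_of_superset h1 fun y hy => ⟨p.π x, ⟨x, hx, rfl⟩, hy⟩

end Crest.Agent.R224
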