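import Crest.Agent.R224.Basic0

/-! Word metric API. -/

set_option autoImplicit false
open Filter Topology Set MeasureTheory
open scoped Pointwise

namespace Crest.Agent.R224

namespace Gen
variable {Γ : Type} [Group Γ] (G : Gen Γ)

variable {G} in
theorem Chain.mono {s s' : ℕ} {A B : Set Γ} {x y : Γ} (h : G.Chain s A x y) (hs : s ≤ s')
    (hA : A ⊆ B) : G.Chain s' B x y := by
  unfold Chain at h ⊢
  induction h with
  | refl => exact Relation.ReflTransGen.refl
  | tail _ hbc ih =>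
    exact Relation.ReflTransGen.tail ih ⟨hA hbc.1, hA hbc.2.1, hbc.2.2.trans hs⟩
variable {G} in
theorem Chain.symm {s : ℕ} {A : Set Γ} {x y : Γ} (h : G.Chain s A x y) : G.Chain s A y x := by
  unfold Chain at h ⊢
  induction h with
  | refl => exact Relation.ReflTransGen.refl
  | tail _ hbc ih =>
    exact Relation.ReflTransGen.head ⟨hbc.2.1, hbc.1, by rw [G.D_comm]; exact hbc.2.2⟩ ih
variable {G} in
theorem Chain.trans {s : ℕ} {A : Set Γ} {x y z : Γ} (h : G.Chain s A x y) (h' : G.Chain s A y z) :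
    G.Chain s A x z :=
  Relation.ReflTransGen.trans h h'
variable {G} in
theorem Chain.mem {s : ℕ} {A : Set Γ} {x y : Γ} (h : G.Chain s A x y) (hx : x ∈ A) : y ∈ A := by
  unfold Chain at h
  induction h with
  | refl => exact hx
  | tail _ hbc _ => exact hbc.2.1
variable {G} in
theorem Chain.smul {s : ℕ} {A : Set Γ} {x y : Γ} (h : G.Chain s A x y) (g : Γ) :
    G.Chain s (g • A) (g * x) (g * y) := by
  unfold Chain at h ⊢
  induction h with
  | refl => exact Relation.ReflTransGen.refl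
  | tail _ hbc ih =>
    exact Relation.ReflTransGen.tail ih
      ⟨⟨_, hbc.1, rfl⟩, ⟨_, hbc.2.1, rfl⟩, by rw [G.D_mul_left]; exact hbc.2.2⟩
/-- geodesics as chains -/
theorem chain_geod (x y : Γ) : G.Chain 1 {z | G.D x z + G.D z y = G.D x y} x y := by
  obtain ⟨p, hp0, hpn, hstep, hd⟩ := G.exists_geod x y
  have hm : ∀ i ≤ G.D x y, p i ∈ {z | G.D x z + G.D z y = G.D x y} := by
    intro i hi
    obtain ⟨h1, h2⟩ := hd i hi
    show G.D x (p i) + G.D (p i) y = G.D x y
    omega
  have : ∀ i ≤ G.D x y, G.Chain 1 {z | G.D x z + G.D z y = G.D x y} x (p i) := by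
    intro i
    induction i with
    | zero =>
      intro _
      rw [hp0]
      exact Relation.ReflTransGen.refl
    | succ i ih =>
      intro hi
      exact Relation.ReflTransGen.tail (ih (by omega)) ⟨hm i (by omega), hm (i + 1) hi, hstep i⟩
  have h := this _ le_rfl
  rwa [hpn] at h
variable {G} in
/-- a 1-chain that avoids the wall does not change sides -/
theorem Chain.side {A V : Set Γ} {x y : Γ} (h : G.Chain 1 A x y) (hA : Disjoint A (G.wall V)) :
    x ∈ V ↔ y ∈ V := by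
  unfold Chain at h
  induction h with
  | refl => exact Iff.rfl
  | @tail b c _ hbc ih =>
    refine ih.trans ?_
    by_contra hne
    exact Set.disjoint_left.1 hA hbc.1 ⟨c, hbc.2.2, hne⟩
/-- two points on different sides: there is a wall vertex on a geodesic -/
theorem exists_wall_of_cross {V : Set Γ} {x y : Γ} (h : cross V x y) :
    ∃ z ∈ G.wall V, G.D x z + G.D z y = G.D x y := by
  by_contra hne
  push Not at hne
  refine h ((G.chain_geod x y).side ?_)
  rw [Set.disjoint_left]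
  intro z hz hw
  exact hne z hw hz
@[simp] theorem wall_compl (V : Set Γ) : G.wall Vᶜ = G.wall V := by
  ext x
  simp only [wall, cross, mem_ofPred_eq, mem_compl_iff, not_iff_not]
theorem mem_wall_right {V : Set Γ} {x y : Γ} (hd : G.D x y ≤ 1) (h : cross V x y) :
    y ∈ G.wall V :=
  ⟨x, by rw [G.D_comm]; exact hd, fun h' => h h'.symm⟩
theorem wall_inter (V W : Set Γ) :
    G.wall (V ∩ W) ⊆ G.N 1 ((G.wall V ∩ W) ∪ (G.wall W ∩ V)) := by
  rintro x ⟨y, hd, hc⟩
  have hd' : G.D y x ≤ 1 := by rw [G.D_comm]; exact hd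
  by_cases hx : x ∈ V ∩ W
  · have hy : y ∉ V ∩ W := fun hy => hc ⟨fun _ => hy, fun _ => hx⟩
    refine ⟨x, ?_, by simp⟩
    by_cases hyV : y ∈ V
    · have hyW : y ∉ W := fun h => hy ⟨hyV, h⟩
      exact Or.inr ⟨⟨y, hd, fun h => hyW (h.1 hx.2)⟩, hx.1⟩
    · exact Or.inl ⟨⟨y, hd, fun h => hyV (h.1 hx.1)⟩, hx.2⟩
  · have hy : y ∈ V ∩ W := by
      by_contra hy
      exact hc ⟨fun h => absurd h hx, fun h => absurd h hy⟩
    refine ⟨y, ?_, hd'⟩
    by_cases hxV : x ∈ V
    · have hxW : x ∉ W := fun h => hx ⟨hxV, h⟩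
      exact Or.inr ⟨⟨x, hd', fun h => hxW (h.1 hy.2)⟩, hy.1⟩
    · exact Or.inl ⟨⟨x, hd', fun h => hxV (h.1 hy.1)⟩, hy.2⟩
theorem wall_inter' (V W : Set Γ) : G.wall (V ∩ W) ⊆ G.wall V ∪ G.wall W := by
  rintro x ⟨y, hd, hc⟩
  by_contra hx
  simp only [mem_union, not_or] at hx
  have h1 : x ∈ V ↔ y ∈ V := by
    by_contra h
    exact hx.1 ⟨y, hd, h⟩
  have h2 : x ∈ W ↔ y ∈ W := by
    by_contra h
    exact hx.2 ⟨y, hd, h⟩
  exact hc (by simp only [mem_inter_iff, h1, h2])
theorem wall_symmDiff (V W : Set Γ) : G.wall (symmDiff V W) ⊆ G.wall V ∪ G.wall W := by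
  rintro x ⟨y, hd, hc⟩
  by_contra hx
  simp only [mem_union, not_or] at hx
  have h1 : x ∈ V ↔ y ∈ V := by
    by_contra h
    exact hx.1 ⟨y, hd, h⟩
  have h2 : x ∈ W ↔ y ∈ W := by
    by_contra h
    exact hx.2 ⟨y, hd, h⟩
  exact hc (by simp only [Set.mem_symmDiff, h1, h2])
theorem wall_subset_of_symmDiff (V W : Set Γ) :
    G.wall W ⊆ G.wall V ∪ G.N 1 (symmDiff V W) := by
  rintro x ⟨y, hd, hc⟩
  by_cases hx : x ∈ symmDiff V W
  · exact Or.inr ⟨x, hx, by simp⟩
  by_cases hy : y ∈ symmDiff V W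
  · exact Or.inr ⟨y, hy, by rw [G.D_comm]; exact hd⟩
  refine Or.inl ⟨y, hd, fun h => hc ?_⟩
  simp only [Set.mem_symmDiff] at hx hy
  tauto
theorem wall_subset_N (V : Set Γ) : G.wall V ⊆ G.N 1 (G.wall V ∩ V) := by
  rintro x ⟨y, hd, hc⟩
  by_cases hx : x ∈ V
  · exact ⟨x, ⟨⟨y, hd, hc⟩, hx⟩, by simp⟩
  · have hy : y ∈ V := by
      by_contra hy
      exact hc ⟨fun h => absurd h hx, fun h => absurd h hy⟩
    exact ⟨y, ⟨G.mem_wall_right hd hc, hy⟩, by rw [G.D_comm]; exact hd⟩
theorem smul_wall (g : Γ) (V : Set Γ) : G.wall (g • V) = g • G.wall V := by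
  ext x
  rw [Set.mem_smul_set_iff_inv_smul_mem]
  simp only [wall, cross, mem_ofPred_eq, Set.mem_smul_set_iff_inv_smul_mem, smul_eq_mul]
  constructor
  · rintro ⟨y, hd, hc⟩
    exact ⟨g⁻¹ * y, by rw [G.D_mul_left]; exact hd, hc⟩
  · rintro ⟨y, hd, hc⟩
    refine ⟨g * y, ?_, by simpa using hc⟩
    rw [← G.D_mul_left g] at hd
    simpa using hd
theorem wall_eq_empty {V : Set Γ} (h : G.wall V = ∅) : V = ∅ ∨ V = univ := by
  have key : ∀ x y, x ∈ V → y ∈ V := by
    intro x y hx
    by_contra hy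
    obtain ⟨z, hz, -⟩ := G.exists_wall_of_cross (V := V) (x := x) (y := y) (fun h' => hy (h'.1 hx))
    rw [h] at hz
    exact hz
  rcases V.eq_empty_or_nonempty with hV | ⟨x, hx⟩
  · exact Or.inl hV
  · exact Or.inr (Set.eq_univ_of_forall fun y => key x y hx)
variable {G} in
theorem Clus.mono {s r r' : ℕ} {A B : Set Γ} (h : G.Clus s r B) (hA : A ⊆ B) (hr : r ≤ r') :
    G.Clus s r' A :=
  fun x y hxy => (h x y (hxy.mono le_rfl hA)).trans hr
variable {G} in
/-- discrete intermediate values along a chain -/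
theorem Chain.ivtB {s : ℕ} {A : Set Γ} {x y : Γ} (h : G.Chain s A x y) (m : ℕ) (hm : m < G.D x y) :
    ∃ z ∈ A, G.D x z ≤ m ∧ m < G.D x z + s := by
  unfold Chain at h
  induction h with
  | refl => simp at hm
  | @tail b c _ hbc ih =>
    by_cases hb : m < G.D x b
    · exact ih hb
    · refine ⟨b, hbc.1, by omega, ?_⟩
      have h1 := G.D_tri x b c
      have h2 := hbc.2.2
      omega
/-- a set with at most `T` points in each ball of radius `T * s` has bounded clusters.
Plan: if a chain from `x` leaves `ball x (T*s)`, then for each `i = 0..T` it has a point at distance in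
`((i-1) s, i s]` from `x` (i = 0: `x` itself): `T + 1` points in the ball. -/
theorem clus_of_sparse {s T : ℕ} {K : Set Γ} (h : ∀ v, (K ∩ G.ball v (T * s)).encard ≤ T) :
    G.Clus s (T * s) K := by
  intro x y hxy
  by_contra hlt
  push Not at hlt
  have hex : ∀ i : Fin (T + 1), ∃ z ∈ K, G.D x z ≤ i * s ∧ i * s < G.D x z + s := by
    intro i
    refine hxy.ivtB _ (lt_of_le_of_lt ?_ hlt)
    exact Nat.mul_le_mul_right s (Nat.lt_succ_iff.1 i.2)
  choose z hzK hz1 hz2 using hex
  have hlt' : ∀ i j : Fin (T + 1), (i : ℕ) < j → z i ≠ z j := by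
    intro i j hij he
    have h1 := hz1 i
    have h2 := hz2 j
    rw [he] at h1
    have h3 : ((i : ℕ) + 1) * s ≤ j * s := Nat.mul_le_mul_right s hij
    rw [Nat.succ_mul] at h3
    omega
  have hinj : Function.Injective z := by
    intro i j he
    rcases lt_trichotomy (i : ℕ) j with hij | hij | hij
    · exact absurd he (hlt' i j hij)
    · exact Fin.ext hij
    · exact absurd he.symm (hlt' j i hij)
  have hsub : range z ⊆ K ∩ G.ball x (T * s) := by
    rintro _ ⟨i, rfl⟩
    exact ⟨hzK i, (hz1 i).trans (Nat.mul_le_mul_right s (Nat.lt_succ_iff.1 i.2))⟩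
  have h1 := hinj.encard_range.trans ((Set.encard_le_encard hsub).trans (h x))
  simp only [ENat.card_eq_coe_fintype_card, Fintype.card_fin] at h1
  have h2 : T + 1 ≤ T := by exact_mod_cast h1
  omega
theorem clus_of_encard {s T : ℕ} {K : Set Γ} (h : K.encard ≤ T) : G.Clus s (T * s) K :=
  G.clus_of_sparse fun _ => (Set.encard_le_encard Set.inter_subset_left).trans h

end Gen
end Crest.Agent.R224
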