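import Crest.Agent.R224.ADefs
import Crest.Agent.R224.Basic
import Crest.Prelude.Def_ClassifyingComplex

/-! The universal cover as a `Geo`, and the coarse projection. -/

set_option autoImplicit false
open Filter Topology Set
open scoped Pointwise

namespace Crest.Agent.R224

/-- deck transformations -/
def deckGrp {E M : Type} [TopologicalSpace E] (p : E → M) : Subgroup (Equiv.Perm E) where
  carrier := {φ | Continuous φ ∧ Continuous φ.symm ∧ ∀ e, p (φ e) = p e}
  mul_mem' := fun {a b} ha hb => ⟨ha.1.comp hb.1, hb.2.1.comp ha.2.1, fun e => by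
    rw [Equiv.Perm.mul_apply, ha.2.2, hb.2.2]⟩
  one_mem' := ⟨continuous_id, continuous_id, fun _ => rfl⟩
  inv_mem' := fun {a} ha => ⟨ha.2.1, ha.1, fun e => by
    rw [← ha.2.2 (a⁻¹ e)]; simp⟩

theorem deckGrp_isQuot {E M : Type} [TopologicalSpace E] [TopologicalSpace M] {p : E → M}
    [SimplyConnectedSpace E] [LocallyPathConnectedSpace E] (hp : IsCoveringMap p)
    (hs : Function.Surjective p) : IsQuotientCoveringMap p (deckGrp p) := by
  rw [isQuotientCoveringMap_iff_isCoveringMap_and]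
  refine ⟨hp, hs, ⟨fun g => g.2.1⟩, ?_, ?_⟩
  · rw [isCancelSMul_iff_eq_one_of_smul_eq]
    intro g e he
    apply Subtype.ext
    apply Equiv.ext
    have := hp.eq_of_comp_eq (g₁ := fun e => g.1 e) (g₂ := id) g.2.1 continuous_id
      (funext fun e => g.2.2.2 e) e he
    exact fun x => congrFun this x
  · intro e₁ e₂
    constructor
    · intro h
      obtain ⟨F, ⟨hF0, hF⟩, -⟩ :=
        hp.existsUnique_continuousMap_lifts ⟨p, hp.continuous⟩ e₂ e₁ h
      obtain ⟨F', ⟨hF0', hF'⟩, -⟩ :=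
        hp.existsUnique_continuousMap_lifts ⟨p, hp.continuous⟩ e₁ e₂ h.symm
      have h1 : ∀ e, p (F e) = p e := fun e => congrFun hF e
      have h2 : ∀ e, p (F' e) = p e := fun e => congrFun hF' e
      have i1 : (fun e => F' (F e)) = id :=
        hp.eq_of_comp_eq (F'.continuous.comp F.continuous) continuous_id
          (funext fun e => (h2 _).trans (h1 e)) e₂ (by simp [hF0, hF0'])
      have i2 : (fun e => F (F' e)) = id :=
        hp.eq_of_comp_eq (F.continuous.comp F'.continuous) continuous_id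
          (funext fun e => (h1 _).trans (h2 e)) e₁ (by simp [hF0, hF0'])
      exact ⟨⟨⟨F, F', fun e => congrFun i1 e, fun e => congrFun i2 e⟩, F.continuous, F'.continuous,
        h1⟩, hF0⟩
    · rintro ⟨g, rfl⟩
      exact g.2.2.2 e₂

theorem cover_chart {E M : Type} [TopologicalSpace E] [TopologicalSpace M] {p : E → M}
    [ChartedSpace (EuclideanSpace ℝ (Fin 4)) M] (hp : IsLocalHomeomorph p) (x : E) :
    ∃ j : (Fin 4 → ℝ) → E, IsOpenEmbedding j ∧ x ∈ range j := by
  obtain ⟨φ, hx, hφ⟩ := hp x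
  let ψ := φ.trans (chartAt (EuclideanSpace ℝ (Fin 4)) (p x))
  have hxψ : x ∈ ψ.source := by
    refine ⟨hx, ?_⟩
    change φ x ∈ (chartAt (EuclideanSpace ℝ (Fin 4)) (p x)).source
    rw [← hφ]
    exact mem_chart_source _ _
  obtain ⟨r, hr, hb⟩ := Metric.isOpen_iff.1 ψ.open_target _ (ψ.map_source hxψ)
  let u : OpenPartialHomeomorph (EuclideanSpace ℝ (Fin 4)) (EuclideanSpace ℝ (Fin 4)) :=
    OpenPartialHomeomorph.univBall (ψ x) r
  have hu : u.source = univ := OpenPartialHomeomorph.univBall_source _ _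
  have hut : u.target = Metric.ball (ψ x) r := OpenPartialHomeomorph.univBall_target _ hr
  have h1 : (u.trans ψ.symm).source = univ := by
    rw [OpenPartialHomeomorph.trans_source, hu, univ_inter]
    refine eq_univ_of_forall fun v => hb ?_
    rw [← hut]
    exact u.map_source (hu ▸ mem_univ v)
  have h2 := (u.trans ψ.symm).isOpenEmbedding h1
  let q : (Fin 4 → ℝ) ≃ₜ EuclideanSpace ℝ (Fin 4) := (EuclideanSpace.equiv (Fin 4) ℝ).symm.toHomeomorph
  refine ⟨_, h2.comp q.isOpenEmbedding, q.symm 0, ?_⟩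
  simp only [Function.comp_apply, Homeomorph.apply_symm_apply, OpenPartialHomeomorph.coe_trans]
  rw [OpenPartialHomeomorph.univBall_apply_zero]
  exact ψ.left_inv hxψ

theorem lc_of_chart {E : Type} [TopologicalSpace E]
    (h : ∀ x : E, ∃ j : (Fin 4 → ℝ) → E, IsOpenEmbedding j ∧ x ∈ range j) :
    LocallyCompactSpace E := by
  refine ⟨fun x U hU => ?_⟩
  obtain ⟨j, hj, v, rfl⟩ := h x
  obtain ⟨s, hs, hsU, hc⟩ := local_compact_nhds (hj.continuous.continuousAt.preimage_mem_nhds hU)
  exact ⟨j '' s, hj.image_mem_nhds.2 hs, image_subset_iff.2 hsU, hc.image hj.continuous⟩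

theorem lpc_of_chart {E : Type} [TopologicalSpace E]
    (h : ∀ x : E, ∃ j : (Fin 4 → ℝ) → E, IsOpenEmbedding j ∧ x ∈ range j) :
    LocallyPathConnectedSpace E := by
  refine ⟨fun x => ⟨fun U => ⟨fun hU => ?_, fun ⟨s, hs, hsU⟩ => mem_of_superset hs.1 hsU⟩⟩⟩
  obtain ⟨j, hj, v, rfl⟩ := h x
  obtain ⟨s, ⟨hs, hc⟩, hsU⟩ := (path_connected_basis v).mem_iff.1
    (hj.continuous.continuousAt.preimage_mem_nhds hU)
  exact ⟨j '' s, ⟨hj.image_mem_nhds.2 hs, hc.image hj.continuous⟩, image_subset_iff.2 hsU⟩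

theorem t2_of_cover {E M : Type} [TopologicalSpace E] [TopologicalSpace M] [T2Space M] {p : E → M}
    (hp : IsCoveringMap p) : T2Space E := by
  refine ⟨fun a b hab => ?_⟩
  by_cases h : p a = p b
  · exact hp.isSeparatedMap a b h hab
  · obtain ⟨u, v, hu, hv, ha, hb, huv⟩ := t2_separation h
    exact ⟨p ⁻¹' u, p ⁻¹' v, hu.preimage hp.continuous, hv.preimage hp.continuous, ha, hb,
      huv.preimage p⟩

theorem proper_of_quot {E M D : Type} [TopologicalSpace E] [TopologicalSpace M] [T2Space M]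
    [Group D] [MulAction D E] {p : E → M} (hp : IsQuotientCoveringMap p D) (K : Set E)
    (hK : IsCompact K) : {g : D | (g • K ∩ K).Nonempty}.Finite := by
  have := hp.toContinuousConstSMul
  have key : {g : D | ∃ q ∈ K ×ˢ K, g • q.1 = q.2}.Finite := by
    refine (hK.prod hK).induction_on (p := fun S => {g : D | ∃ q ∈ S, g • q.1 = q.2}.Finite)
      (by simp) (fun s t hst ht => ht.subset fun g ⟨q, hq, h⟩ => ⟨q, hst hq, h⟩)
      (fun s t hs ht => (hs.union ht).subset ?_) ?_
    · rintro g ⟨q, hq | hq, h⟩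
      exacts [Or.inl ⟨q, hq, h⟩, Or.inr ⟨q, hq, h⟩]
    · rintro ⟨a, b⟩ -
      by_cases h : p b = p a
      · obtain ⟨g₀, rfl⟩ := hp.apply_eq_iff_mem_orbit.1 h
        obtain ⟨U, hU, hUd⟩ := hp.disjoint a
        refine ⟨U ×ˢ ((g₀⁻¹ • ·) ⁻¹' U), mem_nhdsWithin_of_mem_nhds (prod_mem_nhds hU ?_),
          (finite_singleton g₀).subset ?_⟩
        · refine (continuous_const_smul g₀⁻¹).continuousAt.preimage_mem_nhds ?_
          simpa using hU
        · rintro g ⟨⟨u, v⟩, ⟨hu, hv⟩, huv⟩
          obtain rfl : g • u = v := huv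
          have := hUd (g₀⁻¹ * g) ⟨(g₀⁻¹ * g) • u, ⟨u, hu, rfl⟩, by simpa [mul_smul] using hv⟩
          exact (inv_mul_eq_one.1 this).symm
      · obtain ⟨u, v, hu, hv, ha, hb, huv⟩ := t2_separation h
        refine ⟨(p ⁻¹' v) ×ˢ (p ⁻¹' u), mem_nhdsWithin_of_mem_nhds (prod_mem_nhds
          ((hv.preimage hp.continuous).mem_nhds hb) ((hu.preimage hp.continuous).mem_nhds ha)),
          finite_empty.subset ?_⟩
        rintro g ⟨⟨x, y⟩, ⟨hx, hy⟩, hxy⟩
        obtain rfl : g • x = y := hxy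
        have hy' : p (g • x) ∈ u := hy
        rw [hp.map_smul] at hy'
        exact huv.le_bot ⟨hy', hx⟩
  refine key.subset ?_
  rintro g ⟨y, ⟨x, hx, rfl⟩, hy⟩
  exact ⟨(x, g • x), ⟨hx, hy⟩, rfl⟩

theorem cocpt_of_quot {E M D : Type} [TopologicalSpace E] [TopologicalSpace M] [CompactSpace M]
    [LocallyCompactSpace E] [Group D] [MulAction D E] {p : E → M}
    (hp : IsQuotientCoveringMap p D) : ∃ K : Set E, IsCompact K ∧ ∀ x, ∃ g : D, x ∈ g • K := by
  have key : ∃ K : Set E, IsCompact K ∧ univ ⊆ p '' K := by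
    refine isCompact_univ.induction_on (p := fun S => ∃ K : Set E, IsCompact K ∧ S ⊆ p '' K)
      ⟨∅, isCompact_empty, empty_subset _⟩ (fun s t hst ⟨K, hK, h⟩ => ⟨K, hK, hst.trans h⟩)
      (fun s t ⟨K, hK, h⟩ ⟨L, hL, h'⟩ => ⟨K ∪ L, hK.union hL, by
        rw [image_union]; exact union_subset_union h h'⟩) ?_
    intro m _
    obtain ⟨e, rfl⟩ := hp.surjective m
    obtain ⟨K, hK, he⟩ := exists_compact_mem_nhds e
    exact ⟨p '' K, mem_nhdsWithin_of_mem_nhds (hp.isCoveringMap.isOpenMap.image_mem_nhds he), K, hK,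
      subset_rfl⟩
  obtain ⟨K, hK, h⟩ := key
  refine ⟨K, hK, fun x => ?_⟩
  obtain ⟨k, hk, hkx⟩ := h (mem_univ (p x))
  obtain ⟨g, hg⟩ := hp.apply_eq_iff_mem_orbit.1 hkx.symm
  exact ⟨g, k, hk, hg⟩

/-- Plan.  `p : E → M` covering, `E` contractible so simply connected; `E` is T2 (`IsCoveringMap.isSeparatedMap`), locally
compact and locally path connected (local homeomorphism to a manifold).  Charts: compose a chart of `M`, a local inverse of
`p`, a small ball (`OpenPartialHomeomorph.univBall` or `Homeomorph.unitBall`) and `EuclideanSpace ℝ (Fin 4) ≃ₜ (Fin 4 → ℝ)`.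
Fix `e₀` over `x`; for `γ` let `φ_γ` be the unique continuous lift of `p` with `e₀ ↦ monodromy γ⁻¹ e₀`
(`IsCoveringMap.existsUnique_continuousMap_lifts`); deck maps commute with monodromy, so this is an action (check the order; use
`γ` or `γ⁻¹` accordingly); free (uniqueness of lifts + injectivity of monodromy on the simply connected cover), transitive on
fibres; properness and cocompactness from evenly covered neighbourhoods and compactness of `M`. -/
theorem exists_geo (M : Type) [TopologicalSpace M] [T2Space M] [CompactSpace M] [ConnectedSpace M]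
    [ChartedSpace (EuclideanSpace ℝ (Fin 4)) M] (hM : Crest.Topology.HasContractibleCover M) (x : M) :
    ∃ (E : Type) (_ : TopologicalSpace E) (_ : MulAction (FundamentalGroup M x) E),
      Geo (FundamentalGroup M x) E := by
  obtain ⟨E, _, p, hE, hp, hs⟩ := hM
  have hch := cover_chart hp.isLocalHomeomorph
  have := lc_of_chart hch
  have := lpc_of_chart hch
  have hq := deckGrp_isQuot hp hs
  obtain ⟨e, he⟩ := hs x
  let φ : FundamentalGroup M x ≃* deckGrp p :=
    (hq.fundamentalGroupEquiv ⟨e, he⟩).trans (MulEquiv.inv' (deckGrp p)).symm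
  let act : MulAction (FundamentalGroup M x) E := MulAction.compHom E φ.toMonoidHom
  have hact : ∀ (g : FundamentalGroup M x) (y : E), g • y = φ g • y := fun _ _ => rfl
  have hactS : ∀ (g : FundamentalGroup M x) (K : Set E), g • K = φ g • K := fun _ _ => rfl
  refine ⟨E, _, act, t2_of_cover hp, inferInstance, hE, hch, fun g => (φ g).2.1, fun g y h => ?_,
    fun K hK => ?_, ?_⟩
  · have := hq.isCancelSMul
    rw [hact] at h
    exact φ.map_eq_one_iff.1 (isCancelSMul_iff_eq_one_of_smul_eq.1 this _ _ h)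
  · exact ((proper_of_quot hq K hK).preimage φ.injective.injOn).subset fun g hg => hg
  · obtain ⟨K, hK, h⟩ := cocpt_of_quot hq
    refine ⟨K, hK, fun y => ?_⟩
    obtain ⟨g, hg⟩ := h y
    exact ⟨φ.symm g, by rw [hactS, φ.apply_symm_apply]; exact hg⟩

end Crest.Agent.R224
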