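import Crest.Agent.R224.AGen

/-! Local homology of Euclidean space. -/

set_option autoImplicit false
open Filter Topology Set
open scoped Pointwise

namespace Crest.Agent.R224

variable {R : Type} [CommRing R]

/-- star shaped sets are acyclic -/
theorem ac_star {n : ℕ} {U : Set (Fin n → ℝ)} {y₀ : Fin n → ℝ} (hy : y₀ ∈ U)
    (h : ∀ x ∈ U, ∀ t ∈ Icc (0 : ℝ) 1, (1 - t) • x + t • y₀ ∈ U) : Ac R U :=
  ac_of_contraction (H := fun t x => (1 - t) • x + t • y₀) hy (Continuous.continuousOn (by fun_prop))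
    (fun t ht x hx => h x hx t ht) (fun x _ => by simp) (fun x _ => by simp)

/-- Plan: induction on `n`.  `n = 0`: `{0}ᶜ = ∅`.  In `Fin (n+1) → ℝ` let `U, V` be the complements of the closed
half axes `{x | tail x = 0, x 0 ≤ 0}`, `{x | tail x = 0, 0 ≤ x 0}`; they are star shaped (`ac_of_contraction`),
`U ∪ V = {0}ᶜ`, and `U ∩ V = {tail x ≠ 0}` is homotopy equivalent to `{0}ᶜ` in `Fin n → ℝ`. -/
theorem gen1_sphere (n : ℕ) : ∃ z : Sq R (Fin n → ℝ), Gen1 ({0}ᶜ : Set (Fin n → ℝ)) n z := by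
  induction n with
  | zero =>
    have : ({0}ᶜ : Set (Fin 0 → ℝ)) = ∅ := eq_empty_of_forall_notMem fun x hx => hx (Subsingleton.elim _ _)
    rw [this]
    exact ⟨_, gen1_empty⟩
  | succ n ih =>
    obtain ⟨z, hz⟩ := ih
    have ctail : Continuous fun x : Fin (n + 1) → ℝ => Fin.tail x := continuous_pi fun i => continuous_apply _
    have hop : ∀ s : ℝ, IsOpen {x : Fin (n + 1) → ℝ | Fin.tail x = 0 ∧ s * x 0 ≤ 0}ᶜ := fun s =>
      ((isClosed_eq ctail continuous_const).inter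
        (isClosed_le (continuous_const.mul (continuous_apply 0)) continuous_const)).isOpen_compl
    have hac : ∀ s : ℝ, s * s = 1 → Ac R {x : Fin (n + 1) → ℝ | Fin.tail x = 0 ∧ s * x 0 ≤ 0}ᶜ := fun s hs => by
      refine ac_star (y₀ := Fin.cons s 0) (fun h => ?_) fun x hx t ht h => hx ?_
      · have := h.2
        rw [Fin.cons_zero, hs] at this
        exact absurd this (by norm_num)
      · have h2 : (1 - t) * (s * x 0) + t ≤ 0 := by
          have := h.2
          simp only [Pi.add_apply, Pi.smul_apply, smul_eq_mul, Fin.cons_zero] at this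
          calc _ = s * ((1 - t) * x 0 + t * s) := by linear_combination (-t) * hs
            _ ≤ 0 := this
        have ht1 : 0 < 1 - t := by
          refine sub_pos.2 (lt_of_le_of_ne ht.2 ?_)
          rintro rfl
          norm_num at h2
        refine ⟨funext fun i => ?_, ?_⟩
        · have := congrFun h.1 i
          simp only [Fin.tail, Pi.add_apply, Pi.smul_apply, smul_eq_mul, Fin.cons_succ, Pi.zero_apply, mul_zero,
            add_zero] at this
          exact (mul_eq_zero.1 this).resolve_left ht1.ne'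
        · by_contra hc
          have := mul_pos ht1 (not_le.1 hc)
          linarith [ht.1]
    have e1 : {x : Fin (n + 1) → ℝ | Fin.tail x = 0 ∧ 1 * x 0 ≤ 0}ᶜ ∩
        {x : Fin (n + 1) → ℝ | Fin.tail x = 0 ∧ -1 * x 0 ≤ 0}ᶜ = {x | Fin.tail x ≠ 0} := by
      ext x
      simp only [mem_inter_iff, mem_compl_iff, mem_ofPred_eq, not_and, not_le]
      exact ⟨fun h h0 => by linarith [h.1 h0, h.2 h0], fun h => ⟨fun h0 => absurd h0 h, fun h0 => absurd h0 h⟩⟩
    have e2 : {x : Fin (n + 1) → ℝ | Fin.tail x = 0 ∧ 1 * x 0 ≤ 0}ᶜ ∪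
        {x : Fin (n + 1) → ℝ | Fin.tail x = 0 ∧ -1 * x 0 ≤ 0}ᶜ = {0}ᶜ := by
      rw [← compl_inter]
      congr 1
      ext x
      simp only [mem_inter_iff, mem_ofPred_eq, mem_singleton_iff]
      constructor
      · rintro ⟨⟨h1, h2⟩, -, h3⟩
        rw [← Fin.cons_self_tail x, h1, show x 0 = 0 by linarith]
        ext i
        refine Fin.cases rfl (fun _ => rfl) i
      · rintro rfl
        simp [Fin.tail, funext_iff]
    have h1 : Gen1 {x : Fin (n + 1) → ℝ | Fin.tail x ≠ 0} n (smp (fun y => Fin.cons 0 y) z) := by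
      refine hz.hequiv (g := fun x => Fin.tail x) (H := fun _ x => x)
        (H' := fun t x => Fin.cons ((1 - t) * x 0) (Fin.tail x)) (Continuous.continuousOn ?_)
        (fun y hy => ?_) ctail.continuousOn (fun x hx => hx) continuous_snd.continuousOn
        (fun _ _ => mapsTo_id _) (fun _ _ => rfl) (fun _ _ => by simp) (Continuous.continuousOn ?_)
        (fun t _ x hx => ?_) (fun x _ => by simp) (fun x _ => by simp)
      · exact continuous_pi fun i => Fin.cases continuous_const (fun i => continuous_apply i) i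
      · simpa using hy
      · refine continuous_pi fun i => Fin.cases ?_ (fun i => ?_) i
        · exact (continuous_const.sub continuous_fst).mul ((continuous_apply 0).comp continuous_snd)
        · exact show Continuous fun a : ℝ × (Fin (n + 1) → ℝ) => a.2 i.succ from by fun_prop
      · simpa using hx
    rw [← e1] at h1
    rw [← e2]
    exact h1.mv (hop 1) (hop (-1)) (hac 1 (by norm_num)) (hac (-1) (by norm_num))

/-- Plan: the radial homotopy `H t y = y + (t T / ‖y - x‖) • (y - x)` with `K ⊆ ball x T` preserves `{x}ᶜ` and `Kᶜ`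
(convexity), and `H 1` maps `{x}ᶜ` into `Kᶜ`.  So the inclusion `Kᶜ ⊆ {x}ᶜ` and `H 1` are homotopy inverse
(`Gen1.hequiv` with `f = id`, `smp id z = z`). -/
theorem gen1_convex {n k : ℕ} {K : Set (Fin n → ℝ)} (hK : IsCompact K) (hc : Convex ℝ K)
    {x : Fin n → ℝ} (hx : x ∈ K) :
    (∀ z : Sq R (Fin n → ℝ), Gen1 Kᶜ k z → Gen1 {x}ᶜ k z) ∧
    ∀ z : Sq R (Fin n → ℝ), Gen1 {x}ᶜ k z → ∃ z' : Sq R (Fin n → ℝ), Gen1 Kᶜ k z' := by
  obtain ⟨T, hT0, hT⟩ := hK.isBounded.subset_ball_lt 0 x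
  set H : ℝ → (Fin n → ℝ) → (Fin n → ℝ) := fun t y => y + (t * T / ‖y - x‖) • (y - x) with hH
  have hsub : Kᶜ ⊆ ({x}ᶜ : Set (Fin n → ℝ)) := compl_subset_compl.2 (singleton_subset_iff.2 hx)
  have e1 : ∀ t y, H t y - x = (1 + t * T / ‖y - x‖) • (y - x) := fun t y => by
    simp only [hH]
    module
  have hs : ∀ t ∈ Icc (0 : ℝ) 1, ∀ y, 0 ≤ t * T / ‖y - x‖ := fun t ht y =>
    div_nonneg (mul_nonneg ht.1 hT0.le) (norm_nonneg _)
  have hcont : ContinuousOn (fun p : ℝ × (Fin n → ℝ) => H p.1 p.2) (Icc 0 1 ×ˢ {x}ᶜ) := by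
    have c1 : ContinuousOn (fun p : ℝ × (Fin n → ℝ) => p.1 * T / ‖p.2 - x‖) (Icc 0 1 ×ˢ {x}ᶜ) :=
      ContinuousOn.div (by fun_prop) (by fun_prop) fun p hp => norm_ne_zero_iff.2 (sub_ne_zero.2 hp.2)
    exact continuousOn_snd.add (c1.smul (continuousOn_snd.sub continuousOn_const))
  have hc1 : ContinuousOn (H 1) {x}ᶜ :=
    hcont.comp (f := fun y => ((1 : ℝ), y)) (by fun_prop) fun y hy => ⟨⟨zero_le_one, le_rfl⟩, hy⟩
  have m1 : ∀ t ∈ Icc (0 : ℝ) 1, MapsTo (H t) {x}ᶜ {x}ᶜ := fun t ht y hy h => by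
    have := e1 t y
    rw [mem_singleton_iff.1 h, sub_self] at this
    rcases smul_eq_zero.1 this.symm with h0 | h0
    · linarith [hs t ht y]
    · exact hy (sub_eq_zero.1 h0)
  have m2 : ∀ t ∈ Icc (0 : ℝ) 1, MapsTo (H t) Kᶜ Kᶜ := fun t ht y hy h => by
    have h1 : 0 < 1 + t * T / ‖y - x‖ := by linarith [hs t ht y]
    have := hc.add_smul_sub_mem hx h (t := (1 + t * T / ‖y - x‖)⁻¹)
      ⟨inv_nonneg.2 h1.le, inv_le_one_of_one_le₀ (by linarith [hs t ht y])⟩
    rw [e1, smul_smul, inv_mul_cancel₀ h1.ne', one_smul, add_sub_cancel] at this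
    exact hy this
  have m3 : MapsTo (H 1) {x}ᶜ Kᶜ := fun y hy h => by
    have h1 := hT h
    have h2 : 0 < ‖y - x‖ := norm_pos_iff.2 (sub_ne_zero.2 hy)
    rw [mem_ball_iff_norm, e1, norm_smul, Real.norm_of_nonneg (by positivity), add_mul, one_mul, one_mul,
      div_mul_cancel₀ _ h2.ne'] at h1
    linarith
  have hz0 : ∀ y, H 0 y = y := fun y => by simp [hH]
  refine ⟨fun z hz => ?_, fun z hz => ⟨_, hz.hequiv (f := H 1) (g := id) (H := H) (H' := H) hc1 m3 continuousOn_id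
    hsub hcont m1 (fun y _ => hz0 y) (fun _ _ => rfl) (hcont.mono (prod_mono le_rfl hsub)) m2
    (fun y _ => hz0 y) (fun _ _ => rfl)⟩⟩
  have := hz.hequiv (f := id) (g := H 1) (H := H) (H' := H) continuousOn_id hsub hc1 m3
    (hcont.mono (prod_mono le_rfl hsub)) m2 (fun y _ => hz0 y) (fun _ _ => rfl) hcont m1
    (fun y _ => hz0 y) (fun _ _ => rfl)
  rwa [show smp id z = z from funext fun n => mp_id _] at this

/-- Plan: translate `gen1_sphere` to a point of `K`, `gen1_convex`, `Gen1.exists_rgen`, `rgen_iff`, `RGen.excision`. -/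
theorem rgen_chart {E : Type} [TopologicalSpace E] [T2Space E] [LocallyCompactSpace E] {n : ℕ}
    {j : (Fin n → ℝ) → E} (hj : IsOpenEmbedding j) {K : Set (Fin n → ℝ)} (hK : IsCompact K)
    (hc : Convex ℝ K) (hne : K.Nonempty) :
    ∃ μ : Sq R E, RGen (j '' K) (n + 1) μ ∧ ∀ x ∈ j '' K, RGen {x} (n + 1) μ := by
  obtain ⟨x₀, hx₀⟩ := hne
  obtain ⟨z, hz⟩ := gen1_sphere (R := R) n
  have h1 : Gen1 {x₀}ᶜ n (smp (fun y => y + x₀) z) :=
    hz.hequiv (g := fun y => y - x₀) (H := fun _ x => x) (H' := fun _ x => x) (by fun_prop)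
      (fun y hy => by simpa using hy) (by fun_prop) (fun y hy => by simpa [sub_eq_zero] using hy)
      continuousOn_snd (fun _ _ => mapsTo_id _) (fun _ _ => rfl) (fun _ _ => by simp)
      continuousOn_snd (fun _ _ => mapsTo_id _) (fun _ _ => rfl) (fun _ _ => by simp)
  obtain ⟨z', hz'⟩ := (gen1_convex hK hc hx₀).2 _ h1
  have hX : Ac R (univ : Set (Fin n → ℝ)) := ac_star (mem_univ 0) fun _ _ _ _ => mem_univ _
  obtain ⟨μ, hμ, -⟩ := hz'.exists_rgen hX
  refine ⟨smp j μ, hμ.excision hj hK, ?_⟩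
  rintro _ ⟨x, hx, rfl⟩
  rw [← image_singleton]
  exact ((rgen_iff hX hμ.fine hμ.len).2 ((gen1_convex hK hc hx).1 _
    ((rgen_iff hX hμ.fine hμ.len).1 hμ))).excision hj isCompact_singleton

end Crest.Agent.R224
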