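import Crest.Agent.R224.ATors0

/-! The deck group is torsion free (Smith type argument). -/

set_option autoImplicit false
open Filter Topology Set
open scoped Pointwise

namespace Crest.Agent.R224


variable {Γ E : Type} [Group Γ] [TopologicalSpace E] [MulAction Γ E]

theorem exists_sheet {p : ℕ} {γ : Γ} (hγ : orderOf γ = p) :
    ∃ J : Γ → ZMod p, ∀ g, J (γ * g) = J g + 1 := by
  let s : Setoid Γ := QuotientGroup.rightRel (Subgroup.zpowers γ)
  have h1 : ∀ g : Γ, ∃ k : ℤ, γ ^ k = g * ((Quotient.mk s g).out)⁻¹ := by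
    intro g
    have : s ((Quotient.mk s g).out) g := Quotient.mk_out (s := s) g
    rw [QuotientGroup.rightRel_apply] at this
    exact this
  choose k hk using h1
  refine ⟨fun g => (k g : ZMod p), fun g => ?_⟩
  have h2 : Quotient.mk s (γ * g) = Quotient.mk s g := by
    refine Quotient.sound (s := s) ?_
    change s (γ * g) g
    rw [QuotientGroup.rightRel_apply]
    simp
  have h3 : γ ^ (k (γ * g)) = γ ^ (k g + 1) := by
    rw [hk, add_comm, zpow_add, hk, h2, zpow_one, mul_assoc]
  rw [zpow_eq_zpow_iff_modEq, hγ] at h3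
  have := (ZMod.intCast_eq_intCast_iff _ _ _).2 h3
  simpa using this

theorem Geo.exists_slice (h : Geo Γ E) (x : E) :
    ∃ V ∈ 𝓝 x, IsCompact V ∧ ∀ g : Γ, ∀ a ∈ V, g • a ∈ V → g = 1 := by
  have := h.t2
  have := h.lc
  obtain ⟨C, hC, hxC⟩ := exists_compact_mem_nhds x
  have hF := h.proper C hC
  have h1 : ∀ᶠ z : E × E in 𝓝 (x, x), ∀ g ∈ {g : Γ | (g • C ∩ C).Nonempty}, g • z.1 = z.2 → g = 1 := by
    rw [eventually_all_finite hF]
    intro g _
    by_cases hg : g = 1
    · exact Eventually.of_forall fun _ _ => hg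
    · have hc : IsClosed {z : E × E | g • z.1 = z.2} :=
        isClosed_eq ((h.cont g).comp continuous_fst) continuous_snd
      have : (x, x) ∈ {z : E × E | g • z.1 = z.2}ᶜ := fun hx => hg (h.free g x hx)
      filter_upwards [hc.isOpen_compl.mem_nhds this] with z hz hz'
      exact absurd hz' hz
  rw [nhds_prod_eq] at h1
  obtain ⟨U, hU, hU'⟩ := (eventually_prod_self_iff (r := fun a b =>
    ∀ g ∈ {g : Γ | (g • C ∩ C).Nonempty}, g • a = b → g = 1)).1 h1
  obtain ⟨V, hV, hVU, hVc⟩ := local_compact_nhds (inter_mem hU hxC)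
  refine ⟨V, hV, hVc, fun g a ha hga => ?_⟩
  exact hU' a (hVU ha).1 (g • a) (hVU hga).1 g
    ⟨g • a, smul_mem_smul_set (hVU ha).2, (hVU hga).2⟩ rfl

theorem Geo.loc_fin (h : Geo Γ E) {V : Set E} (hV : IsCompact V) (y : E) :
    ∀ᶠ a in 𝓝 y, ∀ g : Γ, g • a ∈ V → g • y ∈ V := by
  have := h.t2
  have := h.lc
  obtain ⟨C, hC, hxC⟩ := exists_compact_mem_nhds y
  have hF := h.proper _ (hC.union hV)
  have h1 : ∀ᶠ a in 𝓝 y, ∀ g ∈ {g : Γ | (g • (C ∪ V) ∩ (C ∪ V)).Nonempty}, g • a ∈ V → g • y ∈ V := by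
    rw [eventually_all_finite hF]
    intro g _
    by_cases hg : g • y ∈ V
    · exact Eventually.of_forall fun _ _ => hg
    · have hc : IsClosed {a : E | g • a ∈ V} := hV.isClosed.preimage (h.cont g)
      filter_upwards [hc.isOpen_compl.mem_nhds hg] with z hz hz'
      exact absurd hz' hz
  filter_upwards [h1, hxC] with a ha haC g hg
  exact ha g ⟨g • a, smul_mem_smul_set (Or.inl haC), Or.inr hg⟩ hg

/-- labelling by colours and sheets -/
theorem Geo.labelling (h : Geo Γ E) {p : ℕ} [Fact p.Prime] {γ : Γ} (hγ : orderOf γ = p) :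
    ∃ (N : ℕ) (lab : E → Fin N × ZMod p), (∀ x, lab (γ • x) = shift N p (lab x)) ∧
      {z : E × E | (lab z.1).1 = (lab z.2).1 → lab z.1 = lab z.2} ∈ 𝓝ˢ (diagonal E) := by
  classical
  obtain ⟨J, hJ⟩ := exists_sheet hγ
  choose V hV hVc hVs using h.exists_slice
  obtain ⟨K, hK, hKc⟩ := h.cocpt
  obtain ⟨t, -, ht⟩ := hK.elim_nhds_subcover V fun x _ => hV x
  let W : Fin t.card → Set E := fun i => V (t.equivFin.symm i)
  have hex : ∀ y : E, (Finset.univ.filter fun i => ∃ g : Γ, g⁻¹ • y ∈ W i).Nonempty := by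
    intro y
    obtain ⟨g, hg⟩ := hKc y
    rw [mem_smul_set_iff_inv_smul_mem] at hg
    obtain ⟨x, hx, hx'⟩ := mem_iUnion₂.1 (ht hg)
    refine ⟨t.equivFin ⟨x, hx⟩, ?_⟩
    simp only [Finset.mem_filter, Finset.mem_univ, true_and]
    exact ⟨g, by simpa [W] using hx'⟩
  let col : E → Fin t.card := fun y => Finset.min' _ (hex y)
  have hcol : ∀ y, ∃ g : Γ, g⁻¹ • y ∈ W (col y) := fun y => by
    simpa using Finset.min'_mem _ (hex y)
  choose sh hsh using hcol
  have huniq : ∀ i (y : E) (g g' : Γ), g⁻¹ • y ∈ W i → g'⁻¹ • y ∈ W i → g = g' := by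
    intro i y g g' h1 h2
    have := hVs _ (g'⁻¹ * g) _ h1 (by simpa [mul_smul] using h2)
    exact (inv_mul_eq_one.1 this).symm
  have hcolγ : ∀ y, col (γ • y) = col y := by
    intro y
    simp only [col]
    congr 1
    ext i
    simp only [Finset.mem_filter, Finset.mem_univ, true_and]
    constructor
    · rintro ⟨g, hg⟩
      exact ⟨γ⁻¹ * g, by simpa [mul_smul] using hg⟩
    · rintro ⟨g, hg⟩
      exact ⟨γ * g, by simpa [mul_smul] using hg⟩
  refine ⟨t.card, fun y => (col y, J (sh y)), fun y => ?_, ?_⟩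
  · simp only [shift, hcolγ, Prod.mk.injEq, true_and]
    rw [← hJ]
    congr 1
    refine huniq (col y) (γ • y) _ _ (hcolγ y ▸ hsh _) ?_
    simpa [mul_smul] using hsh y
  · rw [mem_nhdsSet_iff_forall]
    rintro ⟨y, y'⟩ hy
    obtain rfl : y = y' := hy
    have h1 : ∀ᶠ a in 𝓝 y, ∀ i, ∀ g : Γ, g • a ∈ W i → g • y ∈ W i :=
      eventually_all.2 fun i => h.loc_fin (hVc _) y
    rw [nhds_prod_eq]
    filter_upwards [h1.prod_mk h1] with z hz hc
    simp only [Prod.mk.injEq] at hc ⊢
    refine ⟨hc, ?_⟩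
    congr 1
    exact huniq (col z.1) y _ _ (hz.1 _ _ (hsh _)) (hz.2 _ _ (hc ▸ hsh _))

theorem tau_tau {X : Type} {p : ℕ} {f : X → X} (hf : f^[p] = id) (q : ℕ) (c : Ch (ZMod p) X) :
    tau p f (q + 1) (tau p f q c) = 0 := by
  have h1 : ∀ c : Ch (ZMod p) X, ((mp f : Module.End (ZMod p) (Ch (ZMod p) X)) ^ p) c - c = 0 := by
    intro c
    rw [← Smith.mp_iter, hf, mp_id, sub_self]
  by_cases hq : Odd q
  · have hq' : ¬ Odd (q + 1) := by simpa [Nat.odd_add_one] using hq
    simp only [tau, if_pos hq, if_neg hq', Smith.mp_iter]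
    rw [← h1 c]
    exact Smith.geom' p c
  · have hq' : Odd (q + 1) := by simpa [Nat.odd_add_one] using hq
    simp only [tau, if_neg hq, if_pos hq', Smith.mp_iter]
    rw [← h1 c, ← Smith.geom' p c, map_sum, ← Finset.sum_sub_distrib]
    refine Finset.sum_congr rfl fun i _ => ?_
    rw [map_sub, ← Module.End.mul_apply, ← Module.End.mul_apply, ← pow_succ, ← pow_succ']

theorem mp_tau {X Y : Type} {p : ℕ} {f : X → X} {f' : Y → Y} {u : X → Y}
    (hu : ∀ x, u (f x) = f' (u x)) (q : ℕ) (c : Ch (ZMod p) X) :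
    mp u (tau p f q c) = tau p f' q (mp u c) := by
  have hs : Function.Semiconj u f f' := hu
  unfold tau
  split_ifs
  · rw [map_sum]
    refine Finset.sum_congr rfl fun i _ => ?_
    rw [mp_mp, mp_mp, (hs.iterate_right i).comp_eq]
  · rw [map_sub, mp_mp, mp_mp, hs.comp_eq]

theorem Geo.tf (h : Geo Γ E) (g : Γ) (hg : IsOfFinOrder g) : g = 1 := by
  have := h.t2
  have := h.lc
  have := h.contr
  by_contra hne
  have h0 : orderOf g ≠ 0 := hg.orderOf_pos.ne'
  obtain ⟨p, hp, hpd⟩ := Nat.exists_prime_and_dvd (n := orderOf g) (by simpa using hne)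
  have : Fact p.Prime := ⟨hp⟩
  have hγ := orderOf_pow_orderOf_div h0 hpd
  set γ := g ^ (orderOf g / p)
  obtain ⟨N, lab, hlab, hW⟩ := h.labelling hγ
  obtain ⟨F, hF⟩ := exists_fill (ZMod p) E
  obtain ⟨e₀⟩ : Nonempty E := inferInstance
  let f : E → E := fun x => γ • x
  have hfp : f^[p] = id := by
    ext x
    simp only [f, smul_iterate, id]
    rw [← hγ, pow_orderOf_eq_one, one_smul]
  let c : ℕ → Sq (ZMod p) E := fun q => Nat.rec (fun _ => Finsupp.single [e₀] 1)
    (fun q c => sq F fun n => tau p f (q + 1) (c n)) q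
  have hc0 : ∀ n, c 0 n = Finsupp.single [e₀] 1 := fun n => rfl
  have hcs : ∀ q, c (q + 1) = sq F fun n => tau p f (q + 1) (c q n) := fun q => rfl
  have htau : ∀ q (d : Sq (ZMod p) E), (fun n => tau p f q (d n)) =
      if Odd q then ∑ i ∈ Finset.range p, smp f^[i] d else smp f d - d := by
    intro q d
    ext1 n
    unfold tau
    split_ifs
    · simp [Finset.sum_apply]
    · simp
  have hfine : ∀ q, Fine univ (c q) := by
    intro q
    induction q with
    | zero => exact fine_pt (mem_univ _)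
    | succ q ih =>
      rw [hcs]
      have h1 : Fine univ fun n => tau p f (q + 1) (c q n) := by
        rw [htau]
        split_ifs
        · exact Fine.sum _ fun i _ => ih.smp ((h.cont γ).iterate i).continuousOn (mapsTo_univ _ _)
        · exact (ih.smp (h.cont γ).continuousOn (mapsTo_univ _ _)).sub ih
      obtain ⟨⟨K, hK, -, hs⟩, h2⟩ := h1
      obtain ⟨K', -, -, hK'⟩ := hF.fine K hK
      exact (hK' _ ⟨⟨K, hK, Subset.rfl, hs⟩, h2⟩).mono (subset_univ _)
  have hlen : ∀ q, Len (q + 1) (c q) := by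
    intro q
    induction q with
    | zero =>
      intro n l hl
      rw [hc0] at hl
      rw [Finset.mem_singleton.1 (Finsupp.support_single_subset hl)]
      rfl
    | succ q ih =>
      rw [hcs]
      refine hF.len _ _ ?_
      rw [htau]
      split_ifs
      · induction Finset.range p using Finset.induction_on with
        | empty => intro n l hl; simp at hl
        | insert i s hi ih' => rw [Finset.sum_insert hi]; exact (ih.smp _).add ih'
      · exact (ih.smp _).sub ih
  have hbd : ∀ q n, bd (c (q + 1) n) = tau p f (q + 1) (c q n) := by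
    have key : ∀ q n, bd (tau p f (q + 1) (c q n)) = 0 → bd (c (q + 1) n) = tau p f (q + 1) (c q n) := by
      intro q n h0
      have := hF.id n (tau p f (q + 1) (c q n))
      rw [h0, map_zero, add_zero] at this
      exact this
    intro q n
    induction q with
    | zero =>
      refine key 0 n ?_
      rw [Smith.bd_tau, hc0, bd_single]
      simp only [tau, bdL, map_zero, sub_zero, one_smul, zero_add, odd_one, if_true, mp_single,
        List.map_nil, Finset.sum_const, Finset.card_range, Finsupp.smul_single]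
      simp
    | succ q ih =>
      refine key _ n ?_
      rw [Smith.bd_tau, ih, tau_tau hfp]
  have hev : ∀ᶠ n in atTop, ∀ q ∈ Set.Iic N, ∀ l ∈ (c q n).support, Small _ l :=
    (eventually_all_finite (finite_Iic N)).2 fun q _ => (hfine q).2 _ hW
  obtain ⟨n, hn⟩ := hev.exists
  refine smith_alg N p (fun q => mp lab (c q n)) (lab e₀) ?_ ?_ ?_ ?_
  · simp [hc0]
  · intro q _ l hl
    obtain ⟨l', hl', rfl⟩ := mem_support_mp hl
    simpa using hlen q n l' hl'
  · intro q hq l hl
    obtain ⟨l', hl', rfl⟩ := mem_support_mp hl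
    simp only [List.mem_map]
    rintro _ ⟨a, ha, rfl⟩ _ ⟨b, hb, rfl⟩ hab
    exact hn q hq l' hl' a ha b hb hab
  · intro q _
    rw [bd_mp, hbd, mp_tau hlab]

end Crest.Agent.R224
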