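import Crest.Agent.R224.AFine

/-! The deck group is torsion free (Smith type argument). -/

set_option autoImplicit false
open Filter Topology Set
open scoped Pointwise

namespace Crest.Agent.R224

/-- the shift on labels -/
def shift (N p : ℕ) : Fin N × ZMod p → Fin N × ZMod p := fun a => (a.1, a.2 + 1)

/-- `σ = ∑ f^i` for odd `q`, `ρ = f - 1` for even `q` -/
noncomputable def tau {X : Type} (p : ℕ) (f : X → X) (q : ℕ) (c : Ch (ZMod p) X) : Ch (ZMod p) X :=
  if Odd q then ∑ i ∈ Finset.range p, mp f^[i] c else mp f c - c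

namespace Smith

theorem sum_range_zmod {p : ℕ} [NeZero p] {V : Type} [AddCommMonoid V] (g : ZMod p → V) :
    ∑ k ∈ Finset.range p, g (k : ZMod p) = ∑ j, g j := by
  refine Finset.sum_nbij' (fun k => (k : ZMod p)) (fun j => j.val) ?_ ?_ ?_ ?_ ?_
  · intro k _; simp
  · intro j _; simpa using ZMod.val_lt j
  · intro k hk; exact ZMod.val_cast_of_lt (by simpa using hk)
  · intro j _; simp
  · intro k _; rfl

section abstract
variable {R V : Type} [CommRing R] [AddCommGroup V] [Module R V] {p : ℕ} [NeZero p]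
  {K A : Submodule R V} {f : Module.End R V} {P : ZMod p → Module.End R V}

theorem pow_mem' (hf : ∀ x ∈ K, f x ∈ K) (k : ℕ) : ∀ x ∈ K, (f ^ k) x ∈ K := by
  induction k with
  | zero => intro x hx; simpa using hx
  | succ k ih => intro x hx; rw [pow_succ', Module.End.mul_apply]; exact hf _ (ih x hx)

theorem pow_comm' (hc : ∀ j x, f (P j x) = P (j + 1) (f x)) (k : ℕ) (j : ZMod p) (x : V) :
    (f ^ k) (P j x) = P (j + k) ((f ^ k) x) := by
  induction k with
  | zero => simp
  | succ k ih =>
    rw [pow_succ', Module.End.mul_apply, Module.End.mul_apply, ih, hc]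
    push_cast; rw [add_assoc]

theorem geom' (k : ℕ) (x : V) :
    f (∑ i ∈ Finset.range k, (f ^ i) x) - ∑ i ∈ Finset.range k, (f ^ i) x = (f ^ k) x - x := by
  induction k with
  | zero => simp
  | succ k ih =>
    rw [Finset.sum_range_succ, map_add, pow_succ', Module.End.mul_apply]
    have : f (∑ i ∈ Finset.range k, (f ^ i) x) = (f ^ k) x - x + ∑ i ∈ Finset.range k, (f ^ i) x := by
      rw [← ih]; abel
    rw [this]; abel

theorem exact_sigma (hKP : ∀ j, ∀ x ∈ K, P j x ∈ K)
    (hAf : ∀ x ∈ A, f x ∈ A) (hAP : ∀ j, ∀ x ∈ A, P j x ∈ A)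
    (hc : ∀ j x, f (P j x) = P (j + 1) (f x)) (hs : ∀ x ∈ A, ∑ j, P j x = x)
    {x : V} (hx : x ∈ A) (h : ∑ i ∈ Finset.range p, (f ^ i) x ∈ K) :
    ∃ y ∈ A, x - (f y - y) ∈ K := by
  refine ⟨-∑ k ∈ Finset.range p, ∑ i ∈ Finset.range k, (f ^ i) (P (-(k : ZMod p)) x), ?_, ?_⟩
  · exact A.neg_mem (A.sum_mem fun k _ => A.sum_mem fun i _ => pow_mem' hAf i _ (hAP _ _ hx))
  · have h1 : ∑ k ∈ Finset.range p, P (-(k : ZMod p)) x = x := by
      rw [sum_range_zmod (fun j => P (-j) x)]
      rw [← hs x hx]
      conv_lhs => rw [hs x hx]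
      exact Fintype.sum_equiv (Equiv.neg _) _ _ fun j => rfl
    have h2 : f (∑ k ∈ Finset.range p, ∑ i ∈ Finset.range k, (f ^ i) (P (-(k : ZMod p)) x)) -
        ∑ k ∈ Finset.range p, ∑ i ∈ Finset.range k, (f ^ i) (P (-(k : ZMod p)) x) =
        P 0 (∑ i ∈ Finset.range p, (f ^ i) x) - x := by
      rw [map_sum, ← Finset.sum_sub_distrib]
      simp only [geom']
      rw [Finset.sum_sub_distrib, h1, map_sum]
      congr 1
      refine Finset.sum_congr rfl fun k _ => ?_
      rw [pow_comm' hc, neg_add_cancel]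
    have h3 := hKP 0 _ h
    convert h3 using 1
    rw [map_neg]
    have := sub_eq_iff_eq_add.1 h2
    rw [this]; abel

theorem exact_rho (hKf : ∀ x ∈ K, f x ∈ K) (hKP : ∀ j, ∀ x ∈ K, P j x ∈ K)
    (hAP : ∀ j, ∀ x ∈ A, P j x ∈ A)
    (hc : ∀ j x, f (P j x) = P (j + 1) (f x)) (hs : ∀ x ∈ A, ∑ j, P j x = x)
    {x : V} (hx : x ∈ A) (h : f x - x ∈ K) :
    ∃ y ∈ A, x - ∑ i ∈ Finset.range p, (f ^ i) y ∈ K := by
  refine ⟨P 0 x, hAP _ _ hx, ?_⟩
  have h1 : ∀ k : ℕ, (f ^ k) x - x ∈ K := by
    intro k
    induction k with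
    | zero => simp
    | succ k ih =>
      have := K.add_mem (hKf _ ih) h
      convert this using 1
      rw [pow_succ', Module.End.mul_apply, map_sub]; abel
  have h2 : x - ∑ i ∈ Finset.range p, (f ^ i) (P 0 x) =
      -∑ i ∈ Finset.range p, P (i : ZMod p) ((f ^ i) x - x) := by
    simp only [map_sub, Finset.sum_sub_distrib, pow_comm' hc, zero_add]
    rw [sum_range_zmod (fun j => P j x), hs x hx]; abel
  rw [h2]
  exact K.neg_mem (K.sum_mem fun i _ => hKP _ _ (h1 i))
end abstract

section ext
variable {R L : Type} [CommRing R]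

/-- oriented chains in the exterior algebra -/
noncomputable def phiL (R : Type) [CommRing R] (l : List L) : ExteriorAlgebra R (L →₀ R) :=
  (l.map fun x => ExteriorAlgebra.ι R (Finsupp.single x (1 : R))).prod

theorem phiL_cons (x : L) (l : List L) :
    phiL R (x :: l) = ExteriorAlgebra.ι R (Finsupp.single x (1 : R)) * phiL R l := by
  simp [phiL]

noncomputable def phi : Ch R L →ₗ[R] ExteriorAlgebra R (L →₀ R) :=
  Finsupp.linearCombination R (phiL R)

theorem phi_single (l : List L) (a : R) : phi (Finsupp.single l a) = a • phiL R l := by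
  simp [phi]

theorem phi_cn (x : L) (c : Ch R L) :
    phi (cn x c) = ExteriorAlgebra.ι R (Finsupp.single x (1 : R)) * phi c := by
  induction c using Finsupp.induction_linear with
  | zero => simp
  | add a b ha hb => simp only [map_add, ha, hb, mul_add]
  | single l a => rw [cn_single, phi_single, phi_single, phiL_cons, mul_smul_comm]

theorem phi_bdL (l : List L) : phi (bdL l : Ch R L) =
    CliffordAlgebra.contractLeft (Q := 0) (Finsupp.linearCombination R fun _ : L => (1 : R))
      (phiL R l) := by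
  induction l with
  | nil =>
    have : phiL R ([] : List L) = 1 := by simp [phiL]
    rw [this]
    simp only [bdL, map_zero]
    exact (CliffordAlgebra.contractLeft_one _ _).symm
  | cons x l ih =>
    rw [phiL_cons]
    refine Eq.trans ?_ (CliffordAlgebra.contractLeft_ι_mul _ _ _).symm
    rw [← ih]
    simp only [bdL, map_sub, phi_single, phi_cn, Finsupp.linearCombination_single, smul_eq_mul,
      mul_one]

theorem phi_bd {c : Ch R L} (h : phi c = 0) : phi (bd c) = 0 := by
  have : ∀ c : Ch R L, phi (bd c) =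
      CliffordAlgebra.contractLeft (Q := 0) (Finsupp.linearCombination R fun _ : L => (1 : R))
        (phi c) := by
    intro c
    induction c using Finsupp.induction_linear with
    | zero => simp
    | add a b ha hb => simp only [map_add, ha, hb]
    | single l a => rw [bd_single, map_smul, phi_bdL, phi_single, map_smul]
  rw [this, h, map_zero]

theorem phi_mp (f : L → L) {c : Ch R L} (h : phi c = 0) : phi (mp f c) = 0 := by
  have h1 : ∀ l : List L, phiL R (l.map f) =
      ExteriorAlgebra.map (Finsupp.lmapDomain R R f) (phiL R l) := by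
    intro l
    induction l with
    | nil => simp [phiL]
    | cons x l ih => rw [List.map_cons, phiL_cons, phiL_cons, map_mul, ih]; simp
  have : ∀ c : Ch R L, phi (mp f c) = ExteriorAlgebra.map (Finsupp.lmapDomain R R f) (phi c) := by
    intro c
    induction c using Finsupp.induction_linear with
    | zero => simp
    | add a b ha hb => simp only [map_add, ha, hb]
    | single l a => rw [mp_single, phi_single, phi_single, map_smul, h1]
  rw [this, h, map_zero]

open Classical in
/-- keep the lists with entries in `T` -/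
noncomputable def fl (T : Set L) : Ch R L →ₗ[R] Ch R L :=
  Finsupp.linearCombination R fun l => if ∀ x ∈ l, x ∈ T then Finsupp.single l 1 else 0

open Classical in
theorem fl_single (T : Set L) (l : List L) (a : R) :
    fl T (Finsupp.single l a) = if ∀ x ∈ l, x ∈ T then Finsupp.single l a else 0 := by
  simp only [fl, Finsupp.linearCombination_single]
  split_ifs <;> simp

theorem phi_fl (T : Set L) {c : Ch R L} (h : phi c = 0) : phi (fl T c) = 0 := by
  classical
  let m : (L →₀ R) →ₗ[R] (L →₀ R) :=
    Finsupp.linearCombination R fun x => if x ∈ T then Finsupp.single x 1 else 0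
  have h1 : ∀ l : List L, ExteriorAlgebra.map m (phiL R l) =
      if ∀ x ∈ l, x ∈ T then phiL R l else 0 := by
    intro l
    induction l with
    | nil => simp [phiL]
    | cons x l ih =>
      rw [phiL_cons, map_mul, ih, ExteriorAlgebra.map_apply_ι]
      by_cases hx : x ∈ T <;> by_cases hl : ∀ y ∈ l, y ∈ T <;> simp [m, hx, hl]
  have : ∀ c : Ch R L, phi (fl T c) = ExteriorAlgebra.map m (phi c) := by
    intro c
    induction c using Finsupp.induction_linear with
    | zero => simp
    | add a b ha hb => simp only [map_add, ha, hb]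
    | single l a =>
      rw [fl_single, phi_single, map_smul, h1]
      split_ifs
      · rw [phi_single]
      · simp
  rw [this, h, map_zero]

theorem ι_mul_phiL {x : L} {l : List L} (hx : x ∈ l) :
    ExteriorAlgebra.ι R (Finsupp.single x (1 : R)) * phiL R l = 0 := by
  induction l with
  | nil => simp at hx
  | cons y l ih =>
    rw [phiL_cons, ← mul_assoc]
    rcases List.mem_cons.1 hx with rfl | hx
    · rw [ExteriorAlgebra.ι_sq_zero, zero_mul]
    · rw [eq_neg_of_add_eq_zero_left (ExteriorAlgebra.ι_add_mul_swap _ _), neg_mul, mul_assoc,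
        ih hx, mul_zero, neg_zero]

theorem phiL_dup {l : List L} (h : ¬ l.Nodup) : phiL R l = 0 := by
  induction l with
  | nil => simp at h
  | cons x l ih =>
    rw [phiL_cons]
    by_cases hx : x ∈ l
    · exact ι_mul_phiL hx
    · rw [ih (fun hl => h (List.nodup_cons.2 ⟨hx, hl⟩)), mul_zero]

theorem map_supported {V : Type} [AddCommGroup V] [Module R V] {S : Set (List L)}
    {B : Submodule R V} {F : Ch R L →ₗ[R] V} (h : ∀ l ∈ S, F (Finsupp.single l 1) ∈ B)
    {c : Ch R L} (hc : c ∈ Finsupp.supported R R S) : F c ∈ B := by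
  rw [Finsupp.supported_eq_span_single] at hc
  have : Submodule.span R ((fun i => Finsupp.single i (1 : R)) '' S) ≤ B.comap F := by
    rw [Submodule.span_le]
    rintro _ ⟨l, hl, rfl⟩
    exact h l hl
  exact this hc

theorem single_mem {S : Set (List L)} {l : List L} (hl : l ∈ S) (a : R) :
    Finsupp.single l a ∈ Finsupp.supported R R S :=
  Finsupp.single_mem_supported R a hl
end ext

section lab
variable {N p : ℕ}

/-- admissible lists of length `k` -/
def Adm (N p k : ℕ) : Set (List (Fin N × ZMod p)) :=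
  {l | l.length = k ∧ ∀ a ∈ l, ∀ b ∈ l, a.1 = b.1 → a = b}

/-- colours at least `i` -/
def Tg (N p i : ℕ) : Set (Fin N × ZMod p) := {a | i ≤ (a.1 : ℕ)}
/-- colours more than `i`, or colour `i` and sheet `j` -/
def Tj (N p i : ℕ) (j : ZMod p) : Set (Fin N × ZMod p) := {a | i < (a.1 : ℕ) ∨ ((a.1 : ℕ) = i ∧ a.2 = j)}

noncomputable def PP (N p : ℕ) (j : ZMod p) : Module.End (ZMod p) (Ch (ZMod p) (Fin N × ZMod p)) :=
  ∑ i ∈ Finset.range N, (fl (Tj N p i j) - fl (Tg N p (i + 1)))

theorem mp_fl {L R : Type} [CommRing R] {f : L → L} {T T' : Set L} (h : ∀ x, f x ∈ T' ↔ x ∈ T)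
    (c : Ch R L) : mp f (fl T c) = fl T' (mp f c) := by
  induction c using Finsupp.induction_linear with
  | zero => simp
  | add a b ha hb => simp only [map_add, ha, hb]
  | single l a =>
    rw [mp_single, fl_single, fl_single]
    have : (∀ x ∈ l.map f, x ∈ T') ↔ ∀ x ∈ l, x ∈ T := by simp [h]
    by_cases hl : ∀ x ∈ l, x ∈ T
    · rw [if_pos hl, if_pos (this.2 hl), mp_single]
    · rw [if_neg hl, if_neg (fun h' => hl (this.1 h')), map_zero]

theorem mp_PP (j : ZMod p) (c : Ch (ZMod p) (Fin N × ZMod p)) :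
    mp (shift N p) (PP N p j c) = PP N p (j + 1) (mp (shift N p) c) := by
  simp only [PP, LinearMap.sum_apply, LinearMap.sub_apply, map_sum, map_sub]
  refine Finset.sum_congr rfl fun i _ => ?_
  rw [mp_fl (T' := Tj N p i (j + 1)), mp_fl (T' := Tg N p (i + 1))]
  · intro x; simp [Tg, shift]
  · intro x; simp [Tj, shift]

theorem sum_fl [NeZero p] {k : ℕ} {l : List (Fin N × ZMod p)} (hl : l ∈ Adm N p k) (i : ℕ) :
    ∑ j : ZMod p, (fl (Tj N p i j) (Finsupp.single l (1 : ZMod p)) -
      fl (Tg N p (i + 1)) (Finsupp.single l 1)) =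
      fl (Tg N p i) (Finsupp.single l 1) - fl (Tg N p (i + 1)) (Finsupp.single l 1) := by
  classical
  simp only [fl_single]
  by_cases h1 : ∀ x ∈ l, x ∈ Tg N p (i + 1)
  · have h2 : ∀ x ∈ l, x ∈ Tg N p i := fun x hx => Nat.le_of_succ_le (h1 x hx)
    have h3 : ∀ j, ∀ x ∈ l, x ∈ Tj N p i j := fun j x hx => Or.inl (h1 x hx)
    simp only [if_pos h1, if_pos h2, if_pos (h3 _), sub_self, Finset.sum_const_zero]
  · simp only [if_neg h1, sub_zero]
    by_cases h2 : ∀ x ∈ l, x ∈ Tg N p i
    · rw [if_pos h2]
      push Not at h1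
      obtain ⟨x, hx, hx1⟩ := h1
      have hxi : (x.1 : ℕ) = i := by
        have := h2 x hx
        simp only [Tg, mem_ofPred_eq] at this hx1
        omega
      rw [Finset.sum_eq_single x.2]
      · rw [if_pos]
        intro y hy
        have := h2 y hy
        simp only [Tg, mem_ofPred_eq] at this
        rcases this.lt_or_eq with h | h
        · exact Or.inl h
        · refine Or.inr ⟨h.symm, ?_⟩
          rw [hl.2 y hy x hx (Fin.ext (by omega))]
      · intro j _ hj
        rw [if_neg]
        intro h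
        rcases h x hx with h | h
        · omega
        · exact hj h.2.symm
      · simp
    · rw [if_neg h2]
      refine Finset.sum_eq_zero fun j _ => if_neg fun h => h2 fun x hx => ?_
      rcases h x hx with h | h
      · exact h.le
      · exact h.1.ge

theorem sum_PP [NeZero p] {k : ℕ} {c : Ch (ZMod p) (Fin N × ZMod p)}
    (hc : c ∈ Finsupp.supported (ZMod p) (ZMod p) (Adm N p (k + 1))) : ∑ j, PP N p j c = c := by
  have := map_supported (B := ⊥) (F := (∑ j, PP N p j) - LinearMap.id) (S := Adm N p (k + 1)) ?_ hc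
  · simpa [sub_eq_zero] using this
  · intro l hl
    simp only [PP, LinearMap.sum_apply, LinearMap.sub_apply, LinearMap.id_apply, Submodule.mem_bot]
    rw [Finset.sum_comm]
    simp only [sum_fl hl]
    rw [Finset.sum_range_sub' (fun i => fl (Tg N p i) (Finsupp.single l (1 : ZMod p)))]
    rw [fl_single, fl_single, if_pos (show ∀ x ∈ l, x ∈ Tg N p 0 from fun x _ => Nat.zero_le _),
      if_neg, sub_zero, sub_self]
    intro h
    obtain ⟨x, hx⟩ := List.exists_mem_of_length_pos (l := l) (by rw [hl.1]; omega)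
    exact absurd (h x hx) (by simp [Tg])

theorem PP_mem {S : Set (List (Fin N × ZMod p))} (j : ZMod p) {c : Ch (ZMod p) (Fin N × ZMod p)}
    (hc : c ∈ Finsupp.supported (ZMod p) (ZMod p) S) :
    PP N p j c ∈ Finsupp.supported (ZMod p) (ZMod p) S := by
  have : ∀ T, fl T c ∈ Finsupp.supported (ZMod p) (ZMod p) S := by
    intro T
    refine map_supported (fun l hl => ?_) hc
    rw [fl_single]; split_ifs
    · exact single_mem hl _
    · exact Submodule.zero_mem _
  simp only [PP, LinearMap.sum_apply, LinearMap.sub_apply]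
  exact Submodule.sum_mem _ fun i _ => Submodule.sub_mem _ (this _) (this _)

theorem PP_ker (j : ZMod p) {c : Ch (ZMod p) (Fin N × ZMod p)} (hc : phi c = 0) :
    phi (PP N p j c) = 0 := by
  simp only [PP, LinearMap.sum_apply, LinearMap.sub_apply, map_sum, map_sub, phi_fl _ hc, sub_self,
    Finset.sum_const_zero]

theorem shift_mem {k : ℕ} {c : Ch (ZMod p) (Fin N × ZMod p)}
    (hc : c ∈ Finsupp.supported (ZMod p) (ZMod p) (Adm N p k)) :
    mp (shift N p) c ∈ Finsupp.supported (ZMod p) (ZMod p) (Adm N p k) := by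
  refine map_supported (fun l hl => ?_) hc
  rw [mp_single]
  refine single_mem (show _ ∈ Adm N p k from ⟨by simpa using hl.1, ?_⟩) _
  simp only [List.mem_map]
  rintro _ ⟨a, ha, rfl⟩ _ ⟨b, hb, rfl⟩ hab
  rw [hl.2 a ha b hb hab]

theorem bd_mem {k : ℕ} {c : Ch (ZMod p) (Fin N × ZMod p)}
    (hc : c ∈ Finsupp.supported (ZMod p) (ZMod p) (Adm N p (k + 1))) :
    bd c ∈ Finsupp.supported (ZMod p) (ZMod p) (Adm N p k) := by
  rw [Finsupp.mem_supported] at hc ⊢
  intro l hl
  obtain ⟨l', hl', hs, hlen⟩ := mem_support_bd hl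
  have := hc hl'
  exact ⟨by have := this.1; omega, fun a ha b hb => this.2 a (hs.subset ha) b (hs.subset hb)⟩

theorem mp_iter {X R : Type} [CommRing R] (f : X → X) (i : ℕ) (c : Ch R X) :
    mp f^[i] c = ((mp f : Module.End R (Ch R X)) ^ i) c := by
  induction i with
  | zero => simp
  | succ i ih => rw [pow_succ', Module.End.mul_apply, ← ih, mp_mp, Function.iterate_succ']

theorem bd_tau {X : Type} (f : X → X) (q : ℕ) (c : Ch (ZMod p) X) :
    bd (tau p f q c) = tau p f q (bd c) := by
  unfold tau
  split_ifs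
  · simp only [map_sum, bd_mp]
  · simp only [map_sub, bd_mp]

theorem tau_sub {X : Type} (f : X → X) (q : ℕ) (c d : Ch (ZMod p) X) :
    tau p f q (c - d) = tau p f q c - tau p f q d := by
  unfold tau
  split_ifs
  · simp only [map_sub, Finset.sum_sub_distrib]
  · simp only [map_sub]; abel

theorem bd_sub {X R : Type} [CommRing R] (c d : Ch R X) : bd (c - d) = bd c - bd d := map_sub _ _ _

theorem tau_zero {X : Type} (f : X → X) (q : ℕ) : tau p f q (0 : Ch (ZMod p) X) = 0 := by
  unfold tau
  split_ifs <;> simp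

theorem exact_tau [NeZero p] {k q : ℕ} {x : Ch (ZMod p) (Fin N × ZMod p)}
    (hx : x ∈ Finsupp.supported (ZMod p) (ZMod p) (Adm N p (k + 1)))
    (h : phi (tau p (shift N p) (q + 1) x) = 0) :
    ∃ y ∈ Finsupp.supported (ZMod p) (ZMod p) (Adm N p (k + 1)),
      phi (x - tau p (shift N p) q y) = 0 := by
  by_cases hq : Odd q
  · have hq' : ¬ Odd (q + 1) := by simpa [Nat.odd_add_one] using hq
    simp only [tau, if_pos hq, if_neg hq', mp_iter] at h ⊢
    exact exact_rho (K := LinearMap.ker (phi (R := ZMod p) (L := Fin N × ZMod p))) (f := mp (shift N p)) (P := PP N p)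
      (fun x hx => phi_mp _ (LinearMap.mem_ker.1 hx)) (fun j x hx => PP_ker j (LinearMap.mem_ker.1 hx))
      (fun j x hx => PP_mem j hx)
      mp_PP (fun x hx => sum_PP hx) hx h
  · have hq' : Odd (q + 1) := by simpa [Nat.odd_add_one] using hq
    simp only [tau, if_neg hq, if_pos hq', mp_iter] at h ⊢
    exact exact_sigma (K := LinearMap.ker (phi (R := ZMod p) (L := Fin N × ZMod p))) (f := mp (shift N p)) (P := PP N p)
      (fun j x hx => PP_ker j (LinearMap.mem_ker.1 hx)) (fun x hx => shift_mem hx)
      (fun j x hx => PP_mem j hx)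
      mp_PP (fun x hx => sum_PP hx) hx h
end lab
end Smith

open Smith in
/-- Algebraic core: oriented chains are modelled in an exterior algebra. -/
theorem smith_alg (N p : ℕ) [Fact p.Prime] (c : ℕ → Ch (ZMod p) (Fin N × ZMod p))
    (a₀ : Fin N × ZMod p) (h0 : c 0 = Finsupp.single [a₀] 1)
    (hlen : ∀ q ≤ N, ∀ l ∈ (c q).support, l.length = q + 1)
    (hadm : ∀ q ≤ N, ∀ l ∈ (c q).support, ∀ a ∈ l, ∀ b ∈ l, a.1 = b.1 → a = b)
    (hbd : ∀ q < N, bd (c (q + 1)) = tau p (shift N p) (q + 1) (c q)) : False := by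
  have hA : ∀ q ≤ N, c q ∈ Finsupp.supported (ZMod p) (ZMod p) (Adm N p (q + 1)) := by
    intro q hq
    rw [Finsupp.mem_supported]
    exact fun l hl => ⟨hlen q hq l hl, hadm q hq l hl⟩
  have key : ∀ d q, q + d = N → ∃ b' : Ch (ZMod p) (Fin N × ZMod p),
      ∃ b ∈ Finsupp.supported (ZMod p) (ZMod p) (Adm N p (q + 1)),
        phi (c q - bd b' - tau p (shift N p) q b) = 0 := by
    intro d
    induction d with
    | zero =>
      intro q hq
      refine ⟨0, 0, Submodule.zero_mem _, ?_⟩
      rw [map_zero, tau_zero, sub_zero, sub_zero]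
      have hq' : q = N := by omega
      refine map_supported (B := ⊥) (fun l hl => ?_) (hA q hq'.le)
      rw [phi_single, phiL_dup, smul_zero]
      · exact Submodule.zero_mem _
      intro hn
      have h1 : (l.map Prod.fst).Nodup := hn.map_on fun a ha b hb hab => hl.2 a ha b hb hab
      have h2 := h1.length_le_card
      rw [List.length_map, hl.1, Fintype.card_fin] at h2
      omega
    | succ d ih =>
      intro q hq
      obtain ⟨b', b, hb, h⟩ := ih (q + 1) (by omega)
      have h1 := phi_bd h
      rw [bd_sub, bd_sub, bd_bd, sub_zero, hbd q (by omega), bd_tau, ← tau_sub] at h1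
      obtain ⟨y, hy, h2⟩ := exact_tau (Submodule.sub_mem _ (hA q (by omega)) (bd_mem hb)) h1
      exact ⟨b, y, hy, h2⟩
  obtain ⟨b', b, hb, h⟩ := key N 0 (by omega)
  have h1 := phi_bd h
  have h2 : tau p (shift N p) 0 (bd b) = 0 := by
    simp only [tau, Nat.not_odd_zero, if_false]
    have := map_supported (B := ⊥) (F := mp (shift N p) - LinearMap.id) (S := Adm N p 0) ?_ (bd_mem hb)
    · simpa using this
    · intro l hl
      have : l = [] := List.length_eq_zero_iff.1 hl.1
      subst this
      simp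
  rw [bd_sub, bd_sub, bd_bd, sub_zero, bd_tau, h2, sub_zero, h0, bd_single] at h1
  simp [bdL, phi_single, phiL] at h1

end Crest.Agent.R224
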