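import Crest.Agent.R224.Acc0

/-! Accumulation sets, sides, accessible points. -/

set_option autoImplicit false
open Filter Topology Set MeasureTheory
open scoped Pointwise

namespace Crest.Agent.R224

namespace Ctx
variable {Γ X : Type} [Group Γ] [MetricSpace X] [CompactSpace X] [MulAction Γ X] (c : Ctx Γ X)

variable {c} in
theorem Accs.smul {y : X} (h : c.Accs y) (g : Γ) : c.Accs (g • y) := by
  obtain ⟨γ, hγ, hl⟩ := h
  refine ⟨fun n => g * γ n, ⟨(mul_right_injective g).comp hγ.1, fun n => ?_⟩, ?_⟩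
  · rw [c.D_mul_left]; exact hγ.2 n
  · have := ((c.cont g).tendsto y).comp hl
    refine this.congr fun n => ?_
    simp only [Function.comp, c.equiv]
variable {c} in
theorem Accs.mem_Acc {y : X} (h : c.Accs y) : y ∈ c.Acc univ := by
  obtain ⟨γ, hγ, hl⟩ := h
  exact c.mem_Acc_iff.2 ⟨γ, hγ.1, fun _ => mem_univ _, hl⟩
/-- a ray along which `w` is summable converges -/
theorem exists_lim {γ : ℕ → Γ} (h : c.IsRay γ) (hs : Summable fun n => c.w (γ n)) :
    ∃ y, Tendsto (c.e ∘ γ) atTop (𝓝 y) := by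
  refine cauchySeq_tendsto_of_complete
    (cauchySeq_of_dist_le_of_summable (fun n => c.w (γ n)) (fun n => ?_) hs)
  obtain ⟨s, hs', he⟩ := c.D_le_one.1 (h.2 n)
  simp only [Function.comp, Nat.succ_eq_add_one, he]
  exact c.lip _ s hs'
variable {c} in
theorem In.mono {y : X} {V W : Set Γ} (h : c.In y V) (hVW : (V \ W).Finite) : c.In y W := by
  intro hy
  refine h (c.Acc_mono' (hVW.subset ?_) hy)
  rintro x ⟨hx, hx'⟩
  exact ⟨not_not.1 hx', hx⟩
variable {c} in
theorem In.inter {y : X} {V W : Set Γ} (h : c.In y V) (h' : c.In y W) : c.In y (V ∩ W) := by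
  intro hy
  rw [compl_inter, c.Acc_union] at hy
  exact hy.elim h h'
variable {c} in
theorem In.smul {y : X} {V : Set Γ} (h : c.In y V) (g : Γ) : c.In (g • y) (g • V) := by
  intro hy
  rw [← Set.smul_set_compl, c.Acc_smul, Set.smul_mem_smul_set_iff] at hy
  exact h hy
variable {c} in
theorem In.mem_Acc {y : X} {V : Set Γ} (h : c.In y V) (hy : y ∈ c.Acc univ) : y ∈ c.Acc V := by
  rw [← union_compl_self V, c.Acc_union] at hy
  exact hy.resolve_right h
variable {c} in
theorem In.not_compl {y : X} {V : Set Γ} (h : c.In y V) (hy : y ∈ c.Acc univ) : ¬ c.In y Vᶜ := by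
  intro h'
  refine h' ?_
  rw [compl_compl]
  exact h.mem_Acc hy
variable {c} in
theorem In.eventually {y : X} {V : Set Γ} (h : c.In y V) {γ : ℕ → Γ} (hγ : Function.Injective γ)
    (hl : Tendsto (c.e ∘ γ) atTop (𝓝 y)) : ∀ᶠ n in atTop, γ n ∈ V := by
  obtain ⟨ε, hε, hfin⟩ := c.finite_of_notMem_Acc h
  have h1 := Metric.tendsto_nhds.1 hl ε hε
  have h2 : Tendsto γ atTop cofinite := by
    rw [← Nat.cofinite_eq_atTop]; exact hγ.tendsto_cofinite
  have h3 : ∀ᶠ n in atTop, γ n ∈ {x ∈ Vᶜ | dist (c.e x) y < ε}ᶜ := h2 hfin.compl_mem_cofinite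
  filter_upwards [h1, h3] with n hn hn'
  by_contra hV
  exact hn' ⟨hV, hn⟩
variable {c} in
/-- changing `V` by a set that does not accumulate at `y` -/
theorem In.of_symmDiff {y : X} {V W : Set Γ} (h : c.In y V) (hy : y ∉ c.Acc (symmDiff V W)) :
    c.In y W := by
  intro hW
  have h1 : Wᶜ ⊆ Vᶜ ∪ symmDiff V W := fun x hx => by
    by_cases hV : x ∈ V
    · exact Or.inr (Or.inl ⟨hV, hx⟩)
    · exact Or.inl hV
  have h2 := c.Acc_mono h1 hW
  rw [c.Acc_union] at h2
  exact h2.elim h hy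
/-- Side lemma. Plan: `K = wall V ∩ {dist (e ·) y < ε}` is finite; by `c.lc` all points near `y` are joined by
chains avoiding the wall. -/
theorem side {y : X} (hy : c.Accs y) {V : Set Γ} (h : y ∉ c.Acc (c.wall V)) :
    c.In y V ∨ c.In y Vᶜ := by
  obtain ⟨γ, hγ, hl⟩ := hy
  obtain ⟨ε, hε, hfin⟩ := c.finite_of_notMem_Acc h
  obtain ⟨δ, hδ, hc⟩ := c.lc γ y hγ hl ε hε _ hfin
  by_contra hcon
  simp only [In, not_or, not_not, compl_compl] at hcon
  obtain ⟨x, hx, hx'⟩ := (hcon.1 δ hδ).nonempty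
  obtain ⟨z, hz, hz'⟩ := (hcon.2 δ hδ).nonempty
  refine hx (((hc x z hx' hz').2.side ?_).2 hz)
  rw [Set.disjoint_left]
  rintro u ⟨hu, hu'⟩ hw
  exact hu' ⟨hw, hu⟩
/-- side lemma with a witness -/
theorem In_of_mem_Acc {y : X} (hy : c.Accs y) {V : Set Γ} (h : y ∉ c.Acc (c.wall V))
    (hV : y ∈ c.Acc V) : c.In y V := by
  refine (c.side hy h).resolve_right fun h' => h' ?_
  rwa [compl_compl]
/-- Near a point that is not an accumulation point of `Z` the hitting function of `Z` is small.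
Plan: `Z ⊆ F ∪ {dist (e ·) y ≥ ε}` with `F` finite; `hit F ∈ ℓ²`; hitting lemma with `u = bump y ε ∘ e`. -/
theorem hit_small {y : X} {Z : Set Γ} (h : y ∉ c.Acc Z) {δ : ℝ} (hδ : 0 < δ) :
    y ∉ c.Acc {x | δ ≤ c.hit Z x} := by
  obtain ⟨ε, hε, hfin⟩ := c.finite_of_notMem_Acc h
  set F := {x ∈ Z | dist (c.e x) y < ε} with hF
  set Z' := {x | ε ≤ dist (c.e x) y} with hZ'
  have hZ : Z ⊆ F ∪ Z' := fun x hx => by
    by_cases h' : dist (c.e x) y < ε
    · exact Or.inl ⟨hx, h'⟩
    · exact Or.inr (not_lt.1 h')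
  have hd := c.dom_lip (φ := c.bump y ε) (inv_pos.2 hε).le (c.bump_lip y hε)
  have hh := fun x => c.gap.hitting hd (fun x => (c.bump_mem y hε _).1) (Z := Z')
    (fun x hx => c.bump_eq_zero hε hx) x
  have h1 := (c.gap.hit_L2 hfin).finite_ge (half_pos hδ)
  have h2 := (c.gap.Gr_L2 hd.1).1.finite_ge (half_pos (half_pos hδ))
  intro hy
  refine hy (ε / 2) (half_pos hε) ((h1.union h2).subset ?_)
  rintro x ⟨hx, hx'⟩
  have h3 : δ ≤ c.hit F x + c.hit Z' x :=
    le_trans hx ((c.hit_mono hZ x).trans (c.hit_union F Z' x))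
  by_cases h4 : δ / 2 ≤ c.hit F x
  · exact Or.inl (h4.trans (le_abs_self _))
  · refine Or.inr (le_trans ?_ ((hh x).trans (le_abs_self _)))
    have h5 : 1 / 2 ≤ c.bump y ε (c.e x) := by
      refine le_trans ?_ (le_max_right _ _)
      have : dist (c.e x) y / ε ≤ 1 / 2 := by
        rw [div_le_iff₀ hε]; linarith
      linarith
    have h6 : δ / 2 ≤ c.hit Z' x := by linarith [not_le.1 h4]
    have h7 := mul_le_mul h5 h6 (half_pos hδ).le (by linarith)
    simp only [Function.comp]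
    linarith
/-- the wall of `{p > 1/2}` accumulates only where the wall of `V` does -/
theorem Acc_wall_half {V : Set Γ} {p : Γ → ℝ} (h : c.IsP V p) :
    c.Acc (c.wall {x | 1 / 2 < p x}) ⊆ c.Acc (c.wall V) := by
  intro y hy
  by_contra hcon
  have hS := c.cardR_pos
  refine c.hit_small hcon (δ := 1 / (2 * c.S.card : ℝ)) (by positivity) (c.Acc_mono ?_ hy)
  intro x hx
  obtain ⟨h1, h2⟩ := h.wall_half hx
  refine le_trans ?_ (h.abs_sub_le x)
  by_cases hV : x ∈ V
  · have : ind V x = 1 := by simp [ind, hV]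
    rw [this, abs_sub_comm]
    exact le_trans (by linarith) (le_abs_self _)
  · have : ind V x = 0 := by simp [ind, hV]
    rw [this, sub_zero]
    exact le_trans h1 (le_abs_self _)
theorem In_half {V : Set Γ} {p : Γ → ℝ} (h : c.IsP V p) {y : X} (hy : y ∉ c.Acc (c.wall V)) :
    (c.In y V → c.In y {x | 1 / 2 < p x}) ∧ (c.In y Vᶜ → c.In y {x | 1 / 2 < p x}ᶜ) := by
  have h1 : y ∉ c.Acc (symmDiff V {x | 1 / 2 < p x}) := by
    intro hy'
    refine c.hit_small hy (δ := 1 / 2) (by norm_num) (c.Acc_mono ?_ hy')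
    intro x hx
    refine le_trans ?_ (h.abs_sub_le x)
    rcases hx with ⟨hV, hx⟩ | ⟨hx, hV⟩
    · have : ind V x = 1 := by simp [ind, hV]
      rw [this, abs_sub_comm]
      simp only [mem_setOf_eq, not_lt] at hx
      exact le_trans (by linarith) (le_abs_self _)
    · have : ind V x = 0 := by simp [ind, hV]
      rw [this, sub_zero]
      exact le_trans (le_of_lt hx) (le_abs_self _)
  refine ⟨fun h' => h'.of_symmDiff h1, fun h' => h'.of_symmDiff ?_⟩
  rwa [compl_symmDiff_compl]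

end Ctx
end Crest.Agent.R224
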