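import Crest.Agent.R224.Spl0

/-! Consequences of the coarse facts: splitting of walls, one-endedness, Timár's lemma. -/

set_option autoImplicit false
open Filter Topology Set MeasureTheory
open scoped Pointwise

namespace Crest.Agent.R224

namespace Gen.Coarse
variable {Γ : Type} [Group Γ] {G : Gen Γ} (h : G.Coarse)
include h

theorem spl_sat : ∃ r : ℕ, ∀ V F : Set Γ, F ⊆ G.wall V →
    (∀ a ∈ F, ∀ b, G.Chain r (G.wall V) a b → b ∈ F) →
    ∃ U : Set Γ, ∀ x y, G.D x y ≤ 1 → (cross U x y ↔ cross V x y ∧ x ∈ F) := by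
  obtain ⟨s, r₀, hs⟩ := h.spl
  obtain ⟨R, hR⟩ := hs (0 * s)
  refine ⟨r₀ + r₀, fun V F hF hsat => ?_⟩
  obtain ⟨U, hU⟩ := hR V F ∅ (G.clus_of_encard (by simp)) (by
    rintro v ⟨⟨a, ha, hd⟩, b, hb, hd'⟩
    refine hb.2 (hsat a ha b (Relation.ReflTransGen.single ⟨hF ha, hb.1, ?_⟩))
    have := G.D_tri a v b
    rw [G.D_comm v b] at this
    omega)
  exact ⟨U, fun x y hd => hU x y hd (by simp) (by simp)⟩

omit h in
theorem spl_const {U V F A : Set Γ}
    (hU : ∀ x y, G.D x y ≤ 1 → (cross U x y ↔ cross V x y ∧ x ∈ F)) (hA : A ⊆ V ∨ A ⊆ Vᶜ)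
    {a b : Γ} (hc : G.Chain 1 A a b) : a ∈ U ↔ b ∈ U := by
  induction hc with
  | refl => rfl
  | @tail x y _ h2 ih =>
    refine ih.trans ?_
    by_contra hc
    refine ((hU x y h2.2.2).1 hc).1 ?_
    rcases hA with hA | hA
    · exact iff_of_true (hA h2.1) (hA h2.2.1)
    · exact iff_of_false (hA h2.1) (hA h2.2.1)

/-- Timár's lemma.  Plan: `spl` with `F` the `2 r₀`-component of `x` in the wall and `K = ∅`;
`U` is constant on `V` and on `Vᶜ`. -/
theorem timar : ∃ r : ℕ, ∀ V : Set Γ, (∀ x ∈ V, ∀ y ∈ V, G.Chain 1 V x y) →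
    (∀ x ∈ Vᶜ, ∀ y ∈ Vᶜ, G.Chain 1 Vᶜ x y) →
    ∀ x ∈ G.wall V, ∀ y ∈ G.wall V, G.Chain r (G.wall V) x y := by
  obtain ⟨r, hr⟩ := h.spl_sat
  refine ⟨r, fun V hV hV' x hx y hy => ?_⟩
  obtain ⟨U, hU⟩ := hr V {y | G.Chain r (G.wall V) x y} (fun a ha => Chain.mem ha hx)
    fun a ha b hb => Chain.trans ha hb
  have c1 : ∀ a ∈ V, ∀ b ∈ V, (a ∈ U ↔ b ∈ U) := fun a ha b hb =>
    spl_const hU (Or.inl subset_rfl) (hV a ha b hb)
  have c2 : ∀ a ∉ V, ∀ b ∉ V, (a ∈ U ↔ b ∈ U) := fun a ha b hb =>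
    spl_const hU (Or.inr subset_rfl) (hV' a ha b hb)
  obtain ⟨x', hd, hc⟩ := hx
  obtain ⟨y', hd', hc'⟩ := hy
  have h1 := (hU x x' hd).2 ⟨hc, Relation.ReflTransGen.refl⟩
  refine ((hU y y' hd').1 ?_).2
  have := c1 x; have := c1 x'; have := c2 x; have := c2 x'
  simp only [cross] at *
  grind

/-- If two infinite connected sets are separated by `V`, some component of the wall of `V` is infinite.
Plan: suppose all `2 r₀`-components `F` of the wall are finite.  A 1-chain from `x₀ ∈ A` to `y₀ ∈ B`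
meets finitely many components `F_1..F_n`; `spl` (`K = ∅`) gives `U_i` with
`cross U_i x y ↔ cross V x y ∧ x ∈ F_i`, with finite wall, so `U_i` or its complement is finite
(`one_end`); `U_i` is constant on `A` and on `B` (infinite sets), so `x₀ ∈ U_i ↔ y₀ ∈ U_i`.  But along
the chain membership in `V` changes exactly when membership in exactly one `U_i` changes (parity). -/
theorem inf_comp : ∃ r : ℕ, ∀ V A B : Set Γ, A.Infinite → B.Infinite → A ⊆ V → B ⊆ Vᶜ →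
    (∀ x ∈ A, ∀ y ∈ A, G.Chain 1 A x y) → (∀ x ∈ B, ∀ y ∈ B, G.Chain 1 B x y) →
    ∃ x ∈ G.wall V, {y | G.Chain r (G.wall V) x y}.Infinite := by
  obtain ⟨r, hr⟩ := h.spl_sat
  refine ⟨r, fun V A B hA hB hAV hBV cA cB => ?_⟩
  by_contra hn
  push Not at hn
  obtain ⟨x₀, hx₀⟩ := hA.nonempty
  obtain ⟨y₀, hy₀⟩ := hB.nonempty
  set P : Set Γ := {z | G.D x₀ z + G.D z y₀ = G.D x₀ y₀} with hP
  have hPf : (P ∩ G.wall V).Finite :=
    (G.finite_ball x₀ (G.D x₀ y₀)).subset fun z hz => Nat.le.intro hz.1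
  set F : Set Γ := ⋃ a ∈ P ∩ G.wall V, {y | G.Chain r (G.wall V) a y} with hF
  have hFf : F.Finite := hPf.biUnion fun a ha => hn a ha.2
  obtain ⟨U, hU⟩ := hr V F (fun a ha => by
      obtain ⟨b, hb, hab⟩ := mem_iUnion₂.1 ha
      exact Chain.mem hab hb.2) (fun a ha b hb => by
      obtain ⟨c, hc, hca⟩ := mem_iUnion₂.1 ha
      exact mem_iUnion₂.2 ⟨c, hc, Chain.trans hca hb⟩)
  have hw : (G.wall U).Finite := hFf.subset fun x ⟨y, hd, hc⟩ => ((hU x y hd).1 hc).2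
  have c1 : ∀ a ∈ A, (x₀ ∈ U ↔ a ∈ U) := fun a ha => spl_const hU (Or.inl hAV) (cA _ hx₀ a ha)
  have c2 : ∀ a ∈ B, (y₀ ∈ U ↔ a ∈ U) := fun a ha => spl_const hU (Or.inr hBV) (cB _ hy₀ a ha)
  have e1 : x₀ ∈ U ↔ y₀ ∈ U := by
    rcases h.one_end hw with hf | hf
    · exact iff_of_false (fun h1 => hA (hf.subset fun a ha => (c1 a ha).1 h1))
        fun h1 => hB (hf.subset fun a ha => (c2 a ha).1 h1)
    · refine iff_of_true ?_ ?_
      · by_contra h1
        exact hA (hf.subset fun a ha h2 => h1 ((c1 a ha).2 h2))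
      · by_contra h1
        exact hB (hf.subset fun a ha h2 => h1 ((c2 a ha).2 h2))
  have e2 : ∀ z, G.Chain 1 P x₀ z → ((x₀ ∈ U ↔ x₀ ∈ V) ↔ (z ∈ U ↔ z ∈ V)) := by
    intro z hz
    induction hz with
    | refl => rfl
    | @tail a b _ h2 ih =>
      refine ih.trans ?_
      have h3 := hU a b h2.2.2
      have h4 : cross V a b → a ∈ F := fun hc =>
        mem_iUnion₂.2 ⟨a, ⟨h2.1, b, h2.2.2, hc⟩, Relation.ReflTransGen.refl⟩
      have h5 : cross U a b ↔ cross V a b := h3.trans ⟨fun h => h.1, fun h => ⟨h, h4 h⟩⟩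
      clear * - h5
      simp only [cross] at h5
      tauto
  have e3 := e2 y₀ (G.chain_geod x₀ y₀)
  have e4 := hAV hx₀
  have e5 : y₀ ∉ V := hBV hy₀
  clear * - e1 e3 e4 e5
  tauto

end Gen.Coarse
end Crest.Agent.R224
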