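import Crest.Agent.R224.Hit
import Crest.Agent.R224.Spl

/-! Accumulation sets, sides, accessible points. -/

set_option autoImplicit false
open Filter Topology Set MeasureTheory
open scoped Pointwise

namespace Crest.Agent.R224

namespace Ctx
variable {Γ X : Type} [Group Γ] [MetricSpace X] [CompactSpace X] [MulAction Γ X] (c : Ctx Γ X)

theorem w_nonneg (x : Γ) : 0 ≤ c.w x := by
  have := c.lip x 1 c.one_mem
  exact dist_nonneg.trans this
/-- Lipschitz functions on `X` have finite energy -/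
theorem dom_lip {φ : X → ℝ} {L : ℝ} (hL : 0 ≤ L) (h : ∀ a b, |φ a - φ b| ≤ L * dist a b) :
    c.Dom (φ ∘ c.e) fun x => L * c.w x := by
  refine ⟨c.w_L2.const_mul L, fun x s hs => ?_⟩
  refine (h _ _).trans (mul_le_mul_of_nonneg_left ?_ hL)
  rw [dist_comm]; exact c.lip x s hs
theorem dist_le_loc {r : ℕ} {x y : Γ} (h : c.D x y ≤ r) : dist (c.e x) (c.e y) ≤ c.loc r c.w x := by
  have hd := c.dom_lip (φ := fun z => dist (c.e x) z) (L := 1) zero_le_one fun a b => by
    rw [one_mul, dist_comm (c.e x) a, dist_comm (c.e x) b]; exact abs_dist_sub_le _ _ _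
  have := hd.osc h
  simp only [Function.comp, dist_self, sub_zero, one_mul] at this
  exact (le_abs_self _).trans this
theorem finite_osc (r : ℕ) {ε : ℝ} (hε : 0 < ε) :
    {x | ∃ y, c.D x y ≤ r ∧ ε ≤ dist (c.e x) (c.e y)}.Finite := by
  refine ((c.loc_L2 c.w_L2 r).1.finite_ge hε).subset ?_
  rintro x ⟨y, hy, hy'⟩
  exact hy'.trans ((c.dist_le_loc hy).trans (le_abs_self _))
/-- strip bound. Plan: `dist (e x) (e (x u)) ≤ ∑_{i < n} w (x p_i)` along a geodesic `p` from `1` to `u`,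
Cauchy-Schwarz, `L2.tr_right`, Chebyshev. -/
theorem strip (u : Γ) {η : ℝ} (hη : 0 < η) :
    {x | η ≤ dist (c.e x) (c.e (x * u))}.Finite ∧
    ({x | η ≤ dist (c.e x) (c.e (x * u))}.ncard : ℝ) ≤ (c.len u : ℝ) ^ 2 * nsq c.w / η ^ 2 := by
  classical
  have hfin : {x | η ≤ dist (c.e x) (c.e (x * u))}.Finite :=
    (c.finite_osc (c.len u) hη).subset fun x hx => ⟨x * u, by simp, hx⟩
  refine ⟨hfin, ?_⟩
  obtain ⟨p, h0, h1, hs, -⟩ := c.exists_geod 1 u
  rw [c.D_one] at h1
  set d := c.len u with hd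
  have h2 : ∀ x, dist (c.e x) (c.e (x * u)) ≤ ∑ i ∈ Finset.range d, c.w (x * p i) := by
    intro x
    have := dist_le_range_sum_of_dist_le (f := fun i => c.e (x * p i)) d
      (d := fun i => c.w (x * p i)) (fun {k} _ => by
        obtain ⟨s, hs', he⟩ := c.D_le_one.1 (hs k)
        rw [he, ← mul_assoc]; exact c.lip _ s hs')
    simpa only [h0, h1, mul_one] using this
  set F := hfin.toFinset with hF
  rw [Set.ncard_eq_toFinset_card _ hfin, ← hF, le_div_iff₀ (by positivity)]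
  calc (F.card : ℝ) * η ^ 2 = ∑ x ∈ F, η ^ 2 := by simp
    _ ≤ ∑ x ∈ F, (d : ℝ) * ∑ i ∈ Finset.range d, c.w (x * p i) ^ 2 := by
        refine Finset.sum_le_sum fun x hx => ?_
        rw [hF, Set.Finite.mem_toFinset] at hx
        have h3 : η ^ 2 ≤ (∑ i ∈ Finset.range d, c.w (x * p i)) ^ 2 :=
          pow_le_pow_left₀ hη.le (le_trans hx (h2 x)) 2
        refine h3.trans ?_
        have := sq_sum_le_card_mul_sum_sq (s := Finset.range d) (f := fun i => c.w (x * p i))
        rwa [Finset.card_range] at this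
    _ = (d : ℝ) * ∑ i ∈ Finset.range d, ∑ x ∈ F, c.w (x * p i) ^ 2 := by
        rw [← Finset.mul_sum, Finset.sum_comm]
    _ ≤ (d : ℝ) * ∑ i ∈ Finset.range d, nsq c.w := by
        refine mul_le_mul_of_nonneg_left (Finset.sum_le_sum fun i _ => ?_) (Nat.cast_nonneg _)
        rw [← (c.w_L2.tr_right (p i)).2]
        exact Summable.sum_le_tsum F (fun y _ => sq_nonneg _) (c.w_L2.tr_right (p i)).1
    _ = (d : ℝ) ^ 2 * nsq c.w := by
        rw [Finset.sum_const, Finset.card_range, nsmul_eq_mul]; ring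
theorem bump_mem (a : X) {δ : ℝ} (hδ : 0 < δ) (z : X) : 0 ≤ c.bump a δ z ∧ c.bump a δ z ≤ 1 := by
  refine ⟨le_max_left _ _, max_le zero_le_one ?_⟩
  have : 0 ≤ dist z a / δ := div_nonneg dist_nonneg hδ.le
  linarith
theorem bump_self (a : X) (δ : ℝ) : c.bump a δ a = 1 := by
  simp [bump]
theorem bump_eq_zero {a : X} {δ : ℝ} (hδ : 0 < δ) {z : X} (h : δ ≤ dist z a) : c.bump a δ z = 0 := by
  refine max_eq_left ?_
  have : 1 ≤ dist z a / δ := (one_le_div hδ).2 h
  linarith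
theorem bump_lip (a : X) {δ : ℝ} (hδ : 0 < δ) (z z' : X) :
    |c.bump a δ z - c.bump a δ z'| ≤ δ⁻¹ * dist z z' := by
  unfold bump
  rw [max_comm 0, max_comm 0]
  refine (abs_max_sub_max_le_abs _ _ _).trans ?_
  have h1 : 1 - dist z a / δ - (1 - dist z' a / δ) = δ⁻¹ * (dist z' a - dist z a) := by
    field_simp; ring
  rw [h1, abs_mul, abs_of_pos (inv_pos.2 hδ), dist_comm z z']
  exact mul_le_mul_of_nonneg_left (abs_dist_sub_le _ _ _) (inv_pos.2 hδ).le

theorem Acc_mono {A B : Set Γ} (h : A ⊆ B) : c.Acc A ⊆ c.Acc B := by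
  intro a ha ε hε
  exact (ha ε hε).mono fun x hx => ⟨h hx.1, hx.2⟩
theorem Acc_union (A B : Set Γ) : c.Acc (A ∪ B) = c.Acc A ∪ c.Acc B := by
  refine Subset.antisymm (fun a ha => ?_)
    (union_subset (c.Acc_mono subset_union_left) (c.Acc_mono subset_union_right))
  by_contra hcon
  simp only [mem_union, not_or, Acc, mem_setOf_eq, not_forall, Set.not_infinite] at hcon
  obtain ⟨⟨ε, hε, h1⟩, ⟨ε', hε', h2⟩⟩ := hcon
  refine ha (min ε ε') (lt_min hε hε') ((h1.union h2).subset ?_)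
  rintro x ⟨hx | hx, hx'⟩
  · exact Or.inl ⟨hx, hx'.trans_le (min_le_left _ _)⟩
  · exact Or.inr ⟨hx, hx'.trans_le (min_le_right _ _)⟩
theorem Acc_finite {A : Set Γ} (h : A.Finite) : c.Acc A = ∅ := by
  refine eq_empty_of_forall_notMem fun a ha => ha 1 one_pos (h.subset fun x hx => hx.1)
/-- monotone up to finite sets -/
theorem Acc_mono' {A B : Set Γ} (h : (A \ B).Finite) : c.Acc A ⊆ c.Acc B := by
  have h1 : A ⊆ B ∪ (A \ B) := fun x hx => by
    by_cases hB : x ∈ B
    · exact Or.inl hB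
    · exact Or.inr ⟨hx, hB⟩
  have h2 := c.Acc_mono h1
  rwa [c.Acc_union, c.Acc_finite h, union_empty] at h2
theorem Acc_biUnion {ι : Type} {s : Set ι} (hs : s.Finite) (A : ι → Set Γ) :
    c.Acc (⋃ i ∈ s, A i) = ⋃ i ∈ s, c.Acc (A i) := by
  induction s, hs using Set.Finite.induction_on with
  | empty => simpa using c.Acc_finite finite_empty
  | insert _ _ ih => rw [biUnion_insert, biUnion_insert, c.Acc_union, ih]
theorem Acc_nonempty {A : Set Γ} (h : A.Infinite) : (c.Acc A).Nonempty := by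
  have hne : (cofinite ⊓ 𝓟 A).NeBot := h.cofinite_inf_principal_neBot
  obtain ⟨a, ha⟩ := exists_clusterPt_of_compactSpace (map c.e (cofinite ⊓ 𝓟 A))
  refine ⟨a, fun ε hε hfin => ?_⟩
  have h1 : ∃ᶠ x in cofinite ⊓ 𝓟 A, c.e x ∈ Metric.ball a ε :=
    (mapClusterPt_iff_frequently.1 ha) _ (Metric.ball_mem_nhds a hε)
  rw [frequently_inf_principal, frequently_cofinite_iff_infinite] at h1
  exact h1 hfin
theorem finite_of_Acc_eq_empty {A : Set Γ} (h : c.Acc A = ∅) : A.Finite := by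
  by_contra h'
  exact (c.Acc_nonempty h').ne_empty h
theorem isClosed_Acc (A : Set Γ) : IsClosed (c.Acc A) := by
  refine isClosed_of_closure_subset fun a ha ε hε => ?_
  obtain ⟨b, hb, hab⟩ := Metric.mem_closure_iff.1 ha (ε / 2) (half_pos hε)
  refine (hb (ε / 2) (half_pos hε)).mono fun x hx => ⟨hx.1, ?_⟩
  have := dist_triangle (c.e x) b a
  rw [dist_comm b a] at this
  linarith [hx.2]
theorem Acc_N (r : ℕ) (A : Set Γ) : c.Acc (c.N r A) = c.Acc A := by
  refine Subset.antisymm (fun a ha ε hε hfin => ?_) (c.Acc_mono (c.subset_N r A))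
  refine ha (ε / 2) (half_pos hε)
    ((c.finite_N r (hfin.union (c.finite_osc r (half_pos hε)))).subset ?_)
  rintro x ⟨⟨y, hy, hyx⟩, hx⟩
  refine ⟨y, ?_, hyx⟩
  by_cases h : ε / 2 ≤ dist (c.e y) (c.e x)
  · exact Or.inr ⟨x, hyx, h⟩
  · refine Or.inl ⟨hy, ?_⟩
    have := dist_triangle (c.e y) (c.e x) a
    linarith [not_le.1 h]
theorem Acc_smul (g : Γ) (A : Set Γ) : c.Acc (g • A) = g • c.Acc A := by
  have key : ∀ (g : Γ) (A : Set Γ), ∀ a ∈ c.Acc A, g • a ∈ c.Acc (g • A) := by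
    intro g A a ha ε hε
    obtain ⟨δ, hδ, h⟩ := Metric.continuousAt_iff.1 (c.cont g).continuousAt ε hε
    refine ((ha δ hδ).image (mul_right_injective g).injOn).mono ?_
    rintro _ ⟨x, hx, rfl⟩
    refine ⟨⟨x, hx.1, rfl⟩, ?_⟩
    rw [c.equiv]; exact h hx.2
  ext a
  constructor
  · intro ha
    have := key g⁻¹ _ a ha
    rw [inv_smul_smul] at this
    exact Set.mem_smul_set_iff_inv_smul_mem.2 this
  · rintro ⟨b, hb, rfl⟩
    exact key g A b hb
theorem Acc_preimage {C : Set X} (hC : IsClosed C) : c.Acc (c.e ⁻¹' C) ⊆ C := by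
  intro a ha
  rw [← hC.closure_eq]
  refine Metric.mem_closure_iff.2 fun ε hε => ?_
  obtain ⟨x, hx⟩ := (ha ε hε).nonempty
  exact ⟨c.e x, hx.1, by rw [dist_comm]; exact hx.2⟩
/-- all but finitely many points of `A` lie in a given open neighbourhood of `Acc A` -/
theorem finite_of_Acc {A : Set Γ} {U : Set X} (hU : IsOpen U) (h : c.Acc A ⊆ U) :
    {x ∈ A | c.e x ∉ U}.Finite := by
  refine c.finite_of_Acc_eq_empty (eq_empty_of_forall_notMem fun a ha => ?_)
  have h1 : a ∈ c.Acc A := c.Acc_mono (fun x hx => hx.1) ha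
  have h2 : a ∈ Uᶜ := c.Acc_preimage hU.isClosed_compl (c.Acc_mono (fun x hx => hx.2) ha)
  exact h2 (h h1)
theorem finite_of_notMem_Acc {A : Set Γ} {y : X} (h : y ∉ c.Acc A) :
    ∃ ε > 0, {x ∈ A | dist (c.e x) y < ε}.Finite := by
  simp only [Acc, mem_setOf_eq, not_forall, Set.not_infinite] at h
  obtain ⟨ε, hε, h⟩ := h
  exact ⟨ε, hε, h⟩
/-- sequential description -/
theorem mem_Acc_iff {A : Set Γ} {y : X} : y ∈ c.Acc A ↔
    ∃ x : ℕ → Γ, Function.Injective x ∧ (∀ n, x n ∈ A) ∧ Tendsto (c.e ∘ x) atTop (𝓝 y) := by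
  classical
  constructor
  · intro hy
    have hinf : ∀ n : ℕ, {x ∈ A | dist (c.e x) y < 1 / ((n : ℝ) + 1)}.Infinite :=
      fun n => hy _ Nat.one_div_pos_of_nat
    have hex : ∀ (n : ℕ) (F : Finset Γ), ∃ x, x ∉ F ∧ x ∈ A ∧ dist (c.e x) y < 1 / ((n : ℝ) + 1) := by
      intro n F
      obtain ⟨x, hx, hx'⟩ := (hinf n).exists_notMem_finset F
      exact ⟨x, hx', hx.1, hx.2⟩
    choose f hf1 hf2 hf3 using hex
    let T : ℕ → Finset Γ := fun n => Nat.rec ∅ (fun n F => insert (f n F) F) n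
    have hT : ∀ n, T (n + 1) = insert (f n (T n)) (T n) := fun n => rfl
    have hTm : Monotone T := monotone_nat_of_le_succ fun n => by
      rw [hT]; exact Finset.subset_insert _ _
    have hlt : ∀ m n, m < n → f m (T m) ≠ f n (T n) := by
      intro m n hmn he
      refine hf1 n (T n) ?_
      rw [← he]
      exact hTm (Nat.succ_le_of_lt hmn) (by rw [hT]; exact Finset.mem_insert_self _ _)
    refine ⟨fun n => f n (T n), fun m n hmn => ?_, fun n => hf2 _ _, ?_⟩
    · rcases lt_trichotomy m n with h | h | h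
      · exact absurd hmn (hlt m n h)
      · exact h
      · exact absurd hmn.symm (hlt n m h)
    · rw [tendsto_iff_dist_tendsto_zero]
      exact squeeze_zero (fun _ => dist_nonneg) (fun n => (hf3 n (T n)).le)
        tendsto_one_div_add_atTop_nhds_zero_nat
  · rintro ⟨x, hx, hA, hl⟩ ε hε
    have h1 := Metric.tendsto_nhds.1 hl ε hε
    rw [← Nat.cofinite_eq_atTop] at h1
    have h2 : {n | dist ((c.e ∘ x) n) y < ε}.Infinite := Set.infinite_of_finite_compl h1
    refine (h2.image hx.injOn).mono ?_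
    rintro _ ⟨n, hn, rfl⟩
    exact ⟨hA n, hn⟩
/-- filter version: a sequence leaving every finite set -/
theorem mem_Acc_of_tendsto {ι : Type} {l : Filter ι} [l.NeBot] {A : Set Γ} {y : X} {x : ι → Γ}
    (hx : Tendsto x l cofinite) (hA : ∀ᶠ i in l, x i ∈ A) (h : Tendsto (c.e ∘ x) l (𝓝 y)) :
    y ∈ c.Acc A := by
  intro ε hε hfin
  have h1 := Metric.tendsto_nhds.1 h ε hε
  have h2 : ∀ᶠ i in l, x i ∈ {x ∈ A | dist (c.e x) y < ε}ᶜ := hx hfin.compl_mem_cofinite
  obtain ⟨i, hi, hi', hi''⟩ := (h1.and (h2.and hA)).exists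
  exact hi' ⟨hi'', hi⟩

end Ctx
end Crest.Agent.R224
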