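import Crest.Agent.R224.Defs

/-! Word metric API. -/

set_option autoImplicit false
open Filter Topology Set MeasureTheory
open scoped Pointwise

namespace Crest.Agent.R224

namespace Gen
variable {Γ : Type} [Group Γ] (G : Gen Γ)

theorem inv_S : ((G.S : Set Γ))⁻¹ = (G.S : Set Γ) := by
  ext x
  simp only [Set.mem_inv, Finset.mem_coe]
  constructor
  · intro h
    simpa using G.inv_mem _ h
  · exact G.inv_mem x

theorem inv_mem_pow {g : Γ} {n : ℕ} (h : g ∈ (G.S : Set Γ) ^ n) : g⁻¹ ∈ (G.S : Set Γ) ^ n := by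
  have : ((G.S : Set Γ) ^ n)⁻¹ = (G.S : Set Γ) ^ n := by
    rw [← inv_pow, G.inv_S]
  rw [← this]
  simpa using h

theorem mul_mem_pow {g h : Γ} {m n : ℕ} (hg : g ∈ (G.S : Set Γ) ^ m) (hh : h ∈ (G.S : Set Γ) ^ n) :
    g * h ∈ (G.S : Set Γ) ^ (m + n) := by
  rw [pow_add]
  exact Set.mul_mem_mul hg hh

theorem exists_mem_pow (g : Γ) : ∃ n : ℕ, g ∈ (G.S : Set Γ) ^ n := by
  have hg : g ∈ Subgroup.closure (G.S : Set Γ) := by rw [G.gen]; trivial
  induction hg using Subgroup.closure_induction with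
  | mem x hx => exact ⟨1, by simpa using hx⟩
  | one => exact ⟨0, by simp⟩
  | mul x y _ _ hx hy =>
    obtain ⟨m, hm⟩ := hx
    obtain ⟨n, hn⟩ := hy
    exact ⟨m + n, G.mul_mem_pow hm hn⟩
  | inv x _ hx =>
    obtain ⟨m, hm⟩ := hx
    exact ⟨m, G.inv_mem_pow hm⟩

theorem mem_pow_len (g : Γ) : g ∈ (G.S : Set Γ) ^ G.len g :=
  Nat.sInf_mem (s := {n : ℕ | g ∈ (G.S : Set Γ) ^ n}) (G.exists_mem_pow g)
/-- since `1 ∈ S`, the powers of `S` increase -/
theorem len_le_iff (g : Γ) (n : ℕ) : G.len g ≤ n ↔ g ∈ (G.S : Set Γ) ^ n := by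
  constructor
  · intro h
    exact Set.pow_subset_pow_right (by simpa using G.one_mem) h (G.mem_pow_len g)
  · intro h
    exact Nat.sInf_le (s := {n : ℕ | g ∈ (G.S : Set Γ) ^ n}) h
@[simp] theorem len_one : G.len 1 = 0 := by
  have : G.len 1 ≤ 0 := (G.len_le_iff 1 0).2 (by simp)
  omega
theorem len_eq_zero {g : Γ} : G.len g = 0 ↔ g = 1 := by
  constructor
  · intro h
    have := G.mem_pow_len g
    rw [h] at this
    simpa using this
  · rintro rfl
    exact G.len_one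
theorem len_mul_le (g h : Γ) : G.len (g * h) ≤ G.len g + G.len h :=
  (G.len_le_iff _ _).2 (G.mul_mem_pow (G.mem_pow_len g) (G.mem_pow_len h))
@[simp] theorem len_inv (g : Γ) : G.len g⁻¹ = G.len g := by
  apply le_antisymm
  · exact (G.len_le_iff _ _).2 (G.inv_mem_pow (G.mem_pow_len g))
  · have := (G.len_le_iff _ _).2 (G.inv_mem_pow (G.mem_pow_len g⁻¹))
    simpa using this
theorem len_le_one {g : Γ} : G.len g ≤ 1 ↔ g ∈ G.S := by
  rw [G.len_le_iff]
  simp
@[simp] theorem D_self (x : Γ) : G.D x x = 0 := by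
  simp [D]
theorem D_eq_zero {x y : Γ} : G.D x y = 0 ↔ x = y := by
  rw [D, G.len_eq_zero, inv_mul_eq_one]
theorem D_comm (x y : Γ) : G.D x y = G.D y x := by
  rw [D, D, ← G.len_inv]
  simp
theorem D_tri (x y z : Γ) : G.D x z ≤ G.D x y + G.D y z := by
  have := G.len_mul_le (x⁻¹ * y) (y⁻¹ * z)
  simpa [D, mul_assoc] using this
@[simp] theorem D_mul_left (g x y : Γ) : G.D (g * x) (g * y) = G.D x y := by
  simp [D, mul_assoc]
@[simp] theorem D_mul_right (x g : Γ) : G.D x (x * g) = G.len g := by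
  simp [D]
@[simp] theorem D_one (g : Γ) : G.D 1 g = G.len g := by
  simp [D]
theorem D_le_one {x y : Γ} : G.D x y ≤ 1 ↔ ∃ s ∈ G.S, y = x * s := by
  rw [D, G.len_le_one]
  constructor
  · intro h
    exact ⟨_, h, by simp⟩
  · rintro ⟨s, hs, rfl⟩
    simpa using hs
/-- one step along a geodesic -/
theorem exists_step {x y : Γ} {n : ℕ} (h : G.D x y = n + 1) :
    ∃ z, G.D x z ≤ 1 ∧ G.D z y = n := by
  have h1 := G.mem_pow_len (x⁻¹ * y)
  rw [D] at h
  rw [h, pow_succ'] at h1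
  obtain ⟨s, hs, t, ht, hst⟩ := Set.mem_mul.1 h1
  have hz : G.D x (x * s) ≤ 1 := G.D_le_one.2 ⟨s, hs, rfl⟩
  refine ⟨x * s, hz, ?_⟩
  have h2 : G.D (x * s) y ≤ n := by
    rw [D, G.len_le_iff]
    have : (x * s)⁻¹ * y = t := by
      rw [mul_inv_rev, mul_assoc, ← hst]
      simp
    rwa [this]
  have h3 := G.D_tri x (x * s) y
  rw [D, h] at h3
  omega
/-- a geodesic as a finite sequence -/
theorem exists_geod (x y : Γ) : ∃ p : ℕ → Γ, p 0 = x ∧ p (G.D x y) = y ∧
    (∀ i, G.D (p i) (p (i + 1)) ≤ 1) ∧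
    ∀ i ≤ G.D x y, G.D x (p i) = i ∧ G.D (p i) y = G.D x y - i := by
  obtain ⟨n, hn⟩ : ∃ n, G.D x y = n := ⟨_, rfl⟩
  induction n generalizing x with
  | zero =>
    obtain rfl := G.D_eq_zero.1 hn
    refine ⟨fun _ => x, rfl, rfl, fun i => by simp, fun i hi => ?_⟩
    simp only [D_self] at hi ⊢
    omega
  | succ n ih =>
    obtain ⟨z, hz, hzy⟩ := G.exists_step hn
    obtain ⟨p, hp0, hpn, hstep, hd⟩ := ih z hzy
    refine ⟨fun i => Nat.casesOn i x p, rfl, ?_, ?_, ?_⟩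
    · rw [hn]
      show p n = y
      rw [← hzy]
      exact hpn
    · intro i
      cases i with
      | zero =>
        show G.D x (p 0) ≤ 1
        rw [hp0]
        exact hz
      | succ i => exact hstep i
    · intro i hi
      cases i with
      | zero => simp
      | succ i =>
        show G.D x (p i) = i + 1 ∧ G.D (p i) y = G.D x y - (i + 1)
        obtain ⟨h1, h2⟩ := hd i (by omega)
        have h3 := G.D_tri x z (p i)
        have h4 := G.D_tri x (p i) y
        omega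
/-- induction along the Cayley graph -/
theorem conn_ind {p : Γ → Prop} {x : Γ} (h0 : p x) (hs : ∀ y z, G.D y z ≤ 1 → p y → p z) (y : Γ) :
    p y := by
  obtain ⟨q, hq0, hqn, hstep, -⟩ := G.exists_geod x y
  have : ∀ i, p (q i) := by
    intro i
    induction i with
    | zero => rwa [hq0]
    | succ i ih => exact hs _ _ (hstep i) ih
  rw [← hqn]
  exact this _
theorem S_card_pos : 0 < G.S.card :=
  Finset.card_pos.2 ⟨1, G.one_mem⟩
theorem finite_len_le (r : ℕ) : {g | G.len g ≤ r}.Finite := by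
  have : {g | G.len g ≤ r} = (G.S : Set Γ) ^ r := by
    ext g
    exact G.len_le_iff g r
  rw [this]
  classical
  rw [← Finset.coe_pow]
  exact Finset.finite_toSet _
theorem ball_eq_image (x : Γ) (r : ℕ) : G.ball x r = (fun g => x * g) '' {g | G.len g ≤ r} := by
  ext y
  simp only [ball, D, mem_ofPred_eq, mem_image]
  constructor
  · intro h
    exact ⟨_, h, by simp⟩
  · rintro ⟨g, hg, rfl⟩
    simpa using hg
theorem finite_ball (x : Γ) (r : ℕ) : (G.ball x r).Finite := by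
  rw [G.ball_eq_image]
  exact (G.finite_len_le r).image _
theorem ncard_ball (x : Γ) (r : ℕ) : (G.ball x r).ncard = G.vol r := by
  rw [vol, G.ball_eq_image, G.ball_eq_image,
    Set.ncard_image_of_injective _ (mul_right_injective x),
    Set.ncard_image_of_injective _ (mul_right_injective 1)]
theorem vol_pos (r : ℕ) : 0 < G.vol r := by
  rw [vol, Set.ncard_pos (G.finite_ball 1 r)]
  exact ⟨1, by simp [ball]⟩
include G in
theorem countable : Countable Γ := by
  have : (univ : Set Γ) = ⋃ r : ℕ, {g | G.len g ≤ r} := by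
    ext g
    simp only [mem_univ, mem_iUnion, mem_ofPred_eq, true_iff]
    exact ⟨_, le_rfl⟩
  rw [← Set.countable_univ_iff, this]
  exact Set.countable_iUnion fun r => (G.finite_len_le r).countable
theorem subset_N (r : ℕ) (A : Set Γ) : A ⊆ G.N r A :=
  fun x hx => ⟨x, hx, by simp⟩
theorem N_mono {r r' : ℕ} {A B : Set Γ} (hr : r ≤ r') (h : A ⊆ B) : G.N r A ⊆ G.N r' B := by
  rintro x ⟨a, ha, hd⟩
  exact ⟨a, h ha, hd.trans hr⟩
theorem N_N (r r' : ℕ) (A : Set Γ) : G.N r (G.N r' A) ⊆ G.N (r' + r) A := by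
  rintro x ⟨b, ⟨a, ha, hab⟩, hd⟩
  exact ⟨a, ha, (G.D_tri a b x).trans (add_le_add hab hd)⟩
theorem N_union (r : ℕ) (A B : Set Γ) : G.N r (A ∪ B) = G.N r A ∪ G.N r B := by
  ext x
  simp only [N, mem_union, mem_ofPred_eq]
  constructor
  · rintro ⟨a, ha | ha, hd⟩
    · exact Or.inl ⟨a, ha, hd⟩
    · exact Or.inr ⟨a, ha, hd⟩
  · rintro (⟨a, ha, hd⟩ | ⟨a, ha, hd⟩)
    · exact ⟨a, Or.inl ha, hd⟩
    · exact ⟨a, Or.inr ha, hd⟩
@[simp] theorem N_empty (r : ℕ) : G.N r ∅ = ∅ := by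
  simp [N]
theorem N_eq_biUnion (r : ℕ) (A : Set Γ) : G.N r A = ⋃ a ∈ A, G.ball a r := by
  ext x
  simp [N, ball]
theorem finite_N (r : ℕ) {A : Set Γ} (h : A.Finite) : (G.N r A).Finite := by
  rw [G.N_eq_biUnion]
  exact h.biUnion fun a _ => G.finite_ball a r
theorem encard_N_le (r : ℕ) (A : Set Γ) : (G.N r A).encard ≤ A.encard * G.vol r := by
  have hsub : G.N r A ⊆ (fun p : Γ × Γ => p.1 * p.2) '' (A ×ˢ G.ball 1 r) := by
    rintro x ⟨a, ha, hd⟩
    refine ⟨(a, a⁻¹ * x), ⟨ha, ?_⟩, by simp⟩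
    simpa [ball, D] using hd
  refine (Set.encard_le_encard hsub).trans ((Set.encard_image_le _ _).trans ?_)
  rw [Set.encard_prod, vol, (G.finite_ball 1 r).cast_ncard_eq]
theorem smul_N (g : Γ) (r : ℕ) (A : Set Γ) : G.N r (g • A) = g • G.N r A := by
  ext x
  rw [Set.mem_smul_set_iff_inv_smul_mem]
  simp only [N, mem_ofPred_eq, smul_eq_mul]
  constructor
  · rintro ⟨_, ⟨a, ha, rfl⟩, hd⟩
    refine ⟨a, ha, ?_⟩
    rw [← G.D_mul_left g]
    simpa using hd
  · rintro ⟨a, ha, hd⟩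
    refine ⟨g * a, ⟨a, ha, rfl⟩, ?_⟩
    rw [← G.D_mul_left g] at hd
    simpa using hd

end Gen
end Crest.Agent.R224
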