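import Crest.Agent.R224.CL

/-! Behrstock type inequality for a pair of `CL` functions. -/

set_option autoImplicit false
open Filter Topology Set MeasureTheory
open scoped Pointwise

namespace Crest.Agent.R224

namespace Gen
variable {Γ : Type} [Group Γ] {G : Gen Γ}

/-- for `ℓ²` functions the pairing with far translates tends to zero -/
theorem tendsto_pair_tr {v w : Γ → ℝ} (hv : L2 v) (hw : L2 w) :
    Tendsto (fun g : Γ => ∑' x, v x * w (g⁻¹ * x)) cofinite (𝓝 0) := by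
  rw [Metric.tendsto_nhds]
  intro ε hε
  have hn : 0 ≤ nsq w := tsum_nonneg fun x => sq_nonneg _
  set δ := ε / (2 * (nsq w + 1)) with hδ
  have hδ0 : 0 < δ := by positivity
  set φ : Γ → Γ → ℝ := fun g x => max (|v x * w (g⁻¹ * x)| - δ * w (g⁻¹ * x) ^ 2) 0 with hφ
  have hbd : ∀ g x, ‖φ g x‖ ≤ v x ^ 2 / (4 * δ) := fun g x => by
    rw [Real.norm_eq_abs, abs_of_nonneg (le_max_right _ _)]
    refine max_le ?_ (by positivity)
    rw [le_div_iff₀ (by positivity), abs_mul, ← sq_abs (v x), ← sq_abs (w _)]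
    nlinarith [sq_nonneg (|v x| - 2 * δ * |w (g⁻¹ * x)|)]
  have hsb : Summable fun x => v x ^ 2 / (4 * δ) := hv.div_const _
  have hT : Tendsto (fun g => ∑' x, φ g x) cofinite (𝓝 (∑' _x : Γ, (0 : ℝ))) := by
    refine tendsto_tsum_of_dominated_convergence hsb (fun x => ?_) (Eventually.of_forall hbd)
    have h1 : Tendsto (fun g : Γ => w (g⁻¹ * x)) cofinite (𝓝 0) :=
      hw.tendsto.comp (Function.Injective.tendsto_cofinite fun a b h => by simpa using h)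
    have := (((h1.const_mul (v x)).abs).sub ((h1.pow 2).const_mul δ)).max
      (tendsto_const_nhds (x := (0 : ℝ)))
    simpa [hφ] using this
  rw [tsum_zero] at hT
  filter_upwards [hT.eventually (gt_mem_nhds (half_pos hε))] with g hg
  have hw' := hw.tr g⁻¹
  have s1 : Summable (φ g) := hsb.of_norm_bounded (hbd g)
  have s2 : Summable fun x => δ * w (g⁻¹ * x) ^ 2 := hw'.1.mul_left δ
  have h1 : ‖∑' x, v x * w (g⁻¹ * x)‖ ≤ ∑' x, φ g x + δ * nsq w := by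
    refine tsum_of_norm_bounded (g := fun x => φ g x + δ * w (g⁻¹ * x) ^ 2) ?_ fun x => ?_
    · rw [← hw'.2]
      exact s1.hasSum.add (hw'.1.hasSum.mul_left δ)
    · rw [Real.norm_eq_abs]
      linarith [le_max_left (|v x * w (g⁻¹ * x)| - δ * w (g⁻¹ * x) ^ 2) 0]
  have h2 : δ * nsq w ≤ ε / 2 := by
    rw [hδ, div_mul_eq_mul_div, div_le_div_iff₀ (by positivity) (by positivity)]
    nlinarith
  rw [dist_zero_right]
  linarith

theorem beh_window {p q η : ℝ} (hη : 0 < η) (hp : 0 ≤ p ∧ p ≤ 1) (hq : 0 ≤ q ∧ q ≤ 1)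
    (h : η < |p - q|) : ∃ j ∈ Finset.range (⌊1 / (η / 4)⌋₊ + 1),
      ∀ t ∈ Ioo ((j : ℝ) * (η / 4)) (j * (η / 4) + η / 4),
        ¬ (p ≤ t ↔ q ≤ t) ∧ ∀ y, |y - q| < η / 4 → (y ≤ t ↔ q ≤ t) := by
  have hl : 0 < η / 4 := by positivity
  have h0 : 0 ≤ (p + q) / 2 / (η / 4) := div_nonneg (by linarith [hp.1, hq.1]) hl.le
  refine ⟨⌊(p + q) / 2 / (η / 4)⌋₊, Finset.mem_range.2 (Nat.lt_succ_of_le (Nat.floor_mono
    (div_le_div_of_nonneg_right (by linarith [hp.2, hq.2]) hl.le))), fun t ht => ?_⟩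
  have h1 := (le_div_iff₀ hl).1 (Nat.floor_le h0)
  have h2 := (div_lt_iff₀ hl).1 (Nat.lt_floor_add_one ((p + q) / 2 / (η / 4)))
  have h3 : (p + q) / 2 - η / 4 < t := by linarith [ht.1]
  have h4 : t < (p + q) / 2 + η / 4 := by linarith [ht.2]
  rcases lt_abs.1 h with h5 | h5
  · refine ⟨fun hh => ?_, fun y hy => ?_⟩
    · linarith [hh.2 (by linarith)]
    · exact ⟨fun _ => by linarith, fun _ => by linarith [(abs_lt.1 hy).2]⟩
  · refine ⟨fun hh => ?_, fun y hy => ?_⟩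
    · linarith [hh.1 (by linarith)]
    · exact ⟨fun hh => by linarith [(abs_lt.1 hy).1], fun hh => by linarith⟩

theorem beh_big {T : ℕ → Set ℝ} (hT : Monotone T) (h : ∀ᵐ t : ℝ, ∃ R, t ∈ T R) {l : ℝ}
    (hl : 0 < l) (c : ℝ) :
    ∀ᶠ R in atTop, ENNReal.ofReal (l / 2) < volume (T R ∩ Ioo c (c + l)) := by
  have h1 := tendsto_measure_iUnion_atTop (μ := (volume : Measure ℝ))
    (s := fun R => T R ∩ Ioo c (c + l)) fun a b hab => inter_subset_inter_left _ (hT hab)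
  refine h1.eventually (lt_mem_nhds ?_)
  have h2 : volume (Ioo c (c + l)) ≤ volume (⋃ R, T R ∩ Ioo c (c + l)) := by
    refine measure_mono_ae ?_
    filter_upwards [h] with t ⟨R, hR⟩ ht using mem_iUnion.2 ⟨R, hR, ht⟩
  refine lt_of_lt_of_le ?_ h2
  rw [Real.volume_Ioo, add_sub_cancel_left]
  exact (ENNReal.ofReal_lt_ofReal_iff hl).2 (by linarith)

theorem beh_side {s : ℕ} {P V : Set Γ} {x y : Γ} (h : G.Chain s P x y)
    (hP : ∀ a ∈ P, ∀ z ∈ G.wall V, ¬ G.D a z ≤ s) : x ∈ V ↔ y ∈ V := by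
  induction h with
  | refl => rfl
  | @tail a b _ h ih =>
    refine ih.trans ?_
    by_contra hc
    obtain ⟨z, hz, hd⟩ := G.exists_wall_of_cross (V := V) hc
    exact hP a h.1 z hz (by have := h.2.2; omega)

theorem beh_osc {k : Γ → ℝ} (h : G.CL k) (R : ℕ) {ε : ℝ} (hε : 0 < ε) :
    ∀ᶠ g in cofinite, ∀ y, G.len y ≤ R → |k (g * y) - k g| < ε := by
  obtain ⟨w, hw⟩ := h.dom
  filter_upwards [(G.loc_L2 hw.1 R).1.tendsto.eventually (gt_mem_nhds hε)] with g hg y hy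
  exact lt_of_le_of_lt (hw.osc (by rwa [G.D_mul_right])) hg

/-- Plan.  Data `(r,ρ,M)` for `k`, `(r',ρ',M')` for `k'`, `r₁ = max r r'`.  Cut `[0,1]` into finitely many
windows `J` of length `ℓ ≤ η/4`.  The sets `T_R` of levels for which `R₀ = R` works increase to a conull set, so
(continuity from below of the outer measure, `Monotone.measure_iUnion`) one `R` has
`vol (T_R ∩ J) > ℓ/2` and `vol (T'_R ∩ J) > ℓ/2` for all windows.  For `g` far: `k` oscillates by `< η/4` on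
`ball g R`, `k'` by `< η/4` on `ball g⁻¹ R`, and the measurable set of pairs `(t,t')` such that
`t ∈ M v`, `t' ∈ M' (g⁻¹ v')` for some `D v v' ≤ r₁` has product measure
`≤ ∑_v ρ v * loc r₁ ρ' (g⁻¹ v) < ℓ²/4`.  If both inequalities fail for `z`, choose windows `J` strictly between
`k z` and `k g` at distance `≥ η/4` from `k g`, `J'` similarly for `k' (g⁻¹ z)`, `k' g⁻¹`, and by Fubini/Markov
`t ∈ T_R ∩ J`, `t' ∈ T'_R ∩ J'` not a bad pair.  `V = {k ≤ t}`, `V' = {y | k' (g⁻¹ y) ≤ t'}`.  Chains show: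
the wall of `V` lies on the `V'`-side of `1`, the wall of `V'` lies on the `V`-side of `g`.  So
`A = {y | cross V y g ∧ cross V' y 1}` has empty wall and misses `g`, hence is empty; but `z ∈ A`. -/
theorem CL.beh {k k' : Γ → ℝ} (h : G.CL k) (h' : G.CL k') {η : ℝ} (hη : 0 < η) :
    ∃ R : ℕ, ∀ g : Γ, R ≤ G.len g → ∀ z : Γ,
      |k z - k g| ≤ η ∨ |k' (g⁻¹ * z) - k' g⁻¹| ≤ η := by
  classical
  haveI := G.countable
  obtain ⟨r, ρ, M, hρ, hρ0, -, hM, hae⟩ := h.2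
  obtain ⟨r', ρ', M', hρ', hρ0', -, hM', hae'⟩ := h'.2
  have hl : 0 < η / 4 := by positivity
  set T : ℕ → Set ℝ := fun R => {t | ∀ x ∈ G.wall {z | k z ≤ t},
    t ∈ M x ∧ ∃ y, G.len y ≤ R ∧ G.Chain r {v | t ∈ M v} x y} with hT
  set T' : ℕ → Set ℝ := fun R => {t | ∀ x ∈ G.wall {z | k' z ≤ t},
    t ∈ M' x ∧ ∃ y, G.len y ≤ R ∧ G.Chain r' {v | t ∈ M' v} x y} with hT'
  have mT : Monotone T := fun a b hab t ht x hx =>
    ⟨(ht x hx).1, (ht x hx).2.imp fun y hy => ⟨hy.1.trans hab, hy.2⟩⟩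
  have mT' : Monotone T' := fun a b hab t ht x hx =>
    ⟨(ht x hx).1, (ht x hx).2.imp fun y hy => ⟨hy.1.trans hab, hy.2⟩⟩
  obtain ⟨R, hR, hR'⟩ := (((eventually_all_finset (Finset.range (⌊1 / (η / 4)⌋₊ + 1))).2
    fun j _ => beh_big mT hae hl (j * (η / 4))).and
    ((eventually_all_finset (Finset.range (⌊1 / (η / 4)⌋₊ + 1))).2
    fun j _ => beh_big mT' hae' hl (j * (η / 4)))).exists
  set B : Finset Γ := (G.finite_len_le (max r r')).toFinset with hB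
  have hpair : Tendsto (fun g : Γ => ∑ u ∈ B, ∑' v, ρ v * ρ' (g⁻¹ * v * u)) cofinite (𝓝 0) := by
    have := tendsto_finsetSum B fun u _ => tendsto_pair_tr hρ (hρ'.tr_right u).1
    simpa using this
  have hinv : Tendsto (fun g : Γ => g⁻¹) cofinite cofinite := inv_injective.tendsto_cofinite
  have hev := (hpair.eventually (gt_mem_nhds
    (show (0 : ℝ) < η / 4 / 2 * (η / 4 / 2) by positivity))).and
    ((beh_osc h R hl).and (hinv.eventually (beh_osc h' R hl)))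
  obtain ⟨R₁, hR₁⟩ := ((eventually_cofinite.1 hev).image G.len).bddAbove
  refine ⟨R₁ + 1, fun g hg z => ?_⟩
  have hgood : ¬ ¬ _ := fun hn => by
    have := hR₁ (mem_image_of_mem G.len (show g ∈ _ from hn))
    omega
  obtain ⟨e1, e2, e3⟩ := not_not.1 hgood
  by_contra hcon
  rw [not_or, not_le, not_le] at hcon
  obtain ⟨j, hj, hJ⟩ := beh_window hη (h.1 z) (h.1 g) hcon.1
  obtain ⟨j', hj', hJ'⟩ := beh_window hη (h'.1 (g⁻¹ * z)) (h'.1 g⁻¹) hcon.2
  have hex : ∃ t ∈ T R ∩ Ioo ((j : ℝ) * (η / 4)) (j * (η / 4) + η / 4),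
      ∃ t' ∈ T' R ∩ Ioo ((j' : ℝ) * (η / 4)) (j' * (η / 4) + η / 4),
      ∀ u ∈ B, ∀ v, ¬ (t ∈ M v ∧ t' ∈ M' (g⁻¹ * v * u)) := by
    by_contra hn
    push Not at hn
    have h1 : (T R ∩ Ioo ((j : ℝ) * (η / 4)) (j * (η / 4) + η / 4)) ×ˢ
        (T' R ∩ Ioo ((j' : ℝ) * (η / 4)) (j' * (η / 4) + η / 4)) ⊆
        ⋃ u ∈ B, ⋃ v, M v ×ˢ M' (g⁻¹ * v * u) := by
      rintro ⟨t, t'⟩ ⟨ht, ht'⟩
      obtain ⟨u, hu, v, hv⟩ := hn t ht t' ht'
      exact mem_biUnion hu (mem_iUnion.2 ⟨v, hv⟩)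
    have h2 := (measure_mono (μ := (volume : Measure ℝ).prod volume) h1).trans
      (measure_biUnion_finset_le _ _)
    have h3 : ∀ u ∈ B, ((volume : Measure ℝ).prod volume) (⋃ v, M v ×ˢ M' (g⁻¹ * v * u)) ≤
        ENNReal.ofReal (∑' v, ρ v * ρ' (g⁻¹ * v * u)) := fun u _ => by
      refine (measure_iUnion_le _).trans ?_
      rw [ENNReal.ofReal_tsum_of_nonneg (fun v => mul_nonneg (hρ0 _) (hρ0' _))
        (hρ.summable_mul ((hρ'.tr_right u).1.tr g⁻¹).1)]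
      refine ENNReal.tsum_le_tsum fun v => ?_
      rw [Measure.prod_prod, ENNReal.ofReal_mul (hρ0 _)]
      exact mul_le_mul' (hM _) (hM' _)
    have h4 := h2.trans (Finset.sum_le_sum h3)
    rw [← ENNReal.ofReal_sum_of_nonneg
      (fun u _ => tsum_nonneg fun v => mul_nonneg (hρ0 _) (hρ0' _)), Measure.prod_prod] at h4
    have h5 := (mul_le_mul' (hR j hj).le (hR' j' hj').le).trans h4
    rw [← ENNReal.ofReal_mul (by positivity), ENNReal.ofReal_le_ofReal_iff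
      (Finset.sum_nonneg fun u _ => tsum_nonneg fun v => mul_nonneg (hρ0 _) (hρ0' _))] at h5
    linarith
  obtain ⟨t, ⟨ht, htJ⟩, t', ⟨ht', htJ'⟩, hnb⟩ := hex
  have hnb' : ∀ v v', G.D v v' ≤ max r r' → t ∈ M v → t' ∈ M' (g⁻¹ * v') → False := by
    intro v v' hd h1 h2
    refine hnb (v⁻¹ * v') ((Finite.mem_toFinset _).2 hd) v ⟨h1, ?_⟩
    rwa [mul_assoc, mul_inv_cancel_left]
  set V : Set Γ := {y | k y ≤ t} with hV
  set V' : Set Γ := {y | k' (g⁻¹ * y) ≤ t'} with hV'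
  have hw' : ∀ x ∈ G.wall V', g⁻¹ * x ∈ G.wall {y | k' y ≤ t'} := by
    rintro x ⟨y, hd, hc⟩
    exact ⟨g⁻¹ * y, by rwa [G.D_mul_left], hc⟩
  have cA : ∀ x ∈ G.wall V, (x ∈ V' ↔ (1 : Γ) ∈ V') := by
    intro x hx
    obtain ⟨-, y, hy, hch⟩ := ht x hx
    refine (beh_side hch fun a ha z hz hd =>
      hnb' a z (hd.trans (le_max_left _ _)) ha (ht' _ (hw' z hz)).1).trans ?_
    simp only [hV', mem_setOf_eq, mul_one]
    exact (hJ' t' htJ').2 _ (e3 y hy)
  have cB : ∀ x ∈ G.wall V', (x ∈ V ↔ g ∈ V) := by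
    intro x hx
    obtain ⟨-, y, hy, hch⟩ := ht' _ (hw' x hx)
    have hch' := hch.smul g
    rw [mul_inv_cancel_left] at hch'
    refine (beh_side hch' ?_).trans ((hJ t htJ).2 _ (e2 y hy))
    rintro _ ⟨a, ha, rfl⟩ z hz hd
    refine hnb' z (g * a) ?_ (ht z hz).1 (by rwa [inv_mul_cancel_left])
    rw [G.D_comm]
    exact hd.trans (le_max_right _ _)
  have key := G.conn_ind (p := fun y => cross V y g ∧ cross V' y 1) (x := z)
    ⟨(hJ t htJ).1, by simpa [cross, hV'] using (hJ' t' htJ').1⟩ (fun x y hd hx => by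
      constructor
      · intro h1
        exact hx.2 (cA x ⟨y, hd, fun h2 => hx.1 (h2.trans h1)⟩)
      · intro h1
        exact hx.1 (cB x ⟨y, hd, fun h2 => hx.2 (h2.trans h1)⟩)) g
  exact key.1 Iff.rfl

end Gen
end Crest.Agent.R224
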