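import Crest.Agent.R224.Btw0

/-! Cut points form a pretree; two-point lemma. -/

set_option autoImplicit false
set_option linter.unusedSectionVars false
open Filter Topology Set MeasureTheory
open scoped Pointwise

namespace Crest.Agent.R224

namespace Ctx
variable {Γ X : Type} [Group Γ] [MetricSpace X] [CompactSpace X] [MulAction Γ X] (c : Ctx Γ X)

/-- Two-point lemma.  Plan: if `e = ζ` it is the definition.  Otherwise `F = {x | dist (e x) e₀ < d/2}`,
`d = dist e₀ ζ`; `N r₀ (wall H ∩ F) ∩ N r₀ (wall H \ F)` has no accumulation point; `spl_fin` (applied to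
`wall H ∩ F`) gives `U` with wall `→ e₀` and `symmDiff H U` with wall `→ ζ`.  `y, y'` have sides for `U`
(`side`); if they are equal then `symmDiff H U` separates. -/
theorem two_point {H : Set Γ} {e₀ ζ y y' : X} (hH : c.Acc (c.wall H) ⊆ {e₀, ζ}) (hy : c.Accs y)
    (hy' : c.Accs y') (h1 : y ∉ ({e₀, ζ} : Set X)) (h2 : y' ∉ ({e₀, ζ} : Set X))
    (h3 : c.In y H) (h4 : c.In y' Hᶜ) : c.Btw e₀ y y' ∨ c.Btw ζ y y' := by
  simp only [mem_insert_iff, mem_singleton_iff, not_or] at h1 h2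
  by_cases he : e₀ = ζ
  · subst he
    exact Or.inl ⟨Ne.symm h1.1, Ne.symm h2.1, H, by simpa using hH, h3, h4⟩
  have hd : 0 < dist ζ e₀ := dist_pos.2 (Ne.symm he)
  set F : Set Γ := c.wall H ∩ {x | dist (c.e x) e₀ < dist ζ e₀ / 2} with hF
  have a1 : c.Acc F ⊆ {e₀} := by
    intro z hz
    have k1 := hH (c.Acc_mono inter_subset_left hz)
    have k2 : z ∈ Metric.closedBall e₀ (dist ζ e₀ / 2) :=
      c.Acc_preimage Metric.isClosed_closedBall 
        (c.Acc_mono (fun x hx => show dist _ _ ≤ _ from le_of_lt hx.2) hz)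
    rcases k1 with k1 | k1
    · exact k1
    · rw [mem_singleton_iff.1 k1, Metric.mem_closedBall] at k2
      linarith
  have a2 : c.Acc (c.wall H \ F) ⊆ {ζ} := by
    intro z hz
    have k1 := hH (c.Acc_mono sdiff_subset hz)
    have k2 : z ∈ (Metric.ball e₀ (dist ζ e₀ / 2))ᶜ :=
      c.Acc_preimage Metric.isOpen_ball.isClosed_compl
        (c.Acc_mono (fun x hx => show ¬ _ from fun h => hx.2 ⟨hx.1, h⟩) hz)
    rcases k1 with k1 | k1
    · rw [k1] at k2
      exact absurd (Metric.mem_ball_self (half_pos hd)) k2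
    · exact k1
  obtain ⟨r₀, hr⟩ := c.co.spl_fin
  obtain ⟨U, hU1, hU2⟩ := hr H F (c.finite_of_Acc_eq_empty (eq_empty_of_forall_notMem fun z hz => by
    have k1 := c.Acc_mono inter_subset_left hz
    have k2 := c.Acc_mono inter_subset_right hz
    rw [c.Acc_N] at k1 k2
    exact he ((mem_singleton_iff.1 (a1 k1)).symm.trans (a2 k2))))
  have b1 : c.Acc (c.wall U) ⊆ {e₀} :=
    (c.Acc_mono' hU1).trans ((c.Acc_mono inter_subset_right).trans a1)
  have b2 : c.Acc (c.wall (symmDiff H U)) ⊆ {ζ} := (c.Acc_mono' hU2).trans a2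
  have sub : ∀ {z : X} {A B : Set Γ}, c.In z A → A ⊆ B → c.In z B := fun h hAB =>
    h.mono (by rw [sdiff_eq_empty.2 hAB]; exact finite_empty)
  rcases c.side hy (V := U) (fun h => h1.1 (b1 h)) with k1 | k1 <;>
    rcases c.side hy' (V := U) (fun h => h2.1 (b1 h)) with k2 | k2
  · refine Or.inr ⟨Ne.symm h1.2, Ne.symm h2.2, (symmDiff H U)ᶜ, by rwa [Gen.wall_compl],
      sub (h3.inter k1) fun x hx => ?_, sub (h4.inter k2) fun x hx => ?_⟩
    · rintro (h | h)
      · exact h.2 hx.2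
      · exact h.2 hx.1
    · rw [compl_compl]; exact Or.inr ⟨hx.2, hx.1⟩
  · exact Or.inl ⟨Ne.symm h1.1, Ne.symm h2.1, U, b1, k1, k2⟩
  · exact Or.inl ⟨Ne.symm h1.1, Ne.symm h2.1, Uᶜ, by rwa [Gen.wall_compl], k1,
      by rwa [compl_compl]⟩
  · refine Or.inr ⟨Ne.symm h1.2, Ne.symm h2.2, symmDiff H U, b2,
      sub (h3.inter k1) fun x hx => Or.inl ⟨hx.1, hx.2⟩, sub (h4.inter k2) fun x hx => ?_⟩
    rintro (h | h)
    · exact hx.1 h.1
    · exact hx.2 h.1

/-- the cut points as a type -/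
abbrev T : Type := ↥c.Cut

instance : MulAction Γ c.T where
  smul g a := ⟨g • a.1, Cut.smul a.2 g⟩
  one_smul a := Subtype.ext (one_smul Γ a.1)
  mul_smul g h a := Subtype.ext (mul_smul g h a.1)

@[simp] theorem coe_smul (g : Γ) (a : c.T) : ((g • a : c.T) : X) = g • (a : X) := rfl

/-- betweenness on cut points -/
def B (a y z : c.T) : Prop := c.Btw a y z

theorem isPre : IsPre c.B where
  ne _ _ _ h e := h.1 (congrArg Subtype.val e)
  irr _ y h := by
    obtain ⟨-, -, V, -, h1, h2⟩ := h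
    exact In.not_compl h1 (Accs.mem_Acc (Cut.accs y.2)) h2
  symm _ _ _ h := Btw.symm h
  t2 a _ y h := Btw.t2 (Accs.mem_Acc (Cut.accs a.2)) (Accs.mem_Acc (Cut.accs y.2)) h
  t3 _ _ _ w h hw := Btw.t3 h (Cut.accs w.2) fun e => hw (Subtype.ext e)

theorem B_smul (g : Γ) (a y z : c.T) (h : c.B a y z) : c.B (g • a) (g • y) (g • z) :=
  Btw.smul h g

end Ctx
end Crest.Agent.R224
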