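import Crest.Agent.R224.Acc

/-! Cut points form a pretree; two-point lemma. -/

set_option autoImplicit false
set_option linter.unusedSectionVars false
open Filter Topology Set MeasureTheory
open scoped Pointwise

namespace Crest.Agent.R224

namespace Ctx
variable {Γ X : Type} [Group Γ] [MetricSpace X] [CompactSpace X] [MulAction Γ X] (c : Ctx Γ X)

/-- Lemma N: far sides have finite intersection.  Plan: `wall V ∩ V'` and `wall V' ∩ V` are finite, so
`V ∩ V'` has finite wall (`wall_inter`); `one_end`; the complement is infinite since `a ∈ Acc V'ᶜ`. -/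
theorem far_finite {a b : X} (ha : a ∈ c.Acc univ) {V V' : Set Γ}
    (hV : c.Acc (c.wall V) ⊆ {a}) (hV' : c.Acc (c.wall V') ⊆ {b}) (hb : c.In b Vᶜ)
    (ha' : c.In a V'ᶜ) : (V ∩ V').Finite := by
  have h1 : (c.wall V ∩ V').Finite := by
    refine c.finite_of_Acc_eq_empty (eq_empty_of_forall_notMem fun z hz => ?_)
    have e : z = a := hV (c.Acc_mono inter_subset_left hz)
    refine ha' ?_
    rw [compl_compl, ← e]
    exact c.Acc_mono inter_subset_right hz
  have h2 : (c.wall V' ∩ V).Finite := by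
    refine c.finite_of_Acc_eq_empty (eq_empty_of_forall_notMem fun z hz => ?_)
    have e : z = b := hV' (c.Acc_mono inter_subset_left hz)
    refine hb ?_
    rw [compl_compl, ← e]
    exact c.Acc_mono inter_subset_right hz
  have h3 : (c.wall (V ∩ V')).Finite :=
    (c.finite_N 1 (h1.union h2)).subset (c.wall_inter V V')
  refine (c.co.one_end h3).resolve_right fun h4 => ?_
  have h5 := In.mem_Acc ha' ha
  rw [c.Acc_finite (h4.subset (compl_subset_compl.2 inter_subset_right))] at h5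
  exact h5
variable {c} in
theorem Btw.symm {a y z : X} (h : c.Btw a y z) : c.Btw a z y := by
  obtain ⟨h1, h2, V, h3, h4, h5⟩ := h
  exact ⟨h2, h1, Vᶜ, by rwa [Gen.wall_compl], h5, by rwa [compl_compl]⟩
variable {c} in
theorem Btw.smul {a y z : X} (h : c.Btw a y z) (g : Γ) : c.Btw (g • a) (g • y) (g • z) := by
  obtain ⟨h1, h2, V, h3, h4, h5⟩ := h
  refine ⟨fun e => h1 (MulAction.injective g e), fun e => h2 (MulAction.injective g e), g • V, ?_,
    h4.smul g, ?_⟩
  · rw [Gen.smul_wall, c.Acc_smul]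
    rintro _ ⟨z, hz, rfl⟩
    rw [mem_singleton_iff.1 (h3 hz)]
    rfl
  · rw [← Set.smul_set_compl]
    exact h5.smul g
variable {c} in
theorem Btw.t2 {a b y : X} (ha : a ∈ c.Acc univ) (hy : y ∈ c.Acc univ) (h : c.Btw a y b) :
    ¬ c.Btw b y a := by
  rintro ⟨-, -, V', h3', h4', h5'⟩
  obtain ⟨-, -, V, h3, h4, h5⟩ := h
  have h6 := (h4.inter h4').mem_Acc hy
  rw [c.Acc_finite (c.far_finite ha h3 h3' h5 h5')] at h6
  exact h6
variable {c} in
theorem Btw.t3 {a y z w : X} (h : c.Btw a y z) (hw : c.Accs w) (hwa : w ≠ a) :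
    c.Btw a y w ∨ c.Btw a w z := by
  obtain ⟨h1, h2, V, h3, h4, h5⟩ := h
  rcases c.side hw (V := V) (fun h => hwa (h3 h)) with h6 | h6
  · exact Or.inr ⟨hwa.symm, h2, V, h3, h6, h5⟩
  · exact Or.inl ⟨h1, hwa.symm, V, h3, h4, h6⟩
/-- König's lemma -/
theorem _root_.Crest.Agent.R224.Gen.exists_ray_of_infinite {Γ : Type} [Group Γ] (G : Gen Γ)
    {C : Set Γ} {x : Γ} (hx : x ∈ C) (h : {y | G.Chain 1 C x y}.Infinite) :
    ∃ γ, G.IsRay γ ∧ ∀ n, γ n ∈ C := by
  let St := {q : Set Γ × Γ // q.2 ∈ q.1 ∧ {y | G.Chain 1 q.1 q.2 y}.Infinite}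
  have step : ∀ q : St, ∃ q' : St, q'.1.1 = q.1.1 \ {q.1.2} ∧ G.D q.1.2 q'.1.2 ≤ 1 := by
    rintro ⟨⟨A, p⟩, hp, hi⟩
    by_contra hc
    have hf : ∀ z ∈ G.ball p 1 ∩ (A \ {p}), {y | G.Chain 1 (A \ {p}) z y}.Finite := by
      intro z hz
      by_contra hz'
      exact hc ⟨⟨(A \ {p}, z), hz.2, hz'⟩, rfl, hz.1⟩
    refine hi (((finite_singleton p).union
      (((G.finite_ball p 1).inter_of_left _).biUnion hf)).subset fun y hy => ?_)
    simp only [mem_union, mem_singleton_iff, mem_iUnion, mem_ofPred_eq, exists_prop]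
    induction hy with
    | refl => exact Or.inl rfl
    | @tail a b _ hab ih =>
      by_cases hb : b = p
      · exact Or.inl hb
      · by_cases ha : a = p
        · exact Or.inr ⟨b, ⟨ha ▸ hab.2.2, hab.2.1, hb⟩, Relation.ReflTransGen.refl⟩
        · obtain ⟨z, hz, hza⟩ := ih.resolve_left ha
          exact Or.inr ⟨z, hz, hza.tail ⟨⟨hab.1, ha⟩, ⟨hab.2.1, hb⟩, hab.2.2⟩⟩
  choose f hf1 hf2 using step
  let q : ℕ → St := fun n => f^[n] ⟨(C, x), hx, h⟩
  have hq : ∀ n, q (n + 1) = f (q n) := fun n => Function.iterate_succ_apply' f n _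
  have hanti : Antitone fun n => (q n).1.1 := antitone_nat_of_succ_le fun n => by
    rw [hq, hf1]; exact sdiff_subset
  have hne : ∀ m n, m < n → (q m).1.2 ≠ (q n).1.2 := by
    intro m n hmn e
    have h1 := hanti (Nat.succ_le_of_lt hmn) (q n).2.1
    simp only [hq, hf1] at h1
    exact h1.2 e.symm
  refine ⟨fun n => (q n).1.2, ⟨fun m n e => ?_, fun n => ?_⟩, fun n => hanti (Nat.zero_le n) (q n).2.1⟩
  · rcases lt_trichotomy m n with h | h | h
    · exact absurd e (hne m n h)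
    · exact h
    · exact absurd e.symm (hne n m h)
  · simp only [hq]; exact hf2 _

theorem _root_.Crest.Agent.R224.Gen.Chain.thicken {Γ : Type} [Group Γ] {G : Gen Γ} {r : ℕ}
    {A : Set Γ} {x y : Γ} (h : G.Chain r A x y) : G.Chain 1 (G.N r A) x y := by
  induction h with
  | refl => exact Relation.ReflTransGen.refl
  | @tail a b _ hab ih =>
    refine Gen.Chain.trans ih ((G.chain_geod a b).mono le_rfl fun z hz => ⟨a, hab.1, ?_⟩)
    have h1 : G.D a z + G.D z b = G.D a b := hz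
    have h2 := hab.2.2
    omega

theorem _root_.Crest.Agent.R224.Gen.IsRay.chain_tail {Γ : Type} [Group Γ] {G : Gen Γ} {γ : ℕ → Γ}
    (h : G.IsRay γ) (N : ℕ) : ∀ x ∈ γ '' Ici N, ∀ y ∈ γ '' Ici N, G.Chain 1 (γ '' Ici N) x y := by
  have key : ∀ n, N ≤ n → G.Chain 1 (γ '' Ici N) (γ N) (γ n) := by
    intro n hn
    induction n, hn using Nat.le_induction with
    | base => exact Relation.ReflTransGen.refl
    | succ n hn ih =>
      exact ih.tail ⟨⟨n, hn, rfl⟩, ⟨n + 1, Nat.le_succ_of_le hn, rfl⟩, h.2 n⟩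
  rintro _ ⟨m, hm, rfl⟩ _ ⟨n, hn, rfl⟩
  exact (key m hm).symm.trans (key n hn)

/-- an injective sequence in a set with only one accumulation point converges to it -/
theorem tendsto_of_Acc_subset {C : Set Γ} {a : X} (h : c.Acc C ⊆ {a}) {γ : ℕ → Γ}
    (hγ : Function.Injective γ) (hC : ∀ n, γ n ∈ C) : Tendsto (c.e ∘ γ) atTop (𝓝 a) := by
  refine tendsto_nhds.2 fun U hU ha => ?_
  have h1 := c.finite_of_Acc hU (h.trans (singleton_subset_iff.2 ha))
  have h2 := hγ.tendsto_cofinite h1.compl_mem_cofinite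
  rw [Nat.cofinite_eq_atTop] at h2
  filter_upwards [mem_map.1 h2] with n hn
  by_contra h3
  exact hn ⟨hC n, h3⟩

variable {c} in
/-- Cut points are accessible.  Plan: tails of the rays to `y`, `y'` give `A ⊆ V`, `B ⊆ Vᶜ`;
`inf_comp` gives an infinite `r`-component of the wall; it is contained in an infinite 1-connected subset `C`
of `N r (wall V)`; König's lemma gives a ray in `C`; it converges to `a` as `Acc C ⊆ {a}`. -/
theorem Cut.accs {a : X} (h : a ∈ c.Cut) : c.Accs a := by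
  obtain ⟨y, y', ⟨γ, hγ, hl⟩, ⟨γ', hγ', hl'⟩, -, -, V, h3, h4, h5⟩ := h
  obtain ⟨N, hN⟩ := eventually_atTop.1 (h4.eventually hγ.1 hl)
  obtain ⟨N', hN'⟩ := eventually_atTop.1 (h5.eventually hγ'.1 hl')
  obtain ⟨r, hr⟩ := c.co.inf_comp
  obtain ⟨x, hx, hi⟩ := hr V (γ '' Ici N) (γ' '' Ici N')
    ((Ici_infinite N).image hγ.1.injOn) ((Ici_infinite N').image hγ'.1.injOn)
    (by rintro _ ⟨n, hn, rfl⟩; exact hN n hn) (by rintro _ ⟨n, hn, rfl⟩; exact hN' n hn)
    (hγ.chain_tail N) (hγ'.chain_tail N')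
  obtain ⟨β, hβ, hC⟩ := c.exists_ray_of_infinite (c.subset_N r _ hx)
    (hi.mono fun y hy => Gen.Chain.thicken hy)
  exact ⟨β, hβ, c.tendsto_of_Acc_subset (by rwa [c.Acc_N]) hβ.1 hC⟩
variable {c} in
theorem Cut.smul {a : X} (h : a ∈ c.Cut) (g : Γ) : g • a ∈ c.Cut := by
  obtain ⟨y, y', h1, h2, h3⟩ := h
  exact ⟨g • y, g • y', h1.smul g, h2.smul g, h3.smul g⟩

end Ctx
end Crest.Agent.R224
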