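import Crest.Agent.R224.CL0

/-! The class `CL`: closure properties and the basic example. -/

set_option autoImplicit false
open Filter Topology Set MeasureTheory
open scoped Pointwise

namespace Crest.Agent.R224

namespace Gen
variable {Γ : Type} [Group Γ] {G : Gen Γ}

theorem cl_chain_comp {s : ℕ} {B : Set Γ} {x y : Γ} (h : G.Chain s B x y) :
    G.Chain s {z | G.Chain s B x z} x y := by
  induction h with
  | refl => exact Relation.ReflTransGen.refl
  | tail h1 h2 ih => exact ih.tail ⟨h1, h1.tail h2, h2.2.2⟩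

theorem cl_comp_conn {B : Set Γ} {x : Γ} : ∀ y ∈ {z | G.Chain 1 B x z},
    ∀ y' ∈ {z | G.Chain 1 B x z}, G.Chain 1 {z | G.Chain 1 B x z} y y' :=
  fun _ hy _ hy' => (cl_chain_comp hy).symm.trans (cl_chain_comp hy')

theorem cl_compl_conn {L : Set Γ} {x₀ x₁ : Γ} (h₁ : x₁ ∉ L) (h₀ : x₀ ∈ L)
    (hL : ∀ y ∈ L, G.Chain 1 L y x₀) (y : Γ) (hy : y ∉ {z | G.Chain 1 Lᶜ x₁ z}) :
    G.Chain 1 {z | G.Chain 1 Lᶜ x₁ z}ᶜ y x₀ := by
  have hsub : L ⊆ {z | G.Chain 1 Lᶜ x₁ z}ᶜ := fun z hz hz' => Chain.mem hz' h₁ hz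
  generalize hn : G.D y x₀ = n
  induction n generalizing y with
  | zero => rw [G.D_eq_zero.1 hn]; exact Relation.ReflTransGen.refl
  | succ n ih =>
    by_cases hyL : y ∈ L
    · exact (hL y hyL).mono le_rfl hsub
    · obtain ⟨z, hz1, hz2⟩ := G.exists_step hn
      have hz : z ∉ {z | G.Chain 1 Lᶜ x₁ z} := fun hz =>
        hy (Relation.ReflTransGen.tail hz ⟨Chain.mem hz h₁, hyL, G.D_comm y z ▸ hz1⟩)
      exact Relation.ReflTransGen.head ⟨hy, hz, hz1⟩ (ih z hz hz2)

/-- The basic function.  Plan: `x₀ = γ₀ 0`, `x₁ = γ₁ 0`.  For `s ∈ (a,b)` let `L s` be the component of `x₀`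
in `{k ≤ s}` and `A s` the component of `x₁` in `(L s)ᶜ` (decreasing in `s`; contains the ray `γ₁`, misses
`γ₀`).  `A s` and its complement are connected, so by `timar` the wall of `A s` is `r`-connected; it
contains a vertex of a fixed geodesic from `x₀` to `x₁`, and it lies in the wall of `{k ≤ s}`.
`τ x = sSup ({a} ∪ {s ∈ (a,b) | x ∈ A s})`, `g = (τ - a)/(b - a)`.  For `s ∈ (a, b)` outside the countable
range of `τ`: `{τ ≤ s} = (A s)ᶜ`.  `M v = {t | a + t (b-a) ∈ (a,b), v ∈ wall (A (a + t(b-a)))}` is measurable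
(monotonicity: `{s | y ∈ A s}` is order connected) and contained in an interval of length
`2 w v / (b - a)`. -/
theorem Coarse.exists_CL (h : G.Coarse) {k w : Γ → ℝ} (hk : G.Dom k w) {γ₀ γ₁ : ℕ → Γ} {a b : ℝ}
    (h₀ : G.IsRay γ₀) (h₁ : G.IsRay γ₁) (hab : a < b) (ha : ∀ n, k (γ₀ n) < a)
    (hb : ∀ n, b < k (γ₁ n)) :
    ∃ g, G.CL g ∧ (∀ n, g (γ₀ n) = 0) ∧ ∀ n, g (γ₁ n) = 1 := by
  obtain ⟨r, hr⟩ := h.timar
  haveI := G.countable
  have hba : 0 < b - a := sub_pos.2 hab
  set L : ℝ → Set Γ := fun s => {y | G.Chain 1 {z | k z ≤ s} (γ₀ 0) y} with hL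
  set A : ℝ → Set Γ := fun s => {y | G.Chain 1 (L s)ᶜ (γ₁ 0) y} with hA
  have Amono : ∀ s s', s ≤ s' → A s' ⊆ A s := fun s s' hs y hy =>
    Chain.mono hy le_rfl (compl_subset_compl.2 fun z hz =>
      Chain.mono hz le_rfl fun u (hu : k u ≤ s) => hu.trans hs)
  have Lk : ∀ s, a < s → ∀ y ∈ L s, k y ≤ s := fun s hs y hy =>
    Chain.mem (A := {z | k z ≤ s}) hy (show k (γ₀ 0) ≤ s by linarith [ha 0])
  have L0 : ∀ s, a < s → ∀ n, γ₀ n ∈ L s := fun s hs n => by
    induction n with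
    | zero => exact Relation.ReflTransGen.refl
    | succ n ih =>
      exact Relation.ReflTransGen.tail ih ⟨show k _ ≤ s by linarith [ha n],
        show k _ ≤ s by linarith [ha (n + 1)], h₀.2 n⟩
  have L1 : ∀ s ∈ Ioo a b, ∀ n, γ₁ n ∉ L s := fun s hs n hn => by
    linarith [Lk s hs.1 _ hn, hb n, hs.2]
  have A1 : ∀ s ∈ Ioo a b, ∀ n, γ₁ n ∈ A s := fun s hs n => by
    induction n with
    | zero => exact Relation.ReflTransGen.refl
    | succ n ih => exact Relation.ReflTransGen.tail ih ⟨L1 s hs n, L1 s hs _, h₁.2 n⟩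
  have AL : ∀ s ∈ Ioo a b, ∀ y ∈ A s, y ∉ L s := fun s hs y hy => Chain.mem hy (L1 s hs 0)
  have A0 : ∀ s ∈ Ioo a b, ∀ n, γ₀ n ∉ A s := fun s hs n hn => AL s hs _ hn (L0 s hs.1 n)
  have edge : ∀ s ∈ Ioo a b, ∀ u u', G.D u u' ≤ 1 → u ∈ A s → u' ∉ A s → k u' ≤ s ∧ s < k u := by
    intro s hs u u' hd hu hu'
    have h1 : u' ∈ L s := by
      by_contra h1
      exact hu' (Relation.ReflTransGen.tail hu ⟨AL s hs u hu, h1, hd⟩)
    refine ⟨Lk s hs.1 _ h1, ?_⟩
    by_contra h2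
    exact AL s hs u hu (Relation.ReflTransGen.tail h1
      ⟨Lk s hs.1 _ h1, not_lt.1 h2, G.D_comm u u' ▸ hd⟩)
  have hwall : ∀ s ∈ Ioo a b, ∀ v ∈ G.wall (A s), |s - k v| ≤ w v := by
    rintro s hs v ⟨y, hd, hc⟩
    obtain ⟨g, hg, rfl⟩ := G.D_le_one.1 hd
    have h1 := abs_le.1 (hk.2 v g hg)
    have h0 := hk.nonneg v
    by_cases hv : v ∈ A s
    · have := edge s hs v (v * g) hd hv fun h => hc ⟨fun _ => h, fun _ => hv⟩
      rw [abs_le]; constructor <;> linarith [this.1, this.2]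
    · have hy : v * g ∈ A s := by
        by_contra hy
        exact hc ⟨fun h => absurd h hv, fun h => absurd h hy⟩
      have := edge s hs (v * g) v (G.D_comm v _ ▸ hd) hy hv
      rw [abs_le]; constructor <;> linarith [this.1, this.2]
  have hconn : ∀ s ∈ Ioo a b, ∀ x ∈ G.wall (A s), ∀ y ∈ G.wall (A s),
      G.Chain r (G.wall (A s)) x y := fun s hs => by
    refine hr (A s) cl_comp_conn fun x hx y hy => ?_
    have hLc : ∀ y ∈ L s, G.Chain 1 (L s) y (γ₀ 0) := fun y hy => (cl_chain_comp hy).symm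
    exact (cl_compl_conn (L1 s hs 0) (L0 s hs.1 0) hLc x hx).trans
      (cl_compl_conn (L1 s hs 0) (L0 s hs.1 0) hLc y hy).symm
  set T : Γ → Set ℝ := fun x => insert a {s ∈ Ioo a b | x ∈ A s} with hT
  have Tb : ∀ x, b ∈ upperBounds (T x) := by
    rintro x s (rfl | hs)
    exacts [hab.le, hs.1.2.le]
  have Tne : ∀ x, (T x).Nonempty := fun x => insert_nonempty _ _
  set τ : Γ → ℝ := fun x => sSup (T x) with hτ
  have τa : ∀ x, a ≤ τ x := fun x => le_csSup ⟨b, Tb x⟩ (mem_insert _ _)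
  have τb : ∀ x, τ x ≤ b := fun x => csSup_le (Tne x) (Tb x)
  have g01 : ∀ x, 0 ≤ (τ x - a) / (b - a) ∧ (τ x - a) / (b - a) ≤ 1 := fun x =>
    ⟨div_nonneg (by linarith [τa x]) hba.le, (div_le_one hba).2 (by linarith [τb x])⟩
  have g0 : ∀ n, (τ (γ₀ n) - a) / (b - a) = 0 := fun n => by
    have : τ (γ₀ n) ≤ a := by
      refine csSup_le (Tne _) ?_
      rintro s (rfl | hs)
      · exact le_rfl
      · exact absurd hs.2 (A0 s hs.1 n)
    rw [le_antisymm this (τa _), sub_self, zero_div]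
  have g1 : ∀ n, (τ (γ₁ n) - a) / (b - a) = 1 := fun n => by
    have : b ≤ τ (γ₁ n) := by
      rw [← csSup_Ioo hab]
      exact csSup_le_csSup ⟨b, Tb _⟩ (nonempty_Ioo.2 hab) fun s hs => Or.inr ⟨hs, A1 s hs n⟩
    rw [le_antisymm (τb _) this, div_self hba.ne']
  refine ⟨fun x => (τ x - a) / (b - a), ⟨g01, r, fun v => 2 / (b - a) * w v,
    fun v => Icc ((k v - w v - a) / (b - a)) ((k v + w v - a) / (b - a)), hk.1.const_mul _,
    fun v => mul_nonneg (by positivity) (hk.nonneg v), fun v => measurableSet_Icc, fun v => ?_,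
    ?_⟩, g0, g1⟩
  · rw [Real.volume_Icc]
    refine le_of_eq (congrArg _ ?_)
    ring
  · have hnull : volume (range fun x => (τ x - a) / (b - a)) = 0 :=
      (countable_range _).measure_zero _
    filter_upwards [measure_eq_zero_iff_ae_notMem.1 hnull] with t ht
    refine ⟨G.len (γ₀ 0) + G.D (γ₀ 0) (γ₁ 0), ?_⟩
    by_cases ht01 : t ∈ Ioo (0 : ℝ) 1
    · set s := a + t * (b - a) with hsdef
      have hs : s ∈ Ioo a b := ⟨by nlinarith [ht01.1], by nlinarith [ht01.2]⟩
      have hset : {z | (τ z - a) / (b - a) ≤ t} = (A s)ᶜ := by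
        ext z
        simp only [mem_setOf_eq, mem_compl_iff]
        rw [div_le_iff₀ hba]
        constructor
        · intro h1 h2
          have h3 : s ≤ τ z := le_csSup ⟨b, Tb z⟩ (Or.inr ⟨hs, h2⟩)
          refine ht ⟨z, ?_⟩
          simp only
          rw [div_eq_iff hba.ne']
          linarith
        · intro h1
          have : τ z ≤ s := by
            refine csSup_le (Tne _) ?_
            rintro s' (rfl | hs')
            · exact hs.1.le
            · by_contra h2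
              exact h1 (Amono s s' (not_le.1 h2).le hs'.2)
          linarith
      have hM : G.wall (A s) ⊆
          {v | t ∈ Icc ((k v - w v - a) / (b - a)) ((k v + w v - a) / (b - a))} := by
        intro v hv
        have := abs_le.1 (hwall s hs v hv)
        exact ⟨(div_le_iff₀ hba).2 (by linarith), (le_div_iff₀ hba).2 (by linarith)⟩
      rw [hset, G.wall_compl]
      intro x hx
      obtain ⟨z, hz, hzd⟩ := G.exists_wall_of_cross (V := A s) (x := γ₀ 0) (y := γ₁ 0)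
        fun h => A0 s hs 0 (h.2 (A1 s hs 0))
      refine ⟨hM hx, z, ?_, (hconn s hs x hx z hz).mono le_rfl hM⟩
      have := G.D_tri 1 (γ₀ 0) z
      rw [G.D_one, G.D_one] at this
      omega
    · rintro x ⟨y, -, hc⟩
      exfalso
      apply hc
      simp only [mem_setOf_eq]
      rw [mem_Ioo, not_and_or, not_lt, not_lt] at ht01
      rcases ht01 with h1 | h1
      · have h2 : t < 0 := lt_of_le_of_ne h1 fun h2 => ht ⟨γ₀ 0, (g0 0).trans h2.symm⟩
        exact ⟨fun h => by linarith [(g01 x).1], fun h => by linarith [(g01 y).1]⟩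
      · exact ⟨fun _ => (g01 y).2.trans h1, fun _ => (g01 x).2.trans h1⟩

end Gen
end Crest.Agent.R224
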