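import Crest.Agent.R224.Pot0

/-! Potential theory I: `P`, `Gr`, `Hm`, `loc`. -/

set_option autoImplicit false
open Filter Topology Set MeasureTheory
open scoped Pointwise

namespace Crest.Agent.R224

namespace Gen
variable {Γ : Type} [Group Γ] (G : Gen Γ)

namespace PotAux

theorem loc_eq (r : ℕ) (w : Γ → ℝ) (x : Γ) :
    G.loc r w x = ∑ y ∈ (G.finite_ball x r).toFinset, w y := by
  classical
  unfold loc
  rw [tsum_eq_sum (s := (G.finite_ball x r).toFinset)]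
  · refine Finset.sum_congr rfl fun y hy => ?_
    rw [Set.Finite.mem_toFinset] at hy
    exact indicator_of_mem hy _
  · intro y hy
    rw [Set.Finite.mem_toFinset] at hy
    exact indicator_of_notMem hy _

theorem loc_eq' (r : ℕ) (w : Γ → ℝ) (x : Γ) :
    G.loc r w x = ∑ u ∈ (G.finite_ball 1 r).toFinset, w (x * u) := by
  rw [loc_eq]
  refine Finset.sum_bij' (fun y _ => x⁻¹ * y) (fun u _ => x * u) ?_ ?_ ?_ ?_ ?_
  · intro y hy
    rw [Set.Finite.mem_toFinset] at hy ⊢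
    simpa [ball, D] using hy
  · intro y hy
    rw [Set.Finite.mem_toFinset] at hy ⊢
    simpa [ball, D] using hy
  · intro y _; simp
  · intro y _; simp
  · intro y _; simp

theorem nsq_nonneg (w : Γ → ℝ) : 0 ≤ nsq w := tsum_nonneg fun _ => sq_nonneg _

/-- `ℓ²` membership from uniform bounds on finite sums -/
theorem L2_of_bound {w : Γ → ℝ} {C : ℝ} (h : ∀ F : Finset Γ, ∑ x ∈ F, w x ^ 2 ≤ C) :
    L2 w ∧ nsq w ≤ C :=
  ⟨summable_of_sum_le (fun _ => sq_nonneg _) h,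
    Real.tsum_le_of_sum_le (fun _ => sq_nonneg _) h⟩

theorem sum_mul_le (F : Finset Γ) (g : Γ → ℝ) {v : Γ → ℝ} (hv : L2 v) :
    ∑ x ∈ F, g x * v x ≤ √(∑ x ∈ F, g x ^ 2) * √(nsq v) := by
  refine (Real.sum_mul_le_sqrt_mul_sqrt F _ _).trans
    (mul_le_mul_of_nonneg_left (Real.sqrt_le_sqrt ?_) (Real.sqrt_nonneg _))
  exact Summable.sum_le_tsum F (fun y _ => sq_nonneg _) hv

theorem nsq_of_supp (F : Finset Γ) {g : Γ → ℝ} (hg : ∀ x ∉ F, g x = 0) :
    L2 g ∧ nsq g = ∑ x ∈ F, g x ^ 2 := by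
  refine ⟨L2.of_finite (F.finite_toSet.subset fun x hx => ?_), ?_⟩
  · by_contra h
    exact hx (hg x h)
  · exact tsum_eq_sum fun x hx => by simp [hg x hx]

theorem abs_P_sub {k w : Γ → ℝ} (hk : G.Dom k w) (x : Γ) : |G.P k x - k x| ≤ w x := by
  have hc := G.cardR_pos
  have h1 : G.P k x - k x = (∑ s ∈ G.S, (k (x * s) - k x)) / G.S.card := by
    simp only [P, Finset.sum_sub_distrib, Finset.sum_const, nsmul_eq_mul, sub_div]
    congr 1
    field_simp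
  rw [h1, abs_div, abs_of_pos hc, div_le_iff₀ hc]
  refine (Finset.abs_sum_le_sum_abs _ _).trans ?_
  refine (Finset.sum_le_sum fun s hs => hk.2 x s hs).trans ?_
  simp [mul_comm]

theorem abs_iter_succ_sub {k w : Γ → ℝ} (hk : G.Dom k w) (n : ℕ) (x : Γ) :
    |G.P^[n + 1] k x - G.P^[n] k x| ≤ G.P^[n] w x := by
  have h1 : G.P^[n + 1] k x - G.P^[n] k x = G.P^[n] (G.P k - k) x := by
    rw [G.iter_sub, Function.iterate_succ_apply]; rfl
  rw [h1]
  exact (G.abs_iter_le _ n x).trans (G.iter_mono (fun y => abs_P_sub G hk y) n x)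

end PotAux
open PotAux

theorem loc_L2 {w : Γ → ℝ} (hw : L2 w) (r : ℕ) :
    L2 (G.loc r w) ∧ nsq (G.loc r w) ≤ (G.vol r : ℝ) ^ 2 * nsq w := by
  classical
  set B := (G.finite_ball 1 r).toFinset with hB
  have hcard : (B.card : ℝ) = G.vol r := by
    rw [hB, ← Set.ncard_eq_toFinset_card _ (G.finite_ball 1 r), G.ncard_ball]
  refine L2_of_bound fun F => ?_
  calc ∑ x ∈ F, G.loc r w x ^ 2 ≤ ∑ x ∈ F, (B.card : ℝ) * ∑ u ∈ B, w (x * u) ^ 2 := by
        refine Finset.sum_le_sum fun x _ => ?_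
        rw [loc_eq']
        exact sq_sum_le_card_mul_sum_sq
    _ = (B.card : ℝ) * ∑ u ∈ B, ∑ x ∈ F, w (x * u) ^ 2 := by
        rw [← Finset.mul_sum, Finset.sum_comm]
    _ ≤ (B.card : ℝ) * ∑ u ∈ B, nsq w := by
        refine mul_le_mul_of_nonneg_left (Finset.sum_le_sum fun u _ => ?_) (Nat.cast_nonneg _)
        rw [← (hw.tr_right u).2]
        exact Summable.sum_le_tsum F (fun y _ => sq_nonneg _) (hw.tr_right u).1
    _ = (G.vol r : ℝ) ^ 2 * nsq w := by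
        rw [Finset.sum_const, nsmul_eq_mul, hcard]; ring
theorem le_loc {w : Γ → ℝ} (hw : ∀ x, 0 ≤ w x) {r : ℕ} {x y : Γ} (h : G.D x y ≤ r) :
    w y ≤ G.loc r w x := by
  rw [loc_eq]
  exact Finset.single_le_sum (fun z _ => hw z) ((Set.Finite.mem_toFinset _).2 h)
variable {G} in
theorem Dom.nonneg {k w : Γ → ℝ} (h : G.Dom k w) (x : Γ) : 0 ≤ w x := by
  have := h.2 x 1 G.one_mem
  simpa using this
variable {G} in
/-- oscillation on balls (the vertices of a geodesic are distinct points of the ball) -/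
theorem Dom.osc {k w : Γ → ℝ} (h : G.Dom k w) {r : ℕ} {x y : Γ} (hxy : G.D x y ≤ r) :
    |k y - k x| ≤ G.loc r w x := by
  classical
  obtain ⟨p, h0, h1, hs, hd⟩ := G.exists_geod x y
  set d := G.D x y with hdd
  have h2 : k y - k x = ∑ i ∈ Finset.range d, (k (p (i + 1)) - k (p i)) := by
    rw [Finset.sum_range_sub (fun i => k (p i)), h0, h1]
  have h3 : ∀ i, |k (p (i + 1)) - k (p i)| ≤ w (p i) := fun i => by
    obtain ⟨s, hs', he⟩ := G.D_le_one.1 (hs i)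
    rw [he]; exact h.2 _ s hs'
  have hinj : Set.InjOn p (Finset.range d : Set ℕ) := by
    intro i hi j hj hij
    simp only [Finset.coe_range, mem_Iio] at hi hj
    rw [← (hd i hi.le).1, ← (hd j hj.le).1, hij]
  rw [h2, loc_eq]
  refine (Finset.abs_sum_le_sum_abs _ _).trans ((Finset.sum_le_sum fun i _ => h3 i).trans ?_)
  rw [← Finset.sum_image hinj]
  refine Finset.sum_le_sum_of_subset_of_nonneg ?_ fun z _ _ => h.nonneg z
  intro z hz
  obtain ⟨i, hi, rfl⟩ := Finset.mem_image.1 hz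
  rw [Finset.mem_range] at hi
  rw [Set.Finite.mem_toFinset]
  change G.D x (p i) ≤ r
  rw [(hd i hi.le).1]; omega
variable {G} in
theorem Dom.tr {k w : Γ → ℝ} (h : G.Dom k w) (g : Γ) :
    G.Dom (fun x => k (g * x)) (fun x => w (g * x)) := by
  refine ⟨(h.1.tr g).1, fun x s hs => ?_⟩
  have := h.2 (g * x) s hs
  simpa only [mul_assoc] using this

variable {G} {ρ : ℝ}

theorem Gap.iter (h : G.Gap ρ) {w : Γ → ℝ} (hw : L2 w) (n : ℕ) :
    L2 (G.P^[n] w) ∧ nsq (G.P^[n] w) ≤ ρ ^ (2 * n) * nsq w := by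
  induction n with
  | zero => simpa using hw
  | succ n ih =>
    rw [Function.iterate_succ_apply']
    obtain ⟨h1, h2⟩ := h.2.2 _ ih.1
    refine ⟨h1, h2.trans ?_⟩
    calc ρ ^ 2 * nsq (G.P^[n] w) ≤ ρ ^ 2 * (ρ ^ (2 * n) * nsq w) :=
          mul_le_mul_of_nonneg_left ih.2 (sq_nonneg _)
      _ = ρ ^ (2 * (n + 1)) * nsq w := by ring
theorem Gap.abs_iter_le (h : G.Gap ρ) {w : Γ → ℝ} (hw : L2 w) (n : ℕ) (x : Γ) :
    |G.P^[n] w x| ≤ ρ ^ n * √(nsq w) := by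
  obtain ⟨h1, h2⟩ := h.iter hw n
  have h3 := (h1.sq_le x).trans h2
  have h4 : 0 ≤ ρ ^ n * √(nsq w) := mul_nonneg (pow_nonneg h.1 _) (Real.sqrt_nonneg _)
  refine abs_le_of_sq_le_sq' ?_ h4 |> abs_le.2
  rw [mul_pow, Real.sq_sqrt (nsq_nonneg w), ← pow_mul, mul_comm n 2]
  exact h3
theorem Gap.tendsto_zero (h : G.Gap ρ) {w : Γ → ℝ} (hw : L2 w) (x : Γ) :
    Tendsto (fun n => G.P^[n] w x) atTop (𝓝 0) := by
  exact (Summable.of_norm_bounded ((summable_geometric_of_lt_one h.1 h.2.1).mul_right √(nsq w))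
    fun n => h.abs_iter_le hw n x).tendsto_atTop_zero
theorem Gap.summable (h : G.Gap ρ) {w : Γ → ℝ} (hw : L2 w) (x : Γ) :
    Summable fun n => G.P^[n] w x := by
  exact Summable.of_norm_bounded ((summable_geometric_of_lt_one h.1 h.2.1).mul_right √(nsq w))
    fun n => h.abs_iter_le hw n x
theorem Gap.sqrt_iter (h : G.Gap ρ) {w : Γ → ℝ} (hw : L2 w) (n : ℕ) :
    √(nsq (G.P^[n] w)) ≤ ρ ^ n * √(nsq w) := by
  have h4 : 0 ≤ ρ ^ n * √(nsq w) := mul_nonneg (pow_nonneg h.1 _) (Real.sqrt_nonneg _)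
  rw [Real.sqrt_le_left h4, mul_pow, Real.sq_sqrt (nsq_nonneg w), ← pow_mul, mul_comm n 2]
  exact (h.iter hw n).2

theorem Gap.sum_mul_Gr (h : G.Gap ρ) {w : Γ → ℝ} (hw : L2 w) (F : Finset Γ) (g : Γ → ℝ) :
    ∑ x ∈ F, g x * G.Gr w x ≤ √(∑ x ∈ F, g x ^ 2) * (√(nsq w) / (1 - ρ)) := by
  have h1 : HasSum (fun n => ∑ x ∈ F, g x * G.P^[n] w x) (∑ x ∈ F, g x * G.Gr w x) :=
    hasSum_sum fun x _ => (h.summable hw x).hasSum.mul_left (g x)
  have h2 : HasSum (fun n => √(∑ x ∈ F, g x ^ 2) * (ρ ^ n * √(nsq w)))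
      (√(∑ x ∈ F, g x ^ 2) * ((1 - ρ)⁻¹ * √(nsq w))) :=
    ((hasSum_geometric_of_lt_one h.1 h.2.1).mul_right _).mul_left _
  rw [div_eq_inv_mul]
  refine hasSum_le (fun n => ?_) h1 h2
  exact (sum_mul_le F g (h.iter hw n).1).trans
    (mul_le_mul_of_nonneg_left (h.sqrt_iter hw n) (Real.sqrt_nonneg _))

theorem Gap.Gr_L2 (h : G.Gap ρ) {w : Γ → ℝ} (hw : L2 w) :
    L2 (G.Gr w) ∧ √(nsq (G.Gr w)) ≤ √(nsq w) / (1 - ρ) := by
  have hC : 0 ≤ √(nsq w) / (1 - ρ) := div_nonneg (Real.sqrt_nonneg _) (by linarith [h.2.1])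
  have key : ∀ F : Finset Γ, ∑ x ∈ F, G.Gr w x ^ 2 ≤ (√(nsq w) / (1 - ρ)) ^ 2 := by
    intro F
    have h1 := h.sum_mul_Gr hw F (G.Gr w)
    simp only [← sq] at h1
    set A := ∑ x ∈ F, G.Gr w x ^ 2 with hA
    have hA0 : 0 ≤ A := Finset.sum_nonneg fun _ _ => sq_nonneg _
    have h2 := Real.sq_sqrt hA0
    nlinarith [sq_nonneg (√A - √(nsq w) / (1 - ρ)), Real.sqrt_nonneg A]
  obtain ⟨h1, h2⟩ := L2_of_bound key
  exact ⟨h1, (Real.sqrt_le_left hC).2 h2⟩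
theorem Gap.Gr_eq (h : G.Gap ρ) {w : Γ → ℝ} (hw : L2 w) (x : Γ) :
    G.Gr w x = w x + G.P (G.Gr w) x := by
  have h1 : G.Gr w x = w x + ∑' n, G.P^[n + 1] w x := (h.summable hw x).tsum_eq_zero_add
  rw [h1]
  congr 1
  have h2 : HasSum (fun n => (∑ s ∈ G.S, G.P^[n] w (x * s)) / G.S.card)
      ((∑ s ∈ G.S, G.Gr w (x * s)) / G.S.card) :=
    (hasSum_sum fun s _ => (h.summable hw (x * s)).hasSum).div_const _
  simp only [G.iter_succ']
  exact h2.tsum_eq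
theorem Gr_nonneg {w : Γ → ℝ} (hw : ∀ x, 0 ≤ w x) (x : Γ) : 0 ≤ G.Gr w x := by
  refine tsum_nonneg fun n => ?_
  have := G.iter_mono (f := fun _ => 0) hw n x
  rwa [G.iter_const] at this
/-- `⟨1_F, P^n G 1_F⟩ ≤ ρ^n |F| / (1 - ρ)` -/
theorem Gap.pair (h : G.Gap ρ) (F : Finset Γ) (n : ℕ) :
    ∑ x ∈ F, G.P^[n] (G.Gr (ind (F : Set Γ))) x ≤ ρ ^ n * F.card / (1 - ρ) := by
  have hs : ∀ x ∉ F, ind (F : Set Γ) x = 0 := fun x hx => indicator_of_notMem (by simpa using hx) _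
  obtain ⟨h1, h2⟩ := nsq_of_supp F hs
  have h3 : nsq (ind (F : Set Γ)) = F.card := by
    rw [h2, Finset.card_eq_sum_ones, Nat.cast_sum]
    refine Finset.sum_congr rfl fun x hx => ?_
    rw [ind, indicator_of_mem (by simpa using hx)]; simp
  obtain ⟨h4, h5⟩ := h.Gr_L2 h1
  have h6 := sum_mul_le F (fun _ => (1:ℝ)) (h.iter h4 n).1
  simp only [one_mul, one_pow, Finset.sum_const, nsmul_eq_mul, mul_one] at h6
  have h7 := h.sqrt_iter h4 n
  rw [h3] at h5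
  have h8 : 0 ≤ ρ ^ n := pow_nonneg h.1 _
  have h9 : (0:ℝ) ≤ F.card := Nat.cast_nonneg _
  calc _ ≤ √(F.card) * (ρ ^ n * (√(F.card) / (1 - ρ))) := by
        refine h6.trans (mul_le_mul_of_nonneg_left (h7.trans ?_) (Real.sqrt_nonneg _))
        exact mul_le_mul_of_nonneg_left h5 h8
    _ = ρ ^ n * (√(F.card) * √(F.card)) / (1 - ρ) := by ring
    _ = _ := by rw [Real.mul_self_sqrt h9]
/-- quadratic form version of the gap, for finitely supported functions -/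
theorem Gap.form (h : G.Gap ρ) (F : Finset Γ) {g : Γ → ℝ} (hg : ∀ x ∉ F, g x = 0) :
    ∑ x ∈ F, g x * G.P g x ≤ ρ * ∑ x ∈ F, g x ^ 2 := by
  obtain ⟨h1, h2⟩ := nsq_of_supp F hg
  have h3 := h.sqrt_iter h1 1
  have h4 := sum_mul_le F g (h.2.2 g h1).1
  simp only [Function.iterate_one, pow_one] at h3
  rw [h2] at h3
  have h5 : 0 ≤ ∑ x ∈ F, g x ^ 2 := Finset.sum_nonneg fun _ _ => sq_nonneg _
  calc _ ≤ √(∑ x ∈ F, g x ^ 2) * (ρ * √(∑ x ∈ F, g x ^ 2)) :=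
        h4.trans (mul_le_mul_of_nonneg_left h3 (Real.sqrt_nonneg _))
    _ = ρ * (√(∑ x ∈ F, g x ^ 2) * √(∑ x ∈ F, g x ^ 2)) := by ring
    _ = _ := by rw [Real.mul_self_sqrt h5]

/-- Plan: `|P k - k| ≤ w`, so `|P^[n+1] k - P^[n] k| ≤ P^[n] w`, a summable series. -/
theorem Gap.tendsto_Hm (h : G.Gap ρ) {k w : Γ → ℝ} (hk : G.Dom k w) (x : Γ) :
    Tendsto (fun n => G.P^[n] k x) atTop (𝓝 (G.Hm k x)) := by
  have hc : CauchySeq fun n => G.P^[n] k x := by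
    refine cauchySeq_of_dist_le_of_summable (fun n => G.P^[n] w x) (fun n => ?_) (h.summable hk.1 x)
    rw [dist_comm, Real.dist_eq]
    exact abs_iter_succ_sub G hk n x
  exact hc.tendsto_limUnder
theorem Gap.P_Hm (h : G.Gap ρ) {k w : Γ → ℝ} (hk : G.Dom k w) : G.P (G.Hm k) = G.Hm k := by
  funext x
  have h1 := G.tendsto_iter (fun y => h.tendsto_Hm hk y) 1 x
  have h2 := (tendsto_add_atTop_iff_nat 1).2 (h.tendsto_Hm hk x)
  simp only [Function.iterate_succ_apply'] at h2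
  simp only [Function.iterate_one] at h1
  exact tendsto_nhds_unique h1 h2
theorem Gap.abs_sub_Hm (h : G.Gap ρ) {k w : Γ → ℝ} (hk : G.Dom k w) (x : Γ) :
    |k x - G.Hm k x| ≤ G.Gr w x := by
  have := dist_le_tsum_of_dist_le_of_tendsto₀ (fun n => G.P^[n] w x)
    (f := fun n => G.P^[n] k x) (fun n => by
      rw [dist_comm, Real.dist_eq]
      exact abs_iter_succ_sub G hk n x) (h.summable hk.1 x) (h.tendsto_Hm hk x)
  rw [Real.dist_eq] at this
  exact this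
theorem Gap.Hm_mem (h : G.Gap ρ) {k w : Γ → ℝ} (hk : G.Dom k w) {a b : ℝ}
    (hab : ∀ x, a ≤ k x ∧ k x ≤ b) (x : Γ) : a ≤ G.Hm k x ∧ G.Hm k x ≤ b := by
  constructor
  · refine ge_of_tendsto' (h.tendsto_Hm hk x) fun n => ?_
    have := G.iter_mono (f := fun _ => a) (fun y => (hab y).1) n x
    rwa [G.iter_const] at this
  · refine le_of_tendsto' (h.tendsto_Hm hk x) fun n => ?_
    have := G.iter_mono (g := fun _ => b) (fun y => (hab y).2) n x
    rwa [G.iter_const] at this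
theorem Hm_tr (k : Γ → ℝ) (g x : Γ) : G.Hm (fun y => k (g * y)) x = G.Hm k (g * x) := by
  simp only [Hm, G.iter_tr]
/-- monotone up to finitely many points -/
theorem Gap.Hm_mono (h : G.Gap ρ) {k k' w w' : Γ → ℝ} (hk : G.Dom k w) (hk' : G.Dom k' w')
    (hle : {x | k' x < k x}.Finite) (x : Γ) : G.Hm k x ≤ G.Hm k' x := by
  have hu : L2 fun y => max (k y - k' y) 0 := by
    refine L2.of_finite (hle.subset fun y hy => ?_)
    simp only [Function.mem_support, ne_eq, max_eq_right_iff, not_le] at hy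
    simp only [mem_setOf_eq]
    linarith
  have h1 := (h.tendsto_Hm hk' x).add (h.tendsto_zero hu x)
  rw [add_zero] at h1
  refine le_of_tendsto_of_tendsto' (h.tendsto_Hm hk x) h1 fun n => ?_
  have h2 := G.iter_mono (f := k) (g := k' + fun y => max (k y - k' y) 0) (fun y => by
    have := le_max_left (k y - k' y) 0
    simp only [Pi.add_apply]; linarith) n x
  rw [G.iter_add] at h2
  exact h2

end Gen
end Crest.Agent.R224
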