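import Crest.Agent.R224.Spl
import Crest.Agent.R224.Pot

/-! The class `CL`: closure properties and the basic example. -/

set_option autoImplicit false
open Filter Topology Set MeasureTheory
open scoped Pointwise

namespace Crest.Agent.R224

namespace Gen
variable {Γ : Type} [Group Γ] {G : Gen Γ}

theorem cl0_mem {k : Γ → ℝ} (h : ∀ x, 0 ≤ k x ∧ k x ≤ 1) {t : ℝ} {x : Γ}
    (hx : x ∈ G.wall {z | k z ≤ t}) : 0 ≤ t ∧ t < 1 := by
  obtain ⟨y, -, hc⟩ := hx
  simp only [cross, mem_setOf_eq] at hc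
  by_contra hn
  rw [not_and_or, not_le, not_lt] at hn
  rcases hn with h1 | h1
  · exact hc (iff_of_false (by linarith [(h x).1]) (by linarith [(h y).1]))
  · exact hc (iff_of_true ((h x).2.trans h1) ((h y).2.trans h1))

theorem CL.affine {k k' : Γ → ℝ} (h : G.CL k) {α β : ℝ} (hβ : β ≠ 0)
    (h01 : ∀ x, 0 ≤ k' x ∧ k' x ≤ 1)
    (hw : ∀ᵐ t : ℝ, G.wall {z | k' z ≤ t} ⊆ G.wall {z | k z ≤ α + β * t}) : G.CL k' := by
  obtain ⟨-, r, ρ, M, hρ, hρ0, hm, hM, hae⟩ := h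
  have hvol : ∀ S : Set ℝ, volume ((fun t => α + β * t) ⁻¹' S) =
      ENNReal.ofReal |β⁻¹| * volume S := fun S => by
    rw [show (fun t => α + β * t) ⁻¹' S = (fun t => β * t) ⁻¹' ((fun t => α + t) ⁻¹' S) from rfl,
      Real.volume_preimage_mul_left hβ, measure_preimage_add]
  refine ⟨h01, r, fun v => |β⁻¹| * ρ v, fun v => (fun t => α + β * t) ⁻¹' M v, hρ.const_mul _,
    fun v => mul_nonneg (abs_nonneg _) (hρ0 v), fun v => (hm v).preimage (by fun_prop),
    fun v => ?_, ?_⟩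
  · rw [hvol, ENNReal.ofReal_mul (abs_nonneg _)]
    exact mul_le_mul_right (hM v) _
  · have h1 : ∀ᵐ t : ℝ, ∃ R₀ : ℕ, ∀ x ∈ G.wall {z | k z ≤ α + β * t}, α + β * t ∈ M x ∧
        ∃ y, G.len y ≤ R₀ ∧ G.Chain r {v | α + β * t ∈ M v} x y := by
      have := hvol _ |>.trans (congrArg (ENNReal.ofReal |β⁻¹| * ·) (ae_iff.1 hae))
      rw [mul_zero] at this
      exact this
    filter_upwards [h1, hw] with t ⟨R, hR⟩ ht
    exact ⟨R, fun x hx => hR x (ht hx)⟩

theorem CL.of_finite {k k' : Γ → ℝ} (h : G.CL k) {Z : Set Γ} (hZ : Z.Finite)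
    (h01 : ∀ x, 0 ≤ k' x ∧ k' x ≤ 1)
    (hw : ∀ t : ℝ, G.wall {z | k' z ≤ t} ⊆ G.wall {z | k z ≤ t} ∪ Z) : G.CL k' := by
  classical
  obtain ⟨-, r, ρ, M, hρ, hρ0, hm, hM, hae⟩ := h
  have hi : ∀ v, 0 ≤ ind Z v := fun x => indicator_nonneg (fun _ _ => zero_le_one) x
  refine ⟨h01, r, ρ + ind Z, fun v => M v ∪ if v ∈ Z then Icc 0 1 else ∅,
    hρ.add (L2.of_finite (hZ.subset support_indicator_subset)),
    fun v => add_nonneg (hρ0 v) (hi v), fun v => (hm v).union ?_, fun v => ?_, ?_⟩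
  · split_ifs
    exacts [measurableSet_Icc, MeasurableSet.empty]
  · refine (measure_union_le _ _).trans ?_
    rw [Pi.add_apply, ENNReal.ofReal_add (hρ0 v) (hi v)]
    refine add_le_add (hM v) ?_
    by_cases hv : v ∈ Z <;> simp [ind, hv]
  obtain ⟨R₁, hR₁⟩ := (hZ.image G.len).bddAbove
  filter_upwards [hae] with t ⟨R, hR⟩
  refine ⟨max R R₁, fun x hx => ?_⟩
  rcases hw t hx with h1 | h1
  · obtain ⟨a, y, b, c⟩ := hR x h1
    exact ⟨Or.inl a, y, b.trans (le_max_left _ _), c.mono le_rfl fun v hv => Or.inl hv⟩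
  · have ht := cl0_mem h01 hx
    refine ⟨Or.inr ?_, x, (hR₁ (mem_image_of_mem _ h1)).trans (le_max_right _ _),
      Relation.ReflTransGen.refl⟩
    rw [if_pos h1]
    exact ⟨ht.1, ht.2.le⟩

/-- Plan: for a.e. `t ∈ [k x, k y)` both `x` and `y` are in the wall of `{k ≤ t}`, so `t ∈ M x`. -/
theorem CL.dom {k : Γ → ℝ} (h : G.CL k) : ∃ w, G.Dom k w := by
  obtain ⟨-, r, ρ, M, hρ, hρ0, -, hM, hae⟩ := h
  refine ⟨ρ, hρ, fun x s hs => ?_⟩
  have hd : G.D x (x * s) ≤ 1 := G.D_le_one.2 ⟨s, hs, rfl⟩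
  have h1 : volume (Ico (Min.min (k x) (k (x * s))) (max (k x) (k (x * s)))) ≤ volume (M x) := by
    refine measure_mono_ae ?_
    filter_upwards [hae] with t ⟨R, hR⟩ ht
    refine (hR x ⟨x * s, hd, fun hc => ?_⟩).1
    simp only [mem_setOf_eq] at hc
    rcases min_le_iff.1 ht.1 with h1 | h1 <;> rcases lt_max_iff.1 ht.2 with h2 | h2
    · linarith
    · linarith [hc.1 h1]
    · linarith [hc.2 h1]
    · linarith
  have h2 := h1.trans (hM x)
  rw [Real.volume_Ico, ENNReal.ofReal_le_ofReal_iff (hρ0 x), max_sub_min_eq_abs] at h2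
  exact h2
theorem CL.tr {k : Γ → ℝ} (h : G.CL k) (g : Γ) : G.CL fun x => k (g * x) := by
  obtain ⟨h01, r, ρ, M, hρ, hρ0, hm, hM, hae⟩ := h
  refine ⟨fun x => h01 _, r, fun x => ρ (g * x), fun x => M (g * x), (hρ.tr g).1, fun x => hρ0 _,
    fun x => hm _, fun x => hM _, ?_⟩
  filter_upwards [hae] with t ⟨R, hR⟩
  refine ⟨G.len g⁻¹ + R, ?_⟩
  rintro x ⟨x', hd, hc⟩
  obtain ⟨h1, y, hy, hch⟩ := hR (g * x) ⟨g * x', by rwa [G.D_mul_left], hc⟩
  refine ⟨h1, g⁻¹ * y, (G.len_mul_le _ _).trans (by omega), ?_⟩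
  have := hch.smul g⁻¹
  rw [inv_mul_cancel_left] at this
  exact this.mono le_rfl fun v hv => mem_inv_smul_set_iff.1 hv
/-- Plan: `M' v = (1 - ·) ⁻¹' M v`; for `1 - t ∉ range k` (countable) the walls agree. -/
theorem CL.one_sub {k : Γ → ℝ} (h : G.CL k) : G.CL fun x => 1 - k x := by
  refine h.affine (α := 1) (β := -1) (by norm_num)
    (fun x => ⟨by linarith [(h.1 x).2], by linarith [(h.1 x).1]⟩) ?_
  haveI := G.countable
  have hnull : volume (range fun x => 1 - k x) = 0 := (countable_range _).measure_zero _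
  filter_upwards [measure_eq_zero_iff_ae_notMem.1 hnull] with t ht
  rw [← G.wall_compl]
  refine subset_of_eq (congrArg _ ?_)
  ext x
  simp only [mem_compl_iff, mem_setOf_eq, not_le]
  exact ⟨fun h1 => by linarith,
    fun h1 => lt_of_le_of_ne (by linarith) fun h2 => ht ⟨x, h2.symm⟩⟩
theorem CL.min {k k' : Γ → ℝ} (h : G.CL k) (h' : G.CL k') : G.CL fun x => min (k x) (k' x) := by
  obtain ⟨h01, r, ρ, M, hρ, hρ0, hm, hM, hae⟩ := h
  obtain ⟨h01', r', ρ', M', hρ', hρ0', hm', hM', hae'⟩ := h'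
  refine ⟨fun x => ⟨le_min (h01 x).1 (h01' x).1, (min_le_left _ _).trans (h01 x).2⟩, max r r',
    ρ + ρ', fun v => M v ∪ M' v, hρ.add hρ', fun v => add_nonneg (hρ0 v) (hρ0' v),
    fun v => (hm v).union (hm' v), fun v => ?_, ?_⟩
  · refine (measure_union_le _ _).trans ((add_le_add (hM v) (hM' v)).trans_eq ?_)
    exact (ENNReal.ofReal_add (hρ0 v) (hρ0' v)).symm
  filter_upwards [hae, hae'] with t ⟨R, hR⟩ ⟨R', hR'⟩
  refine ⟨max R R', fun x hx => ?_⟩
  have : x ∈ G.wall {z | k z ≤ t} ∪ G.wall {z | k' z ≤ t} := by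
    obtain ⟨y, hd, hc⟩ := hx
    by_contra hn
    rw [mem_union, not_or] at hn
    have a1 : ¬ cross {z | k z ≤ t} x y := fun h => hn.1 ⟨y, hd, h⟩
    have a2 : ¬ cross {z | k' z ≤ t} x y := fun h => hn.2 ⟨y, hd, h⟩
    simp only [cross, mem_setOf_eq, min_le_iff, not_not] at hc a1 a2
    exact hc (or_congr a1 a2)
  rcases this with h1 | h1
  · obtain ⟨a, y, b, c⟩ := hR x h1
    exact ⟨Or.inl a, y, b.trans (le_max_left _ _), c.mono (le_max_left _ _) fun v hv => Or.inl hv⟩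
  · obtain ⟨a, y, b, c⟩ := hR' x h1
    exact ⟨Or.inr a, y, b.trans (le_max_right _ _),
      c.mono (le_max_right _ _) fun v hv => Or.inr hv⟩
/-- Plan: for `t ∈ [0,1)` the level set is `{k ≤ a + t (b - a)}`; for other `t` the wall is empty. -/
theorem CL.clamp {k : Γ → ℝ} (h : G.CL k) {a b : ℝ} (hab : a < b) :
    G.CL fun x => max 0 (Min.min 1 ((k x - a) / (b - a))) := by
  have hba : 0 < b - a := sub_pos.2 hab
  have h01 : ∀ x, 0 ≤ max 0 (Min.min 1 ((k x - a) / (b - a))) ∧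
      max 0 (Min.min 1 ((k x - a) / (b - a))) ≤ 1 := fun x =>
    ⟨le_max_left _ _, max_le zero_le_one (min_le_left _ _)⟩
  refine h.affine (α := a) (β := b - a) hba.ne' h01 (Eventually.of_forall fun t x hx => ?_)
  have ht := cl0_mem h01 hx
  refine (congrArg G.wall ?_).subset hx
  ext z
  simp only [mem_setOf_eq, max_le_iff, min_le_iff, div_le_iff₀ hba, ht.1, true_and,
    not_le.2 ht.2, false_or]
  constructor <;> intro <;> linarith
/-- restriction of `1 - k` to a component of `{k < 1} \ K`.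
Plan: for `t ∈ (0,1)` an edge crossing the level `t` either crosses the level `t` of `1 - k` or has an end
point in `K`; use `M' v = M v ∪ (if v ∈ N 1 K then Icc 0 1 else ∅)` with `M` from `h.one_sub`. -/
theorem CL.comp {k : Γ → ℝ} (h : G.CL k) {K : Set Γ} (hK : K.Finite) (x₀ : Γ) :
    G.CL fun x => Min.min (1 - k x)
      (ind {y | y ∈ {z | k z < 1} \ K ∧ G.Chain 1 ({z | k z < 1} \ K) x₀ y} x) := by
  set C := {y | y ∈ {z | k z < 1} \ K ∧ G.Chain 1 ({z | k z < 1} \ K) x₀ y} with hC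
  have hind : ∀ x, 0 ≤ ind C x := fun x => indicator_nonneg (fun _ _ => zero_le_one) x
  have h01 : ∀ x, 0 ≤ Min.min (1 - k x) (ind C x) ∧ Min.min (1 - k x) (ind C x) ≤ 1 := fun x =>
    ⟨le_min (by linarith [(h.1 x).2]) (hind x), (min_le_left _ _).trans (by linarith [(h.1 x).1])⟩
  refine h.one_sub.of_finite (G.finite_N 1 hK) h01 fun t x hx => ?_
  have ht := cl0_mem h01 hx
  have key : ∀ u u', G.D u u' ≤ 1 → t < Min.min (1 - k u) (ind C u) →
      Min.min (1 - k u') (ind C u') ≤ t → u' ∈ K ∨ (t < 1 - k u ∧ 1 - k u' ≤ t) := by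
    intro u u' hd h1 h2
    rw [lt_min_iff] at h1
    by_contra hn
    rw [not_or, not_and, not_le] at hn
    have h3 := hn.2 h1.1
    have hu : u ∈ C := by
      by_contra hu
      have : ind C u = 0 := indicator_of_notMem hu _
      linarith [h1.2, ht.1]
    have hu' : u' ∈ {z | k z < 1} \ K := ⟨show k u' < 1 by linarith [ht.1], hn.1⟩
    have h4 : ind C u' = 1 :=
      indicator_of_mem (show u' ∈ C from ⟨hu', hu.2.tail ⟨hu.1, hu', hd⟩⟩) _
    rcases min_le_iff.1 h2 with h5 | h5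
    · linarith
    · linarith [ht.2]
  obtain ⟨y, hd, hc⟩ := hx
  by_cases h1 : Min.min (1 - k x) (ind C x) ≤ t
  · have h2 : t < Min.min (1 - k y) (ind C y) := not_le.1 fun h2 => hc (iff_of_true h1 h2)
    rcases key y x (G.D_comm x y ▸ hd) h2 h1 with h3 | h3
    · exact Or.inr (G.subset_N _ _ h3)
    · exact Or.inl ⟨y, hd, fun h4 => absurd (h4.1 h3.2) (not_le.2 h3.1)⟩
  · have h2 : Min.min (1 - k y) (ind C y) ≤ t := by
      by_contra h2
      exact hc (iff_of_false h1 h2)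
    rcases key x y hd (not_le.1 h1) h2 with h3 | h3
    · exact Or.inr ⟨y, h3, G.D_comm x y ▸ hd⟩
    · exact Or.inl ⟨y, hd, fun h4 => absurd (h4.2 h3.2) (not_le.2 h3.1)⟩

end Gen
end Crest.Agent.R224
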