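import Crest.Agent.R224.CaseB0

/-! Case B: many free points. -/

set_option autoImplicit false
open Filter Topology Set MeasureTheory
open scoped Pointwise

namespace Crest.Agent.R224

theorem CaseB.encard_lim {Γ : Type} [Group Γ] {l : Filter ℕ} {A : Set Γ} {B : ℕ → Set Γ}
    {x : ℕ → Γ} (h : ∀ y ∈ A, ∀ᶠ j in l, x j * y ∈ B j) {k : ℕ} (hk : (k : ℕ∞) ≤ A.encard) :
    ∀ᶠ j in l, (k : ℕ∞) ≤ (B j).encard := by
  obtain ⟨S, hS, hk'⟩ := exists_subset_encard_eq hk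
  have hfin : S.Finite := finite_of_encard_eq_coe hk'
  filter_upwards [(eventually_all_finite hfin).2 fun y hy => h y (hS hy)] with j hj
  rw [← hk', ← (mul_right_injective (x j)).encard_image S]
  exact encard_le_encard (by rintro _ ⟨y, hy, rfl⟩; exact hj y hy)

theorem CaseB.finite_lim {Γ : Type} [Group Γ] {l : Filter ℕ} [l.NeBot] {A : Set Γ}
    {B : ℕ → Set Γ} {x : ℕ → Γ} (h : ∀ y ∈ A, ∀ᶠ j in l, x j * y ∈ B j) {k : ℕ}
    (hk : ∀ᶠ j in l, (B j).encard ≤ k) : A.Finite := by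
  by_contra hA
  have h1 := CaseB.encard_lim h (k := k + 1) (by rw [Infinite.encard_eq hA]; exact le_top)
  obtain ⟨j, h2, h3⟩ := (h1.and hk).exists
  have := h2.trans h3
  norm_cast at this
  omega

theorem CaseB.diag {l : Filter ℕ} (hl : l ≤ atTop) {α : Type} [Nonempty α] {p : ℕ → ℕ → α → Prop}
    (h : ∀ r, ∀ᶠ j in l, ∃ a, p r j a) :
    ∃ (r : ℕ → ℕ) (a : ℕ → α), (∀ r₀, ∀ᶠ j in l, r₀ ≤ r j) ∧ ∀ᶠ j in l, p (r j) j (a j) := by
  classical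
  refine ⟨fun j => Nat.findGreatest (fun r => ∃ a, p r j a) j,
    fun j => Classical.epsilon (p (Nat.findGreatest (fun r => ∃ a, p r j a) j) j), fun r₀ => ?_, ?_⟩
  · filter_upwards [h r₀, hl (eventually_ge_atTop r₀)] with j h1 h2
    exact Nat.le_findGreatest h2 h1
  · filter_upwards [h 0] with j h1
    exact Classical.epsilon_spec
      (Nat.findGreatest_spec (P := fun r => ∃ a, p r j a) (Nat.zero_le j) h1)

namespace Ctx
variable {Γ X : Type} [Group Γ] [MetricSpace X] [CompactSpace X] [MulAction Γ X] (c : Ctx Γ X)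

theorem caseB_patch_smul (m : c.T) (g : Γ) (R : ℕ) (Y : Set c.T) (V : Set Γ) (a : c.T) (x : Γ) :
    g * x ∈ c.Patch m R (g • Y) (g • V) (g • a) ↔ x ∈ c.Patch m R Y V a := by
  simp only [Patch, mem_ofPred_eq, c.Mod_smul, c.smul_wall]
  rw [← smul_eq_mul, smul_mem_smul_set_iff]

theorem caseB_free_smul (m : c.T) (g : Γ) (R : ℕ) (Y : Set c.T) (V : Set Γ) (x : Γ) :
    g * x ∈ c.Free m R (g • Y) (g • V) ↔ x ∈ c.Free m R Y V := by
  simp only [Free, mem_ofPred_eq, c.smul_wall]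
  refine and_congr (by rw [← smul_eq_mul, smul_mem_smul_set_iff]) ⟨fun h a ha => ?_, fun h a ha => ?_⟩
  · exact h (g • a) ((c.Mod_smul g R V a x).2 ha)
  · refine h (g⁻¹ • a) ((c.Mod_smul g R V _ x).1 ?_)
    rwa [smul_inv_smul]

/-- Plan: enumerate `c.T` (`countable_T`), `P i` = first `i` cut points, `η i = 1/(i+1)`; `select` with `forest` and with
`indeg` (`z_acc`; `Q = D1`) gives the bad predicate.  `r_j → ∞` along `ω`, roots `x_j` from `free_root`.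
`Y_j = x_j⁻¹ • Y` is constant `= Y_∞` along `ω` (`finite_pieces`), `σ'_j = x_j⁻¹ • σ j`, `e₀ = lim_ω e x_j⁻¹`.
`roots_lim` and `local_lim` give the first hypothesis of `lim_false`.  For `a ∈ Y_∞`, `a ≠ e₀`: `a = y • d` with `d ∈ D1`
(`wall_O_infinite`, `wall_O_subset`), so `Free ∩ Z (x_j • a) ⊆ F_j` has fewer than `n i` points; `patch_lemma` bounds the
patches uniformly; pass to the limit.  But `1` is free in the limit. -/
theorem caseB (m : c.T) : ∃ R₀ : ℕ, ∀ R ≥ R₀, ∀ (ω : Ultrafilter ℕ), (ω : Filter ℕ) ≤ atTop →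
    ∀ (Y : Set c.T) (σ : ℕ → Set c.T) (z : X) (ε : ℝ), 0 < ε → IsPiece c.B Y →
      (∀ j, Disjoint (c.Acc (c.wall (c.Sat m Y (σ j)))) c.Cut) →
      (∀ᶠ j in ω, c.Acc (c.wall (c.Sat m Y (σ j))) ⊆ Metric.closedBall z (ε / 2)) →
      ¬ ∀ M : ℕ, ∀ᶠ j in ω, (M : ℕ∞) ≤ (c.Low m R Y (c.Sat m Y (σ j)) z ε).encard := by
  obtain ⟨R₁, hR₁⟩ := c.lim_false m
  obtain ⟨R₂, hR₂1, hR₂⟩ := c.patch_lemma m
  refine ⟨max R₁ R₂, fun R hR ω hω Y σ z ε hε hY hdis hacc hlow => ?_⟩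
  have hR1 : R₁ ≤ R := (le_max_left _ _).trans hR
  have hR2 : R₂ ≤ R := (le_max_right _ _).trans hR
  have hR0 : 1 ≤ R := hR₂1.trans hR2
  have := c.countable_T
  have : Nonempty c.T := ⟨m⟩
  obtain ⟨f, hf⟩ := exists_surjective_nat c.T
  set P : ℕ → Set X := fun i => (fun k => (f k : X)) '' Iic i with hP
  set Q : Set X := Subtype.val '' c.D1 m with hQ
  have hη : ∀ i : ℕ, (0 : ℝ) < 1 / (i + 1 : ℝ) := fun i => by positivity
  obtain ⟨n₁, hn₁⟩ := Ctx.select (fun i n F x => c.Bad (1 / (i + 1 : ℝ)) n F x)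
    fun i => c.forest (hη i)
  obtain ⟨n₂, hn₂⟩ := Ctx.select (fun i n F x => c.Bad2 (1 / (i + 1 : ℝ)) n (P i) Q F x)
    fun i => c.indeg (hη i) ((finite_Iic i).image _) ((c.finite_D1 m).image _) (by
      rintro _ ⟨k, -, rfl⟩ _ ⟨k', -, rfl⟩
      refine subset_trans (c.Acc_mono fun y hy => ?_) (c.z_acc (f k) (f k'))
      exact Subtype.ext hy)
  set bad : Set Γ → Γ → Prop := fun F x => (∃ i : ℕ, c.Bad (1 / (i + 1 : ℝ)) (n₁ i) F x) ∨
    ∃ i : ℕ, c.Bad2 (1 / (i + 1 : ℝ)) (n₂ i) (P i) Q F x with hbad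
  have hbad4 : ∀ F : Set Γ, F.Finite → 4 * {x ∈ F | bad F x}.ncard ≤ F.ncard := by
    intro F hF
    have h1 := hn₁ F hF
    have h2 := hn₂ F hF
    have h3 : {x ∈ F | bad F x} = {x ∈ F | ∃ i : ℕ, c.Bad (1 / (i + 1 : ℝ)) (n₁ i) F x} ∪
        {x ∈ F | ∃ i : ℕ, c.Bad2 (1 / (i + 1 : ℝ)) (n₂ i) (P i) Q F x} := by
      ext x; simp only [hbad, mem_ofPred_eq, mem_union]; tauto
    have h4 := ncard_union_le {x ∈ F | ∃ i : ℕ, c.Bad (1 / (i + 1 : ℝ)) (n₁ i) F x}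
      {x ∈ F | ∃ i : ℕ, c.Bad2 (1 / (i + 1 : ℝ)) (n₂ i) (P i) Q F x}
    rw [h3]
    omega
  obtain ⟨r, a, hr, ha⟩ := CaseB.diag hω (α := Set Γ × Γ)
    (p := fun r j a => a.1.Finite ∧ a.2 ∈ c.Free m R Y (c.Sat m Y (σ j)) ∧ ¬ bad a.1 a.2 ∧
        c.Free m R Y (c.Sat m Y (σ j)) ∩ c.ball a.2 r ⊆ a.1 ∧
        ∀ y ∈ c.ball a.2 r, ∀ d ∈ c.D1 m,
          c.Free m R Y (c.Sat m Y (σ j)) ∩ c.Z m (y • d) ⊆ a.1) (by
    intro r
    obtain ⟨v₀, hv₀⟩ := c.free_root m R z hε r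
    filter_upwards [hacc, hlow v₀] with j h1 h2
    obtain ⟨F, x, h⟩ := hv₀ Y _ bad h1 h2 hbad4
    exact ⟨(F, x), h⟩)
  set F : ℕ → Set Γ := fun j => (a j).1 with hF
  set x : ℕ → Γ := fun j => (a j).2 with hx
  change ∀ᶠ j in ω, (F j).Finite ∧ x j ∈ c.Free m R Y (c.Sat m Y (σ j)) ∧ ¬ bad (F j) (x j) ∧
        c.Free m R Y (c.Sat m Y (σ j)) ∩ c.ball (x j) (r j) ⊆ F j ∧
        ∀ y ∈ c.ball (x j) (r j), ∀ d ∈ c.D1 m,
          c.Free m R Y (c.Sat m Y (σ j)) ∩ c.Z m (y • d) ⊆ F j at ha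
  clear_value F x
  have hball : ∀ y, ∀ᶠ j in ω, x j * y ∈ c.ball (x j) (r j) := fun y => by
    filter_upwards [hr (c.len y)] with j hj
    show c.D _ _ ≤ _
    simpa using hj
  obtain ⟨Y', ⟨hY', -⟩, hYe⟩ : ∃ Y' ∈ {Y : Set c.T | IsPiece c.B Y ∧
      ∃ σ, (1 : Γ) ∈ c.wall (c.Sat m Y σ)}, ∀ᶠ j in ω, (x j)⁻¹ • Y = Y' := by
    rw [← Ultrafilter.eventually_exists_mem_iff (c.finite_pieces m)]
    filter_upwards [ha] with j hj
    refine ⟨_, ⟨isPiece_smul c.B_smul hY _, (x j)⁻¹ • σ j, ?_⟩, rfl⟩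
    rw [c.Sat_smul, c.smul_wall]
    exact ⟨x j, hj.2.1.1, by simp⟩
  set σ' : ℕ → Set c.T := fun j => (x j)⁻¹ • σ j with hσ'
  have htr : ∀ᶠ j in ω, Y = x j • Y' ∧ c.Sat m Y (σ j) = x j • c.Sat m Y' (σ' j) := by
    filter_upwards [hYe] with j hj
    have h1 : Y = x j • Y' := by rw [← hj, smul_inv_smul]
    refine ⟨h1, ?_⟩
    rw [← c.Sat_smul, ← h1, hσ', smul_inv_smul]
  have hfree : ∀ y, y ∈ c.Free m R Y' (c.Sat m Y' {a | ∀ᶠ j in ω, a ∈ σ' j}) ↔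
      ∀ᶠ j in ω, x j * y ∈ c.Free m R Y (c.Sat m Y (σ j)) := by
    intro y
    rw [(c.local_lim m hR0 ω hY' σ' y).1]
    refine eventually_congr ?_
    filter_upwards [htr] with j hj
    rw [hj.2, ← c.caseB_free_smul m (x j), ← hj.1]
  have hpatch : ∀ y b, y ∈ c.Patch m R Y' (c.Sat m Y' {a | ∀ᶠ j in ω, a ∈ σ' j}) b ↔
      ∀ᶠ j in ω, x j * y ∈ c.Patch m R Y (c.Sat m Y (σ j)) (x j • b) := by
    intro y b
    rw [(c.local_lim m hR0 ω hY' σ' y).2 b]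
    refine eventually_congr ?_
    filter_upwards [htr] with j hj
    rw [hj.2, ← c.caseB_patch_smul m (x j), ← hj.1]
  obtain ⟨e₀, -, he₀⟩ := isCompact_univ.ultrafilter_le_nhds (ω.map fun j => c.e (x j)⁻¹) (by simp)
  have he : Tendsto (fun j => c.e (x j)⁻¹) ω (𝓝 e₀) := he₀
  obtain ⟨ζ, hζ⟩ := c.roots_lim ω hω n₁ F x (fun i => by
    filter_upwards [ha] with j hj h
    exact hj.2.2.1 (Or.inl ⟨i, h⟩)) he
  have hemp := hR₁ R hR1 Y' {a | ∀ᶠ j in ω, a ∈ σ' j} e₀ ζ hY' (by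
    intro ξ hξ
    refine hζ ξ fun δ hδ k => ?_
    refine CaseB.encard_lim (x := x) (A := {y ∈ c.Free m R Y' (c.Sat m Y' {a | ∀ᶠ j in ω, a ∈ σ' j}) |
      dist (c.e y) ξ < δ}) (fun y hy => ?_) (by rw [Infinite.encard_eq (hξ δ hδ)]; exact le_top)
    filter_upwards [(hfree y).1 hy.1, hball y, ha] with j h1 h2 h3
    exact ⟨h3.2.2.2.1 ⟨h1, h2⟩, by simpa using hy.2.le⟩) (by
    intro b hb hne
    obtain ⟨i₀, rfl⟩ := hf b
    have hd : 0 < dist (f i₀ : X) e₀ := dist_pos.2 hne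
    obtain ⟨i₁, hi₁⟩ := exists_nat_one_div_lt (show 0 < dist (f i₀ : X) e₀ / 10 by positivity)
    set i := max i₀ i₁ with hi
    have hlt : 10 * (1 / (i + 1 : ℝ)) < dist (f i₀ : X) e₀ := by
      have : 1 / (i + 1 : ℝ) ≤ 1 / (i₁ + 1 : ℝ) :=
        Nat.one_div_le_one_div (le_max_right _ _)
      linarith
    have hev : ∀ᶠ j in ω, 10 * (1 / (i + 1 : ℝ)) < dist (f i₀ : X) (c.e (x j)⁻¹) :=
      (tendsto_const_nhds.dist he).eventually (lt_mem_nhds hlt)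
    obtain ⟨y₀, hy₀⟩ := (c.wall_O_infinite (m := m) hY' hb).nonempty
    have hy₀' : y₀⁻¹ • f i₀ ∈ c.D1 m := c.wall_O_subset hY' _ hy₀
    have hM : ∀ᶠ j in ω,
        (c.Free m R Y (c.Sat m Y (σ j)) ∩ c.Z m (x j • f i₀)).encard ≤ n₂ i := by
      filter_upwards [ha, hev, hball y₀] with j h1 h2 h3
      have h4 := h1.2.2.2.2 _ h3 _ hy₀'
      rw [mul_smul, smul_inv_smul] at h4
      by_contra hcon
      refine h1.2.2.1 (Or.inr ⟨i, f i₀, ⟨i₀, mem_Iic.2 (le_max_left i₀ i₁), rfl⟩, h2.le, ?_⟩)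
      refine (not_le.1 hcon).le.trans (encard_le_encard fun y hy => ⟨h4 hy, _, ⟨_, hy.2, rfl⟩, ?_⟩)
      simp
    obtain ⟨R₃, hR₃⟩ := hR₂ R hR2 (n₂ i)
    refine ⟨CaseB.finite_lim (l := ω) (x := x) (fun y hy => (hpatch y _).1 hy)
      (k := n₂ i * c.vol R₃) ?_, CaseB.finite_lim (l := ω) (x := x) (fun y hy => ?_) hM⟩
    · filter_upwards [hM] with j hj
      have hfin : (c.Patch m R Y (c.Sat m Y (σ j)) (x j • f i₀)).Finite := by
        refine c.finite_of_Acc_eq_empty (eq_empty_of_forall_notMem fun ξ hξ => ?_)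
        have h1 : ξ ∈ c.Acc (c.wall (c.Sat m Y (σ j))) := c.Acc_mono (fun y hy => hy.1) hξ
        have h2 := c.Z_acc m _ (c.Acc_mono
          ((c.Patch_subset hR0 _ _).trans (c.wall_O_subset hY _)) hξ)
        rw [mem_singleton_iff] at h2
        exact disjoint_left.1 (hdis j) h1 (h2 ▸ (x j • f i₀).2)
      refine (encard_le_encard (hR₃ Y _ _ hY hfin hj)).trans ((c.encard_N_le _ _).trans ?_)
      push_cast
      exact mul_le_mul_left hj _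
    · filter_upwards [(hfree y).1 hy.1] with j hj
      refine ⟨hj, ?_⟩
      rw [c.Z_smul]
      exact ⟨y, hy.2, rfl⟩)
  have h1 : (1 : Γ) ∈ c.Free m R Y' (c.Sat m Y' {a | ∀ᶠ j in ω, a ∈ σ' j}) := by
    rw [hfree]
    filter_upwards [ha] with j hj
    simpa using hj.2.1
  rw [hemp] at h1
  exact h1

end Ctx
end Crest.Agent.R224
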