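import Crest.Agent.R224.Forest

/-! Forest lemma and selection of typical roots. -/

set_option autoImplicit false
open Filter Topology Set MeasureTheory
open scoped Pointwise

namespace Crest.Agent.R224

namespace Ctx
variable {Γ X : Type} [Group Γ] [MetricSpace X] [CompactSpace X] [MulAction Γ X] (c : Ctx Γ X)

/-- Limit of good roots.  Plan: if `ξ₁ ≠ ξ₂` both differ from `e₀` and have the property, choose `i` with
`20/(i+1) ≤` the three mutual distances. -/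
theorem roots_lim (ω : Ultrafilter ℕ) (hω : (ω : Filter ℕ) ≤ atTop) (n : ℕ → ℕ) (F : ℕ → Set Γ)
    (x : ℕ → Γ) (hx : ∀ i : ℕ, ∀ᶠ j in ω, ¬ c.Bad (1 / (i + 1 : ℝ)) (n i) (F j) (x j)) {e₀ : X}
    (he : Tendsto (fun j => c.e (x j)⁻¹) ω (𝓝 e₀)) :
    ∃ ζ : X, ∀ ξ : X, (∀ ε > 0, ∀ k : ℕ, ∀ᶠ j in ω,
      (k : ℕ∞) ≤ {y ∈ F j | dist (c.e ((x j)⁻¹ * y)) ξ ≤ ε}.encard) → ξ = e₀ ∨ ξ = ζ := by
  have _ := hω
  by_contra hcon
  push Not at hcon
  obtain ⟨ξ₁, h1, h1e, -⟩ := hcon e₀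
  obtain ⟨ξ₂, h2, h2e, h21⟩ := hcon ξ₁
  have d1 : 0 < dist ξ₁ e₀ := dist_pos.2 h1e
  have d2 : 0 < dist ξ₂ e₀ := dist_pos.2 h2e
  have d3 : 0 < dist ξ₁ ξ₂ := dist_pos.2 h21.symm
  obtain ⟨i, hi⟩ := exists_nat_one_div_lt
    (show 0 < min (dist ξ₁ ξ₂) (min (dist ξ₁ e₀) (dist ξ₂ e₀)) / 10 by positivity)
  have hi' : 10 * (1 / (i + 1 : ℝ)) < min (dist ξ₁ ξ₂) (min (dist ξ₁ e₀) (dist ξ₂ e₀)) := by
    linarith
  simp only [lt_min_iff] at hi'
  have hη : (0 : ℝ) < 1 / (i + 1 : ℝ) := by positivity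
  have e1 := (tendsto_const_nhds.dist he).eventually (lt_mem_nhds hi'.2.1)
  have e2 := (tendsto_const_nhds.dist he).eventually (lt_mem_nhds hi'.2.2)
  obtain ⟨j, a1, a2, a3, a4, a5⟩ :=
    ((hx i).and (e1.and (e2.and ((h1 _ hη (n i)).and (h2 _ hη (n i)))))).exists
  exact a1 ⟨ξ₁, ξ₂, hi'.1.le, le_of_lt a2, le_of_lt a3, a4, a5⟩

/-- seen from `x`, some point `b ∈ P` away from the direction of the origin sees `n` points of `F` -/
def Bad2 (η : ℝ) (n : ℕ) (P Q : Set X) (F : Set Γ) (x : Γ) : Prop :=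
  ∃ b ∈ P, 10 * η ≤ dist b (c.e x⁻¹) ∧ (n : ℕ∞) ≤ {y ∈ F | ∃ d ∈ Q, y • d = x • b}.encard

/-- In-degree lemma.  Plan: if `x • b = x' • b'` with `b, b' ∈ P` both away from the origin direction then
`D x x' < R`: otherwise `e (x⁻¹ x')` is `η`-close to `b`, `e (x'⁻¹ x)` is `η`-close to `b'` (hypothesis `hP`,
finitely many exceptions) and `beh` for `g = x⁻¹ x'`, `z = e x⁻¹` fails.  So `x ↦ x • b(x)` has fibres of
size `≤ vol R`, and every `y` is counted for at most `|Q|` points `x • b`. -/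
theorem indeg {η : ℝ} (hη : 0 < η) {P Q : Set X} (hPf : P.Finite) (hQ : Q.Finite)
    (hP : ∀ b ∈ P, ∀ b' ∈ P, c.Acc {y | y • b' = b} ⊆ {b}) : ∃ B : ℕ, ∀ (F : Set Γ) (n : ℕ),
    F.Finite → n * {x ∈ F | c.Bad2 η n P Q F x}.ncard ≤ B * F.ncard := by
  classical
  obtain ⟨R₀, hR₀⟩ := c.beh η hη
  have hE : (⋃ b ∈ P, ⋃ b' ∈ P, {y ∈ {y : Γ | y • b' = b} | c.e y ∉ Metric.ball b η}).Finite :=
    hPf.biUnion fun b hb => hPf.biUnion fun b' hb' => c.finite_of_Acc Metric.isOpen_ball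
      ((hP b hb b' hb').trans (singleton_subset_iff.2 (Metric.mem_ball_self hη)))
  obtain ⟨R₁, hR₁⟩ := (hE.image c.len).bddAbove
  have hR₁' : ∀ b ∈ P, ∀ b' ∈ P, ∀ y : Γ, y • b' = b → R₁ < c.len y → dist (c.e y) b < η := by
    intro b hb b' hb' y hy hl
    by_contra h
    have := hR₁ ⟨y, mem_iUnion₂.2 ⟨b, hb, mem_iUnion₂.2 ⟨b', hb', hy, h⟩⟩, rfl⟩
    omega
  have close : ∀ x x' : Γ, ∀ b ∈ P, ∀ b' ∈ P, 10 * η ≤ dist b (c.e x⁻¹) →
      10 * η ≤ dist b' (c.e x'⁻¹) → x • b = x' • b' → c.D x x' ≤ R₀ + R₁ := by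
    intro x x' b hb b' hb' h1 h2 h3
    by_contra hlt
    have hl : R₀ + R₁ < c.len (x⁻¹ * x') := not_le.1 hlt
    have g1 : (x⁻¹ * x') • b' = b := by rw [mul_smul, ← h3, inv_smul_smul]
    have g2 : (x⁻¹ * x')⁻¹ • b = b' := by rw [← g1, inv_smul_smul]
    have a1 := hR₁' b hb b' hb' _ g1 (by omega)
    have a2 := hR₁' b' hb' b hb _ g2 (by rw [c.len_inv]; omega)
    rcases hR₀ (x⁻¹ * x') (by omega) (c.e x⁻¹) with h | h
    · have := dist_triangle_right b (c.e x⁻¹) (c.e (x⁻¹ * x'))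
      rw [dist_comm] at a1
      linarith
    · rw [← c.equiv, show (x⁻¹ * x')⁻¹ * x⁻¹ = x'⁻¹ * (x * x⁻¹) by group, mul_inv_cancel,
        mul_one] at h
      have := dist_triangle_right b' (c.e x'⁻¹) (c.e (x⁻¹ * x')⁻¹)
      rw [dist_comm] at a2
      linarith
  refine ⟨hQ.toFinset.card * c.vol (R₀ + R₁), fun F n hF => ?_⟩
  have hS : {x ∈ F | c.Bad2 η n P Q F x}.Finite := hF.subset fun x hx => hx.1
  have hch : ∀ x : Γ, ∃ b : X, c.Bad2 η n P Q F x → b ∈ P ∧ 10 * η ≤ dist b (c.e x⁻¹) ∧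
      (n : ℕ∞) ≤ {y ∈ F | ∃ d ∈ Q, y • d = x • b}.encard := by
    intro x
    by_cases h : c.Bad2 η n P Q F x
    · obtain ⟨b, hb⟩ := h
      exact ⟨b, fun _ => hb⟩
    · exact ⟨c.e 1, fun h' => absurd h' h⟩
  choose β hβ using hch
  have key := Finset.card_mul_le_card_mul (s := hS.toFinset) (t := hF.toFinset)
    (fun x y => ∃ d ∈ Q, y • d = x • β x) (m := n) (n := hQ.toFinset.card * c.vol (R₀ + R₁))
    (by
      intro x hx
      have h1 := (hβ x (hS.mem_toFinset.1 hx).2).2.2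
      have h2 : {y ∈ F | ∃ d ∈ Q, y • d = x • β x} =
          ↑(hF.toFinset.bipartiteAbove (fun x y => ∃ d ∈ Q, y • d = x • β x) x) := by
        ext y; simp
      rw [h2, encard_coe_eq_coe_finsetCard] at h1
      exact_mod_cast h1)
    (by
      intro y _
      have hsub : hS.toFinset.bipartiteBelow (fun x y => ∃ d ∈ Q, y • d = x • β x) y ⊆
          hQ.toFinset.biUnion fun d => hS.toFinset.filter fun x => y • d = x • β x := by
        intro x hx
        obtain ⟨h1, d, hd, h2⟩ := (Finset.mem_bipartiteBelow _).1 hx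
        exact Finset.mem_biUnion.2 ⟨d, hQ.mem_toFinset.2 hd, Finset.mem_filter.2 ⟨h1, h2⟩⟩
      refine (Finset.card_le_card hsub).trans (Finset.card_biUnion_le_card_mul _ _ _ fun d _ => ?_)
      rcases (hS.toFinset.filter fun x => y • d = x • β x).eq_empty_or_nonempty with h | ⟨x₀, hx₀⟩
      · simp [h]
      · rw [← c.ncard_ball x₀, ← ncard_coe_finset]
        refine ncard_le_ncard (fun x hx => ?_) (c.finite_ball _ _)
        obtain ⟨a1, a2⟩ := Finset.mem_filter.1 hx₀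
        obtain ⟨b1, b2⟩ := Finset.mem_filter.1 (Finset.mem_coe.1 hx)
        have a3 := hβ _ (hS.mem_toFinset.1 a1).2
        have b3 := hβ _ (hS.mem_toFinset.1 b1).2
        exact close x₀ x _ a3.1 _ b3.1 a3.2.1 b3.2.1 (a2.symm.trans b2))
  rw [ncard_eq_toFinset_card _ hS, ncard_eq_toFinset_card _ hF, mul_comm, mul_comm _ hF.toFinset.card]
  exact key

/-- Selection: bad sets of total density at most `1/8`. Plan: `n i = B_i 2^{i+4}`. -/
theorem select {ι : Type} (bad : ℕ → ℕ → Set ι → ι → Prop)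
    (h : ∀ i, ∃ B : ℕ, ∀ (F : Set ι) (n : ℕ), F.Finite →
      n * {x ∈ F | bad i n F x}.ncard ≤ B * F.ncard) :
    ∃ n : ℕ → ℕ, ∀ F : Set ι, F.Finite → 8 * {x ∈ F | ∃ i, bad i (n i) F x}.ncard ≤ F.ncard := by
  choose B hB using h
  set n : ℕ → ℕ := fun i => (B i + 1) * 2 ^ (i + 4) with hn
  refine ⟨n, fun F hF => ?_⟩
  have h1 : ∀ i, 2 ^ (i + 4) * {x ∈ F | bad i (n i) F x}.ncard ≤ F.ncard := by
    intro i
    have := hB i F (n i) hF
    refine Nat.le_of_mul_le_mul_left ?_ (Nat.succ_pos (B i))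
    rw [← mul_assoc]
    exact this.trans (Nat.mul_le_mul_right _ (Nat.le_succ _))
  have h2 : ∀ N, 2 ^ (N + 3) * {x ∈ F | ∃ i < N, bad i (n i) F x}.ncard + F.ncard ≤
      2 ^ N * F.ncard := by
    intro N
    induction N with
    | zero => simp
    | succ N ih =>
      have e : {x ∈ F | ∃ i < N + 1, bad i (n i) F x} =
          {x ∈ F | ∃ i < N, bad i (n i) F x} ∪ {x ∈ F | bad N (n N) F x} := by
        ext x
        simp only [mem_ofPred_eq, mem_union, Nat.exists_lt_succ_right, and_or_left]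
      have h3 := Nat.mul_le_mul_left (2 ^ (N + 4)) (ncard_union_le
        {x ∈ F | ∃ i < N, bad i (n i) F x} {x ∈ F | bad N (n N) F x})
      have h4 := h1 N
      rw [e, show N + 1 + 3 = N + 4 from rfl]
      rw [mul_add] at h3
      have e2 : 2 ^ (N + 4) * {x ∈ F | ∃ i < N, bad i (n i) F x}.ncard =
          2 * (2 ^ (N + 3) * {x ∈ F | ∃ i < N, bad i (n i) F x}.ncard) := by ring
      have e3 : 2 ^ (N + 1) * F.ncard = 2 * (2 ^ N * F.ncard) := by ring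
      omega
  have hS : {x ∈ F | ∃ i, bad i (n i) F x}.Finite := hF.subset fun x hx => hx.1
  obtain ⟨N, hN⟩ := ((eventually_all_finite hS (l := atTop)
    (p := fun x N => ∃ i < N, bad i (n i) F x)).2 (by
      rintro x ⟨-, i, hi⟩
      filter_upwards [eventually_gt_atTop i] with N hN
      exact ⟨i, hN, hi⟩)).exists
  have e : {x ∈ F | ∃ i, bad i (n i) F x} = {x ∈ F | ∃ i < N, bad i (n i) F x} := by
    ext x
    exact ⟨fun hx => ⟨hx.1, hN x hx⟩, fun ⟨a, i, _, b⟩ => ⟨a, i, b⟩⟩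
  rw [e]
  refine Nat.le_of_mul_le_mul_left ?_ (Nat.two_pow_pos N)
  have := h2 N
  rw [← mul_assoc, show 2 ^ N * 8 = 2 ^ (N + 3) by ring]
  omega

end Ctx
end Crest.Agent.R224
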