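import Crest.Agent.R224.LimCfg
import Crest.Agent.R224.Roots

/-! Case B: many free points. -/

set_option autoImplicit false
open Filter Topology Set MeasureTheory
open scoped Pointwise

namespace Crest.Agent.R224

/-- weak `ℓ⁶` -/
def W6 {Γ : Type} (f : Γ → ℝ) : Prop :=
  ∃ A : ℝ, ∀ lam > 0, ∀ S : Finset Γ, ((S.filter fun y => lam ≤ f y).card : ℝ) ≤ A / lam ^ 6

theorem W6.add {Γ : Type} {f g : Γ → ℝ} (hf : W6 f) (hg : W6 g) : W6 fun x => f x + g x := by
  classical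
  obtain ⟨A, hA⟩ := hf
  obtain ⟨B, hB⟩ := hg
  refine ⟨64 * (A + B), fun lam hl S => ?_⟩
  have h1 : (S.filter fun y => lam ≤ f y + g y) ⊆
      (S.filter fun y => lam / 2 ≤ f y) ∪ S.filter fun y => lam / 2 ≤ g y := by
    intro y hy
    simp only [Finset.mem_filter, Finset.mem_union] at hy ⊢
    by_cases h : lam / 2 ≤ f y
    · exact Or.inl ⟨hy.1, h⟩
    · exact Or.inr ⟨hy.1, by linarith [hy.2, not_le.1 h]⟩
  have h2 : ((S.filter fun y => lam ≤ f y + g y).card : ℝ) ≤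
      (S.filter fun y => lam / 2 ≤ f y).card + (S.filter fun y => lam / 2 ≤ g y).card := by
    exact_mod_cast (Finset.card_le_card h1).trans (Finset.card_union_le _ _)
  refine h2.trans ((add_le_add (hA _ (by positivity) S) (hB _ (by positivity) S)).trans (le_of_eq ?_))
  field_simp
  ring

theorem W6.zero {Γ : Type} : W6 fun _ : Γ => (0 : ℝ) :=
  ⟨0, fun lam hl S => by simp [not_le.2 hl]⟩

theorem W6.sum {Γ ι : Type} (T : Finset ι) {f : ι → Γ → ℝ} (hf : ∀ i ∈ T, W6 (f i)) :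
    W6 fun x => ∑ i ∈ T, f i x := by
  classical
  induction T using Finset.induction_on with
  | empty => simpa using W6.zero
  | insert a T ha ih =>
    simp only [Finset.sum_insert ha]
    exact (hf a (by simp)).add (ih fun i hi => hf i (by simp [hi]))

theorem W6.tr {Γ : Type} [Group Γ] {f : Γ → ℝ} (hf : W6 f) (s : Γ) : W6 fun x => f (x * s) := by
  classical
  obtain ⟨A, hA⟩ := hf
  refine ⟨A, fun lam hl S => le_trans (le_of_eq ?_) (hA lam hl (S.image (· * s)))⟩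
  rw [Finset.filter_image, Finset.card_image_of_injective _ (mul_left_injective s)]

namespace Ctx
variable {Γ X : Type} [Group Γ] [MetricSpace X] [CompactSpace X] [MulAction Γ X] (c : Ctx Γ X)

/-- A good free root at scale `r`.  Plan: `φ = min 1 (max 0 (2 - 2 dist · z / ε))`,
`ℓ y = min (φ (e y)) (min_{d ∈ D1} φ (y • d))`,
`Ψ y = max over y' ∈ ball y r, d ∈ D1 of φ (e y'), φ (y' • d)`, minus `ℓ y`; `Ψ` is weak `ℓ⁶` with a constant depending only
on `r` (`dist_le_loc`, `L2.weak6`, `n2`, balls have `vol r` points).  `S = {y ∈ Free | ℓ y ≤ 1/2}` is finite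
(`n2_finite`); `Low ⊆ {ℓ ≤ 0}`; `dy_folner` gives `t`; `F = {y ∈ Free | ℓ y ≤ t}`; take `x ∈ F` with `ℓ x + Ψ x ≤ t`, not bad. -/
theorem free_root (m : c.T) (R : ℕ) (z : X) {ε : ℝ} (hε : 0 < ε) (r : ℕ) : ∃ v₀ : ℕ,
    ∀ (Y : Set c.T) (V : Set Γ) (bad : Set Γ → Γ → Prop),
      c.Acc (c.wall V) ⊆ Metric.closedBall z (ε / 2) → (v₀ : ℕ∞) ≤ (c.Low m R Y V z ε).encard →
      (∀ F : Set Γ, F.Finite → 4 * {x ∈ F | bad F x}.ncard ≤ F.ncard) →
      ∃ (F : Set Γ) (x : Γ), F.Finite ∧ x ∈ c.Free m R Y V ∧ ¬ bad F x ∧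
        c.Free m R Y V ∩ c.ball x r ⊆ F ∧
        ∀ y ∈ c.ball x r, ∀ d ∈ c.D1 m, c.Free m R Y V ∩ c.Z m (y • d) ⊆ F := by
  classical
  set D : Finset c.T := (c.finite_D1 m).toFinset with hD
  set B : Finset Γ := (c.finite_ball 1 r).toFinset with hB
  set g : Γ → ℝ := fun x => c.loc r c.w x +
    ∑ s ∈ B, ∑ d ∈ D, dist (c.e (x * s)) ((x * s) • (d : X)) with hg
  have hgW : W6 g := W6.add (c.loc_L2 c.w_L2 r).1.weak6
    (W6.sum B fun s _ => W6.sum D fun d _ =>
      W6.tr (f := fun y => dist (c.e y) (y • (d : X))) (c.n2 d) s)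
  obtain ⟨A, hA⟩ := hgW.add hgW
  have hsum : ∀ x, 0 ≤ ∑ s ∈ B, ∑ d ∈ D, dist (c.e (x * s)) ((x * s) • (d : X)) := fun x =>
    Finset.sum_nonneg fun s _ => Finset.sum_nonneg fun d _ => dist_nonneg
  have hg1 : ∀ x, ∀ y ∈ c.ball x r, dist (c.e x) (c.e y) ≤ g x := fun x y hy =>
    (c.dist_le_loc hy).trans (le_add_of_nonneg_right (hsum x))
  have hg2 : ∀ x, ∀ y ∈ c.ball x r, ∀ d ∈ c.D1 m, dist (c.e x) (y • (d : X)) ≤ g x := by
    intro x y hy d hd
    obtain ⟨s, rfl⟩ : ∃ s, y = x * s := ⟨x⁻¹ * y, by simp⟩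
    have hs : s ∈ B := by
      have : c.D x (x * s) ≤ r := hy
      simpa [hB, Gen.ball] using this
    refine (dist_triangle _ (c.e (x * s)) _).trans (add_le_add (c.dist_le_loc hy) ?_)
    refine le_trans ?_ (Finset.single_le_sum
      (f := fun s => ∑ d ∈ D, dist (c.e (x * s)) ((x * s) • (d : X)))
      (fun s _ => Finset.sum_nonneg fun d _ => dist_nonneg) hs)
    exact Finset.single_le_sum (f := fun d : c.T => dist (c.e (x * s)) ((x * s) • (d : X)))
      (fun d _ => dist_nonneg) (by simpa [hD] using hd)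
  have hself : ∀ x, x ∈ c.ball x r := fun x => by simp [Gen.ball]
  have hg0 : ∀ x, 0 ≤ g x := fun x => dist_nonneg.trans (hg1 x x (hself x))
  have hρ : ∀ y : Γ, ∃ ρ : ℝ, dist (c.e y) z ≤ ρ ∧ (∀ d ∈ c.D1 m, dist (y • (d : X)) z ≤ ρ) ∧
      (ρ = dist (c.e y) z ∨ ∃ d ∈ c.D1 m, ρ = dist (y • (d : X)) z) := by
    intro y
    obtain ⟨ρ, h1, h2⟩ := Set.exists_max_image
      (insert (dist (c.e y) z) ((fun d : c.T => dist (y • (d : X)) z) '' c.D1 m)) id
      (((c.finite_D1 m).image _).insert _) (insert_nonempty _ _)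
    refine ⟨ρ, h2 _ (mem_insert _ _), fun d hd => h2 _ (mem_insert_of_mem _ ⟨d, hd, rfl⟩), ?_⟩
    rcases h1 with h1 | ⟨d, hd, h1⟩
    exacts [Or.inl h1, Or.inr ⟨d, hd, h1.symm⟩]
  choose ρ hρ1 hρ2 hρ3 using hρ
  have hρg : ∀ x, ρ x ≤ dist (c.e x) z + g x := by
    intro x
    rcases hρ3 x with h | ⟨d, hd, h⟩
    · linarith [hg0 x]
    · have := hg2 x x (hself x) d hd
      have := dist_triangle_left (x • (d : X)) z (c.e x)
      linarith
  obtain ⟨v₀, hv₀⟩ := dy_folner A (1 / 2) (ε / 4) (by norm_num) (by positivity)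
  refine ⟨v₀ + 1, fun Y V bad hV hL hbad => ?_⟩
  have hS : {y ∈ c.Free m R Y V | 3 * ε / 4 ≤ ρ y}.Finite := by
    refine ((c.finite_of_Acc (U := Metric.ball z (5 * ε / 8)) Metric.isOpen_ball
      (hV.trans (Metric.closedBall_subset_ball (by linarith)))).union
      ((c.finite_D1 m).biUnion fun d _ => c.n2_finite d (show 0 < ε / 8 by positivity))).subset ?_
    rintro y ⟨hy, h⟩
    by_cases h1 : dist (c.e y) z < 5 * ε / 8
    · rcases hρ3 y with h2 | ⟨d, hd, h2⟩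
      · linarith
      · refine Or.inr (mem_biUnion hd ?_)
        have := dist_triangle_left (y • (d : X)) z (c.e y)
        show ε / 8 ≤ dist (c.e y) (y • (d : X))
        linarith
    · exact Or.inl ⟨hy.1, h1⟩
  have hlow : c.Low m R Y V z ε ⊆ ↑(hS.toFinset.filter fun y => -ρ y ≤ -ε) := by
    rintro y ⟨hy, h⟩
    have : ε ≤ ρ y := by
      rcases h with h | ⟨d, hd, h⟩
      exacts [h.trans (hρ1 y), h.trans (hρ2 y d hd)]
    simp only [Finset.coe_filter, Finite.mem_toFinset, mem_setOf_eq]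
    exact ⟨⟨hy, by linarith⟩, by linarith⟩
  have hcard : v₀ + 1 ≤ (hS.toFinset.filter fun y => -ρ y ≤ -ε).card := by
    have := hL.trans (encard_le_encard hlow)
    rw [encard_coe_eq_coe_finsetCard] at this
    exact_mod_cast this
  obtain ⟨t, ht, hsh⟩ := hv₀ hS.toFinset (fun y => -ρ y) (fun y => g y + g y)
    (fun y => add_nonneg (hg0 y) (hg0 y)) (fun lam hl => hA lam hl _) (-ε) (by omega)
  set F : Finset Γ := hS.toFinset.filter fun y => -ρ y ≤ t with hF
  have hmemF : ∀ y, y ∈ c.Free m R Y V → -ρ y ≤ t → y ∈ (F : Set Γ) := fun y hy h => by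
    simp only [hF, Finset.coe_filter, Finite.mem_toFinset, mem_setOf_eq]
    exact ⟨⟨hy, by linarith [ht.2]⟩, h⟩
  have hFpos : 1 ≤ F.card := by
    refine le_trans (by omega) (hcard.trans (Finset.card_le_card fun y hy => ?_))
    simp only [hF, Finset.mem_filter] at hy ⊢
    exact ⟨hy.1, hy.2.trans ht.1⟩
  have hb := hbad F F.finite_toSet
  rw [ncard_coe_finset, show {x ∈ (F : Set Γ) | bad F x} = ↑(F.filter fun x => bad F x) by
    ext; simp, ncard_coe_finset] at hb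
  have hsh' : 2 * (hS.toFinset.filter fun y => -ρ y ≤ t ∧ t < -ρ y + (g y + g y)).card ≤ F.card := by
    have : (2 : ℝ) * (hS.toFinset.filter fun y => -ρ y ≤ t ∧ t < -ρ y + (g y + g y)).card ≤
        F.card := by linarith
    exact_mod_cast this
  obtain ⟨x, hxF, hx⟩ := Finset.exists_mem_notMem_of_card_lt_card
    (s := (F.filter fun x => bad F x) ∪
      hS.toFinset.filter fun y => -ρ y ≤ t ∧ t < -ρ y + (g y + g y)) (t := F)
    (lt_of_le_of_lt (Finset.card_union_le _ _) (by omega))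
  simp only [Finset.mem_union, Finset.mem_filter, not_or, not_and, not_lt] at hx
  have hxF' := Finset.mem_filter.1 hxF
  have hdeep : -ρ x + (g x + g x) ≤ t := hx.2 hxF'.1 hxF'.2
  refine ⟨F, x, F.finite_toSet, (hS.mem_toFinset.1 hxF'.1).1, hx.1 hxF, ?_, ?_⟩
  · rintro y ⟨hy, hyx⟩
    refine hmemF y hy ?_
    have := dist_triangle (c.e x) (c.e y) z
    linarith [hρg x, hg1 x y hyx, hρ1 y]
  · rintro y hyx d hd u ⟨hu, huZ⟩
    refine hmemF u hu ?_
    have h1 := hρ2 u _ huZ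
    simp only [coe_smul, smul_inv_smul] at h1
    have := dist_triangle (c.e x) (y • (d : X)) z
    linarith [hρg x, hg2 x y hyx d hd]

/-- Local limits of configurations: modelled and free points pass to the limit
(balls are finite; a wall vertex can only be modelled by one of finitely many indices, `Patch_subset`,
`wall_O_subset`, `finite_D1`). -/
theorem local_lim (m : c.T) {R : ℕ} (hR : 1 ≤ R) (ω : Ultrafilter ℕ) {Y : Set c.T}
    (hY : IsPiece c.B Y) (σ : ℕ → Set c.T) (y : Γ) :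
    (y ∈ c.Free m R Y (c.Sat m Y {a | ∀ᶠ j in ω, a ∈ σ j}) ↔
      ∀ᶠ j in ω, y ∈ c.Free m R Y (c.Sat m Y (σ j))) ∧
    ∀ a, (y ∈ c.Patch m R Y (c.Sat m Y {a | ∀ᶠ j in ω, a ∈ σ j}) a ↔
      ∀ᶠ j in ω, y ∈ c.Patch m R Y (c.Sat m Y (σ j)) a) := by
  set V := c.Sat m Y {a | ∀ᶠ j in ω, a ∈ σ j} with hV
  have h1 : ∀ᶠ j in ω, ∀ u ∈ c.ball y R, (u ∈ V ↔ u ∈ c.Sat m Y (σ j)) := by
    refine (eventually_all_finite (c.finite_ball y R)).2 fun u _ => ?_
    obtain ⟨a, ha, -⟩ := c.exists_O (m := m) hY u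
    simp only [hV, c.mem_Sat hY ha, mem_setOf_eq]
    by_cases h : ∀ᶠ j in ω, a ∈ σ j
    · filter_upwards [h] with j hj using iff_of_true h hj
    · filter_upwards [Ultrafilter.eventually_not.2 h] with j hj using iff_of_false h hj
  have hy : y ∈ c.ball y R := by simp [Gen.ball]
  have h2 : ∀ᶠ j in ω, (y ∈ c.wall V ↔ y ∈ c.wall (c.Sat m Y (σ j))) ∧
      ∀ a, (c.Mod m R Y V a y ↔ c.Mod m R Y (c.Sat m Y (σ j)) a y) := by
    filter_upwards [h1] with j hj
    refine ⟨exists_congr fun u => and_congr_right fun hu => ?_, fun a => ?_⟩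
    · rw [cross, cross, hj y hy, hj u (le_trans hu hR)]
    · refine and_congr_right fun _ => or_congr ?_ ?_ <;>
        exact forall₂_congr fun u hu => by rw [hj u hu]
  have key : ∀ {p : Prop} {q : ℕ → Prop}, (∀ᶠ j in ω, (p ↔ q j)) → (p ↔ ∀ᶠ j in ω, q j) :=
    fun h => ⟨fun hp => h.mono fun j hj => hj.1 hp, fun hq =>
      let ⟨_, h3, h4⟩ := (h.and hq).exists
      h3.2 h4⟩
  refine ⟨key (h2.mono fun j hj => ?_), fun a => key (h2.mono fun j hj => ?_)⟩
  · exact and_congr hj.1 (forall_congr' fun a => not_congr (hj.2 a))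
  · exact and_congr hj.1 (hj.2 a)

end Ctx
end Crest.Agent.R224
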