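import Crest.Agent.R224.Cpt0

/-! Construction of the compactification. -/

set_option autoImplicit false
open Filter Topology Set MeasureTheory
open scoped Pointwise

namespace Crest.Agent.R224

variable {Γ : Type} [Group Γ]

/-- the compact space of limits of the coordinate functions `k i` -/
theorem exists_cpt {ι : Type} (k : ι → Γ → ℝ) (h01 : ∀ i x, k i x ∈ Icc (0 : ℝ) 1) (σ : Γ → ι → ι)
    (hσ : ∀ h i x, k (σ h i) x = k i (h * x)) (σ1 : ∀ i, σ 1 i = i)
    (σm : ∀ g h i, σ (g * h) i = σ h (σ g i)) (c : ι → ℝ) (hc : ∀ i, 0 < c i) (hc1 : ∀ i, c i ≤ 1)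
    (hfin : ∀ η > 0, {i | η < c i}.Finite) :
    ∃ (X : Type) (_ : MetricSpace X) (_ : CompactSpace X) (_ : MulAction Γ X) (e : Γ → X)
      (co : ι → X → ℝ), (∀ g : Γ, Continuous fun z : X => g • z) ∧ (∀ g x, e (g * x) = g • e x) ∧
      DenseRange e ∧ (∀ i, Continuous (co i)) ∧ (∀ i x, co i (e x) = k i x) ∧
      (∀ a b η, 0 ≤ η → (∀ i, c i * |co i a - co i b| ≤ η) → dist a b ≤ η) ∧
      ∀ a b η, 0 ≤ η → (∀ i, η < c i → |co i a - co i b| ≤ η) → dist a b ≤ η := by
  let E : Γ → ι → ℝ := fun x i => k i x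
  let S : Set (ι → ℝ) := closure (range E)
  have hS01 : S ⊆ univ.pi fun _ => Icc (0 : ℝ) 1 :=
    closure_minimal (by rintro _ ⟨x, rfl⟩ i -; exact h01 i x) (isClosed_set_pi fun _ _ => isClosed_Icc)
  have hS : IsCompact S :=
    (isCompact_univ_pi fun _ => isCompact_Icc).of_isClosed_subset isClosed_closure hS01
  have hcs : CompactSpace S := isCompact_iff_compactSpace.1 hS
  have hab : ∀ (a b : S) i, |a.1 i - b.1 i| ≤ 1 := fun a b i => by
    have h1 := hS01 a.2 i trivial
    have h2 := hS01 b.2 i trivial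
    rw [abs_le]; constructor <;> linarith [h1.1, h1.2, h2.1, h2.2]
  let j : S → lp (fun _ : ι => ℝ) ⊤ := fun a => ⟨fun i => c i * a.1 i, memℓp_infty ⟨1, by
    rintro _ ⟨i, rfl⟩
    have h1 := hS01 a.2 i trivial
    simp only [Real.norm_eq_abs]
    rw [abs_of_nonneg (mul_nonneg (hc i).le h1.1)]
    exact mul_le_one₀ (hc1 i) h1.1 h1.2⟩⟩
  have hj1 : ∀ (a b : S) η, 0 ≤ η → (∀ i, c i * |a.1 i - b.1 i| ≤ η) → dist (j a) (j b) ≤ η := by
    intro a b η hη h
    rw [dist_eq_norm]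
    refine lp.norm_le_of_forall_le hη fun i => ?_
    change ‖c i * a.1 i - c i * b.1 i‖ ≤ η
    rw [← mul_sub, Real.norm_eq_abs, abs_mul, abs_of_pos (hc i)]
    exact h i
  have hj2 : ∀ (a b : S) η, 0 ≤ η → (∀ i, η < c i → |a.1 i - b.1 i| ≤ η) → dist (j a) (j b) ≤ η := by
    intro a b η hη h
    refine hj1 a b η hη fun i => ?_
    by_cases hi : η < c i
    · exact (mul_le_of_le_one_left (abs_nonneg _) (hc1 i)).trans (h i hi)
    · exact (mul_le_of_le_one_right (hc i).le (hab a b i)).trans (not_lt.1 hi)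
  have hco : ∀ i, Continuous fun a : S => a.1 i := fun i =>
    (continuous_apply i).comp continuous_subtype_val
  have hjc : Continuous j := by
    refine continuous_iff_continuousAt.2 fun a => Metric.tendsto_nhds.2 fun ε hε => ?_
    have h1 : ∀ᶠ b in 𝓝 a, ∀ i ∈ {i | ε / 2 < c i}, |b.1 i - a.1 i| ≤ ε / 2 := by
      refine (eventually_all_finite (hfin _ (half_pos hε))).2 fun i _ => ?_
      filter_upwards [Metric.tendsto_nhds.1 (hco i).continuousAt _ (half_pos hε)] with b hb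
      exact le_of_lt hb
    filter_upwards [h1] with b hb
    exact (hj2 b a _ (half_pos hε).le hb).trans_lt (half_lt_self hε)
  have hji : Function.Injective j := by
    intro a b h
    refine Subtype.ext (funext fun i => ?_)
    have : c i * a.1 i = c i * b.1 i := congrArg (fun f : lp (fun _ : ι => ℝ) ⊤ => f i) h
    exact mul_left_cancel₀ (hc i).ne' this
  have hje : IsEmbedding j := (hjc.isClosedEmbedding hji).isEmbedding
  have hact : ∀ (h : Γ) (a : S), (fun i => a.1 (σ h i)) ∈ S := by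
    intro h a
    refine map_mem_closure (f := fun (a : ι → ℝ) i => a (σ h i)) (by fun_prop) a.2 ?_
    rintro _ ⟨x, rfl⟩
    exact ⟨h * x, funext fun i => (hσ h i x).symm⟩
  let act : MulAction Γ S :=
    { smul := fun h a => ⟨fun i => a.1 (σ h i), hact h a⟩
      one_smul := fun a => Subtype.ext (funext fun i => congrArg a.1 (σ1 i))
      mul_smul := fun g h a => Subtype.ext (funext fun i => congrArg a.1 (σm g h i)) }
  have hcont : ∀ g : Γ, Continuous fun z : S => g • z := fun g =>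
    Continuous.subtype_mk (continuous_pi fun i => hco (σ g i)) _
  have hd : DenseRange fun x => (⟨E x, subset_closure ⟨x, rfl⟩⟩ : S) := by
    intro a
    rw [closure_subtype, ← range_comp]
    exact a.2
  exact ⟨S, hje.comapMetricSpace j, hcs, act, fun x => ⟨E x, subset_closure ⟨x, rfl⟩⟩,
    fun i a => a.1 i, hcont, fun g x => Subtype.ext (funext fun i => (hσ g i x).symm), hd, hco,
    fun _ _ => rfl, hj1, hj2⟩

omit [Group Γ] in
/-- weights making a countable family of `ℓ²` functions jointly `ℓ²` -/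
theorem exists_weights {ι : Type} [Countable ι] (w : ι → Γ → ℝ) (hw : ∀ i, L2 (w i)) :
    ∃ (c : ι → ℝ) (W : Γ → ℝ), (∀ i, 0 < c i) ∧ (∀ i, c i ≤ 1) ∧ (∀ η > 0, {i | η < c i}.Finite) ∧
      L2 W ∧ (∀ x, 0 ≤ W x) ∧ ∀ i x, c i * w i x ≤ W x := by
  have := Encodable.ofCountable ι
  let d : ι → ℝ := fun i => (1 / 2) ^ Encodable.encode i
  have hd : Summable d := summable_geometric_two_encode
  have hd0 : ∀ i, 0 < d i := fun i => by positivity
  have hd1 : ∀ i, d i ≤ 1 := fun i => pow_le_one₀ (by norm_num) (by norm_num)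
  have hn : ∀ i, 0 ≤ nsq (w i) := fun i => tsum_nonneg fun _ => sq_nonneg _
  let c : ι → ℝ := fun i => d i / (1 + nsq (w i))
  have hc0 : ∀ i, 0 < c i := fun i => div_pos (hd0 i) (by linarith [hn i])
  have hcd : ∀ i, c i ≤ d i := fun i => div_le_self (hd0 i).le (by linarith [hn i])
  have hcn : ∀ i, c i ^ 2 * nsq (w i) ≤ d i := fun i => by
    have h1 : c i * nsq (w i) ≤ d i := by
      rw [div_mul_eq_mul_div, div_le_iff₀ (by linarith [hn i])]
      nlinarith [hd0 i, hn i]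
    calc c i ^ 2 * nsq (w i) = c i * (c i * nsq (w i)) := by ring
      _ ≤ 1 * d i := mul_le_mul ((hcd i).trans (hd1 i)) h1 (mul_nonneg (hc0 i).le (hn i)) zero_le_one
      _ = d i := one_mul _
  have hsum : Summable fun q : ι × Γ => (c q.1 * w q.1 q.2) ^ 2 := by
    refine (summable_prod_of_nonneg fun _ => sq_nonneg _).2 ⟨fun i => ?_, ?_⟩
    · simpa only [mul_pow] using (hw i).mul_left (c i ^ 2)
    · refine hd.of_nonneg_of_le (fun i => tsum_nonneg fun _ => sq_nonneg _) fun i => ?_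
      simp only [mul_pow]
      rw [tsum_mul_left]
      exact hcn i
  have hs2 := (summable_prod_of_nonneg fun _ => sq_nonneg _).1 hsum.prod_symm
  refine ⟨c, fun x => √(∑' i, (c i * w i x) ^ 2), hc0, fun i => (hcd i).trans (hd1 i), fun η hη => ?_,
    ?_, fun _ => Real.sqrt_nonneg _, fun i x => ?_⟩
  · have h1 : ∀ᶠ i in cofinite, d i < η := hd.tendsto_cofinite_zero.eventually (gt_mem_nhds hη)
    refine (eventually_cofinite.1 h1).subset fun i hi => ?_
    exact not_lt.2 ((le_of_lt hi).trans (hcd i))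
  · refine hs2.2.congr fun x => ?_
    exact (Real.sq_sqrt (tsum_nonneg fun _ => sq_nonneg _)).symm
  · exact Real.le_sqrt_of_sq_le ((hs2.1 x).le_tsum i fun _ _ => sq_nonneg _)

omit [Group Γ] in
theorem exists_acc_of_inj {X : Type} [MetricSpace X] [CompactSpace X] (e : Γ → X) {γ : ℕ → Γ}
    (hγ : Function.Injective γ) {f : X → ℝ} (hf : Continuous f) {t : ℝ} (ht : ∀ n, f (e (γ n)) = t) :
    ∃ a, f a = t ∧ ∀ ε > 0, {x | dist (e x) a < ε}.Infinite := by
  obtain ⟨a, φ, hφ, ha⟩ := CompactSpace.tendsto_subseq fun n => e (γ n)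
  refine ⟨a, ?_, fun ε hε => ?_⟩
  · refine tendsto_nhds_unique (hf.continuousAt.tendsto.comp ha) ?_
    exact tendsto_const_nhds.congr fun n => (ht _).symm
  · obtain ⟨N, hN⟩ := Metric.tendsto_atTop.1 ha ε hε
    refine infinite_of_injective_forall_mem (f := fun n => γ (φ (n + N))) ?_ fun n =>
      hN _ (Nat.le_add_left _ _)
    exact fun a b h => Nat.add_right_cancel (hφ.injective (hγ h))

/-- Plan.  Enumerate the family `k_i` (`i : ℕ`, surjective onto `𝒢`), `Dom k_i w_i`,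
`c_i = 2^{-i} / (1 + √(nsq w_i))`.  `X` = closure of the image of `Γ` in `𝒢 → ℝ` (product topology; compact, inside
`[0,1]^𝒢`), action `(h • a) k = a (k (h * ·))`, metric `dist a b = ⨆ i, c_i |a k_i - b k_i|` (e.g. pull back from
`ℕ →ᵇ ℝ`; it induces the product topology on the compact `X`; it is convenient to use a type synonym with the
induced metric and to prove `Tendsto` ⇔ coordinatewise `Tendsto`).  `w = √(∑ c_i² w_i²)`.
`beh`: finitely many coordinates matter, `CL.beh` for all pairs, density of `Γ` (closed conditions).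
`lc`: build `k ∈ 𝒢` with `k = 0` eventually on the ray and `k z < 1 → dist (e z) y < ε` (max of finitely many
clamps of `k_i`, `1 - k_i`; `max = 1 - min (1 - ·) (1 - ·)`); `C` = component of `{k < 1} \ K` containing a tail of
the ray; the coordinate `k_C` of `y` is `1`, and `k_C x > 0 → x ∈ C`.
`two`: cluster points of the two rays. -/
theorem exists_ctx (H : Grp Γ) {g : Γ → ℝ} (hg : H.CL g) {γ₀ γ₁ : ℕ → Γ} (h₀ : H.IsRay γ₀)
    (h₁ : H.IsRay γ₁) (hg₀ : ∀ n, g (γ₀ n) = 0) (hg₁ : ∀ n, g (γ₁ n) = 1) :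
    ∃ (X : Type) (_ : MetricSpace X) (_ : CompactSpace X) (_ : MulAction Γ X),
      Nonempty (Ctx Γ X) := by
  obtain ⟨𝒢, hcount, hg𝒢, hCL, htr, hsub, hmin, hclamp, hcomp⟩ := exists_family H.toGen hg
  have := hcount.to_subtype
  choose w hw using fun k : 𝒢 => (hCL k.1 k.2).dom
  obtain ⟨c, W, hc0, hc1, hfin, hW, hW0, hcW⟩ := exists_weights w fun i => (hw i).1
  obtain ⟨X, _, _, _, e, co, hcont, hequiv, hdense, hco, hcoe, hd1, hd2⟩ :=
    exists_cpt (ι := 𝒢) (fun k => k.1) (fun k x => (hCL k.1 k.2).1 x)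
      (fun h k => ⟨fun x => k.1 (h * x), htr k.1 k.2 h⟩) (fun _ _ _ => rfl)
      (fun k => Subtype.ext (funext fun x => by simp))
      (fun a b k => Subtype.ext (funext fun x => by simp [mul_assoc])) c hc0 hc1 hfin
  refine ⟨X, inferInstance, inferInstance, inferInstance, ⟨⟨H, e, hcont, hequiv, W, hW, ?_, ?_, ?_, ?_⟩⟩⟩
  · intro x s hs
    refine hd1 _ _ _ (hW0 x) fun i => le_trans ?_ (hcW i x)
    rw [hcoe, hcoe, abs_sub_comm]
    exact mul_le_mul_of_nonneg_left ((hw i).2 x s hs) (hc0 i).le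
  · intro η hη
    have h1 : ∀ᶠ R in atTop, ∀ i ∈ {i | η < c i}, ∀ j ∈ {i | η < c i}, ∀ g : Γ, R ≤ H.len g →
        ∀ z : Γ, |i.1 z - i.1 g| ≤ η ∨ |j.1 (g⁻¹ * z) - j.1 g⁻¹| ≤ η := by
      refine (eventually_all_finite (hfin η hη)).2 fun i _ =>
        (eventually_all_finite (hfin η hη)).2 fun j _ => ?_
      obtain ⟨R, hR⟩ := (hCL i.1 i.2).beh (hCL j.1 j.2) hη
      filter_upwards [eventually_ge_atTop R] with R' hR' g hg using hR g (hR'.trans hg)
    obtain ⟨R, hR⟩ := h1.exists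
    refine ⟨R, fun g hg z => hdense.induction_on z ?_ fun x => ?_⟩
    · exact (isClosed_le (continuous_id.dist continuous_const) continuous_const).union
        (isClosed_le ((hcont g⁻¹).dist continuous_const) continuous_const)
    · by_cases h : ∀ i, η < c i → |i.1 x - i.1 g| ≤ η
      · exact Or.inl (hd2 _ _ _ hη.le fun i hi => by rw [hcoe, hcoe]; exact h i hi)
      · push Not at h
        obtain ⟨i, hi, h⟩ := h
        refine Or.inr (hd2 _ _ _ hη.le fun j hj => ?_)
        rw [← hequiv, hcoe, hcoe]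
        exact (hR i hi j hj g hg x).resolve_left (not_le.2 h)
  · intro γ y hγ hy ε hε K hK
    -- one-sided clamps
    have hup : ∀ k ∈ 𝒢, ∀ t : ℝ, Tendsto (fun n => k (γ n)) atTop (𝓝 t) →
        ∃ k' ∈ 𝒢, (∀ᶠ n in atTop, k' (γ n) = 0) ∧ ∀ z, k' z < 1 → k z < t + ε / 2 := by
      intro k hk t ht
      obtain ⟨a, ha, ha'⟩ := exists_rat_btwn (show t < t + ε / 2 by linarith)
      obtain ⟨b, hb, hb'⟩ := exists_rat_btwn ha'
      refine ⟨_, hclamp k hk a b (by exact_mod_cast hb), ?_, fun z hz => ?_⟩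
      · filter_upwards [ht.eventually (gt_mem_nhds ha)] with n hn
        refine max_eq_left (min_le_of_right_le ?_)
        exact div_nonpos_of_nonpos_of_nonneg (by linarith) (by linarith)
      · have h1 := (max_lt_iff.1 hz).2
        rcases min_lt_iff.1 h1 with h2 | h2
        · exact absurd h2 (lt_irrefl _)
        · rw [div_lt_one (by linarith)] at h2
          linarith
    have hmax : ∀ k ∈ 𝒢, ∀ k' ∈ 𝒢, (∀ᶠ n in atTop, k (γ n) = 0) → (∀ᶠ n in atTop, k' (γ n) = 0) →
        ∃ k'' ∈ 𝒢, (∀ᶠ n in atTop, k'' (γ n) = 0) ∧ ∀ z, k'' z < 1 → k z < 1 ∧ k' z < 1 := by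
      intro k hk k' hk' h h'
      refine ⟨_, hsub _ (hmin _ (hsub k hk) _ (hsub k' hk')), ?_, fun z hz => ?_⟩
      · filter_upwards [h, h'] with n hn hn'
        simp [hn, hn']
      · have h1 : 0 < min (1 - k z) (1 - k' z) := by linarith
        rw [lt_min_iff] at h1
        constructor <;> linarith [h1.1, h1.2]
    have hlim : ∀ i : 𝒢, Tendsto (fun n => i.1 (γ n)) atTop (𝓝 (co i y)) := fun i =>
      ((hco i).continuousAt.tendsto.comp hy).congr fun n => hcoe i _
    have hone : ∀ i : 𝒢, ∃ k ∈ 𝒢, (∀ᶠ n in atTop, k (γ n) = 0) ∧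
        ∀ z, k z < 1 → |i.1 z - co i y| ≤ ε / 2 := by
      intro i
      obtain ⟨k₁, m₁, e₁, p₁⟩ := hup i.1 i.2 _ (hlim i)
      obtain ⟨k₂, m₂, e₂, p₂⟩ := hup _ (hsub i.1 i.2) _ ((hlim i).const_sub 1)
      obtain ⟨k, m, e', p⟩ := hmax k₁ m₁ k₂ m₂ e₁ e₂
      refine ⟨k, m, e', fun z hz => ?_⟩
      have h1 := p₁ z (p z hz).1
      have h2 := p₂ z (p z hz).2
      rw [abs_le]; constructor <;> linarith
    have hall : ∀ F : Set 𝒢, F.Finite → ∃ k ∈ 𝒢, (∀ᶠ n in atTop, k (γ n) = 0) ∧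
        ∀ z, k z < 1 → ∀ i ∈ F, |i.1 z - co i y| ≤ ε / 2 := by
      intro F hF
      induction F, hF using Set.Finite.induction_on with
      | empty =>
        obtain ⟨k, m, e', -⟩ := hone ⟨g, hg𝒢⟩
        exact ⟨k, m, e', fun _ _ _ h => h.elim⟩
      | insert _ _ ih =>
        rename_i i F _ _
        obtain ⟨k₁, m₁, e₁, p₁⟩ := ih
        obtain ⟨k₂, m₂, e₂, p₂⟩ := hone i
        obtain ⟨k, m, e', p⟩ := hmax k₁ m₁ k₂ m₂ e₁ e₂
        refine ⟨k, m, e', fun z hz j hj => ?_⟩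
        rcases hj with rfl | hj
        exacts [p₂ z (p z hz).2, p₁ z (p z hz).1 j hj]
    obtain ⟨k, hk, hk0, hkz⟩ := hall _ (hfin _ (half_pos hε))
    have hKn : ∀ᶠ n in atTop, γ n ∉ K := by
      rw [← Nat.cofinite_eq_atTop]
      exact (hK.preimage hγ.1.injOn).compl_mem_cofinite
    obtain ⟨N, hN⟩ := eventually_atTop.1 (hk0.and hKn)
    have hmem : ∀ n ≥ N, γ n ∈ {z | k z < 1} \ K := fun n hn =>
      ⟨by simp [(hN n hn).1], (hN n hn).2⟩
    have hch : ∀ n ≥ N, H.Chain 1 ({z | k z < 1} \ K) (γ N) (γ n) := by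
      intro n hn
      induction n, hn using Nat.le_induction with
      | base => exact Relation.ReflTransGen.refl
      | succ n hn ih => exact ih.tail ⟨hmem n hn, hmem _ (Nat.le_succ_of_le hn), hγ.2 n⟩
    let kC : 𝒢 := ⟨_, hcomp k hk K hK (γ N)⟩
    have hy1 : co kC y = 1 := by
      refine tendsto_nhds_unique (hlim kC) (tendsto_const_nhds.congr' ?_)
      filter_upwards [eventually_ge_atTop N] with n hn
      change 1 = min (1 - k (γ n)) (ind _ (γ n))
      rw [(hN n hn).1, ind, indicator_of_mem (by exact ⟨hmem n hn, hch n hn⟩)]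
      simp
    obtain ⟨δ, hδ, hδ'⟩ := Metric.eventually_nhds_iff.1
      ((hco kC).continuousAt.eventually (lt_mem_nhds (show 0 < co kC y by rw [hy1]; exact one_pos)))
    have hC : ∀ x, dist (e x) y < δ →
        x ∈ {z | k z < 1} \ K ∧ H.Chain 1 ({z | k z < 1} \ K) (γ N) x := by
      intro x hx
      have h1 := hδ' hx
      rw [hcoe] at h1
      have h2 := (lt_min_iff.1 h1).2
      by_contra h3
      rw [ind, indicator_of_notMem (by exact h3)] at h2
      exact lt_irrefl _ h2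
    refine ⟨δ, hδ, fun x x' hx hx' => ⟨(hC x hx).1.2, ?_⟩⟩
    refine ((hC x hx).2.symm.trans (hC x' hx').2).mono le_rfl (sdiff_subset_sdiff_left fun z hz => ?_)
    refine (hd2 _ _ _ (half_pos hε).le fun i hi => ?_).trans_lt (half_lt_self hε)
    rw [hcoe]
    exact hkz z hz i hi
  · obtain ⟨a, ha, ha'⟩ := exists_acc_of_inj e h₀.1 (hco ⟨g, hg𝒢⟩) (t := 0)
      fun n => (hcoe _ _).trans (hg₀ n)
    obtain ⟨b, hb, hb'⟩ := exists_acc_of_inj e h₁.1 (hco ⟨g, hg𝒢⟩) (t := 1)
      fun n => (hcoe _ _).trans (hg₁ n)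
    refine ⟨a, b, fun h => ?_, ha', hb'⟩
    rw [h, hb] at ha
    exact one_ne_zero ha

end Crest.Agent.R224
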