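import Crest.Agent.R224.Beh

/-! Construction of the compactification. -/

set_option autoImplicit false
open Filter Topology Set MeasureTheory
open scoped Pointwise

namespace Crest.Agent.R224

variable {Γ : Type} [Group Γ]

theorem exists_countable_closed {α : Type} (O : Set (α → α → α)) (hO : O.Countable) {P : α → Prop}
    (hP : ∀ f ∈ O, ∀ a b, P a → P b → P (f a b)) {g : α} (hg : P g) :
    ∃ 𝒢 : Set α, 𝒢.Countable ∧ g ∈ 𝒢 ∧ (∀ k ∈ 𝒢, P k) ∧ ∀ f ∈ O, ∀ a ∈ 𝒢, ∀ b ∈ 𝒢, f a b ∈ 𝒢 := by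
  let S : ℕ → Set α := fun n => Nat.rec {g} (fun _ T => T ∪ ⋃ f ∈ O, image2 f T T) n
  have hS : ∀ n, S (n + 1) = S n ∪ ⋃ f ∈ O, image2 f (S n) (S n) := fun _ => rfl
  have hm : Monotone S := monotone_nat_of_le_succ fun n => by rw [hS]; exact subset_union_left
  refine ⟨⋃ n, S n, countable_iUnion fun n => ?_, mem_iUnion.2 ⟨0, rfl⟩, fun k hk => ?_,
    fun f hf a ha b hb => ?_⟩
  · induction n with
    | zero => exact countable_singleton g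
    | succ n ih => exact ih.union (hO.biUnion fun f _ => ih.image2 ih f)
  · obtain ⟨n, hn⟩ := mem_iUnion.1 hk
    clear hk
    induction n generalizing k with
    | zero => exact (show k = g from hn) ▸ hg
    | succ n ih =>
      rcases hn with hn | hn
      · exact ih k hn
      · obtain ⟨f, hf, a, ha, b, hb, rfl⟩ := mem_iUnion₂.1 hn
        exact hP f hf a b (ih a ha) (ih b hb)
  · obtain ⟨n, hn⟩ := mem_iUnion.1 ha
    obtain ⟨m, hm'⟩ := mem_iUnion.1 hb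
    exact mem_iUnion.2 ⟨max n m + 1, Or.inr (mem_iUnion₂.2 ⟨f, hf, a, hm (le_max_left _ _) hn, b,
      hm (le_max_right _ _) hm', rfl⟩)⟩

/-- a countable family of `CL` functions closed under the operations.
Plan: `𝒢 = ⋃ n, 𝒢 n`, `𝒢 0 = {g}`, `𝒢 (n+1)` adds the images under all operations (countably many). -/
theorem exists_family (G : Gen Γ) {g : Γ → ℝ} (hg : G.CL g) :
    ∃ 𝒢 : Set (Γ → ℝ), 𝒢.Countable ∧ g ∈ 𝒢 ∧ (∀ k ∈ 𝒢, G.CL k) ∧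
      (∀ k ∈ 𝒢, ∀ h : Γ, (fun x => k (h * x)) ∈ 𝒢) ∧
      (∀ k ∈ 𝒢, (fun x => 1 - k x) ∈ 𝒢) ∧
      (∀ k ∈ 𝒢, ∀ k' ∈ 𝒢, (fun x => min (k x) (k' x)) ∈ 𝒢) ∧
      (∀ k ∈ 𝒢, ∀ a b : ℚ, a < b →
        (fun x => max 0 (min 1 ((k x - a) / ((b : ℝ) - a)))) ∈ 𝒢) ∧
      ∀ k ∈ 𝒢, ∀ K : Set Γ, K.Finite → ∀ x₀ : Γ, (fun x => min (1 - k x)
        (ind {y | y ∈ {z | k z < 1} \ K ∧ G.Chain 1 ({z | k z < 1} \ K) x₀ y} x)) ∈ 𝒢 := by
  have := G.countable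
  let o₁ : Γ → (Γ → ℝ) → (Γ → ℝ) → Γ → ℝ := fun h k _ x => k (h * x)
  let o₂ : (Γ → ℝ) → (Γ → ℝ) → Γ → ℝ := fun k _ x => 1 - k x
  let o₃ : (Γ → ℝ) → (Γ → ℝ) → Γ → ℝ := fun k k' x => min (k x) (k' x)
  let o₄ : {q : ℚ × ℚ // q.1 < q.2} → (Γ → ℝ) → (Γ → ℝ) → Γ → ℝ := fun q k _ x =>
    max 0 (min 1 ((k x - q.1.1) / ((q.1.2 : ℝ) - q.1.1)))
  let o₅ : Finset Γ × Γ → (Γ → ℝ) → (Γ → ℝ) → Γ → ℝ := fun q k _ x => min (1 - k x)
    (ind {y | y ∈ {z | k z < 1} \ (q.1 : Set Γ) ∧ G.Chain 1 ({z | k z < 1} \ (q.1 : Set Γ)) q.2 y} x)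
  obtain ⟨𝒢, h1, h2, h3, h4⟩ := exists_countable_closed
    (range o₁ ∪ ({o₂} ∪ ({o₃} ∪ (range o₄ ∪ range o₅))))
    ((countable_range _).union ((countable_singleton _).union ((countable_singleton _).union
      ((countable_range _).union (countable_range _))))) (P := G.CL) (by
      rintro _ (⟨h, rfl⟩ | rfl | rfl | ⟨q, rfl⟩ | ⟨q, rfl⟩) a b ha hb
      · exact ha.tr h
      · exact ha.one_sub
      · exact ha.min hb
      · exact ha.clamp (by exact_mod_cast q.2)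
      · exact ha.comp q.1.finite_toSet q.2) hg
  refine ⟨𝒢, h1, h2, h3, fun k hk h => h4 (o₁ h) (Or.inl ⟨h, rfl⟩) k hk k hk,
    fun k hk => h4 o₂ (Or.inr (Or.inl rfl)) k hk k hk,
    fun k hk k' hk' => h4 o₃ (Or.inr (Or.inr (Or.inl rfl))) k hk k' hk',
    fun k hk a b hab => h4 (o₄ ⟨(a, b), hab⟩) (Or.inr (Or.inr (Or.inr (Or.inl ⟨_, rfl⟩)))) k hk k hk,
    fun k hk K hK x₀ => ?_⟩
  lift K to Finset Γ using hK
  exact h4 (o₅ (K, x₀)) (Or.inr (Or.inr (Or.inr (Or.inr ⟨_, rfl⟩)))) k hk k hk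

end Crest.Agent.R224
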