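import Crest.Agent.R224.Pre

/-! Part D, combinatorial core: two events of the same type cannot be close. -/

set_option autoImplicit false
open Filter Topology Set MeasureTheory
open scoped Pointwise

namespace Crest.Agent.R224

/-- event at level `k`: `p` branches off at or before `s k`, `q` is beyond all `s i`, `p'` branches off after
`s k` but before some `s i` -/
def Ev {T : Type} (B : T → T → T → Prop) (a : T) (s : ℕ → T) (k : ℕ) (p q p' : T) : Prop :=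
  ¬ B (s k) a p ∧ (∀ i, B (s i) a q) ∧ B (s k) a p' ∧ ∃ i, ¬ B (s i) a p'

namespace DC
variable {T : Type} {B : T → T → T → Prop}

/-- the tail after `s k` -/
def Tk (B : T → T → T → Prop) (s : ℕ → T) (k : ℕ) (d : T) : Prop := ∃ i, k < i ∧ B d (s k) (s i)
/-- the final segment of `(p,q)` after the branch point of `p'` -/
def U (B : T → T → T → Prop) (p q p' d : T) : Prop := B d p q ∧ ¬ B d p p'

theorem four (h : IsPre B) {a b : T} {A : Set T} (hA : ∀ d ∈ A, B d a b) (hi : A.Infinite) :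
    ∃ d₀ ∈ A, ∃ d₁ ∈ A, ∃ d₂ ∈ A, ∃ d₃ ∈ A, B d₀ a d₁ ∧ B d₁ a d₂ ∧ B d₂ a d₃ := by
  classical
  let r : A → A → Prop := fun x y => B x a y
  haveI : IsStrictTotalOrder A r :=
    { trichotomous := fun x y h1 h2 => by
        by_contra hne
        rcases h.total (hA _ x.2) (hA _ y.2) (fun e => hne (Subtype.ext e)) with h3 | h3
        · exact h1 h3
        · exact h2 h3
      irrefl := fun x hx => h.ne' hx rfl
      trans := fun x y z h1 h2 => h.trans h2 h1 }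
  letI : LinearOrder A := linearOrderOfSTO r
  haveI : Infinite A := hi.to_subtype
  obtain ⟨F, hF⟩ := Infinite.exists_subset_card_eq A 4
  let f := F.orderEmbOfFin hF
  exact ⟨f 0, (f 0).2, f 1, (f 1).2, f 2, (f 2).2, f 3, (f 3).2,
    f.strictMono (show (0 : Fin 4) < 1 by decide), f.strictMono (show (1 : Fin 4) < 2 by decide),
    f.strictMono (show (2 : Fin 4) < 3 by decide)⟩

section
variable (h : IsPre B) {a b : T} {s : ℕ → T} (hb : ∀ i, B (s i) a b)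
  (hc : ∀ i j, i < j → B (s i) a (s j)) {k : ℕ} {p q p' : T}
include h hc

theorem tk_lt {d : T} (hd : Tk B s k d) : B (s k) a d ∧ ∃ i, k < i ∧ B d a (s i) := by
  obtain ⟨i, hi, hd⟩ := hd
  have h1 := hc k i hi
  have h2 : B d a (s i) := h.symm _ _ _ (h.trans (h.symm _ _ _ h1) (h.symm _ _ _ hd))
  refine ⟨?_, i, hi, h2⟩
  rcases h.total h1 h2 (h.ne _ _ _ hd).symm with h3 | h3
  · exact h3
  · exact absurd (h.symm _ _ _ (h.trans' h1 h3)) (h.t2 _ _ _ (h.symm _ _ _ hd))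

include hb in
theorem tk_mem {d : T} (hd : Tk B s k d) : B d a b := by
  obtain ⟨-, i, -, h2⟩ := tk_lt h hc hd
  exact h.trans (hb i) h2

theorem tk_s {i : ℕ} (hi : k < i) : Tk B s k (s i) :=
  ⟨i + 1, by omega, h.trans' (hc i (i + 1) (by omega)) (hc k i hi)⟩

theorem tk_bound (d : T) : ∃ k₀, ∀ k ≥ k₀, ¬ Tk B s k d := by
  by_cases hd : ∃ i, B d a (s i)
  · obtain ⟨i, hi⟩ := hd
    refine ⟨i, fun k hk hT => ?_⟩
    have h1 := (tk_lt h hc hT).1
    rcases eq_or_lt_of_le hk with rfl | hk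
    · exact h.t2 _ _ _ hi h1
    · exact h.t2 _ _ _ (h.trans (hc i k hk) hi) h1
  · exact ⟨0, fun k _ hT => hd ((tk_lt h hc hT).2.imp fun _ hi => hi.2)⟩

variable (ev : Ev B a s k p q p')
include ev

theorem to_p {d z : T} (hd : Tk B s k d) (hz : B d a z) : B d p z := by
  have h1 := (tk_lt h hc hd).1
  have hne : p ≠ d := fun e => ev.1 (e ▸ h1)
  rcases h.t3 _ _ _ p hz hne with h2 | h2
  · exact absurd (h.trans h2 h1) ev.1
  · exact h2

theorem tk_I {d : T} (hd : Tk B s k d) : B d p q := by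
  obtain ⟨-, i, -, h2⟩ := tk_lt h hc hd
  exact to_p h hc ev hd (h.trans (ev.2.1 i) h2)

include hb in
theorem to_a {d d' : T} (hd : Tk B s k d) (hd' : Tk B s k d') (h1 : B d p d') : B d a d' := by
  rcases h.total (tk_mem h hb hc hd) (tk_mem h hb hc hd') (h.ne' h1) with h2 | h2
  · exact h2
  · exact absurd (to_p h hc ev hd' h2) (h.t2 _ _ _ h1)

theorem u_s : ∃ j, k < j ∧ ∀ i ≥ j, U B p q p' (s i) := by
  obtain ⟨j, hj⟩ := ev.2.2.2
  have hkj : k < j := by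
    by_contra hkj
    rcases eq_or_lt_of_le (not_lt.1 hkj) with rfl | hlt
    · exact hj ev.2.2.1
    · exact hj (h.trans ev.2.2.1 (hc j k hlt))
  refine ⟨j, hkj, fun i hi => ⟨tk_I h hc ev (tk_s h hc (by omega)), fun h1 => ?_⟩⟩
  have hna : a ≠ s i := (h.ne _ _ _ (ev.2.1 i)).symm
  rcases h.t3 _ _ _ a h1 hna with h2 | h2
  · exact ev.1 (h.trans (h.symm _ _ _ h2) (hc k i (by omega)))
  · rcases eq_or_lt_of_le hi with rfl | hlt
    · exact hj h2
    · exact hj (h.trans h2 (hc j i hlt))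

omit hc ev in
theorem u_final {d d' : T} (hd : U B p q p' d) (hd' : B d' p q) (h1 : B d p d') : U B p q p' d' :=
  ⟨hd', fun h2 => hd.2 (h.trans h2 h1)⟩

theorem u_init {d d' : T} (hd : U B p q p' d) (hd' : Tk B s k d') (h1 : B d p d') : Tk B s k d := by
  obtain ⟨-, i, hi, h2⟩ := tk_lt h hc hd'
  have h3 : B d p (s i) := h.trans (to_p h hc ev hd' h2) h1
  refine ⟨i, hi, ?_⟩
  by_cases hp : p = s k
  · exact hp ▸ h3
  have h4 : B (s k) p q := (h.t3 _ _ _ p (ev.2.1 k) hp).resolve_left ev.1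
  have h5 : B (s k) p p' := (h.t3 _ _ _ p ev.2.2.1 hp).resolve_left ev.1
  have hne : s k ≠ d := fun e => hd.2 (e ▸ h5)
  rcases h.total h4 hd.1 hne with h6 | h6
  · exact h.trans' h3 h6
  · exact absurd h5 (u_final h hd h4 h6).2

theorem r_final {d d' : T} (hd : U B p q p' d) (hT : Tk B s k d) (hd' : Tk B s k d')
    (h1 : B d a d') : U B p q p' d' :=
  u_final h hd (tk_I h hc ev hd') (to_p h hc ev hT h1)

end

section
variable {Γ : Type} [Group Γ] [MulAction Γ T] (h : IsPre B)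
  (hs : ∀ (g : Γ) a y z, B a y z → B (g • a) (g • y) (g • z))
include hs

theorem b_iff (g : Γ) {a y z : T} : B (g • a) (g • y) (g • z) ↔ B a y z :=
  ⟨fun h1 => by simpa using hs g⁻¹ _ _ _ h1, hs g _ _ _⟩

theorem u_iff (g : Γ) {p q p' d : T} : U B (g • p) (g • q) (g • p') (g • d) ↔ U B p q p' d := by
  simp only [U, b_iff hs]

variable (fp : ∀ a b d₀ d₁ d₂ d₃ : T, B d₁ d₀ d₂ → B d₂ d₁ d₃ →
      {g : Γ | (g • a = d₀ ∨ B d₀ (g • a) d₁) ∧ (g • b = d₃ ∨ B d₃ d₂ (g • b))}.Finite)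
include fp

theorem fp4 (a b : T) {d₀ d₁ d₂ d₃ : T} (h1 : B d₁ d₀ d₂) (h2 : B d₂ d₁ d₃) :
    {g : Γ | B (g • d₀) a (g • d₁) ∧ B (g • d₃) (g • d₂) b}.Finite := by
  refine ((fp a b d₀ d₁ d₂ d₃ h1 h2).image (·⁻¹)).subset fun g hg => ⟨g⁻¹, ⟨Or.inr ?_, Or.inr ?_⟩, inv_inv g⟩
  · simpa using hs g⁻¹ _ _ _ hg.1
  · simpa using hs g⁻¹ _ _ _ hg.2

include h in
theorem orb (tf : ∀ g : Γ, IsOfFinOrder g → g = 1) {a b : T} {g : Γ} {A : Set T}
    (hA : ∀ d ∈ A, B d a b) (hi : A.Infinite) (hm : ∀ d ∈ A, g • d ∈ A)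
    (ho : ∀ d ∈ A, ∀ d' ∈ A, B d a d' → B (g • d) a (g • d')) : g = 1 := by
  obtain ⟨d₀, h0, d₁, h1, d₂, h2, d₃, h3, h01, h12, h23⟩ := four h hA hi
  have hm' : ∀ n : ℕ, ∀ d ∈ A, g ^ n • d ∈ A := by
    intro n
    induction n with
    | zero => simp
    | succ n ih => intro d hd; rw [pow_succ', mul_smul]; exact hm _ (ih d hd)
  have ho' : ∀ n : ℕ, ∀ d ∈ A, ∀ d' ∈ A, B d a d' → B (g ^ n • d) a (g ^ n • d') := by
    intro n
    induction n with
    | zero => simp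
    | succ n ih =>
      intro d hd d' hd' hdd
      rw [pow_succ', mul_smul, mul_smul]
      exact ho _ (hm' n d hd) _ (hm' n d' hd') (ih d hd d' hd' hdd)
  have hf := fp4 hs fp a b (h.trans' h12 h01) (h.trans' h23 h12)
  refine tf g (finite_powers.1 (hf.subset ?_))
  rintro _ ⟨n, rfl⟩
  exact ⟨ho' n _ h0 _ h1 h01, h.trans' (hA _ (hm' n _ h3)) (ho' n _ h2 _ h3 h23)⟩

include h in
theorem core (tf : ∀ g : Γ, IsOfFinOrder g → g = 1) {a b : T} {s : ℕ → T} (hb : ∀ i, B (s i) a b)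
    (hc : ∀ i j, i < j → B (s i) a (s j)) (p q p' : T) {w : Γ} (hw : w ≠ 1) :
    ∃ k₀, ∀ k ≥ k₀, ∀ v : Γ, Ev B a s k (v • p) (v • q) (v • p') →
      Ev B a s k ((v * w) • p) ((v * w) • q) ((v * w) • p') →
      ¬ ∀ d, U B (v • p) (v • q) (v • p') d → Tk B s k d → Tk B s k ((v * w * v⁻¹) • d) := by
  set E : Set T := {d | U B (w • p) (w • q) (w • p') d ∧
    ∀ u, U B p q p' u → U B (w • p) (w • q) (w • p') u → B d (w • p) u} with hE
  have hsinj : Function.Injective s := by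
    intro i j hij
    by_contra hne
    rcases lt_or_gt_of_ne hne with h1 | h1
    · exact h.ne' (hc _ _ h1) hij
    · exact h.ne' (hc _ _ h1) hij.symm
  by_cases hEi : E.Infinite
  · obtain ⟨d₀, h0, d₁, h1, d₂, h2, d₃, h3, h01, h12, h23⟩ :=
      four h (a := w • p) (b := w • q) (fun d hd => hd.1.1) hEi
    have hf := fp4 hs fp a b (h.trans' h12 h01) (h.trans' h23 h12)
    choose kb hkb using fun v : Γ => tk_bound h hc (v • d₀)
    obtain ⟨k₀, hk₀⟩ := (hf.image kb).bddAbove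
    refine ⟨k₀, fun k hk v e1 e2 _ => ?_⟩
    obtain ⟨j₁, hj₁, hu₁⟩ := u_s h hc e1
    obtain ⟨j₂, hj₂, hu₂⟩ := u_s h hc e2
    have hT : ∀ d ∈ E, Tk B s k (v • d) := by
      intro d hd
      have a1 := hu₁ (max j₁ j₂) (le_max_left _ _)
      have a2 := hu₂ (max j₁ j₂) (le_max_right _ _)
      have a3 := hd.2 (v⁻¹ • s (max j₁ j₂)) (by simpa using (u_iff hs v⁻¹).2 a1)
        (by simpa [mul_smul] using (u_iff hs v⁻¹).2 a2)
      refine u_init h hc e2 (by simpa [mul_smul] using (u_iff hs v).2 hd.1)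
        (tk_s h hc (lt_of_lt_of_le hj₁ (le_max_left j₁ j₂))) ?_
      simpa [mul_smul] using hs v _ _ _ a3
    have hO : ∀ d ∈ E, ∀ d' ∈ E, B d (w • p) d' → B (v • d) a (v • d') := fun d hd d' hd' hdd =>
      to_a h hb hc e2 (hT d hd) (hT d' hd') (by simpa [mul_smul] using hs v _ _ _ hdd)
    have hv : v ∈ {g : Γ | B (g • d₀) a (g • d₁) ∧ B (g • d₃) (g • d₂) b} :=
      ⟨hO _ h0 _ h1 h01, h.trans' (tk_mem h hb hc (hT _ h3)) (hO _ h2 _ h3 h23)⟩
    exact hkb v k (le_trans (hk₀ ⟨v, hv, rfl⟩) hk) (hT _ h0)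
  have hEf : E.Finite := Set.not_infinite.1 hEi
  refine ⟨0, fun k _ v e1 e2 hg => ?_⟩
  set g := v * w * v⁻¹ with hgdef
  have hg1 : g ≠ 1 := fun e => hw (by
    have : w = v⁻¹ * g * v := by rw [hgdef]; group
    rw [this, e]; simp)
  have gp : ∀ x : T, g • v • x = (v * w) • x := fun x => by simp [hgdef, mul_smul]
  have gp' : ∀ x : T, g⁻¹ • (v * w) • x = v • x := fun x => by rw [← gp, inv_smul_smul]
  set R₁ : Set T := {d | U B (v • p) (v • q) (v • p') d ∧ Tk B s k d} with hR₁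
  set R₂ : Set T := {d | U B ((v * w) • p) ((v * w) • q) ((v * w) • p') d ∧ Tk B s k d} with hR₂
  have hg12 : ∀ d ∈ R₁, g • d ∈ R₂ := fun d hd =>
    ⟨by simpa only [gp] using (u_iff hs g).2 hd.1, hg d hd.1 hd.2⟩
  have hord : ∀ d ∈ R₁, ∀ d' ∈ R₁, B d a d' → B (g • d) a (g • d') := fun d hd d' hd' hdd =>
    to_a h hb hc e2 (hg12 d hd).2 (hg12 d' hd').2
      (by simpa only [gp] using hs g _ _ _ (to_p h hc e1 hd.2 hdd))
  have hR₁i : R₁.Infinite := by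
    obtain ⟨j₁, hj₁, hu₁⟩ := u_s h hc e1
    refine Set.infinite_of_injective_forall_mem (f := fun i => s (i + j₁))
      (fun i j hij => by have := hsinj hij; omega) fun i => ⟨hu₁ _ (by omega), tk_s h hc (by omega)⟩
  by_cases hsub : R₂ ⊆ R₁
  · exact hg1 (orb h hs fp tf (fun d hd => tk_mem h hb hc hd.2) hR₁i
      (fun d hd => hsub (hg12 d hd)) hord)
  obtain ⟨d', hd'2, hd'1⟩ := Set.not_subset.1 hsub
  have hB₀ : (R₂ \ R₁).Finite := by
    refine (hEf.image (v • ·)).subset fun d hd => ⟨v⁻¹ • d, ⟨?_, fun u hu1 hu2 => ?_⟩, by simp⟩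
    · simpa [mul_smul] using (u_iff hs v⁻¹).2 hd.1.1
    · have a1 : U B (v • p) (v • q) (v • p') (v • u) := (u_iff hs v).2 hu1
      have a2 : U B ((v * w) • p) ((v * w) • q) ((v * w) • p') (v • u) := by
        simpa [mul_smul] using (u_iff hs v).2 hu2
      have hne : d ≠ v • u := fun e => hd.2 ⟨e ▸ a1, hd.1.2⟩
      have a3 : B d ((v * w) • p) (v • u) := by
        rcases h.total hd.1.1.1 a2.1 hne with a3 | a3
        · exact a3
        · have a4 := u_init h hc e2 a2 hd.1.2 a3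
          exact absurd ⟨r_final h hc e1 a1 a4 hd.1.2 (to_a h hb hc e2 a4 hd.1.2 a3), hd.1.2⟩ hd.2
      simpa [mul_smul] using hs v⁻¹ _ _ _ a3
  have h12 : R₁ ⊆ R₂ := by
    intro d hd
    have hne : d ≠ d' := fun e => hd'1 (e ▸ hd)
    rcases h.total (tk_mem h hb hc hd.2) (tk_mem h hb hc hd'2.2) hne with a1 | a1
    · exact absurd ⟨r_final h hc e1 hd.1 hd.2 hd'2.2 a1, hd'2.2⟩ hd'1
    · exact ⟨r_final h hc e2 hd'2.1 hd'2.2 hd.2 a1, hd.2⟩
  set Ω : Set T := {d | d ∈ R₂ ∧ {u | u ∈ R₂ ∧ B u a d}.Finite} with hΩ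
  have hΩ1 : ∀ d ∈ Ω, g⁻¹ • d ∈ R₁ := by
    intro d hd
    have hinf : ((g • ·) '' R₁).Infinite := hR₁i.image (MulAction.injective g).injOn
    obtain ⟨_, ⟨u, hu, rfl⟩, hnot⟩ := hinf.exists_notMem_finite hd.2
    by_cases hne : g • u = d
    · rw [← hne, inv_smul_smul]; exact hu
    have a0 : U B (v • p) (v • q) (v • p') (g⁻¹ • d) := by
      simpa only [gp'] using (u_iff hs g⁻¹).2 hd.1.1
    rcases h.total (tk_mem h hb hc (hg12 u hu).2) (tk_mem h hb hc hd.1.2) hne with a1 | a1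
    · exact absurd ⟨hg12 u hu, a1⟩ hnot
    · refine ⟨a0, u_init h hc e1 a0 hu.2 ?_⟩
      simpa only [gp', inv_smul_smul] using hs g⁻¹ _ _ _ (to_p h hc e2 hd.1.2 a1)
  have hΩ2 : ∀ d ∈ Ω, g⁻¹ • d ∈ Ω := by
    intro d hd
    refine ⟨h12 (hΩ1 d hd), (hB₀.union (hd.2.image (g⁻¹ • ·))).subset fun u hu => ?_⟩
    by_cases hu1 : u ∈ R₁
    · refine Or.inr ⟨g • u, ⟨hg12 u hu1, ?_⟩, by simp⟩
      simpa using hord u hu1 _ (hΩ1 d hd) hu.2
    · exact Or.inl ⟨hu.1, hu1⟩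
  have hΩi : Ω.Infinite := by
    intro hfin
    have hd' : d' ∈ Ω := ⟨hd'2, hB₀.subset fun u hu => ⟨hu.1, fun hu1 =>
      hd'1 ⟨r_final h hc e1 hu1.1 hu1.2 hd'2.2 hu.2, hd'2.2⟩⟩⟩
    have hsurj : Set.SurjOn (g⁻¹ • ·) Ω Ω :=
      (hfin.injOn_iff_bijOn_of_mapsTo hΩ2).1 (MulAction.injective g⁻¹).injOn |>.surjOn
    obtain ⟨d, hd, e⟩ := hsurj hd'
    exact hd'1 (e ▸ hΩ1 d hd)
  refine hg1 (inv_eq_one.1 (orb h hs fp tf (fun d hd => tk_mem h hb hc hd.1.2) hΩi hΩ2 ?_))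
  intro d hd d₂ hd₂ hdd
  refine to_a h hb hc e1 (hΩ1 d hd).2 (hΩ1 d₂ hd₂).2 ?_
  simpa only [gp'] using hs g⁻¹ _ _ _ (to_p h hc e2 hd.1.2 hdd)

end
end DC

/-- Two events of the same type at `v` and `v * w` are impossible at high levels. -/
theorem dcomb {Γ T : Type} [Group Γ] [MulAction Γ T] {B : T → T → T → Prop} (h : IsPre B)
    (hs : ∀ (g : Γ) a y z, B a y z → B (g • a) (g • y) (g • z))
    (tf : ∀ g : Γ, IsOfFinOrder g → g = 1)
    (fp : ∀ a b d₀ d₁ d₂ d₃ : T, B d₁ d₀ d₂ → B d₂ d₁ d₃ →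
      {g : Γ | (g • a = d₀ ∨ B d₀ (g • a) d₁) ∧ (g • b = d₃ ∨ B d₃ d₂ (g • b))}.Finite)
    {a b : T} {s : ℕ → T} (hb : ∀ i, B (s i) a b) (hc : ∀ i j, i < j → B (s i) a (s j))
    (p q p' : T) {w : Γ} (hw : w ≠ 1) :
    ∃ k₀, ∀ k ≥ k₀, ∀ v : Γ, ¬ (Ev B a s k (v • p) (v • q) (v • p') ∧
      Ev B a s k ((v * w) • p) ((v * w) • q) ((v * w) • p')) := by
  obtain ⟨k₁, hk₁⟩ := DC.core h hs fp tf hb hc p q p' hw
  obtain ⟨k₂, hk₂⟩ := DC.core h hs fp tf hb hc p q p' (inv_ne_one.2 hw)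
  refine ⟨max k₁ k₂, fun k hk v ⟨e1, e2⟩ => ?_⟩
  have n1 := hk₁ k (le_trans (le_max_left _ _) hk) v e1 e2
  have n2 := hk₂ k (le_trans (le_max_right _ _) hk) (v * w) e2 (by simpa using e1)
  push Not at n1 n2
  obtain ⟨d₁, u1, t1, m1⟩ := n1
  obtain ⟨d₂, u2, t2, m2⟩ := n2
  set g := v * w * v⁻¹ with hg
  have hg' : v * w * w⁻¹ * (v * w)⁻¹ = g⁻¹ := by rw [hg]; group
  rw [hg'] at m2
  have gp : ∀ x : T, g • v • x = (v * w) • x := fun x => by simp [hg, mul_smul]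
  have gp' : ∀ x : T, g⁻¹ • (v * w) • x = v • x := fun x => by rw [← gp, inv_smul_smul]
  have u1' : DC.U B ((v * w) • p) ((v * w) • q) ((v * w) • p') (g • d₁) := by
    simpa only [gp] using (DC.u_iff hs g).2 u1
  have u2' : DC.U B (v • p) (v • q) (v • p') (g⁻¹ • d₂) := by
    simpa only [gp'] using (DC.u_iff hs g⁻¹).2 u2
  have hne : g • d₁ ≠ d₂ := fun e => m1 (e ▸ t2)
  rcases h.total u1'.1 u2.1 hne with a1 | a1
  · exact m1 (DC.u_init h hc e2 u1' t2 a1)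
  · refine m2 (DC.u_init h hc e1 u2' t1 ?_)
    simpa only [gp', inv_smul_smul] using hs g⁻¹ _ _ _ a1

end Crest.Agent.R224
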