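import Crest.Agent.R224.DY0

/-! Dyadic level lemma. -/

set_option autoImplicit false
set_option linter.unusedSectionVars false
open Filter Topology Set MeasureTheory
open scoped Pointwise

namespace Crest.Agent.R224


theorem dy_min_le (x : ℝ) {lam : ℝ} (hl : 0 < lam) (K : ℕ) :
    min x (2 ^ K * lam) ≤
      lam + ∑ k ∈ Finset.range K, if 2 ^ k * lam ≤ x then 2 ^ k * lam else 0 := by
  induction K with
  | zero => simp
  | succ K ih =>
    rw [Finset.sum_range_succ, ← add_assoc]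
    have h0 : (0 : ℝ) < 2 ^ K * lam := by positivity
    split_ifs with h
    · rw [min_eq_right h] at ih
      refine (min_le_right _ _).trans ?_
      rw [pow_succ]
      linarith
    · rw [min_eq_left (le_of_not_ge h)] at ih
      exact (min_le_left _ _).trans (by linarith)

theorem dy_sum_weak {ι : Type} (S : Finset ι) (Ψ : ι → ℝ) {A : ℝ} (hA : 0 ≤ A)
    (h : ∀ lam > 0, ((S.filter fun y => lam ≤ Ψ y).card : ℝ) ≤ A / lam ^ 6) {F : Finset ι}
    (hF : F ⊆ S) {lam : ℝ} (hl : 0 < lam) : ∑ y ∈ F, Ψ y ≤ F.card * lam + 2 * (A / lam ^ 5) := by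
  classical
  obtain ⟨K, hK⟩ : ∃ K : ℕ, ∀ y ∈ F, Ψ y ≤ 2 ^ K * lam := by
    obtain ⟨K, hK⟩ := pow_unbounded_of_one_lt ((∑ y ∈ F, |Ψ y|) / lam) (one_lt_two (α := ℝ))
    refine ⟨K, fun y hy => ?_⟩
    rw [div_lt_iff₀ hl] at hK
    exact (le_abs_self _).trans ((Finset.single_le_sum (f := fun y => |Ψ y|)
      (fun _ _ => abs_nonneg _) hy).trans hK.le)
  have h1 : ∑ y ∈ F, Ψ y ≤ ∑ y ∈ F,
      (lam + ∑ k ∈ Finset.range K, if 2 ^ k * lam ≤ Ψ y then 2 ^ k * lam else 0) :=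
    Finset.sum_le_sum fun y hy => by
      have := dy_min_le (Ψ y) hl K
      rwa [min_eq_left (hK y hy)] at this
  refine h1.trans ?_
  rw [Finset.sum_add_distrib, Finset.sum_const, nsmul_eq_mul, Finset.sum_comm]
  gcongr
  have h2 : ∀ k ∈ Finset.range K, (∑ y ∈ F, if 2 ^ k * lam ≤ Ψ y then 2 ^ k * lam else 0) ≤
      (1 / 2 : ℝ) ^ k * (A / lam ^ 5) := by
    intro k _
    have h0 : (0 : ℝ) < 2 ^ k * lam := by positivity
    rw [← Finset.sum_filter, Finset.sum_const, nsmul_eq_mul]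
    have h3 : ((F.filter fun y => 2 ^ k * lam ≤ Ψ y).card : ℝ) ≤ A / (2 ^ k * lam) ^ 6 :=
      le_trans (by exact_mod_cast Finset.card_le_card (Finset.filter_subset_filter _ hF)) (h _ h0)
    refine (mul_le_mul_of_nonneg_right h3 h0.le).trans ?_
    have h4 : (1 : ℝ) ≤ 2 ^ k := one_le_pow₀ one_le_two
    have e : A / (2 ^ k * lam) ^ 6 * (2 ^ k * lam) =
        (1 / 2 : ℝ) ^ k * (A / lam ^ 5) / (2 ^ k) ^ 4 := by
      rw [one_div, inv_pow]
      field_simp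
    rw [e]
    exact div_le_self (by positivity) (one_le_pow₀ h4)
  refine (Finset.sum_le_sum h2).trans ?_
  rw [← Finset.sum_mul]
  exact mul_le_mul_of_nonneg_right (sum_geometric_two_le K) (by positivity)

/-- Følner level: for weak-`ℓ⁶` thickening functions there is a level with few shallow points.
Plan: weak `ℓ⁶` gives `∑_{F} Ψ ≤ A' |F|^{5/6}` (threshold `λ = |F|^{-1/6}` and dyadic layers; values above 1:
finitely many layers matter since `#{Ψ ≥ λ} ≤ A/λ⁶ < 1` for large `λ`); `dy_abs` with `μ i = δ 2^i`. -/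
theorem dy_folner (A δ τ : ℝ) (hδ : 0 < δ) (hτ : 0 < τ) : ∃ v₀ : ℕ, ∀ {ι : Type} (S : Finset ι)
    (ℓ Ψ : ι → ℝ), (∀ y, 0 ≤ Ψ y) →
    (∀ lam > 0, ((S.filter fun y => lam ≤ Ψ y).card : ℝ) ≤ A / lam ^ 6) → ∀ t₀ : ℝ,
    v₀ ≤ (S.filter fun y => ℓ y ≤ t₀).card → ∃ t ∈ Icc t₀ (t₀ + τ),
      ((S.filter fun y => ℓ y ≤ t ∧ t < ℓ y + Ψ y).card : ℝ) ≤
        δ * (S.filter fun y => ℓ y ≤ t).card := by
  let σ : ℕ → ℝ := fun i => 2 ^ (i + 1) * (8 / 9) ^ i + 2 * (|A| / ((8 / 9) ^ i) ^ 5)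
  let μ : ℕ → ℝ := fun i => δ * 2 ^ i
  have e : ∀ i, σ i / μ i = 2 / δ * (8 / 9) ^ i + 2 * |A| / δ * (59049 / 65536) ^ i := by
    intro i
    have e1 : ((59049 / 65536 : ℝ)) ^ i = (((8 / 9) ^ i) ^ 5 * 2 ^ i)⁻¹ := by
      rw [← pow_mul, mul_comm i 5, pow_mul, ← mul_pow, ← inv_pow]
      norm_num
    simp only [σ, μ, e1]
    field_simp
    ring
  have hs : Summable fun i => σ i / μ i := by
    simp only [e]
    exact ((summable_geometric_of_lt_one (by norm_num) (by norm_num)).mul_left _).add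
      ((summable_geometric_of_lt_one (by norm_num) (by norm_num)).mul_left _)
  obtain ⟨i₀, hi₀⟩ := ((tendsto_sum_nat_add fun i => σ i / μ i).eventually
    (gt_mem_nhds hτ)).exists
  refine ⟨2 ^ i₀, fun {ι} S ℓ Ψ hΨ hA t₀ h0 => ?_⟩
  by_contra hc
  push Not at hc
  have hA' : ∀ lam > 0, ((S.filter fun y => lam ≤ Ψ y).card : ℝ) ≤ |A| / lam ^ 6 :=
    fun lam hl => (hA lam hl).trans (div_le_div_of_nonneg_right (le_abs_self _) (by positivity))
  have := dy_abs S ℓ Ψ hΨ (t₀ := t₀) (t₁ := t₀ + τ) μ σ (fun i => by positivity)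
    (fun i => by positivity) i₀ h0 (fun i F hF hc => by
      refine (dy_sum_weak S Ψ (abs_nonneg A) hA' hF (lam := (8 / 9) ^ i) (by positivity)).trans ?_
      have : (F.card : ℝ) ≤ 2 ^ (i + 1) := by exact_mod_cast hc.le
      simp only [σ]
      gcongr)
    (fun t ht i h1 _ => by
      refine le_trans ?_ (hc t ht).le
      have : (2 : ℝ) ^ i ≤ (S.filter fun y => ℓ y ≤ t).card := by exact_mod_cast h1
      simp only [μ]
      gcongr) hs
  linarith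

/-- Sobolev type bound from a 3-dimensional isoperimetric inequality.
Plan: `dy_abs` with `μ i = κ 2^{2i/3}`, `σ i = E 2^{(i+1)/2}` (Cauchy-Schwarz), `i₀ = log₂ v(t₀)`:
`τ ≤ C (E/κ) 2^{-i₀/6}`. -/
theorem dy_sobolev (κ : ℝ) (hκ : 0 < κ) : ∃ C : ℝ, 0 < C ∧ ∀ {ι : Type} (S : Finset ι)
    (ℓ Ψ : ι → ℝ) (E t₀ τ : ℝ), (∀ y, 0 ≤ Ψ y) → 0 < τ → ∑ y ∈ S, Ψ y ^ 2 ≤ E →
    (∀ t ∈ Icc t₀ (t₀ + τ), κ * ((S.filter fun y => ℓ y ≤ t).card : ℝ) ^ 2 ≤
      ((S.filter fun y => ℓ y ≤ t ∧ t < ℓ y + Ψ y).card : ℝ) ^ 3) →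
    ((S.filter fun y => ℓ y ≤ t₀).card : ℝ) ≤ C * E ^ 3 / τ ^ 6 := by
  obtain ⟨q, hq0, hq⟩ : ∃ q : ℝ, 0 < q ∧ q ^ 6 = 2 :=
    ⟨2 ^ ((6 : ℕ) : ℝ)⁻¹, by positivity, Real.rpow_inv_natCast_pow (by norm_num) (by norm_num)⟩
  obtain ⟨k, hk0, hk⟩ : ∃ k : ℝ, 0 < k ∧ k ^ 3 = κ :=
    ⟨κ ^ ((3 : ℕ) : ℝ)⁻¹, by positivity, Real.rpow_inv_natCast_pow hκ.le (by norm_num)⟩
  have hq1 : 1 < q := by
    by_contra h
    have := pow_le_one₀ (n := 6) hq0.le (not_lt.1 h)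
    linarith
  have hqi : q⁻¹ < 1 := inv_lt_one_of_one_lt₀ hq1
  have hqi0 : 0 ≤ q⁻¹ := by positivity
  have h1q : 0 < 1 - q⁻¹ := by linarith
  set D : ℝ := q ^ 3 / k * (1 - q⁻¹)⁻¹ with hD
  have hD0 : 0 < D := by positivity
  refine ⟨2 * D ^ 6, by positivity, fun {ι} S ℓ Ψ E t₀ τ hΨ hτ hE hm => ?_⟩
  have hE0 : 0 ≤ E := le_trans (Finset.sum_nonneg fun _ _ => sq_nonneg _) hE
  rcases eq_or_ne (S.filter fun y => ℓ y ≤ t₀).card 0 with h0 | h0
  · rw [h0, Nat.cast_zero]; positivity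
  set i₀ := Nat.log 2 (S.filter fun y => ℓ y ≤ t₀).card with hi₀
  let σ : ℕ → ℝ := fun i => √E * q ^ (3 * (i + 1))
  let μ : ℕ → ℝ := fun i => k * q ^ (4 * i)
  have e : ∀ i, σ i / μ i = √E * (q ^ 3 / k) * q⁻¹ ^ i := by
    intro i
    simp only [σ, μ, inv_pow]
    field_simp
    ring
  have hs : Summable fun i => σ i / μ i := by
    simp only [e]
    exact (summable_geometric_of_lt_one hqi0 hqi).mul_left _
  have h1 := dy_abs S ℓ Ψ hΨ (t₀ := t₀) (t₁ := t₀ + τ) μ σ (fun i => by positivity)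
    (fun i => by positivity) i₀ (Nat.pow_log_le_self 2 h0) (fun i F hF hc => by
      refine le_of_pow_le_pow_left₀ (n := 2) (by norm_num) (by positivity) ?_
      have h2 : (F.card : ℝ) ≤ 2 ^ (i + 1) := by exact_mod_cast hc.le
      have h3 : ∑ y ∈ F, Ψ y ^ 2 ≤ E :=
        (Finset.sum_le_sum_of_subset_of_nonneg hF fun _ _ _ => sq_nonneg _).trans hE
      have h4 : σ i ^ 2 = 2 ^ (i + 1) * E := by
        simp only [σ]
        rw [mul_pow, Real.sq_sqrt hE0, ← hq, ← pow_mul, ← pow_mul]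
        ring
      rw [h4]
      refine sq_sum_le_card_mul_sum_sq.trans ?_
      have := Finset.sum_nonneg (s := F) fun y _ => sq_nonneg (Ψ y)
      gcongr)
    (fun t ht i h1 _ => by
      refine le_of_pow_le_pow_left₀ (n := 3) (by norm_num) (Nat.cast_nonneg _) ?_
      refine le_trans ?_ (hm t ht)
      have h2 : (2 : ℝ) ^ i ≤ (S.filter fun y => ℓ y ≤ t).card := by exact_mod_cast h1
      have h4 : μ i ^ 3 = κ * (2 ^ i) ^ 2 := by
        simp only [μ]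
        rw [mul_pow, hk, ← hq, ← pow_mul, ← pow_mul, ← pow_mul]
        ring
      rw [h4]
      gcongr) hs
  simp only [e, pow_add, ← mul_assoc, add_sub_cancel_left] at h1
  rw [tsum_mul_right, tsum_mul_left, tsum_geometric_of_lt_one hqi0 hqi] at h1
  have h2 : τ * q ^ i₀ ≤ √E * D := by
    rw [inv_pow, ← div_eq_mul_inv, le_div_iff₀ (by positivity)] at h1
    rw [hD, ← mul_assoc]
    simpa only [mul_assoc] using h1
  have h3 : τ ^ 6 * 2 ^ i₀ ≤ E ^ 3 * D ^ 6 := by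
    have := pow_le_pow_left₀ (by positivity) h2 6
    rwa [mul_pow, mul_pow, ← pow_mul, mul_comm i₀, pow_mul, hq,
      show √E ^ 6 = (√E ^ 2) ^ 3 by ring, Real.sq_sqrt hE0] at this
  have h4 : ((S.filter fun y => ℓ y ≤ t₀).card : ℝ) ≤ 2 ^ (i₀ + 1) := by
    exact_mod_cast (Nat.lt_pow_succ_log_self one_lt_two _).le
  refine h4.trans ?_
  rw [le_div_iff₀ (by positivity), pow_succ]
  linarith

/-- `ℓ²` implies weak `ℓ⁶` -/
theorem L2.weak6 {Γ : Type} {w : Γ → ℝ} (h : L2 w) : ∃ A : ℝ, ∀ lam > 0, ∀ S : Finset Γ,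
    ((S.filter fun y => lam ≤ w y).card : ℝ) ≤ A / lam ^ 6 := by
  refine ⟨nsq w ^ 3, fun lam hl S => ?_⟩
  set c := (S.filter fun y => lam ≤ w y).card with hc
  have h1 : (c : ℝ) * lam ^ 2 ≤ nsq w := by
    refine le_trans ?_ (h.sum_le_tsum (S.filter fun y => lam ≤ w y) fun _ _ => sq_nonneg _)
    rw [hc, ← nsmul_eq_mul]
    exact Finset.card_nsmul_le_sum _ _ _ fun y hy =>
      pow_le_pow_left₀ hl.le (Finset.mem_filter.1 hy).2 2
  have h2 : (c : ℝ) ≤ c ^ 3 := by exact_mod_cast Nat.le_self_pow (by norm_num) c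
  rw [le_div_iff₀ (by positivity)]
  calc (c : ℝ) * lam ^ 6 ≤ c ^ 3 * lam ^ 6 := by gcongr
    _ = (c * lam ^ 2) ^ 3 := by ring
    _ ≤ _ := by gcongr

end Crest.Agent.R224
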