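import Crest.Agent.R224.Defs

/-! Dyadic level lemma. -/

set_option autoImplicit false
set_option linter.unusedSectionVars false
open Filter Topology Set MeasureTheory
open scoped Pointwise

namespace Crest.Agent.R224

/-- Abstract form.  `v t = #{ℓ ≤ t}`, `m t = #{ℓ ≤ t < ℓ + Ψ}`.
Plan: `J i = {t ∈ [t₀,t₁] | 2^i ≤ v t < 2^{i+1}}`; `v` is monotone, so the set `S_i` of points `y` with `ℓ y ≤ t` for
some `t ∈ J i` has fewer than `2^{i+1}` points, and
`μ i * vol (J i) ≤ ∫_{J i} m ≤ ∑_{y ∈ S_i} Ψ y ≤ σ i`.  The `J i`, `i₀ ≤ i`, cover `[t₀, t₁]` (finitely many). -/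
theorem dy_abs {ι : Type} (S : Finset ι) (ℓ Ψ : ι → ℝ) (hΨ : ∀ y, 0 ≤ Ψ y) {t₀ t₁ : ℝ}
    (μ σ : ℕ → ℝ) (hμ : ∀ i, 0 < μ i) (hσ0 : ∀ i, 0 ≤ σ i) (i₀ : ℕ)
    (h0 : 2 ^ i₀ ≤ (S.filter fun y => ℓ y ≤ t₀).card)
    (hσ : ∀ i, ∀ F ⊆ S, F.card < 2 ^ (i + 1) → ∑ y ∈ F, Ψ y ≤ σ i)
    (hm : ∀ t ∈ Icc t₀ t₁, ∀ i, 2 ^ i ≤ (S.filter fun y => ℓ y ≤ t).card →
      (S.filter fun y => ℓ y ≤ t).card < 2 ^ (i + 1) →
      μ i ≤ (S.filter fun y => ℓ y ≤ t ∧ t < ℓ y + Ψ y).card)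
    (hs : Summable fun i => σ i / μ i) :
    t₁ - t₀ ≤ ∑' i, σ (i + i₀) / μ (i + i₀) := by
  classical
  let v : ℝ → ℕ := fun t => (S.filter fun y => ℓ y ≤ t).card
  have hv : Monotone v := fun s t hst => Finset.card_le_card fun y hy => by
    simp only [Finset.mem_filter] at hy ⊢
    exact ⟨hy.1, hy.2.trans hst⟩
  let J : ℕ → Set ℝ := fun i => {t | t ∈ Icc t₀ t₁ ∧ 2 ^ i ≤ v t ∧ v t < 2 ^ (i + 1)}
  have hJ : ∀ i, volume (J i) ≤ ENNReal.ofReal (σ i / μ i) := by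
    intro i
    let F := S.filter fun y => ∃ t ∈ J i, ℓ y ≤ t
    have hF : F.card < 2 ^ (i + 1) := by
      rcases F.eq_empty_or_nonempty with h | h
      · rw [h, Finset.card_empty]; positivity
      · obtain ⟨y, hy, hmax⟩ := F.exists_max_image ℓ h
        obtain ⟨-, t, ht, hyt⟩ := Finset.mem_filter.1 hy
        refine lt_of_le_of_lt (Finset.card_le_card fun z hz => ?_) ht.2.2
        exact Finset.mem_filter.2 ⟨(Finset.mem_filter.1 hz).1, (hmax z hz).trans hyt⟩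
    let f : ℝ → ENNReal := fun t => ∑ y ∈ F, (Ico (ℓ y) (ℓ y + Ψ y)).indicator 1 t
    have hfm : ∀ y, Measurable ((Ico (ℓ y) (ℓ y + Ψ y)).indicator (1 : ℝ → ENNReal)) :=
      fun y => measurable_one.indicator measurableSet_Ico
    have hf : Measurable f := Finset.measurable_sum F fun y _ => hfm y
    have h1 : ∫⁻ t, f t ≤ ENNReal.ofReal (σ i) := by
      rw [lintegral_finsetSum F fun y _ => hfm y]
      simp only [lintegral_indicator_one measurableSet_Ico, Real.volume_Ico, add_sub_cancel_left]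
      rw [← ENNReal.ofReal_sum_of_nonneg fun y _ => hΨ y]
      exact ENNReal.ofReal_le_ofReal (hσ i F (Finset.filter_subset _ _) hF)
    have h2 : J i ⊆ {t | ENNReal.ofReal (μ i) ≤ f t} := by
      intro t ht
      have h3 := hm t ht.1 i ht.2.1 ht.2.2
      refine (ENNReal.ofReal_le_ofReal h3).trans ?_
      rw [ENNReal.ofReal_natCast, Finset.card_eq_sum_ones, Nat.cast_sum]
      calc ∑ y ∈ S.filter (fun y => ℓ y ≤ t ∧ t < ℓ y + Ψ y), ((1 : ℕ) : ENNReal)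
          = ∑ y ∈ S.filter (fun y => ℓ y ≤ t ∧ t < ℓ y + Ψ y),
            (Ico (ℓ y) (ℓ y + Ψ y)).indicator (1 : ℝ → ENNReal) t := by
            refine Finset.sum_congr rfl fun y hy => ?_
            rw [indicator_of_mem (show t ∈ Ico (ℓ y) (ℓ y + Ψ y) from (Finset.mem_filter.1 hy).2)]
            simp
        _ ≤ f t := by
            refine Finset.sum_le_sum_of_subset fun y hy => ?_
            obtain ⟨h4, h5⟩ := Finset.mem_filter.1 hy
            exact Finset.mem_filter.2 ⟨h4, t, ht, h5.1⟩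
    have h3 := (mul_meas_ge_le_lintegral₀ (μ := volume) hf.aemeasurable
      (ENNReal.ofReal (μ i))).trans h1
    rw [ENNReal.ofReal_div_of_pos (hμ i),
      ENNReal.le_div_iff_mul_le (Or.inl (by simpa using hμ i)) (Or.inl ENNReal.ofReal_ne_top),
      mul_comm]
    exact le_trans (mul_le_mul_right (measure_mono h2) _) h3
  have hcov : Icc t₀ t₁ ⊆ ⋃ i, J (i + i₀) := by
    intro t ht
    have h1 : 2 ^ i₀ ≤ v t := h0.trans (hv ht.1)
    have h2 : v t ≠ 0 := by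
      have : 0 < 2 ^ i₀ := by positivity
      omega
    have h3 : i₀ ≤ Nat.log 2 (v t) := (Nat.le_log_iff_pow_le one_lt_two h2).2 h1
    refine mem_iUnion.2 ⟨Nat.log 2 (v t) - i₀, ?_⟩
    rw [Nat.sub_add_cancel h3]
    exact ⟨ht, Nat.pow_log_le_self 2 h2, Nat.lt_pow_succ_log_self one_lt_two _⟩
  have hnn : ∀ i, 0 ≤ σ (i + i₀) / μ (i + i₀) := fun i => div_nonneg (hσ0 _) (hμ _).le
  have h := (measure_mono (μ := volume) hcov).trans
    ((measure_iUnion_le _).trans (ENNReal.tsum_le_tsum fun i => hJ (i + i₀)))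
  rw [Real.volume_Icc, ← ENNReal.ofReal_tsum_of_nonneg hnn
    ((summable_nat_add_iff (f := fun i => σ i / μ i) i₀).2 hs)] at h
  exact (ENNReal.ofReal_le_ofReal_iff (tsum_nonneg hnn)).1 h

end Crest.Agent.R224
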