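import Mathlib

/-!
# Row 224 (S0346): definitions

`Gen Γ` is a finite symmetric generating set containing `1`; `D` is the word metric.
`Coarse` are the three coarse-topological facts that part A extracts from the universal cover.
`Ctx` is the analytic compactification (part B).  Parts C, D, E derive `False` from `Ctx`.
-/

set_option autoImplicit false
open Filter Topology Set MeasureTheory
open scoped Pointwise

namespace Crest.Agent.R224

/-- A finite symmetric generating set containing `1`. -/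
structure Gen (Γ : Type) [Group Γ] where
  S : Finset Γ
  one_mem : (1 : Γ) ∈ S
  inv_mem : ∀ s ∈ S, s⁻¹ ∈ S
  gen : Subgroup.closure (S : Set Γ) = ⊤

/-- exactly one of `x`, `y` lies in `V` -/
def cross {Γ : Type} (V : Set Γ) (x y : Γ) : Prop := ¬ (x ∈ V ↔ y ∈ V)

/-- square summable -/
def L2 {Γ : Type} (f : Γ → ℝ) : Prop := Summable fun x => f x ^ 2

/-- squared `ℓ²` norm -/
noncomputable def nsq {Γ : Type} (f : Γ → ℝ) : ℝ := ∑' x, f x ^ 2

/-- real indicator function -/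
noncomputable def ind {Γ : Type} (A : Set Γ) : Γ → ℝ := A.indicator fun _ => 1

namespace Gen
variable {Γ : Type} [Group Γ] (G : Gen Γ)

/-- word length -/
noncomputable def len (g : Γ) : ℕ := sInf {n : ℕ | g ∈ (G.S : Set Γ) ^ n}
/-- word metric (left invariant; `x` and `x * s` are adjacent) -/
noncomputable def D (x y : Γ) : ℕ := G.len (x⁻¹ * y)
def ball (x : Γ) (r : ℕ) : Set Γ := {y | G.D x y ≤ r}
/-- size of a ball of radius `r` -/
noncomputable def vol (r : ℕ) : ℕ := (G.ball 1 r).ncard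
/-- `r`-neighbourhood -/
def N (r : ℕ) (A : Set Γ) : Set Γ := {x | ∃ a ∈ A, G.D a x ≤ r}
/-- chains inside `A` with steps of length at most `s` -/
def Chain (s : ℕ) (A : Set Γ) : Γ → Γ → Prop :=
  Relation.ReflTransGen fun a b => a ∈ A ∧ b ∈ A ∧ G.D a b ≤ s
/-- the `s`-components of `A` have diameter at most `r` -/
def Clus (s r : ℕ) (A : Set Γ) : Prop := ∀ x y, G.Chain s A x y → G.D x y ≤ r
/-- vertices of edges crossing `V` (both end points) -/
def wall (V : Set Γ) : Set Γ := {x | ∃ y, G.D x y ≤ 1 ∧ cross V x y}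

/-- The coarse facts coming from the contractible 4-manifold. -/
structure Coarse : Prop where
  tf : ∀ g : Γ, IsOfFinOrder g → g = 1
  /-- an edge cochain that is locally a coboundary away from a set `K` with bounded clusters is a
  coboundary away from a bounded neighbourhood of `K` -/
  L : ∃ s r₀ : ℕ, ∀ r : ℕ, ∃ R : ℕ, ∀ (K : Set Γ) (α : Γ → Γ → Prop), G.Clus s r K →
    (∀ v ∉ K, ∃ U : Set Γ, ∀ x y, G.D v x ≤ r₀ → G.D v y ≤ r₀ → G.D x y ≤ 1 →
      (α x y ↔ cross U x y)) →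
    ∃ U : Set Γ, ∀ x y, G.D x y ≤ 1 → x ∉ G.N R K → y ∉ G.N R K → (α x y ↔ cross U x y)
  /-- a union of three sets with bounded clusters does not coarsely separate -/
  S : ∃ s : ℕ, ∀ r : ℕ, ∃ R : ℕ, ∀ Z₁ Z₂ Z₃ V : Set Γ,
    G.Clus s r Z₁ → G.Clus s r Z₂ → G.Clus s r Z₃ →
    (∀ x y, G.D x y ≤ 1 → cross V x y → x ∈ Z₁ ∪ Z₂ ∪ Z₃ ∨ y ∈ Z₁ ∪ Z₂ ∪ Z₃) →
    ∀ x ∉ G.N R (Z₁ ∪ Z₂ ∪ Z₃), ∀ y ∉ G.N R (Z₁ ∪ Z₂ ∪ Z₃), (x ∈ V ↔ y ∈ V)

/-- Markov operator of the (lazy) simple random walk -/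
noncomputable def P (f : Γ → ℝ) : Γ → ℝ := fun x => (∑ s ∈ G.S, f (x * s)) / G.S.card
/-- spectral gap -/
def Gap (ρ : ℝ) : Prop :=
  0 ≤ ρ ∧ ρ < 1 ∧ ∀ f, L2 f → L2 (G.P f) ∧ nsq (G.P f) ≤ ρ ^ 2 * nsq f
/-- Green operator -/
noncomputable def Gr (w : Γ → ℝ) : Γ → ℝ := fun x => ∑' n, G.P^[n] w x
/-- harmonic part -/
noncomputable def Hm (k : Γ → ℝ) : Γ → ℝ := fun x => limUnder atTop fun n => G.P^[n] k x
/-- `w` is a square summable bound for the gradient of `k` -/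
def Dom (k w : Γ → ℝ) : Prop := L2 w ∧ ∀ x, ∀ s ∈ G.S, |k (x * s) - k x| ≤ w x
/-- bounded functions of finite energy -/
def BD (k : Γ → ℝ) : Prop := (∃ B : ℝ, ∀ x, |k x| ≤ B) ∧ ∃ w, G.Dom k w
/-- energy -/
noncomputable def En (k : Γ → ℝ) : ℝ := ∑' x, ∑ s ∈ G.S, (k (x * s) - k x) ^ 2
/-- approximable in energy by finitely supported functions -/
def Approx (f : Γ → ℝ) : Prop :=
  ∀ ε > 0, ∃ u : Γ → ℝ, (Function.support u).Finite ∧ G.En (f - u) < ε
/-- sum of `w` over the ball of radius `r` -/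
noncomputable def loc (r : ℕ) (w : Γ → ℝ) : Γ → ℝ := fun x => ∑' y, (G.ball x r).indicator w y

open Classical in
/-- probability to hit `Z` within `n` steps -/
noncomputable def hitn (Z : Set Γ) : ℕ → Γ → ℝ
  | 0 => ind Z
  | n + 1 => fun x => if x ∈ Z then 1 else G.P (hitn Z n) x
/-- probability to hit `Z` -/
noncomputable def hit (Z : Set Γ) : Γ → ℝ := fun x => ⨆ n, G.hitn Z n x
/-- the walk visits `Z` only finitely often -/
def Thin (Z : Set Γ) : Prop := ∀ x, Tendsto (fun n => G.P^[n] (G.hit Z) x) atTop (𝓝 0)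
/-- `p` is the probability that the walk ends in `V` (and it ends in `V` or in `Vᶜ`) -/
def IsP (V : Set Γ) (p : Γ → ℝ) : Prop :=
  G.P p = p ∧ (∀ x, 0 ≤ p x ∧ p x ≤ 1) ∧
    ∀ x, Tendsto (fun n => G.P^[n] (fun y => |p y - ind V y|) x) atTop (𝓝 0)
def IsRay (γ : ℕ → Γ) : Prop := Function.Injective γ ∧ ∀ n, G.D (γ n) (γ (n + 1)) ≤ 1
/-- essential set: near every point of `H` the walk stays in `H` with probability `≥ 1/2` -/
def Ess (R : ℕ) (H : Set Γ) : Prop := ∀ x ∈ H, ∃ v, G.D x v ≤ R ∧ G.hit Hᶜ v ≤ 1 / 2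

/-- functions with (relatively) connected level walls -/
def CL (k : Γ → ℝ) : Prop :=
  (∀ x, 0 ≤ k x ∧ k x ≤ 1) ∧ ∃ (r : ℕ) (ρ : Γ → ℝ) (M : Γ → Set ℝ), L2 ρ ∧ (∀ v, 0 ≤ ρ v) ∧
    (∀ v, MeasurableSet (M v)) ∧ (∀ v, volume (M v) ≤ ENNReal.ofReal (ρ v)) ∧
    ∀ᵐ t : ℝ, ∃ R₀ : ℕ, ∀ x ∈ G.wall {z | k z ≤ t},
      t ∈ M x ∧ ∃ y, G.len y ≤ R₀ ∧ G.Chain r {v | t ∈ M v} x y

end Gen

/-- The group level data: infinite, coarse facts, spectral gap. -/
structure Grp (Γ : Type) [Group Γ] extends Gen Γ where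
  co : toGen.Coarse
  inf : Infinite Γ
  ρ : ℝ
  gap : toGen.Gap ρ

/-- The compactification. -/
structure Ctx (Γ X : Type) [Group Γ] [MetricSpace X] [CompactSpace X] [MulAction Γ X]
    extends Grp Γ where
  e : Γ → X
  cont : ∀ g : Γ, Continuous fun z : X => g • z
  equiv : ∀ g x : Γ, e (g * x) = g • e x
  w : Γ → ℝ
  w_L2 : L2 w
  lip : ∀ x, ∀ s ∈ S, dist (e x) (e (x * s)) ≤ w x
  /-- Behrstock type inequality -/
  beh : ∀ η > 0, ∃ R : ℕ, ∀ g : Γ, R ≤ toGen.len g → ∀ z : X,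
    dist z (e g) ≤ η ∨ dist (g⁻¹ • z) (e g⁻¹) ≤ η
  /-- local connectivity at limits of rays -/
  lc : ∀ (γ : ℕ → Γ) (y : X), toGen.IsRay γ → Tendsto (e ∘ γ) atTop (𝓝 y) → ∀ ε > 0,
    ∀ K : Set Γ, K.Finite → ∃ δ > 0, ∀ x x', dist (e x) y < δ → dist (e x') y < δ →
      x ∉ K ∧ toGen.Chain 1 ({z | dist (e z) y < ε} \ K) x x'
  two : ∃ a b : X, a ≠ b ∧ (∀ ε > 0, {x | dist (e x) a < ε}.Infinite) ∧
    ∀ ε > 0, {x | dist (e x) b < ε}.Infinite

/-- pretree axioms; `B a y z` : `a` lies strictly between `y` and `z` -/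
structure IsPre {T : Type} (B : T → T → T → Prop) : Prop where
  ne : ∀ a y z, B a y z → a ≠ y
  irr : ∀ a y, ¬ B a y y
  symm : ∀ a y z, B a y z → B a z y
  t2 : ∀ a b y, B a y b → ¬ B b y a
  t3 : ∀ a y z w, B a y z → w ≠ a → B a y w ∨ B a w z

section Piece
variable {T : Type} (B : T → T → T → Prop)
/-- adjacent points -/
def Adj (a b : T) : Prop := a ≠ b ∧ ∀ d, ¬ B d a b
/-- the piece through two adjacent points -/
def pieceOf (c c' : T) : Set T := {a | (a = c ∨ Adj B a c) ∧ (a = c' ∨ Adj B a c')}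
def IsPiece (Y : Set T) : Prop := ∃ c c', Adj B c c' ∧ Y = pieceOf B c c'
/-- `a` is the projection of `z` to the piece `Y` -/
def Proj (Y : Set T) (z a : T) : Prop := a ∈ Y ∧ (z = a ∨ ∀ b ∈ Y, b ≠ a → B a z b)
end Piece

namespace Ctx
variable {Γ X : Type} [Group Γ] [MetricSpace X] [CompactSpace X] [MulAction Γ X] (c : Ctx Γ X)

/-- accumulation set -/
def Acc (A : Set Γ) : Set X := {a | ∀ ε > 0, {x ∈ A | dist (c.e x) a < ε}.Infinite}
/-- accessible points: limits of rays -/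
def Accs (y : X) : Prop := ∃ γ, c.IsRay γ ∧ Tendsto (c.e ∘ γ) atTop (𝓝 y)
/-- `y` lies on the `V` side -/
def In (y : X) (V : Set Γ) : Prop := y ∉ c.Acc Vᶜ
/-- `a` is a cut point separating `y` and `y'` -/
def Btw (a y y' : X) : Prop :=
  a ≠ y ∧ a ≠ y' ∧ ∃ V : Set Γ, c.Acc (c.wall V) ⊆ {a} ∧ c.In y V ∧ c.In y' Vᶜ
/-- cut points -/
def Cut : Set X := {a | ∃ y y', c.Accs y ∧ c.Accs y' ∧ c.Btw a y y'}
/-- all intervals of cut points are finite -/
def Disc : Prop := ∀ a ∈ c.Cut, ∀ b ∈ c.Cut, {d ∈ c.Cut | c.Btw d a b}.Finite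
/-- bump function at `a` -/
noncomputable def bump (_c : Ctx Γ X) (a : X) (δ : ℝ) : X → ℝ := fun z => max 0 (1 - dist z a / δ)

end Ctx

end Crest.Agent.R224
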