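import Crest.Agent.R224.Pot

/-! Isoperimetric inequality ⇒ spectral gap (Dodziuk). -/

set_option autoImplicit false
open Filter Topology Set MeasureTheory
open scoped Pointwise

namespace Crest.Agent.R224

namespace Gen
variable {Γ : Type} [Group Γ] (G : Gen Γ)

/-- coarea inequality for finitely supported non-negative functions -/
theorem dodz_coarea {b : ℝ} (h : ∀ F : Finset Γ, b * F.card ≤ ((G.N 1 F \ F).ncard : ℝ))
    (U : Finset Γ) (n : ℕ) : ∀ (F : Finset Γ) (g : Γ → ℝ), F.card = n → (∀ x ∈ F, 0 < g x) →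
      (∀ x ∉ F, g x = 0) → G.N 1 F ⊆ U →
      b * ∑ x ∈ U, g x ≤ ∑ x ∈ U, ∑ s ∈ G.S, |g (x * s) - g x| := by
  classical
  induction n using Nat.strong_induction_on with
  | _ n ih =>
    intro F g hF hpos hz hU
    rcases F.eq_empty_or_nonempty with rfl | hne
    · have : ∀ x, g x = 0 := fun x => hz x (by simp)
      simp [this]
    obtain ⟨a, ha, hmin⟩ := Finset.exists_min_image F g hne
    have hFU : F ⊆ U := fun x hx => hU (G.subset_N 1 _ hx)
    let i : Γ → ℝ := fun x => if x ∈ F then 1 else 0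
    let g' : Γ → ℝ := fun x => g x - g a * i x
    have hsub : F.filter (fun x => g a < g x) ⊂ F :=
      Finset.filter_ssubset.2 ⟨a, ha, lt_irrefl _⟩
    have h1 := ih _ (hF ▸ Finset.card_lt_card hsub) (F.filter fun x => g a < g x) g' rfl
      (fun x hx => by
        obtain ⟨k1, k2⟩ := Finset.mem_filter.1 hx
        simp only [g', i, if_pos k1]
        linarith)
      (fun x hx => by
        by_cases k1 : x ∈ F
        · have k2 : ¬ g a < g x := fun k => hx (Finset.mem_filter.2 ⟨k1, k⟩)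
          have := hmin x k1
          simp only [g', i, if_pos k1]
          linarith
        · simp only [g', i, if_neg k1, hz x k1]
          ring)
      ((G.N_mono le_rfl (by exact_mod_cast hsub.subset)).trans hU)
    have h2 : ∀ x y, |g y - g x| = |g' y - g' x| + g a * |i y - i x| := by
      intro x y
      have k0 := hpos a ha
      by_cases kx : x ∈ F <;> by_cases ky : y ∈ F
      · simp only [g', i, if_pos kx, if_pos ky]
        simp
      · have := hmin x kx
        simp only [g', i, if_pos kx, if_neg ky, hz y ky]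
        rw [abs_of_nonpos (by linarith), abs_of_nonpos (by linarith), abs_of_nonpos (by linarith)]
        ring
      · have := hmin y ky
        simp only [g', i, if_neg kx, if_pos ky, hz x kx]
        rw [abs_of_nonneg (by linarith), abs_of_nonneg (by linarith), abs_of_nonneg (by linarith)]
        ring
      · simp only [g', i, if_neg kx, if_neg ky]
        simp
    have h3 : b * F.card ≤ ∑ x ∈ U, ∑ s ∈ G.S, |i (x * s) - i x| := by
      refine (h F).trans ?_
      have hfin : (G.N 1 F \ F).Finite := (G.finite_N 1 F.finite_toSet).subset sdiff_subset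
      rw [Set.ncard_eq_toFinset_card _ hfin]
      calc (hfin.toFinset.card : ℝ) = ∑ _x ∈ hfin.toFinset, (1 : ℝ) := by simp
        _ ≤ ∑ x ∈ hfin.toFinset, ∑ s ∈ G.S, |i (x * s) - i x| := by
          refine Finset.sum_le_sum fun x hx => ?_
          obtain ⟨⟨y, hy, hd⟩, hx⟩ := hfin.mem_toFinset.1 hx
          rw [G.D_comm] at hd
          obtain ⟨s, hs, rfl⟩ := G.D_le_one.1 hd
          refine le_trans ?_ (Finset.single_le_sum (f := fun s => |i (x * s) - i x|)
            (fun _ _ => abs_nonneg _) hs)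
          simp only [i, if_pos (Finset.mem_coe.1 hy), if_neg (mt Finset.mem_coe.2 hx)]
          simp
        _ ≤ _ := Finset.sum_le_sum_of_subset_of_nonneg
          (fun x hx => hU (hfin.mem_toFinset.1 hx).1)
          fun _ _ _ => Finset.sum_nonneg fun _ _ => abs_nonneg _
    have h4 : ∑ x ∈ U, g x = ∑ x ∈ U, g' x + g a * F.card := by
      have : ∑ x ∈ U, i x = F.card := by
        simp only [i]
        rw [Finset.sum_ite_mem, Finset.inter_eq_right.2 hFU]
        simp
      simp only [g', Finset.sum_sub_distrib, ← Finset.mul_sum, this]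
      ring
    simp only [h2, Finset.sum_add_distrib, ← Finset.mul_sum]
    rw [h4]
    have := mul_le_mul_of_nonneg_left h3 (hpos a ha).le
    linarith

theorem dodz_var (a : Γ → ℝ) : ((∑ s ∈ G.S, a s) / G.S.card) ^ 2 ≤ (∑ s ∈ G.S, a s ^ 2) / G.S.card -
    (∑ s ∈ G.S, (a s - a 1) ^ 2) / (2 * (G.S.card : ℝ) ^ 2) := by
  have hd := G.cardR_pos
  have h1 : ∑ t ∈ G.S, ∑ s ∈ G.S, (a s - a t) ^ 2 =
      2 * G.S.card * (∑ s ∈ G.S, a s ^ 2) - 2 * (∑ s ∈ G.S, a s) ^ 2 := by
    simp only [sub_sq, Finset.sum_add_distrib, Finset.sum_sub_distrib, Finset.sum_const,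
      nsmul_eq_mul, ← Finset.mul_sum, ← Finset.sum_mul]
    ring
  have h2 : ∑ s ∈ G.S, (a s - a 1) ^ 2 ≤ ∑ t ∈ G.S, ∑ s ∈ G.S, (a s - a t) ^ 2 :=
    Finset.single_le_sum (f := fun t => ∑ s ∈ G.S, (a s - a t) ^ 2)
      (fun _ _ => Finset.sum_nonneg fun _ _ => sq_nonneg _) G.one_mem
  rw [h1] at h2
  rw [div_pow, div_sub_div _ _ hd.ne' (by positivity), div_le_div_iff₀ (by positivity) (by positivity)]
  have h3 : (0 : ℝ) < (G.S.card : ℝ) ^ 3 := by positivity
  nlinarith [mul_le_mul_of_nonneg_left h2 h3.le]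

theorem dodz_pt {l : ℝ} (hl : 0 < l) (u v : ℝ) :
    |u ^ 2 - v ^ 2| ≤ l * (u - v) ^ 2 + (u ^ 2 + v ^ 2) / (2 * l) := by
  have h1 : ∀ u v : ℝ, u ^ 2 - v ^ 2 ≤ l * (u - v) ^ 2 + (u ^ 2 + v ^ 2) / (2 * l) := by
    intro u v
    rw [← sub_le_iff_le_add', le_div_iff₀ (by positivity)]
    nlinarith [sq_nonneg (2 * l * (u - v) - (u + v)), sq_nonneg (u - v)]
  rw [abs_le]
  constructor
  · have := h1 v u
    rw [show (v - u) ^ 2 = (u - v) ^ 2 by ring, add_comm (v ^ 2)] at this
    linarith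
  · exact h1 u v

/-- Plan.  Coarea: for finitely supported `g ≥ 0`, `∑_{x,s} |g(xs) - g x| ≥ b ∑ g` (induction on the
number of values / layer cake; every vertex of `N 1 F \ F` gives a crossing edge).  Apply to `g²` and use
Cauchy-Schwarz: `b ‖g‖² ≤ (∑ (g(xs) - g x)²)^{1/2} (∑ (g(xs) + g x)²)^{1/2}`, i.e.
`⟨(1 - P) g, g⟩ ≥ κ ‖g‖²`.  `|⟨P g, g⟩| ≤ ⟨P|g|, |g|⟩ ≤ (1 - κ) ‖g‖²`; `P` is symmetric, polarisation gives
`⟨P g, h⟩ ≤ (1-κ) ‖g‖ ‖h‖`, so `‖P g‖ ≤ (1 - κ) ‖g‖` for finitely supported `g`; extend to `ℓ²` by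
truncation (finite partial sums of `(P g)²` only see finitely many values of `g`). -/
theorem gap_of_iso {b : ℝ} (hb : 0 < b)
    (h : ∀ F : Finset Γ, b * F.card ≤ ((G.N 1 F \ F).ncard : ℝ)) : ∃ ρ, G.Gap ρ := by
  classical
  have hd := G.cardR_pos
  set d : ℝ := (G.S.card : ℝ) with hdd
  set c : ℝ := b ^ 2 / (8 * d ^ 3) with hc
  have hc0 : 0 < c := by positivity
  refine ⟨√(max 0 (1 - c)), Real.sqrt_nonneg _, ?_, fun f hf => ?_⟩
  · rw [Real.sqrt_lt' one_pos, one_pow]
    exact max_lt one_pos (by linarith)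
  rw [Real.sq_sqrt (le_max_left _ _)]
  have hA : 0 ≤ nsq f := tsum_nonneg fun _ => sq_nonneg _
  have hf' : HasSum (fun x => f x ^ 2) (nsq f) := Summable.hasSum hf
  have hq : HasSum (fun x => ∑ s ∈ G.S, f (x * s) ^ 2) (d * nsq f) := by
    have := hasSum_sum (s := G.S) (f := fun s x => f (x * s) ^ 2) (a := fun _ => nsq f)
      fun s _ => by
        rw [← (hf.tr_right s).2]
        exact Summable.hasSum (hf.tr_right s).1
    simpa [hdd] using this
  have he : Summable fun x => ∑ s ∈ G.S, (f (x * s) - f x) ^ 2 := by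
    refine summable_sum fun s _ => Summable.of_nonneg_of_le (fun _ => sq_nonneg _) (fun x => ?_)
      ((Summable.mul_left 2 (hf.tr_right s).1).add (Summable.mul_left 2 hf))
    nlinarith [sq_nonneg (f (x * s) + f x)]
  set E := ∑' x, ∑ s ∈ G.S, (f (x * s) - f x) ^ 2 with hE
  have he' := he.hasSum
  rw [← hE] at he'
  -- energy inequality
  set l : ℝ := 2 * d / b with hl
  have hl0 : 0 < l := by positivity
  have hR : HasSum (fun x => ∑ s ∈ G.S, (l * (f (x * s) - f x) ^ 2 +
      (f (x * s) ^ 2 + f x ^ 2) / (2 * l))) (l * E + (d * nsq f + d * nsq f) / (2 * l)) := by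
    have := (he'.mul_left l).add ((hq.add (hf'.mul_left d)).div_const (2 * l))
    have e : (fun x => ∑ s ∈ G.S, (l * (f (x * s) - f x) ^ 2 +
        (f (x * s) ^ 2 + f x ^ 2) / (2 * l))) = fun x => l * ∑ s ∈ G.S, (f (x * s) - f x) ^ 2 +
        (∑ s ∈ G.S, f (x * s) ^ 2 + d * f x ^ 2) / (2 * l) := funext fun x => by
      simp only [Finset.sum_add_distrib, ← Finset.mul_sum, ← Finset.sum_div, Finset.sum_const,
        nsmul_eq_mul, hdd]
    rw [e]
    exact this
  have hco : b * nsq f ≤ l * E + (d * nsq f + d * nsq f) / (2 * l) := by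
    refine (hf'.mul_left b).tsum_eq ▸ Real.tsum_le_of_sum_le (fun x => by positivity) fun F => ?_
    refine le_of_forall_pos_le_add fun δ hδ => ?_
    set ε : ℝ := δ / (b * (F.card + 1)) with hε
    have hε0 : 0 < ε := by positivity
    let g : Γ → ℝ := fun x => max (f x ^ 2 - ε) 0
    have hfin : {x | ε < f x ^ 2}.Finite := by
      have h1 := (Metric.tendsto_nhds.1 (Summable.tendsto_cofinite_zero hf)) ε hε0
      rw [Filter.eventually_cofinite] at h1
      refine h1.subset fun x hx => ?_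
      simp only [mem_ofPred_eq, dist_zero_right, Real.norm_eq_abs, not_lt] at hx ⊢
      exact hx.le.trans (le_abs_self _)
    have hN := G.finite_N 1 hfin.toFinset.finite_toSet
    have h1 := G.dodz_coarea h (hN.toFinset ∪ F) _ hfin.toFinset g rfl
      (fun x hx => lt_max_of_lt_left (sub_pos.2 (hfin.mem_toFinset.1 hx)))
      (fun x hx => max_eq_right (sub_nonpos.2 (not_lt.1 (mt hfin.mem_toFinset.2 hx))))
      (fun x hx => Finset.mem_coe.2 (Finset.mem_union_left _ (hN.mem_toFinset.2 hx)))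
    have h2 : ∑ x ∈ hN.toFinset ∪ F, ∑ s ∈ G.S, |g (x * s) - g x| ≤
        l * E + (d * nsq f + d * nsq f) / (2 * l) := by
      refine le_trans (Finset.sum_le_sum fun x _ => Finset.sum_le_sum fun s _ => ?_)
        (sum_le_hasSum _ (fun x _ => Finset.sum_nonneg fun s _ => by positivity) hR)
      refine le_trans (abs_max_sub_max_le_abs _ _ _) ?_
      rw [sub_sub_sub_cancel_right]
      exact dodz_pt hl0 _ _
    have h3 : ∑ x ∈ F, b * f x ^ 2 ≤ b * (∑ x ∈ hN.toFinset ∪ F, g x + F.card * ε) := by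
      rw [← Finset.mul_sum]
      refine mul_le_mul_of_nonneg_left ?_ hb.le
      calc ∑ x ∈ F, f x ^ 2 ≤ ∑ x ∈ F, (g x + ε) :=
            Finset.sum_le_sum fun x _ => by have := le_max_left (f x ^ 2 - ε) 0; simp only [g]; linarith
        _ = ∑ x ∈ F, g x + F.card * ε := by simp [Finset.sum_add_distrib]
        _ ≤ _ := add_le_add_left (Finset.sum_le_sum_of_subset_of_nonneg Finset.subset_union_right
          fun x _ _ => le_max_right _ _) _
    have h4 : b * (F.card * ε) ≤ δ := by
      rw [hε, ← mul_assoc, mul_div_assoc', div_le_iff₀ (by positivity)]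
      nlinarith [mul_pos hb hδ]
    linarith
  have hE2 : c * nsq f ≤ E / (2 * d ^ 2) := by
    have e1 : (d * nsq f + d * nsq f) / (2 * l) = b * nsq f / 2 := by
      rw [hl]; field_simp; ring
    rw [e1] at hco
    have e2 : b * nsq f / 2 ≤ l * E := by linarith
    rw [hl, div_mul_eq_mul_div, div_le_div_iff₀ (by positivity) hb] at e2
    rw [hc, div_mul_eq_mul_div, div_le_div_iff₀ (by positivity) (by positivity)]
    have := mul_le_mul_of_nonneg_left e2 (show 0 ≤ 2 * d ^ 2 by positivity)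
    nlinarith
  have hP : HasSum (fun x => (∑ s ∈ G.S, f (x * s) ^ 2) / d -
      (∑ s ∈ G.S, (f (x * s) - f x) ^ 2) / (2 * d ^ 2)) (d * nsq f / d - E / (2 * d ^ 2)) :=
    (hq.div_const d).sub (he'.div_const _)
  have hpt : ∀ x, G.P f x ^ 2 ≤ (∑ s ∈ G.S, f (x * s) ^ 2) / d -
      (∑ s ∈ G.S, (f (x * s) - f x) ^ 2) / (2 * d ^ 2) := fun x => by
    simpa [P] using G.dodz_var fun s => f (x * s)
  have hs : L2 (G.P f) := Summable.of_nonneg_of_le (fun _ => sq_nonneg _) hpt hP.summable
  refine ⟨hs, (hasSum_le hpt (Summable.hasSum hs) hP).trans ?_⟩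
  rw [mul_div_cancel_left₀ _ hd.ne']
  have := mul_le_mul_of_nonneg_right (le_max_right 0 (1 - c)) hA
  linarith

end Gen
end Crest.Agent.R224
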