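import Crest.Agent.R224.Fat0

/-! FAT lemma: a finite patch of an essential wall with sparse boundary is bounded. -/

set_option autoImplicit false
open Filter Topology Set MeasureTheory
open scoped Pointwise

namespace Crest.Agent.R224

theorem Fat.p1 {xU aU bU xH aH bH aF : Prop} (ih : (xU ↔ aU) ↔ (xH ↔ aH))
    (h2 : ¬ (aU ↔ bU) ↔ ¬ (aH ↔ bH) ∧ aF) (h3 : ¬ (aH ↔ bH) → aF) : (xU ↔ bU) ↔ (xH ↔ bH) := by
  tauto
theorem Fat.p2 {xU aU bU aH bH aF : Prop} (ih : xU ↔ aU)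
    (h2 : ¬ (aU ↔ bU) ↔ ¬ (aH ↔ bH) ∧ aF) (h3 : ¬ aF) : xU ↔ bU := by
  tauto
theorem Fat.p3 {aU bU aH bH aF : Prop}
    (h2 : ¬ (aU ↔ bU) ↔ ¬ (aH ↔ bH) ∧ aF) (h3 : aH ↔ bH) : aU ↔ bU := by
  tauto
theorem Fat.p4 {a b : Prop} : ¬ (¬ a ↔ ¬ b) ↔ ¬ (a ↔ b) := by
  tauto
theorem Fat.p5 {a b : Prop} (h : ¬ (a ↔ b)) (ha : ¬ a) : b := by
  tauto

namespace Grp
variable {Γ : Type} [Group Γ] (G : Grp Γ)

/-- FAT lemma.  Plan: `r₁ ≥ r₀, max R₁ 1 + 1`; replace `K` by the finite set `K ∩ N r₁ F`; `clus_of_sparse`, `spl` give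
`U`; its wall is finite, so `U` or `Uᶜ` is finite (WLOG `U`).  For `x ∉ N (R + max R₁ 1) K` the wall vertices in
`ball x r₁` are all in `F` or all outside `F`, so along a geodesic from `x` to a point `y` with
`D x y ≤ max R₁ 1`, `U` either changes exactly when `H` does or does not change; this gives the hypotheses of
`fat_core` for `H` and for `Hᶜ`.  A point of `F` far from `K` or its neighbour across the wall is in `U`. -/
theorem fat (R₁ : ℕ) : ∃ r₁ : ℕ, ∀ T : ℕ, ∃ r₂ R₂ : ℕ, ∀ H F K : Set Γ,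
    G.Ess R₁ H → G.Ess R₁ Hᶜ → F.Finite → F ⊆ G.wall H →
    G.N r₁ F ∩ G.N r₁ (G.wall H \ F) ⊆ K → (∀ v, (K ∩ G.ball v r₂).encard ≤ T) →
    F ⊆ G.N R₂ K := by
  obtain ⟨s, r₀, hspl⟩ := G.co.spl
  set M := max R₁ 1 with hM
  refine ⟨r₀ + M, fun T => ?_⟩
  obtain ⟨R, hR⟩ := hspl (T * s)
  obtain ⟨r₂, R₂, hcore⟩ := G.fat_core R₁ R T
  refine ⟨r₂ + T * s, R + R₂ + 1, fun H F K hH hHc hF hFw hK hT => ?_⟩
  set K' := K ∩ G.N (r₀ + M) F with hK'
  have hK'fin : K'.Finite := (G.finite_N _ hF).subset inter_subset_right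
  have hsp : ∀ r ≤ r₂ + T * s, ∀ v, (K' ∩ G.ball v r).encard ≤ T := by
    intro r hr v
    refine le_trans (encard_le_encard ?_) (hT v)
    exact fun y hy => ⟨hy.1.1, le_trans (show G.D v y ≤ r from hy.2) hr⟩
  obtain ⟨U₀, hU₀⟩ := hR H F K' (G.clus_of_sparse (hsp _ (by omega))) fun y hy =>
    ⟨hK ⟨G.N_mono (by omega) subset_rfl hy.1, G.N_mono (by omega) subset_rfl hy.2⟩,
      G.N_mono (by omega) subset_rfl hy.1⟩
  have nb : ∀ {x y : Γ} {r : ℕ}, G.D x y ≤ 1 → y ∈ G.N r K' → x ∈ G.N (r + 1) K' := by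
    rintro x y r hxy ⟨k, hk, hky⟩
    refine ⟨k, hk, (G.D_tri k y x).trans ?_⟩
    rw [G.D_comm y x]; omega
  have hwall : (G.wall U₀).Finite := by
    refine ((G.finite_N (R + 1) hK'fin).union hF).subset ?_
    rintro x ⟨y, hxy, hc⟩
    by_cases hx : x ∈ G.N R K'
    · exact Or.inl (G.N_mono (by omega) subset_rfl hx)
    by_cases hy : y ∈ G.N R K'
    · exact Or.inl (nb hxy hy)
    exact Or.inr ((hU₀ x y hxy hx hy).1 hc).2
  obtain ⟨U, hUfin, hU⟩ : ∃ U : Set Γ, U.Finite ∧ ∀ x y, G.D x y ≤ 1 → x ∉ G.N R K' →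
      y ∉ G.N R K' → (cross U x y ↔ cross H x y ∧ x ∈ F) := by
    rcases G.co.one_end hwall with h | h
    · exact ⟨U₀, h, hU₀⟩
    · refine ⟨U₀ᶜ, h, fun x y h1 h2 h3 => ?_⟩
      rw [← hU₀ x y h1 h2 h3]
      exact Fat.p4
  have h1 : ∀ x y, G.D x y ≤ M → x ∉ G.N (R + M) K' → (x ∈ H ↔ y ∈ H) → (x ∈ U ↔ y ∈ U) := by
    intro x y hxy hx hH
    have hA : ∀ z, G.D x z + G.D z y = G.D x y → z ∉ G.N R K' ∧ G.D z x ≤ r₀ + M := by
      intro z hz
      refine ⟨?_, by rw [G.D_comm]; omega⟩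
      rintro ⟨k, hk, hkz⟩
      refine hx ⟨k, hk, (G.D_tri k z x).trans ?_⟩
      rw [G.D_comm z x]; omega
    by_cases hc : x ∈ G.N (r₀ + M) F
    · have hc' : x ∉ G.N (r₀ + M) (G.wall H \ F) := fun h =>
        hx (G.subset_N _ _ ⟨hK ⟨hc, h⟩, hc⟩)
      have key : ∀ z, G.Chain 1 {z | G.D x z + G.D z y = G.D x y} x z →
          ((x ∈ U ↔ z ∈ U) ↔ (x ∈ H ↔ z ∈ H)) := by
        intro z hz
        induction hz with
        | refl => simp
        | @tail a b _ hab ih =>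
          have h2 := hU a b hab.2.2 (hA a hab.1).1 (hA b hab.2.1).1
          have h3 : cross H a b → a ∈ F := fun h => by
            by_contra haF
            exact hc' ⟨a, ⟨⟨b, hab.2.2, h⟩, haF⟩, (hA a hab.1).2⟩
          exact Fat.p1 ih h2 h3
      exact (key y (G.chain_geod x y)).2 hH
    · have key : ∀ z, G.Chain 1 {z | G.D x z + G.D z y = G.D x y} x z → (x ∈ U ↔ z ∈ U) := by
        intro z hz
        induction hz with
        | refl => simp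
        | @tail a b _ hab ih =>
          have h2 := hU a b hab.2.2 (hA a hab.1).1 (hA b hab.2.1).1
          have h3 : a ∉ F := fun h => hc ⟨a, h, (hA a hab.1).2⟩
          exact Fat.p2 ih h2 h3
      exact key y (G.chain_geod x y)
  have h2 : ∀ x y, G.D x y ≤ 1 → x ∉ G.N R K' → y ∉ G.N R K' → (x ∈ H ↔ y ∈ H) →
      (x ∈ U ↔ y ∈ U) := by
    intro x y a b c d
    exact Fat.p3 (hU x y a b c) d
  have c1 := hcore H U K' hH hUfin (hsp _ (by omega))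
    (fun x hx y hy hxy hN => (h1 x y hxy hN (iff_of_true hx.2 hy)).1 hx.1)
    (fun x hx y hy hxy hN hN' => (h2 x y hxy hN hN' (iff_of_true hx.2 hy)).1 hx.1)
  have c2 := hcore Hᶜ U K' hHc hUfin (hsp _ (by omega))
    (fun x hx y hy hxy hN => (h1 x y hxy hN (iff_of_false hx.2 hy)).1 hx.1)
    (fun x hx y hy hxy hN hN' => (h2 x y hxy hN hN' (iff_of_false hx.2 hy)).1 hx.1)
  have c3 : U ⊆ G.N R₂ K' := fun x hx => by
    by_cases h : x ∈ H
    · exact c1 ⟨hx, h⟩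
    · exact c2 ⟨hx, h⟩
  intro x hx
  refine G.N_mono le_rfl (inter_subset_left : K' ⊆ K) ?_
  obtain ⟨y, hxy, hc⟩ := hFw hx
  by_cases hxN : x ∈ G.N R K'
  · exact G.N_mono (by omega) subset_rfl hxN
  by_cases hyN : y ∈ G.N R K'
  · exact G.N_mono (by omega) subset_rfl (nb hxy hyN)
  have h3 := (hU x y hxy hxN hyN).2 ⟨hc, hx⟩
  by_cases hxU : x ∈ U
  · exact G.N_mono (by omega) subset_rfl (c3 hxU)
  · have hyU : y ∈ U := Fat.p5 h3 hxU
    exact G.N_mono (by omega) subset_rfl (nb hxy (c3 hyU))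

end Grp
end Crest.Agent.R224
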