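import Crest.Agent.R224.Hit
import Crest.Agent.R224.Spl

/-! FAT lemma: a finite patch of an essential wall with sparse boundary is bounded. -/

set_option autoImplicit false
open Filter Topology Set MeasureTheory
open scoped Pointwise

namespace Crest.Agent.R224

theorem Gen.sum_antisymm {Γ : Type} [Group Γ] [DecidableEq Γ] (G : Gen Γ) (A : Finset Γ)
    (a : Γ → Γ → ℝ) (ha : ∀ x y, a x y + a y x = 0) :
    ∑ x ∈ A, ∑ s ∈ G.S, (if x * s ∈ A then a x (x * s) else 0) = 0 := by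
  rw [← Finset.sum_product' (f := fun x s => if x * s ∈ A then a x (x * s) else 0),
    ← Finset.sum_filter]
  refine Finset.sum_involution (fun p _ => (p.1 * p.2, p.2⁻¹)) ?_ ?_ ?_ ?_
  · intro p _
    simpa using ha p.1 (p.1 * p.2)
  · intro p _ hne he
    apply hne
    have h1 : p.1 * p.2 = p.1 := congrArg Prod.fst he
    have := ha p.1 p.1
    rw [h1]; linarith
  · intro p hp
    simp only [Finset.mem_filter, Finset.mem_product] at hp ⊢
    exact ⟨⟨hp.2, G.inv_mem _ hp.1.2⟩, by simpa using hp.1.1⟩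
  · intro p _
    simp

/-- discrete intermediate value theorem along chains -/
theorem Gen.Chain.ivt {Γ : Type} [Group Γ] {G : Gen Γ} {M t : ℕ} {B : Set Γ} {k u x : Γ}
    (h : G.Chain M B u x) (hu : G.D k u ≤ t) (hx : t < G.D k x) :
    ∃ y, G.Chain M B u y ∧ t < G.D k y ∧ G.D k y ≤ t + M := by
  induction h with
  | refl => omega
  | @tail b c hub hbc ih =>
    by_cases hb : t < G.D k b
    · exact ih hb
    · refine ⟨c, hub.tail hbc, hx, ?_⟩
      have := G.D_tri k b c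
      have := hbc.2.2
      omega

namespace Grp
variable {Γ : Type} [Group Γ] (G : Grp Γ)

/-- Agmon type estimate.  Plan: `h = 1 - hit Hᶜ` (harmonic on `H`, zero off `H`, values in `[0,1]`),
`g = h ψ`.  Ground state identity
`∑ g² - ∑ g P g = (1/(2|S|)) ∑_{x,s} h x h (xs) (ψ x - ψ (xs))² ≤ ∑_{x ∈ A} h x * P h x = ∑_A h²`, and `Gap.form`. -/
theorem agmon (H : Set Γ) (A : Finset Γ) (ψ : Γ → ℝ) (hA : (A : Set Γ) ⊆ H)
    (hψ : ∀ x ∉ A, ψ x = 0) (hl : ∀ x ∈ A, ∀ y ∈ H, G.D x y ≤ 1 → |ψ x - ψ y| ≤ 1) :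
    (1 - G.ρ) * ∑ x ∈ A, ((1 - G.hit Hᶜ x) * ψ x) ^ 2 ≤ ∑ x ∈ A, (1 - G.hit Hᶜ x) ^ 2 := by
  classical
  set h : Γ → ℝ := fun x => 1 - G.hit Hᶜ x with hh
  have hc : (0 : ℝ) < G.S.card := by exact_mod_cast G.S_card_pos
  have h0 : ∀ x, 0 ≤ h x := fun x => sub_nonneg.2 (G.hit_mem _ x).2
  have hz : ∀ x ∉ H, h x = 0 := fun x hx => by
    simp [hh, G.hit_of_mem (Z := Hᶜ) hx]
  have hP : ∀ x ∈ A, ∑ s ∈ G.S, h (x * s) = G.S.card * h x := by
    intro x hx
    have h1 := G.P_hit_of_notMem (Z := Hᶜ) (x := x) (by simpa using hA hx)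
    simp only [Gen.P] at h1
    rw [div_eq_iff hc.ne'] at h1
    simp only [hh, Finset.sum_sub_distrib, h1, Finset.sum_const, nsmul_eq_mul]
    ring
  have hform := G.gap.form A (g := fun x => h x * ψ x) fun x hx => by simp [hψ x hx]
  have hanti := G.toGen.sum_antisymm A (fun x y => h x * h y * (ψ x ^ 2 - ψ y ^ 2) / 2)
    fun x y => by ring
  have key : ∑ x ∈ A, ∑ s ∈ G.S, h x * h (x * s) * (ψ x * (ψ x - ψ (x * s))) ≤
      ∑ x ∈ A, ∑ s ∈ G.S, (h x * h (x * s) +
        (if x * s ∈ A then h x * h (x * s) * (ψ x ^ 2 - ψ (x * s) ^ 2) / 2 else 0)) := by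
    refine Finset.sum_le_sum fun x hx => Finset.sum_le_sum fun s hs => ?_
    by_cases hy : x * s ∈ H
    · have h1 := hl x hx _ hy (by simpa using G.len_le_one.2 hs)
      have h2 : (ψ x - ψ (x * s)) ^ 2 ≤ 1 := by
        rw [← sq_abs]; exact pow_le_one₀ (abs_nonneg _) h1
      have h3 : 0 ≤ h x * h (x * s) := mul_nonneg (h0 _) (h0 _)
      split_ifs with hxs
      · nlinarith [mul_le_mul_of_nonneg_left h2 h3]
      · rw [hψ _ hxs] at h2 ⊢
        nlinarith [mul_le_mul_of_nonneg_left h2 h3]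
    · simp [hz _ hy]
  simp only [Finset.sum_add_distrib, hanti, add_zero] at key
  have e1 : ∑ x ∈ A, ∑ s ∈ G.S, h x * h (x * s) = G.S.card * ∑ x ∈ A, h x ^ 2 := by
    rw [Finset.mul_sum]
    refine Finset.sum_congr rfl fun x hx => ?_
    rw [← Finset.mul_sum, hP x hx]; ring
  have e2 : ∑ x ∈ A, ∑ s ∈ G.S, h x * h (x * s) * (ψ x * (ψ x - ψ (x * s))) =
      G.S.card * (∑ x ∈ A, (h x * ψ x) ^ 2 -
        ∑ x ∈ A, h x * ψ x * G.P (fun x => h x * ψ x) x) := by
    rw [← Finset.sum_sub_distrib, Finset.mul_sum]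
    refine Finset.sum_congr rfl fun x hx => ?_
    have : ∀ s, h x * h (x * s) * (ψ x * (ψ x - ψ (x * s))) =
        h x * ψ x ^ 2 * h (x * s) - h x * ψ x * (h (x * s) * ψ (x * s)) := fun s => by ring
    simp only [this, Finset.sum_sub_distrib, ← Finset.mul_sum, hP x hx, Gen.P]
    field_simp
  rw [e1, e2] at key
  have := le_of_mul_le_mul_left key hc
  show (1 - G.ρ) * ∑ x ∈ A, (h x * ψ x) ^ 2 ≤ ∑ x ∈ A, h x ^ 2
  linarith

/-- core estimate: a finite set `U` that is locally constant on `H` away from a sparse set `K` contains no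
point of `H` far from `K`.
Plan.  `j x` = distance from `x` to `K` (if `K = ∅` use `agmon` with a large constant `ψ`).  Suppose
`x ∈ U ∩ H` is far from `K`; `v₀` near `x` with `h v₀ ≥ 1/2`; `v₀ ∈ U ∩ H` by `hU`.  `A` = the
`max R₁ 1`-component of `v₀` in `U ∩ H \ N R K`, `ψ = (j - R) 1_A`.  `agmon` gives
`∑_A h² ((1-ρ)(j-R)² - 1) ≤ 0`.  With `(1-ρ) j₀² ≥ 1` the negative terms are `≥ - vol (R + j₀) * |K_adj|`,
`K_adj = {k ∈ K | ∃ u ∈ A, D k u ≤ R + j₀}`.  Take a maximal `r₂`-separated `K₀ ⊆ K_adj`: `|K_adj| ≤ T |K₀|`.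
For `k ∈ K₀` find `v_k ∈ A`, `2 D k v_k ≤ r₂`, `j v_k ≥ R + j₁`, `h v_k ≥ 1/2`: either `v₀`, or follow the chain in `A`
from near `k` to `v₀` and use pigeonhole on annuli around `k` (at most `T` points of `K` in `ball k r₂`).
The `v_k` are distinct; with `((1-ρ) j₁² - 1)/4 > T vol (R + j₀)` this is a contradiction. -/
theorem fat_core (R₁ R T : ℕ) : ∃ r₂ R₂ : ℕ, ∀ H U K : Set Γ, G.Ess R₁ H → U.Finite →
    (∀ v, (K ∩ G.ball v r₂).encard ≤ T) →
    (∀ x ∈ U ∩ H, ∀ y ∈ H, G.D x y ≤ max R₁ 1 → x ∉ G.N (R + max R₁ 1) K → y ∈ U) →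
    (∀ x ∈ U ∩ H, ∀ y ∈ H, G.D x y ≤ 1 → x ∉ G.N R K → y ∉ G.N R K → y ∈ U) →
    U ∩ H ⊆ G.N R₂ K := by
  classical
  have hρ : 0 < 1 - G.ρ := sub_pos.2 G.gap.2.1
  obtain ⟨j₀, hj₀⟩ : ∃ j₀ : ℕ, 1 ≤ (1 - G.ρ) * j₀ := by
    obtain ⟨n, hn⟩ := exists_nat_ge (1 / (1 - G.ρ))
    exact ⟨n, by rw [div_le_iff₀ hρ] at hn; linarith⟩
  obtain ⟨J, hJ0, hJ⟩ : ∃ J : ℕ, j₀ ≤ J ∧
      4 * ((T * G.vol (R + j₀) : ℕ) : ℝ) + 1 < (1 - G.ρ) * J := by
    obtain ⟨n, hn⟩ := exists_nat_gt ((4 * ((T * G.vol (R + j₀) : ℕ) : ℝ) + 1) / (1 - G.ρ))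
    refine ⟨n + j₀, by omega, ?_⟩
    rw [div_lt_iff₀ hρ] at hn
    push_cast at hn ⊢
    nlinarith
  have hj1 : 1 ≤ j₀ := by
    rcases Nat.eq_zero_or_pos j₀ with h | h
    · subst h; norm_num at hj₀
    · exact h
  set M := max R₁ 1 with hM
  have hM1 : 1 ≤ M := le_max_right _ _
  have hMR : R₁ ≤ M := le_max_left _ _
  set W := R + J + M with hW
  set t : ℕ → ℕ := fun i => R + j₀ + i * (2 * W + M) with ht
  refine ⟨t T + 2 * M + W, W, fun H U K hH hU hK hU1 hU2 x hx => ?_⟩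
  by_contra hxW
  set B : Set Γ := (U ∩ H) \ G.N R K with hB
  have hxB : x ∈ B := ⟨hx, fun h => hxW (G.N_mono (by omega) subset_rfl h)⟩
  have hAfin : {y | G.Chain M B x y}.Finite :=
    hU.subset fun y hy => (Gen.Chain.mem hy hxB).1.1
  set A := hAfin.toFinset with hA
  have memA : ∀ y, y ∈ A ↔ G.Chain M B x y := fun y => by simp [hA]
  have hAB : ∀ y ∈ A, y ∈ B := fun y hy => Gen.Chain.mem ((memA y).1 hy) hxB
  have hstep : ∀ y ∈ A, ∀ z ∈ B, G.D y z ≤ M → z ∈ A := fun y hy z hz hd =>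
    (memA z).2 (Relation.ReflTransGen.tail ((memA y).1 hy) ⟨hAB y hy, hz, hd⟩)
  -- truncated distance to `K`
  have hex : ∀ y, ∃ n, R + J ≤ n ∨ y ∈ G.N n K := fun y => ⟨R + J, Or.inl le_rfl⟩
  set d : Γ → ℕ := fun y => Nat.find (hex y) with hd
  have d_le : ∀ y, d y ≤ R + J := fun y => Nat.find_min' _ (Or.inl le_rfl)
  have d_le' : ∀ y n, y ∈ G.N n K → d y ≤ n := fun y n h => Nat.find_min' _ (Or.inr h)
  have d_mem : ∀ y n, d y ≤ n → n < R + J → y ∈ G.N n K := by
    intro y n h1 h2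
    rcases Nat.find_spec (hex y) with h | h
    · exact absurd (h.trans h1) (by omega)
    · exact G.N_mono h1 subset_rfl h
  have d_lip : ∀ y z, G.D y z ≤ 1 → d z ≤ d y + 1 := by
    intro y z hyz
    by_cases h : d y < R + J
    · obtain ⟨k, hk, hky⟩ := d_mem y _ le_rfl h
      exact d_le' _ _ ⟨k, hk, (G.D_tri k y z).trans (by omega)⟩
    · have := d_le z; omega
  have d_gt : ∀ y ∈ A, R < d y := fun y hy => by
    by_contra h
    exact (hAB y hy).2 (d_mem y R (by omega) (by omega))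
  set ψ : Γ → ℝ := fun y => if y ∈ A then (d y : ℝ) - R else 0 with hψ
  have hag := G.agmon H A ψ (fun y hy => (hAB y hy).1.2) (fun y hy => by simp [hψ, hy]) (by
    intro y hy z hz hyz
    have h1 := d_lip y z hyz
    have h2 := d_lip z y (by rwa [G.D_comm])
    by_cases hzA : z ∈ A
    · simp only [hψ, hy, hzA, if_true]
      rw [abs_le]
      have h1' : (d z : ℝ) ≤ d y + 1 := by exact_mod_cast h1
      have h2' : (d y : ℝ) ≤ d z + 1 := by exact_mod_cast h2
      constructor <;> linarith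
    · have hzN : z ∈ G.N R K := by
        by_contra hN
        exact hzA (hstep y hy z ⟨⟨hU2 y (hAB y hy).1 z hz hyz (hAB y hy).2 hN, hz⟩, hN⟩
          (hyz.trans hM1))
      have h3 := d_le' z R hzN
      have h4 := d_gt y hy
      have h5 : d y = R + 1 := by omega
      simp [hψ, hy, hzA, h5])
  set h : Γ → ℝ := fun y => 1 - G.hit Hᶜ y with hh
  set Good := A.filter fun v => d v = R + J ∧ 1 / 2 ≤ h v with hGood
  set Neg := A.filter fun v => d v < R + j₀ with hNeg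
  have good_near : ∀ y ∈ A, y ∉ G.N W K → ∃ v ∈ Good, G.D y v ≤ M := by
    intro y hy hyW
    obtain ⟨v, hv1, hv2⟩ := hH y (hAB y hy).1.2
    have hvH : v ∈ H := by
      by_contra hv
      rw [G.hit_of_mem (Z := Hᶜ) hv] at hv2
      norm_num at hv2
    have hvU : v ∈ U := hU1 y (hAB y hy).1 v hvH (hv1.trans hMR)
      fun h => hyW (G.N_mono (by omega) subset_rfl h)
    have hvN : ∀ n ≤ R + J, v ∉ G.N n K := by
      rintro n hn ⟨k, hk, hkv⟩
      refine hyW ⟨k, hk, (G.D_tri k v y).trans ?_⟩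
      rw [G.D_comm v y]; omega
    refine ⟨v, Finset.mem_filter.2 ⟨hstep y hy v ⟨⟨hvU, hvH⟩, hvN R (by omega)⟩ (hv1.trans hMR),
      ?_, by simp only [hh]; linarith⟩, hv1.trans hMR⟩
    by_contra hne
    have := d_le v
    exact hvN (d v) this (d_mem v _ le_rfl (by omega))
  have hxA : x ∈ A := (memA x).2 Relation.ReflTransGen.refl
  have t_mono : ∀ i ≤ T, t i ≤ t T := fun i hi => by
    simp only [ht]; gcongr
  have far_near : ∀ k, ∀ u ∈ A, G.D k u ≤ R + j₀ → ∃ y ∈ A, y ∉ G.N W K ∧ G.D k y ≤ t T + M := by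
    intro k u hu hku
    by_cases hkx : G.D k x ≤ t T
    · exact ⟨x, hxA, hxW, by omega⟩
    by_contra hcon
    push Not at hcon hkx
    have hch : G.Chain M B u x := Gen.Chain.symm ((memA u).1 hu)
    have hpt : ∀ i : Fin (T + 1), ∃ k' ∈ K, t i < G.D k k' + W ∧ G.D k k' ≤ t i + M + W := by
      intro i
      have hi := t_mono i (Nat.lt_succ_iff.1 i.2)
      obtain ⟨y, hy1, hy2, hy3⟩ := hch.ivt (k := k) (t := t i)
        (hku.trans (by simp only [ht]; omega)) (by omega)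
      have hyA : y ∈ A := (memA y).2 (((memA u).1 hu).trans hy1)
      have hyN : y ∈ G.N W K := by
        by_contra hN
        have := hcon y hyA hN
        omega
      obtain ⟨k', hk', hk'y⟩ := hyN
      have h1 := G.D_tri k k' y
      have h2 := G.D_tri k y k'
      rw [G.D_comm y k'] at h2
      exact ⟨k', hk', by omega, by omega⟩
    choose f hf1 hf2 hf3 using hpt
    have hlt : ∀ i j : Fin (T + 1), i < j → G.D k (f i) < G.D k (f j) := by
      intro i j hij
      have h1 := hf3 i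
      have h2 := hf2 j
      have h3 : t i + (2 * W + M) ≤ t j := by
        have : (i : ℕ) + 1 ≤ j := hij
        have := Nat.mul_le_mul_right (2 * W + M) this
        simp only [ht]; nlinarith
      omega
    have hinj : Function.Injective f := by
      intro i j hij
      by_contra hne
      rcases lt_or_gt_of_ne hne with h | h
      · have := hlt _ _ h; rw [hij] at this; omega
      · have := hlt _ _ h; rw [hij] at this; omega
    have hsub : range f ⊆ K ∩ G.ball k (t T + 2 * M + W) := by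
      rintro _ ⟨i, rfl⟩
      have := t_mono i (Nat.lt_succ_iff.1 i.2)
      have := hf3 i
      exact ⟨hf1 i, show G.D k (f i) ≤ _ by omega⟩
    have h1 := hinj.encard_range.trans ((encard_le_encard hsub).trans (hK k))
    simp only [ENat.card_eq_coe_fintype_card, Fintype.card_fin, Nat.cast_le] at h1
    omega
  have hfinN : ∀ v, (G.N (R + j₀) (K ∩ G.ball v (t T + 2 * M + W))).Finite := fun v =>
    G.finite_N _ ((G.finite_ball _ _).subset inter_subset_right)
  have hcard : Neg.card ≤ Good.card * (T * G.vol (R + j₀)) := by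
    have hsub : Neg ⊆ Good.biUnion fun v => (hfinN v).toFinset := by
      intro u hu
      obtain ⟨huA, hud⟩ := Finset.mem_filter.1 hu
      obtain ⟨k, hk, hku⟩ := d_mem u (d u) le_rfl (by omega)
      obtain ⟨y, hy, hyW, hky⟩ := far_near k u huA (by omega)
      obtain ⟨v, hv, hyv⟩ := good_near y hy hyW
      refine Finset.mem_biUnion.2 ⟨v, hv, ?_⟩
      rw [Finite.mem_toFinset]
      refine ⟨k, ⟨hk, ?_⟩, by omega⟩
      have := G.D_tri k y v
      show G.D v k ≤ _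
      rw [G.D_comm]; omega
    refine (Finset.card_le_card hsub).trans (Finset.card_biUnion_le_card_mul _ _ _ fun v _ => ?_)
    have h1 := G.encard_N_le (R + j₀) (K ∩ G.ball v (t T + 2 * M + W))
    have h2 := h1.trans (mul_le_mul_left (hK v) _)
    rw [(hfinN v).encard_eq_coe_toFinset_card] at h2
    exact_mod_cast h2
  have hGpos : 0 < Good.card := by
    obtain ⟨v, hv, -⟩ := good_near x hxA hxW
    exact Finset.card_pos.2 ⟨v, hv⟩
  set c : ℝ := ((1 - G.ρ) * J - 1) / 4 with hc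
  have hc0 : ((T * G.vol (R + j₀) : ℕ) : ℝ) < c := by simp only [hc]; linarith
  have hc1 : 0 ≤ c := (Nat.cast_nonneg _).trans hc0.le
  have hpt : ∀ y ∈ A, (if y ∈ Good then c else 0) - (if y ∈ Neg then 1 else 0) ≤
      (1 - G.ρ) * (h y * ψ y) ^ 2 - h y ^ 2 := by
    intro y hy
    have h0 : 0 ≤ h y := sub_nonneg.2 (G.hit_mem _ y).2
    have h1 : h y ≤ 1 := by have := (G.hit_mem Hᶜ y).1; simp only [hh]; linarith
    have e : (1 - G.ρ) * (h y * ψ y) ^ 2 - h y ^ 2 = h y ^ 2 * ((1 - G.ρ) * ψ y ^ 2 - 1) := by ring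
    have hψy : ψ y = (d y : ℝ) - R := by simp [hψ, hy]
    rw [e]
    by_cases hG : y ∈ Good
    · obtain ⟨-, hd1, hd2⟩ := Finset.mem_filter.1 hG
      have h2 : ψ y = J := by rw [hψy, hd1]; push_cast; ring
      have hJ1 : (1 : ℝ) ≤ J := by exact_mod_cast hj1.trans hJ0
      have h3 : 4 * c ≤ (1 - G.ρ) * ψ y ^ 2 - 1 := by
        rw [h2, hc]
        have : (J : ℝ) ≤ J ^ 2 := by nlinarith
        nlinarith [mul_le_mul_of_nonneg_left this hρ.le]
      have h4 : 1 / 4 ≤ h y ^ 2 := by nlinarith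
      have h5 : c ≤ h y ^ 2 * ((1 - G.ρ) * ψ y ^ 2 - 1) := by nlinarith
      rw [if_pos hG]
      split_ifs <;> linarith
    · rw [if_neg hG]
      split_ifs with hN
      · have h2 : h y ^ 2 ≤ 1 := pow_le_one₀ h0 h1
        have h3 : 0 ≤ h y ^ 2 * ((1 - G.ρ) * ψ y ^ 2) := by positivity
        nlinarith
      · have h2 : R + j₀ ≤ d y := by
          by_contra hlt
          exact hN (Finset.mem_filter.2 ⟨hy, by omega⟩)
        have h3 : (j₀ : ℝ) ≤ ψ y := by
          have : ((R + j₀ : ℕ) : ℝ) ≤ d y := by exact_mod_cast h2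
          rw [hψy]; push_cast at this; linarith
        have hj1' : (1 : ℝ) ≤ j₀ := by exact_mod_cast hj1
        have h4 : (j₀ : ℝ) ≤ ψ y ^ 2 := by nlinarith
        have h5 : 0 ≤ (1 - G.ρ) * ψ y ^ 2 - 1 := by
          nlinarith [mul_le_mul_of_nonneg_left h4 hρ.le]
        have := mul_nonneg (sq_nonneg (h y)) h5
        linarith
  have hsum := Finset.sum_le_sum hpt
  have eG : ∑ y ∈ A, (if y ∈ Good then c else 0) = Good.card * c := by
    rw [Finset.sum_ite_mem, Finset.inter_eq_right.2 (Finset.filter_subset _ _), Finset.sum_const,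
      nsmul_eq_mul]
  have eN : ∑ y ∈ A, (if y ∈ Neg then (1 : ℝ) else 0) = Neg.card := by
    rw [Finset.sum_ite_mem, Finset.inter_eq_right.2 (Finset.filter_subset _ _), Finset.sum_const,
      nsmul_eq_mul, mul_one]
  rw [Finset.sum_sub_distrib, Finset.sum_sub_distrib, eG, eN, ← Finset.mul_sum] at hsum
  have hcard' : (Neg.card : ℝ) ≤ Good.card * ((T * G.vol (R + j₀) : ℕ) : ℝ) := by
    exact_mod_cast hcard
  have hGpos' : (0 : ℝ) < Good.card := by exact_mod_cast hGpos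
  have := mul_lt_mul_of_pos_left hc0 hGpos'
  have hag' : (1 - G.ρ) * ∑ y ∈ A, (h y * ψ y) ^ 2 ≤ ∑ y ∈ A, h y ^ 2 := hag
  linarith

end Grp
end Crest.Agent.R224
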