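import Crest.Agent.R224.PropA0

/-! Cut points exist. -/

set_option autoImplicit false
open Filter Topology Set MeasureTheory
open scoped Pointwise

namespace Crest.Agent.R224

namespace Ctx
variable {Γ X : Type} [Group Γ] [MetricSpace X] [CompactSpace X] [MulAction Γ X] (c : Ctx Γ X)

/-- Case (ii).  Plan: `n` from `select` + `forest`; `R_j = max {R ≤ j | v₀ R ≤ count_j}` tends to infinity along `ω`;
roots `x_j` from `membrane_root`; `H_∞ = {y | ∀ᶠ j, x_j y ∈ H j}`, `p_∞ y = lim_ω p_j (x_j y)`: `IsP H_∞ p_∞`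
(`tendsto_iter`, `iter_tr`, `tendsto_zero_all`), `0 < p_∞ 1 < 1` (`IsP.wall_half`).  `roots_lim` gives
`Acc (wall H_∞) ⊆ {e₀, ζ}`; `exists_accs_of_isP` for `H_∞` and its complement; `two_point`. -/
theorem cut_of_membranes (ω : Ultrafilter ℕ) (hω : (ω : Filter ℕ) ≤ atTop) (z : X) {ε : ℝ}
    (hε : 0 < ε) (p : ℕ → Γ → ℝ) (hp : ∀ j, c.IsP {x | 1 / 2 < p j x} (p j))
    (hA : ∀ᶠ j in ω, c.Acc (c.wall {x | 1 / 2 < p j x}) ⊆ Metric.closedBall z (ε / 2))
    (hb : ∀ M : ℕ, ∀ᶠ j in ω,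
      (M : ℕ∞) ≤ {x ∈ c.wall {x | 1 / 2 < p j x} | ε ≤ dist (c.e x) z}.encard) :
    c.Cut.Nonempty := by
  classical
  set H : ℕ → Set Γ := fun j => {x | 1 / 2 < p j x} with hH
  obtain ⟨n, hn⟩ := select (fun (i n : ℕ) (F : Set Γ) (x : Γ) => c.Bad (1 / (i + 1 : ℝ)) n F x)
    (fun i => c.forest (by positivity))
  obtain ⟨C, ρ', hρ0, hρ1, hroot⟩ := c.membrane_root z hε
  choose v₀ hv₀ using hroot
  set cnt : ℕ → ℕ∞ := fun j => {x ∈ c.wall (H j) | ε ≤ dist (c.e x) z}.encard with hcnt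
  set Rr : ℕ → ℕ := fun j => Nat.findGreatest (fun R => (v₀ R : ℕ∞) ≤ cnt j) j with hRr
  have hRlim : ∀ R₀ : ℕ, ∀ᶠ j in (ω : Filter ℕ), R₀ ≤ Rr j := by
    intro R₀
    filter_upwards [hb (v₀ R₀), hω (eventually_ge_atTop R₀)] with j h1 h2
    exact Nat.le_findGreatest h2 h1
  have hRgood : ∀ᶠ j in (ω : Filter ℕ), (v₀ (Rr j) : ℕ∞) ≤ cnt j := by
    filter_upwards [hb (v₀ 0)] with j h1
    exact Nat.findGreatest_spec (P := fun R => (v₀ R : ℕ∞) ≤ cnt j) (Nat.zero_le j) h1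
  have hex : ∀ j, ∃ (F : Set Γ) (x : Γ),
      (c.Acc (c.wall (H j)) ⊆ Metric.closedBall z (ε / 2) ∧ (v₀ (Rr j) : ℕ∞) ≤ cnt j) →
      (x ∈ c.wall (H j) ∧ ¬ (∃ i : ℕ, c.Bad (1 / (i + 1 : ℝ)) (n i) F x) ∧
        c.wall (H j) ∩ c.ball x (Rr j) ⊆ F ∧
        ∀ m, c.P^[m] (fun y => |p j y - ind (H j) y|) x ≤ 1 / (Rr j + 1 : ℝ) + C * ρ' ^ m) := by
    intro j
    by_cases h : c.Acc (c.wall (H j)) ⊆ Metric.closedBall z (ε / 2) ∧ (v₀ (Rr j) : ℕ∞) ≤ cnt j
    · obtain ⟨F, x, -, h1, h2, h3, h4⟩ := hv₀ (Rr j) (H j) (p j)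
        (fun F x => ∃ i : ℕ, c.Bad (1 / (i + 1 : ℝ)) (n i) F x) (hp j) h.1 h.2 hn
      exact ⟨F, x, fun _ => ⟨h1, h2, h3, h4⟩⟩
    · exact ⟨∅, 1, fun h' => absurd h' h⟩
  choose F x hFx using hex
  have hgood : ∀ᶠ j in (ω : Filter ℕ),
      x j ∈ c.wall (H j) ∧ ¬ (∃ i : ℕ, c.Bad (1 / (i + 1 : ℝ)) (n i) (F j) (x j)) ∧
        c.wall (H j) ∩ c.ball (x j) (Rr j) ⊆ F j ∧
        ∀ m, c.P^[m] (fun y => |p j y - ind (H j) y|) (x j) ≤ 1 / (Rr j + 1 : ℝ) + C * ρ' ^ m := by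
    filter_upwards [hA, hRgood] with j h1 h2 using hFx j ⟨h1, h2⟩
  set Hl : Set Γ := {y | ∀ᶠ j in (ω : Filter ℕ), x j * y ∈ H j} with hHl
  have hmem : ∀ y, ∀ᶠ j in (ω : Filter ℕ), (x j * y ∈ H j ↔ y ∈ Hl) := by
    intro y
    by_cases h : y ∈ Hl
    · filter_upwards [h] with j hj using ⟨fun _ => h, fun _ => hj⟩
    · have h' : ∀ᶠ j in (ω : Filter ℕ), ¬ (x j * y ∈ H j) := Ultrafilter.eventually_not.2 h
      filter_upwards [h'] with j hj using ⟨fun h1 => absurd h1 hj, fun h1 => absurd h1 h⟩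
  have hlim : ∀ y, ∃ a ∈ Icc (0 : ℝ) 1, Tendsto (fun j => p j (x j * y)) ω (𝓝 a) := by
    intro y
    obtain ⟨a, ha, h⟩ := isCompact_Icc.ultrafilter_le_nhds (ω.map fun j => p j (x j * y))
      (s := Icc (0 : ℝ) 1) (by
        rw [Ultrafilter.coe_map, le_principal_iff, mem_map]
        exact Eventually.of_forall fun j => (hp j).2.1 _)
    exact ⟨a, ha, h⟩
  choose pl hpl01 hpl using hlim
  have hind : ∀ y, Tendsto (fun j => ind (H j) (x j * y)) ω (𝓝 (ind Hl y)) := by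
    intro y
    refine tendsto_const_nhds.congr' ?_
    filter_upwards [hmem y] with j hj
    by_cases h : y ∈ Hl
    · simp [ind, h, hj.2 h]
    · have h' : x j * y ∉ H j := fun h1 => h (hj.1 h1)
      simp [ind, h, h']
  have hisP : c.IsP Hl pl := by
    refine ⟨?_, fun y => hpl01 y, ?_⟩
    · funext y
      have h1 := c.tendsto_iter hpl 1 y
      have h2 : ∀ j, c.P^[1] (fun u => p j (x j * u)) y = p j (x j * y) := by
        intro j
        rw [c.iter_tr, Function.iterate_one, (hp j).1]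
      simp only [h2] at h1
      exact tendsto_nhds_unique h1 (hpl y)
    · refine c.tendsto_zero_all (fun y => abs_nonneg _) (x := 1) ?_
      have hb0 : ∀ m, c.P^[m] (fun y => |pl y - ind Hl y|) 1 ≤ C * ρ' ^ m := by
        intro m
        have h1 := c.tendsto_iter (f := fun j y => |p j (x j * y) - ind (H j) (x j * y)|)
          (g := fun y => |pl y - ind Hl y|) (fun y => ((hpl y).sub (hind y)).abs) m 1
        have h2 : Tendsto (fun j => 1 / (Rr j + 1 : ℝ) + C * ρ' ^ m) ω (𝓝 (0 + C * ρ' ^ m)) := by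
          refine Tendsto.add ?_ tendsto_const_nhds
          have h3 : Tendsto Rr ω atTop := tendsto_atTop.2 hRlim
          exact tendsto_one_div_add_atTop_nhds_zero_nat.comp h3
        rw [zero_add] at h2
        refine le_of_tendsto_of_tendsto h1 h2 ?_
        filter_upwards [hgood] with j hj
        have h4 := c.iter_tr (fun y => |p j y - ind (H j) y|) (x j) m 1
        rw [mul_one] at h4
        exact h4.trans_le (hj.2.2.2 m)
      have hb1 : ∀ m, 0 ≤ c.P^[m] (fun y => |pl y - ind Hl y|) 1 := by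
        intro m
        have := c.iter_mono (f := fun _ => (0 : ℝ)) (g := fun y => |pl y - ind Hl y|)
          (fun y => abs_nonneg _) m 1
        rwa [c.iter_const] at this
      have h5 : Tendsto (fun m : ℕ => C * ρ' ^ m) atTop (𝓝 0) := by
        simpa using (tendsto_pow_atTop_nhds_zero_of_lt_one hρ0 hρ1).const_mul C
      exact squeeze_zero hb1 hb0 h5
  have hS : (0 : ℝ) < 1 / (2 * c.S.card : ℝ) := by
    have := c.S_card_pos
    positivity
  have hp1 : 0 < pl 1 := by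
    refine hS.trans_le (ge_of_tendsto (hpl 1) ?_)
    filter_upwards [hgood] with j hj
    rw [mul_one]; exact ((hp j).wall_half hj.1).1
  have hp2 : 0 < 1 - pl 1 := by
    have : pl 1 ≤ 1 - 1 / (2 * c.S.card : ℝ) := by
      refine le_of_tendsto (hpl 1) ?_
      filter_upwards [hgood] with j hj
      rw [mul_one]; exact ((hp j).wall_half hj.1).2
    linarith
  obtain ⟨e₀, -, he₀⟩ := isCompact_univ.ultrafilter_le_nhds (ω.map fun j => c.e (x j)⁻¹) (by simp)
  obtain ⟨ζ, hζ⟩ := c.roots_lim ω hω n F x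
    (fun i => by filter_upwards [hgood] with j hj using fun h => hj.2.1 ⟨i, h⟩) (e₀ := e₀) he₀
  have hAcc : c.Acc (c.wall Hl) ⊆ {e₀, ζ} := by
    intro ξ hξ
    refine hζ ξ fun δ hδ k => ?_
    obtain ⟨T, hT, hTc⟩ := (hξ δ hδ).exists_subset_card_eq k
    have h1 : ∀ u ∈ T, ∀ᶠ j in (ω : Filter ℕ), x j * u ∈ F j := by
      intro u hu
      obtain ⟨u', hd, hcr⟩ := (hT hu).1
      filter_upwards [hgood, hmem u, hmem u', hRlim (c.len u)] with j hj h2 h3 h4
      refine hj.2.2.1 ⟨⟨x j * u', by rwa [c.D_mul_left], ?_⟩, ?_⟩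
      · intro h5
        exact hcr (h2.symm.trans (h5.trans h3))
      · change c.D (x j) (x j * u) ≤ Rr j
        rwa [c.D_mul_right]
    filter_upwards [(Filter.eventually_all_finset T).2 h1] with j hj
    have h2 : ((T.image fun u => x j * u : Finset Γ) : Set Γ) ⊆
        {y ∈ F j | dist (c.e ((x j)⁻¹ * y)) ξ ≤ δ} := by
      intro y hy
      obtain ⟨u, hu, rfl⟩ := Finset.mem_image.1 hy
      refine ⟨hj u hu, ?_⟩
      rw [inv_mul_cancel_left]
      exact (hT hu).2.le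
    have h3 := Set.encard_le_encard h2
    rwa [Set.encard_coe_eq_coe_finsetCard,
      Finset.card_image_of_injective _ (mul_right_injective (x j)), hTc] at h3
  obtain ⟨y, hy, hy1, hy2⟩ := c.exists_accs_of_isP hisP hp1 hAcc
  obtain ⟨y', hy', hy1', hy2'⟩ := c.exists_accs_of_isP hisP.compl (x := 1) hp2
    (by rw [c.wall_compl]; exact hAcc)
  rcases c.two_point hAcc hy hy' hy1 hy1' hy2 hy2' with h | h
  · exact ⟨e₀, y, y', hy, hy', h⟩
  · exact ⟨ζ, y, y', hy, hy', h⟩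

/-- Plan: `two_accs`, `small_cuts` (`C₀ = ∅`), `exists_isP`, `H j = {p_j > 1/2}` (`IsP.half`, `Acc_wall_half`,
`In_half`), `ω = hyperfilter ℕ`; either `lim_cut` or `cut_of_membranes` applies. -/
theorem cut_nonempty : c.Cut.Nonempty := by
  obtain ⟨y, y', hy, hy', hne⟩ := c.two_accs
  obtain ⟨z, V, -, hzy, hzy', hV⟩ := c.small_cuts hy hy' hne (C₀ := ∅) countable_empty
  have hex : ∀ j, ∃ p, c.IsP (V j) p := fun j => c.exists_isP (hV j).2.2.1
  choose p hp using hex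
  set ω : Ultrafilter ℕ := hyperfilter ℕ with hω
  have hω' : (ω : Filter ℕ) ≤ atTop := by
    rw [← Nat.cofinite_eq_atTop]; exact hyperfilter_le_cofinite
  have hy1 : ∀ j, y ∉ c.Acc (c.wall (V j)) := fun j h =>
    Set.disjoint_left.1 (hV j).2.2.2.2 h (Or.inr (Or.inl rfl))
  have hy2 : ∀ j, y' ∉ c.Acc (c.wall (V j)) := fun j h =>
    Set.disjoint_left.1 (hV j).2.2.2.2 h (Or.inr (Or.inr rfl))
  by_cases hcase : ∀ ε > 0, ∃ M : ℕ, ∀ᶠ j in (ω : Filter ℕ),
      {x ∈ c.wall {x | 1 / 2 < p j x} | ε ≤ dist (c.e x) z}.encard ≤ M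
  · refine ⟨z, y, y', hy, hy', c.lim_cut ω (H := fun j => {x | 1 / 2 < p j x}) hy hy' hzy.symm
      hzy'.symm (Eventually.of_forall fun j => ⟨?_, ?_⟩) hcase⟩
    · exact (c.In_half (hp j) (hy1 j)).1 (hV j).1
    · exact (c.In_half (hp j) (hy2 j)).2 (hV j).2.1
  · push Not at hcase
    obtain ⟨ε, hε, hM⟩ := hcase
    refine c.cut_of_membranes ω hω' z hε p (fun j => (hp j).half) ?_ fun M => ?_
    · have h1 : ∀ᶠ j : ℕ in atTop, 1 / (j + 1 : ℝ) < ε / 2 :=
        tendsto_one_div_add_atTop_nhds_zero_nat.eventually (gt_mem_nhds (by positivity))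
      filter_upwards [hω' h1] with j hj
      exact (c.Acc_wall_half (hp j)).trans
        ((hV j).2.2.2.1.trans (Metric.closedBall_subset_closedBall (le_of_lt hj)))
    · filter_upwards [hM M] with j hj using hj.le

end Ctx
end Crest.Agent.R224
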