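import Crest.Agent.R224.CaseB
import Crest.Agent.R224.PropA

/-! The compactification does not exist. -/

set_option autoImplicit false
open Filter Topology Set MeasureTheory
open scoped Pointwise

namespace Crest.Agent.R224

namespace Ctx
variable {Γ X : Type} [Group Γ] [MetricSpace X] [CompactSpace X] [MulAction Γ X] (c : Ctx Γ X)

include c in
/-- Plan: `m` from `cut_nonempty`, a second cut point by `no_fixed`, adjacent `a, a'` (`exists_adj`, `disc`),
`Y = pieceOf a a'`; `small_cuts` with `C₀ = Cut` (`countable_T`); `σ j = {b | In b (V j)}`; `sat_wall`, `in_sat`;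
`caseB` + `caseA_bound` give the hypothesis of `lim_cut`, so `z ∈ Cut`, contradiction. -/
theorem false : False := by
  classical
  obtain ⟨m0, hm0⟩ := c.cut_nonempty
  set m : c.T := ⟨m0, hm0⟩ with hm
  obtain ⟨g, hg⟩ := c.no_fixed m0
  have hne : m ≠ g • m := fun e => hg (congrArg Subtype.val e).symm
  have hf : ∀ a b : c.T, {d | c.B d a b}.Finite := by
    intro a b
    refine ((c.disc a a.2 b b.2).preimage Subtype.val_injective.injOn).subset ?_
    intro d hd
    exact ⟨d.2, hd⟩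
  obtain ⟨a, a', haa⟩ := c.isPre.exists_adj hf hne
  set Y : Set c.T := pieceOf c.B a a' with hYdef
  have hY : IsPiece c.B Y := ⟨a, a', haa, rfl⟩
  have ha : a ∈ Y := c.isPre.left_mem_pieceOf haa
  have ha' : a' ∈ Y := c.isPre.right_mem_pieceOf haa
  have hC : c.Cut.Countable := Set.countable_coe_iff.1 c.countable_T
  have hne' : (a : X) ≠ a' := fun e => haa.1 (Subtype.ext e)
  obtain ⟨z, V, hz, hza, hza', hV⟩ := c.small_cuts (Cut.accs a.2) (Cut.accs a'.2) hne' hC
  set σ : ℕ → Set c.T := fun j => {b | c.In b (V j)} with hσ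
  have hdis : ∀ j, Disjoint (c.Acc (c.wall (V j))) c.Cut := fun j =>
    (hV j).2.2.2.2.mono_right subset_union_left
  have hsat : ∀ j, c.Acc (c.wall (c.Sat m Y (σ j))) ⊆ c.Acc (c.wall (V j)) := fun j =>
    c.sat_wall m hY (hdis j)
  have hdis' : ∀ j, Disjoint (c.Acc (c.wall (c.Sat m Y (σ j)))) c.Cut := fun j =>
    (hdis j).mono_left (hsat j)
  set ω : Ultrafilter ℕ := hyperfilter ℕ with hω
  have hω' : (ω : Filter ℕ) ≤ atTop := by
    rw [← Nat.cofinite_eq_atTop]; exact hyperfilter_le_cofinite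
  obtain ⟨R₁, hB⟩ := c.caseB m
  obtain ⟨R₂, hA⟩ := c.caseA_bound m
  have hb : ∀ ε > 0, ∃ M : ℕ, ∀ᶠ j in (ω : Filter ℕ),
      {x ∈ c.wall (c.Sat m Y (σ j)) | ε ≤ dist (c.e x) z}.encard ≤ M := by
    intro ε hε
    have hε2 : 0 < ε / 2 := by positivity
    have h0 : ∀ᶠ j : ℕ in atTop, 1 / (j + 1 : ℝ) < ε / 2 / 2 :=
      tendsto_one_div_add_atTop_nhds_zero_nat.eventually (gt_mem_nhds (by positivity))
    have h1 := hB (max R₁ R₂) (le_max_left _ _) ω hω' Y σ z (ε / 2) hε2 hY hdis' (by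
      filter_upwards [hω' h0] with j hj
      exact (hsat j).trans ((hV j).2.2.2.1.trans (Metric.closedBall_subset_closedBall (le_of_lt hj))))
    obtain ⟨M, hM⟩ := not_forall.1 h1
    rw [← Ultrafilter.eventually_not] at hM
    obtain ⟨M', hM'⟩ := hA (max R₁ R₂) (le_max_right _ _) z (ε / 2) hε2 M
    refine ⟨M', ?_⟩
    filter_upwards [hM] with j hj
    have h2 := hM' Y _ hY (hdis' j) (not_le.1 hj).le
    rwa [show 2 * (ε / 2) = ε by ring] at h2
  have hbt := c.lim_cut ω (H := fun j => c.Sat m Y (σ j)) (Cut.accs a.2) (Cut.accs a'.2) hza.symm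
    hza'.symm (Eventually.of_forall fun j => ⟨?_, ?_⟩) hb
  · exact hz ⟨a, a', Cut.accs a.2, Cut.accs a'.2, hbt⟩
  · exact (c.in_sat m hY ha fun h => Set.disjoint_left.1 (hdis' j) h a.2).1 (hV j).1
  · refine (c.in_sat m hY ha' fun h => Set.disjoint_left.1 (hdis' j) h a'.2).2 fun h => ?_
    exact In.not_compl h (Accs.mem_Acc (Cut.accs a'.2)) (hV j).2.1

end Ctx
end Crest.Agent.R224
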