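import Crest.Agent.R224.Acc

/-! Forest lemma and selection of typical roots. -/

set_option autoImplicit false
open Filter Topology Set MeasureTheory
open scoped Pointwise

namespace Crest.Agent.R224

open Classical in
theorem forest_core {Γ X : Type} [PseudoMetricSpace X] (E : Γ → Γ → X) (o : Γ) {η : ℝ}
    (hη : 0 < η) (Ω F : Finset Γ) (n : ℕ) (z : Γ → Bool → X)
    (hB : ∀ x ∈ Ω, ∀ x' ∈ Ω, x ≠ x' → ∀ u,
      dist (E x u) (E x x') ≤ η ∨ dist (E x' u) (E x' x) ≤ η)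
    (hz : ∀ x ∈ Ω, ∀ i j, i ≠ j → 10 * η ≤ dist (z x i) (z x j))
    (hzo : ∀ x ∈ Ω, ∀ i, 10 * η ≤ dist (z x i) (E x o))
    (hW : ∀ x ∈ Ω, ∀ i, n ≤ (F.filter fun y => dist (E x y) (z x i) ≤ η).card) :
    n * Ω.card ≤ F.card := by
  set r : Γ → Γ → Prop := fun y x => x ∈ Ω ∧ y ∈ Ω ∧ y ≠ x ∧ 4 * η ≤ dist (E x y) (E x o) with hr
  have step : ∀ y b x, r b x → 3 * η ≤ dist (E b y) (E b o) →
      dist (E x y) (E x b) ≤ η ∧ y ≠ x := by
    rintro y b x ⟨hx, hb, hne, h4⟩ h3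
    have h1 : dist (E b o) (E b x) ≤ η := by
      rcases hB x hx b hb hne.symm o with h | h
      · rw [dist_comm] at h; linarith
      · exact h
    have h2 : 2 * η ≤ dist (E b y) (E b x) := by
      have := dist_triangle (E b y) (E b x) (E b o)
      rw [dist_comm (E b x)] at this
      linarith
    refine ⟨?_, ?_⟩
    · rcases hB x hx b hb hne.symm y with h | h
      · exact h
      · linarith
    · rintro rfl
      rw [dist_self] at h2
      linarith
  have claim : ∀ y x, Relation.TransGen r y x → y ≠ x ∧ 3 * η ≤ dist (E x y) (E x o) := by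
    intro y x h
    induction h with
    | single h => exact ⟨h.2.2.1, by linarith [h.2.2.2]⟩
    | @tail b x _ h ih =>
      obtain ⟨h1, h2⟩ := step y b x h ih.2
      refine ⟨h2, ?_⟩
      have := dist_triangle (E x b) (E x y) (E x o)
      rw [dist_comm (E x b) (E x y)] at this
      linarith [h.2.2.2]
  have hmax : ∀ S : Finset Γ, S ⊆ Ω → S.Nonempty →
      ∃ m ∈ S, ∀ y ∈ S, ¬ Relation.TransGen r m y := by
    intro S hS hne
    obtain ⟨m, hm, hmax⟩ := S.exists_max_image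
      (fun y => (Ω.filter fun w => Relation.TransGen r w y).card) hne
    refine ⟨m, hm, fun y hy h => ?_⟩
    refine absurd (hmax y hy) (not_le.2 (Finset.card_lt_card ?_))
    refine Finset.ssubset_iff_subset_ne.2 ⟨fun w hw => ?_, fun he => ?_⟩
    · rw [Finset.mem_filter] at hw ⊢
      exact ⟨hw.1, hw.2.trans h⟩
    · have : m ∈ Ω.filter fun w => Relation.TransGen r w y := Finset.mem_filter.2 ⟨hS hm, h⟩
      rw [← he, Finset.mem_filter] at this
      exact (claim m m this.2).1 rfl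
  set occ : Γ × Bool → Prop := fun p => ∃ y ∈ Ω, y ≠ p.1 ∧ dist (E p.1 y) (z p.1 p.2) ≤ 2 * η
    with hocc
  have hsel : ∀ p : Γ × Bool, p.1 ∈ Ω → occ p → ∃ m ∈ Ω, m ≠ p.1 ∧
      dist (E p.1 m) (z p.1 p.2) ≤ 3 * η ∧
      ∀ y ∈ Ω, y ≠ p.1 → dist (E p.1 y) (z p.1 p.2) ≤ 4 * η → ¬ r m y := by
    rintro ⟨x, i⟩ hx ⟨y₁, hy₁, hne, hd⟩
    simp only at hx hne hd ⊢
    obtain ⟨m, hm, hmax⟩ := hmax (Ω.filter fun y => y ≠ x ∧ dist (E x y) (z x i) ≤ 4 * η ∧
      (y = y₁ ∨ Relation.TransGen r y₁ y)) (Finset.filter_subset _ _)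
      ⟨y₁, Finset.mem_filter.2 ⟨hy₁, hne, by linarith, Or.inl rfl⟩⟩
    obtain ⟨hmΩ, hmx, hmd, hmy⟩ := Finset.mem_filter.1 hm
    refine ⟨m, hmΩ, hmx, ?_, fun y hy hyx hyd hmr => ?_⟩
    · rcases hmy with rfl | h
      · linarith
      · have hrm : r m x := by
          refine ⟨hx, hmΩ, hmx, ?_⟩
          have := dist_triangle (z x i) (E x m) (E x o)
          rw [dist_comm (z x i) (E x m)] at this
          linarith [hzo x hx i]
        have h1 := (step y₁ m x hrm (claim _ _ h).2).1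
        have := dist_triangle (E x m) (E x y₁) (z x i)
        rw [dist_comm (E x m) (E x y₁)] at this
        linarith
    · refine hmax y (Finset.mem_filter.2 ⟨hy, hyx, hyd, Or.inr ?_⟩) (.single hmr)
      rcases hmy with rfl | h
      · exact .single hmr
      · exact h.tail hmr
  haveI : Nonempty Γ := ⟨o⟩
  choose! m hm using hsel
  set Sl : Finset (Γ × Bool) := Ω ×ˢ Finset.univ with hSl
  have hSl1 : ∀ p ∈ Sl, p.1 ∈ Ω := fun p hp => (Finset.mem_product.1 hp).1
  have hocc_le : (Sl.filter occ).card ≤ Ω.card := by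
    refine Finset.card_le_card_of_injOn m (fun p hp => ?_) ?_
    · have hp' := Finset.mem_filter.1 (Finset.mem_coe.1 hp)
      exact (hm p (hSl1 p hp'.1) hp'.2).1
    · have key : ∀ p q : Γ × Bool, p.1 ∈ Ω → occ p → q.1 ∈ Ω → occ q → m p = m q → p.1 ≠ q.1 →
          ¬ dist (E p.1 (m p)) (E p.1 q.1) ≤ η := by
        intro p q hp hpo hq hqo he hne hd
        obtain ⟨a1, a2, a3, a4⟩ := hm p hp hpo
        obtain ⟨b1, b2, b3, b4⟩ := hm q hq hqo
        refine a4 q.1 hq hne.symm ?_ ⟨hq, a1, he ▸ b2, ?_⟩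
        · have := dist_triangle (E p.1 q.1) (E p.1 (m p)) (z p.1 p.2)
          rw [dist_comm (E p.1 q.1) (E p.1 (m p))] at this
          linarith
        · rw [he]
          have := dist_triangle (z q.1 q.2) (E q.1 (m q)) (E q.1 o)
          rw [dist_comm (z q.1 q.2) (E q.1 (m q))] at this
          linarith [hzo q.1 hq q.2]
      intro p hp q hq he
      have hp' := Finset.mem_filter.1 (Finset.mem_coe.1 hp)
      have hq' := Finset.mem_filter.1 (Finset.mem_coe.1 hq)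
      have hp1 := hSl1 p hp'.1
      have hq1 := hSl1 q hq'.1
      by_cases h1 : p.1 = q.1
      · by_contra hne
        have h2 : p.2 ≠ q.2 := fun h2 => hne (Prod.ext h1 h2)
        have a3 := (hm p hp1 hp'.2).2.2.1
        have b3 := (hm q hq1 hq'.2).2.2.1
        rw [← h1, ← he] at b3
        have := dist_triangle_left (z p.1 p.2) (z p.1 q.2) (E p.1 (m p))
        linarith [hz p.1 hp1 _ _ h2]
      · exfalso
        rcases hB p.1 hp1 q.1 hq1 h1 (m p) with h | h
        · exact key p q hp1 hp'.2 hq1 hq'.2 he h1 h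
        · rw [he] at h
          exact key q p hq1 hq'.2 hp1 hp'.2 he.symm (Ne.symm h1) h
  have hcard : Ω.card ≤ (Sl.filter fun p => ¬ occ p).card := by
    have h1 := Finset.card_filter_add_card_filter_not (s := Sl) occ
    have h2 : Sl.card = Ω.card * 2 := by simp [hSl]
    omega
  set U := Sl.filter fun p => ¬ occ p with hU
  set W : Γ × Bool → Finset Γ := fun p => F.filter fun y => dist (E p.1 y) (z p.1 p.2) ≤ η with hWd
  have hdisj : (U : Set (Γ × Bool)).PairwiseDisjoint W := by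
    intro p hp q hq hne
    have hp' := Finset.mem_filter.1 (Finset.mem_coe.1 hp)
    have hq' := Finset.mem_filter.1 (Finset.mem_coe.1 hq)
    have hp1 := hSl1 p hp'.1
    have hq1 := hSl1 q hq'.1
    refine Finset.disjoint_left.2 fun u hup huq => ?_
    have a := (Finset.mem_filter.1 hup).2
    have b := (Finset.mem_filter.1 huq).2
    by_cases h1 : p.1 = q.1
    · have h2 : p.2 ≠ q.2 := fun h2 => hne (Prod.ext h1 h2)
      rw [← h1] at b
      have := dist_triangle_left (z p.1 p.2) (z p.1 q.2) (E p.1 u)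
      linarith [hz p.1 hp1 _ _ h2]
    · rcases hB p.1 hp1 q.1 hq1 h1 u with h | h
      · refine hp'.2 ⟨q.1, hq1, Ne.symm h1, ?_⟩
        have := dist_triangle_left (E p.1 q.1) (z p.1 p.2) (E p.1 u)
        linarith
      · refine hq'.2 ⟨p.1, hp1, h1, ?_⟩
        have := dist_triangle_left (E q.1 p.1) (z q.1 q.2) (E q.1 u)
        linarith
  calc n * Ω.card ≤ n * U.card := Nat.mul_le_mul_left _ hcard
    _ = ∑ _p ∈ U, n := by rw [Finset.sum_const, smul_eq_mul, mul_comm]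
    _ ≤ ∑ p ∈ U, (W p).card := Finset.sum_le_sum fun p hp =>
        hW p.1 (hSl1 p (Finset.mem_filter.1 hp).1) p.2
    _ = (U.biUnion W).card := (Finset.card_biUnion hdisj).symm
    _ ≤ F.card := Finset.card_le_card (Finset.biUnion_subset.2 fun p _ => Finset.filter_subset _ _)

namespace Ctx
variable {Γ X : Type} [Group Γ] [MetricSpace X] [CompactSpace X] [MulAction Γ X] (c : Ctx Γ X)

/-- seen from `x`, the set `F` has `n` points near each of two separated places that are away from the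
direction of the origin -/
def Bad (η : ℝ) (n : ℕ) (F : Set Γ) (x : Γ) : Prop :=
  ∃ z₁ z₂ : X, 10 * η ≤ dist z₁ z₂ ∧ 10 * η ≤ dist z₁ (c.e x⁻¹) ∧ 10 * η ≤ dist z₂ (c.e x⁻¹) ∧
    (n : ℕ∞) ≤ {y ∈ F | dist (c.e (x⁻¹ * y)) z₁ ≤ η}.encard ∧
    (n : ℕ∞) ≤ {y ∈ F | dist (c.e (x⁻¹ * y)) z₂ ≤ η}.encard

/-- Forest lemma.  Plan: `R` from `beh η`; write `d_x(u,v) = dist (e (x⁻¹ u)) (e (x⁻¹ v))`; for `D x x' ≥ R`,
`∀ u, d_x(u,x') ≤ η ∨ d_{x'}(u,x) ≤ η`.  Take a maximal `R`-separated set `Ω` of bad points (`B = vol R`).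
`x' ≺ x` iff `x' ≠ x` and `d_x(x',1) ≥ 4η` (then `d_{x'}(x,1) ≤ η`).  For a chain `x₀ ≻ x₁ ≻ ... ≻ x_n`:
`d_{x₀}(x_n,x₁) ≤ η` and `d_{x₀}(x_n,1) ≥ 3η` (induction), so `TransGen ≺` is irreflexive.  A slot `(x,i)` is occupied
if some `y₁ ∈ Ω \ {x}` has `dist (e (x⁻¹ y₁)) z_i ≤ 2η`.  Witness sets of distinct unoccupied slots are disjoint.
For an occupied slot let `x'` be `≺⁺`-maximal in
`{y ∈ Ω \ {x} | dist (e (x⁻¹ y)) z_i ≤ 4η, y = y₁ ∨ y₁ ≺⁺ y}` (all its elements are in fact within `3η` of `z_i`);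
this map from occupied slots to `Ω` is injective.  So at least `|Ω|` slots are unoccupied: `n |Ω| ≤ |F|`. -/
theorem forest {η : ℝ} (hη : 0 < η) : ∃ B : ℕ, ∀ (F : Set Γ) (n : ℕ), F.Finite →
    n * {x ∈ F | c.Bad η n F x}.ncard ≤ B * F.ncard := by
  classical
  obtain ⟨R, hR⟩ := c.beh η hη
  refine ⟨c.vol R, fun F n hF => ?_⟩
  set A := {x ∈ F | c.Bad η n F x} with hA
  have hAf : A.Finite := hF.subset fun x hx => hx.1
  obtain ⟨Ω, ⟨hΩA, hΩs⟩, hmax⟩ := Set.Finite.exists_maximal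
    (s := {Ω : Set Γ | Ω ⊆ A ∧ Ω.Pairwise fun x y => R ≤ c.D x y})
    (hAf.finite_subsets.subset fun Ω h => h.1) ⟨∅, empty_subset _, pairwise_empty _⟩
  have hΩf : Ω.Finite := hAf.subset hΩA
  have hcov : A ⊆ c.N R Ω := by
    intro x hx
    by_contra hn
    have hfar : ∀ a ∈ Ω, R ≤ c.D a x := fun a ha => by
      by_contra h
      exact hn ⟨a, ha, (not_le.1 h).le⟩
    have := hmax (y := insert x Ω) ⟨insert_subset hx hΩA, hΩs.insert fun a ha _ =>
      ⟨c.D_comm a x ▸ hfar a ha, hfar a ha⟩⟩ (subset_insert _ _) (mem_insert _ _)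
    exact hn (c.subset_N R Ω this)
  have h1 : A.ncard ≤ Ω.ncard * c.vol R := by
    have := (encard_le_encard hcov).trans (c.encard_N_le R Ω)
    rw [← hAf.cast_ncard_eq, ← hΩf.cast_ncard_eq] at this
    exact_mod_cast this
  have hz : ∀ x ∈ Ω, ∃ z : Bool → X, (∀ i j, i ≠ j → 10 * η ≤ dist (z i) (z j)) ∧
      (∀ i, 10 * η ≤ dist (z i) (c.e x⁻¹)) ∧
      ∀ i, (n : ℕ∞) ≤ {y ∈ F | dist (c.e (x⁻¹ * y)) (z i) ≤ η}.encard := by
    intro x hx
    obtain ⟨z₁, z₂, a1, a2, a3, a4, a5⟩ := (hΩA hx).2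
    refine ⟨fun i => cond i z₁ z₂, ?_, ?_, ?_⟩
    · rintro (_ | _) (_ | _) h
      · exact absurd rfl h
      · simpa [dist_comm] using a1
      · exact a1
      · exact absurd rfl h
    · rintro (_ | _)
      exacts [a3, a2]
    · rintro (_ | _)
      exacts [a5, a4]
  haveI : Nonempty X := ⟨c.e 1⟩
  choose! z hz1 hz2 hz3 using hz
  have h2 := forest_core (fun x u => c.e (x⁻¹ * u)) 1 hη hΩf.toFinset hF.toFinset n z
    (fun x hx x' hx' hne u => by
      rw [Finite.mem_toFinset] at hx hx'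
      have := hR (x⁻¹ * x') (hΩs hx hx' hne) (c.e (x⁻¹ * u))
      rw [← c.equiv] at this
      simpa [mul_assoc] using this)
    (fun x hx => hz1 x (hΩf.mem_toFinset.1 hx))
    (fun x hx i => by simpa using hz2 x (hΩf.mem_toFinset.1 hx) i)
    (fun x hx i => by
      have := hz3 x (hΩf.mem_toFinset.1 hx) i
      rw [show {y ∈ F | dist (c.e (x⁻¹ * y)) (z x i) ≤ η} =
        ((hF.toFinset.filter fun y => dist (c.e (x⁻¹ * y)) (z x i) ≤ η : Finset Γ) : Set Γ) by
          ext y; simp, encard_coe_eq_coe_finsetCard] at this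
      exact_mod_cast this)
  rw [← ncard_eq_toFinset_card _ hΩf, ← ncard_eq_toFinset_card _ hF] at h2
  calc n * A.ncard ≤ n * (Ω.ncard * c.vol R) := Nat.mul_le_mul_left _ h1
    _ = c.vol R * (n * Ω.ncard) := by ring
    _ ≤ _ := Nat.mul_le_mul_left _ h2

end Ctx
end Crest.Agent.R224
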