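import Crest.Agent.R224.Hit0

/-! Potential theory II: hitting functions, `IsP`, greedy rays. -/

set_option autoImplicit false
open Filter Topology Set MeasureTheory
open scoped Pointwise

namespace Crest.Agent.R224

namespace Gen
variable {Γ : Type} [Group Γ] (G : Gen Γ)

variable {G} {ρ : ℝ}

namespace HitAux

theorem ind_L2 {Z : Set Γ} (hZ : Z.Finite) : L2 (ind Z) :=
  L2.of_finite (hZ.subset fun x hx => by
    by_contra h
    exact hx (indicator_of_notMem h _))

theorem iter_nonneg {f : Γ → ℝ} (hf : ∀ x, 0 ≤ f x) (n : ℕ) (x : Γ) : 0 ≤ G.P^[n] f x := by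
  have := G.iter_mono (f := fun _ => 0) hf n x
  rwa [G.iter_const] at this

theorem exists_pos_L2 [Countable Γ] : ∃ v : Γ → ℝ, L2 v ∧ ∀ x, 0 < v x := by
  obtain ⟨f, hf⟩ := exists_injective_nat Γ
  refine ⟨fun x => (1 / 2 : ℝ) ^ f x, ?_, fun x => by positivity⟩
  have h1 : Summable fun n : ℕ => (1 / 4 : ℝ) ^ n :=
    summable_geometric_of_lt_one (by norm_num) (by norm_num)
  have h2 := h1.comp_injective hf
  refine h2.congr fun x => ?_
  simp only [Function.comp]
  rw [← pow_mul, mul_comm, pow_mul]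
  norm_num

theorem exists_ge_P (f : Γ → ℝ) (x : Γ) : ∃ s ∈ G.S, G.P f x ≤ f (x * s) := by
  obtain ⟨s, hs, hmax⟩ := Finset.exists_max_image G.S (fun s => f (x * s)) ⟨1, G.one_mem⟩
  refine ⟨s, hs, ?_⟩
  simp only [P]
  rw [div_le_iff₀ G.cardR_pos]
  refine (Finset.sum_le_sum hmax).trans ?_
  simp [mul_comm]

end HitAux
open HitAux Hit0Aux

theorem Gap.hit_le_Gr (h : G.Gap ρ) {Z : Set Γ} (hZ : Z.Finite) (x : Γ) :
    G.hit Z x ≤ G.Gr (ind Z) x := by
  have hL := ind_L2 hZ
  have h0 : ∀ y, 0 ≤ G.Gr (ind Z) y := Gr_nonneg fun y => (ind_mem Z y).1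
  refine G.hit_le h0 (fun y hy => ?_) (fun y hy => ?_) x
  · rw [h.Gr_eq hL]
    have h1 := iter_nonneg (G := G) h0 1 y
    have h2 : ind Z y = 1 := by simp [ind, hy]
    simp only [Function.iterate_one] at h1
    linarith
  · have := h.Gr_eq hL y
    linarith [(ind_mem Z y).1]
theorem Gap.hit_L2 (h : G.Gap ρ) {Z : Set Γ} (hZ : Z.Finite) : L2 (G.hit Z) := by
  refine (h.Gr_L2 (ind_L2 hZ)).1.of_le fun x => ?_
  rw [abs_of_nonneg (G.hit_mem Z x).1]
  exact (h.hit_le_Gr hZ x).trans (le_abs_self _)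
theorem Gap.thin_finite (h : G.Gap ρ) {Z : Set Γ} (hZ : Z.Finite) : G.Thin Z := by
  exact fun x => h.tendsto_zero (h.hit_L2 hZ) x
/-- Hitting lemma. Plan: `u * hitn Z n ≤ ∑_{m<n} P^[m] w` by induction on `n`
(`u x ≤ u (x s) + w x`, `hitn ≤ 1`). -/
theorem Gap.hitting (h : G.Gap ρ) {u w : Γ → ℝ} (hu : G.Dom u w) (h0 : ∀ x, 0 ≤ u x)
    {Z : Set Γ} (hZ : ∀ x ∈ Z, u x = 0) (x : Γ) : u x * G.hit Z x ≤ G.Gr w x := by
  have hG : ∀ y, 0 ≤ G.Gr w y := Gr_nonneg hu.nonneg
  have key : ∀ n x, u x * G.hitn Z n x ≤ G.Gr w x := by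
    intro n
    induction n with
    | zero =>
      intro x
      by_cases hx : x ∈ Z
      · rw [hZ x hx, zero_mul]; exact hG x
      · simpa [hitn, ind, hx] using hG x
    | succ n ih =>
      intro x
      by_cases hx : x ∈ Z
      · rw [hZ x hx, zero_mul]; exact hG x
      · rw [hitn_succ_of_notMem G _ hx, h.Gr_eq hu.1]
        have hc := G.cardR_pos
        have h1 : ∀ s ∈ G.S, u x * G.hitn Z n (x * s) ≤ w x + G.Gr w (x * s) := by
          intro s hs
          have h2 := (abs_le.1 (hu.2 x s hs)).1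
          have h3 := hitn_mem G Z n (x * s)
          have h4 := ih (x * s)
          have h5 := hu.nonneg x
          nlinarith
        have h2 := Finset.sum_le_sum h1
        rw [← Finset.mul_sum, Finset.sum_add_distrib, Finset.sum_const, nsmul_eq_mul] at h2
        simp only [P]
        rw [← mul_div_assoc, div_le_iff₀ hc, add_mul, div_mul_cancel₀ _ hc.ne']
        linarith
  exact le_of_tendsto' ((G.tendsto_hitn Z x).const_mul (u x)) fun n => key n x
/-- Plan: `k ≤ 1_V + 1_F` with `F` finite, then `iter_ind_le`. -/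
theorem Gap.Hm_le_hit (h : G.Gap ρ) {k w : Γ → ℝ} (hk : G.Dom k w) (h1 : ∀ x, k x ≤ 1)
    {V : Set Γ} (hV : {x | x ∉ V ∧ 0 < k x}.Finite) {x : Γ} (hx : x ∉ V) :
    G.Hm k x ≤ G.hit (G.wall V) x := by
  have hF := h.tendsto_zero (ind_L2 hV) x
  have h2 := hF.const_add (G.hit (G.wall V) x)
  rw [add_zero] at h2
  refine le_of_tendsto_of_tendsto' (h.tendsto_Hm hk x) h2 fun n => ?_
  have h3 := G.iter_mono (f := k) (g := ind V + ind {x | x ∉ V ∧ 0 < k x}) (fun y => by
    have h4 := h1 y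
    have h5 := (ind_mem {x | x ∉ V ∧ 0 < k x} y).1
    simp only [Pi.add_apply]
    by_cases hy : y ∈ V
    · have : ind V y = 1 := by simp [ind, hy]
      linarith
    · have h6 := (ind_mem V y).1
      by_cases hk' : 0 < k y
      · have : ind {x | x ∉ V ∧ 0 < k x} y = 1 := by simp [ind, hy, hk']
        linarith
      · linarith [not_lt.1 hk']) n x
  rw [G.iter_add] at h3
  exact h3.trans (add_le_add (G.iter_ind_le hx n) le_rfl)
/-- a nonempty essential set is infinite. Plan: if `H` is finite, `1 - hit Hᶜ` is finitely supported and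
subharmonic, hence `≤ P^[n] (..) → 0`. -/
theorem Gap.infinite_of_ess (h : G.Gap ρ) {R : ℕ} {H : Set Γ} (hH : G.Ess R H) (hne : H.Nonempty) :
    H.Infinite := by
  intro hfin
  obtain ⟨x, hx⟩ := hne
  obtain ⟨v, -, hv⟩ := hH x hx
  have hL : L2 ((fun _ => (1:ℝ)) - G.hit Hᶜ) := by
    refine L2.of_finite (hfin.subset fun y hy => ?_)
    by_contra h'
    exact hy (by simp [G.hit_of_mem (mem_compl h')])
  have h1 := h.tendsto_zero hL v
  have h2 : (1 / 2 : ℝ) ≤ 0 := by
    refine ge_of_tendsto' h1 fun n => ?_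
    rw [G.iter_sub, G.iter_const]
    have := G.iter_hit_le Hᶜ n v
    simp only [Pi.sub_apply]
    linarith
  norm_num at h2
theorem Ess.smul {R : ℕ} {H : Set Γ} (hH : G.Ess R H) (g : Γ) : G.Ess R (g • H) := by
  rintro _ ⟨x, hx, rfl⟩
  obtain ⟨v, hv, hv'⟩ := hH x hx
  refine ⟨g * v, by simpa using hv, ?_⟩
  rw [← Set.smul_set_compl, G.hit_smul]
  exact hv'
/-- Greedy rays. Plan: add a strictly positive `ℓ²` function to `w` (`Γ` is countable); with
`ψ = q - λ Gr w` one has `P ψ = ψ + λ w`, so some neighbour has `ψ (x s) ≥ ψ x + λ w x`; choose `λ` with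
`ψ x₀ > δ`; `ψ` is strictly increasing along the ray (injectivity) and bounded above. -/
theorem Gap.greedy (h : G.Gap ρ) {q w : Γ → ℝ} (hq : G.P q = q) {B : ℝ} (hB : ∀ x, q x ≤ B)
    (hw : L2 w) (hw0 : ∀ x, 0 ≤ w x) {x₀ : Γ} {δ : ℝ} (hδ : δ < q x₀) :
    ∃ γ, G.IsRay γ ∧ γ 0 = x₀ ∧ (∀ n, δ ≤ q (γ n)) ∧ Summable fun n => w (γ n) := by
  haveI := G.countable
  obtain ⟨v, hv, hv0⟩ := exists_pos_L2 (Γ := Γ)
  have hW : L2 (w + v) := hw.add hv
  have hW0 : ∀ x, 0 < (w + v) x := fun x => add_pos_of_nonneg_of_pos (hw0 x) (hv0 x)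
  have hG : ∀ y, 0 ≤ G.Gr (w + v) y := Gr_nonneg fun y => (hW0 y).le
  set W := w + v with hWdef
  set l : ℝ := (q x₀ - δ) / (G.Gr W x₀ + 1) with hl
  have hl0 : 0 < l := div_pos (by linarith) (by linarith [hG x₀])
  set ψ : Γ → ℝ := q - fun x => l * G.Gr W x with hψ
  have hψq : ∀ x, ψ x ≤ q x := fun x => by
    have := mul_nonneg hl0.le (hG x)
    simp only [hψ, Pi.sub_apply]; linarith
  have hψ0 : δ ≤ ψ x₀ := by
    have h1 : l * (G.Gr W x₀ + 1) = q x₀ - δ := div_mul_cancel₀ _ (by linarith [hG x₀])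
    simp only [hψ, Pi.sub_apply]; linarith
  have hP : ∀ x, G.P ψ x = ψ x + l * W x := fun x => by
    have h1 := G.iter_sub q (fun x => l * G.Gr W x) 1
    rw [G.iter_const_mul] at h1
    simp only [Function.iterate_one, hq] at h1
    rw [hψ, h1]
    simp only [Pi.sub_apply]
    rw [h.Gr_eq hW x]; ring
  choose s hs hs' using exists_ge_P (G := G) ψ
  set γ : ℕ → Γ := fun n => (fun x => x * s x)^[n] x₀ with hγ
  have hstep : ∀ n, γ (n + 1) = γ n * s (γ n) := fun n => by
    simp only [hγ, Function.iterate_succ_apply']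
  have hinc : ∀ n, ψ (γ n) + l * W (γ n) ≤ ψ (γ (n + 1)) := fun n => by
    rw [hstep, ← hP]; exact hs' _
  have hmono : StrictMono (fun n => ψ (γ n)) := strictMono_nat_of_lt_succ fun n => by
    have := mul_pos hl0 (hW0 (γ n))
    have := hinc n
    linarith
  have hγ0 : γ 0 = x₀ := rfl
  refine ⟨γ, ⟨fun a b hab => hmono.injective (by simp only [hab]), fun n => ?_⟩, hγ0,
    fun n => ?_, ?_⟩
  · rw [hstep]; exact G.D_le_one.2 ⟨_, hs _, rfl⟩
  · have h1 : ψ (γ 0) ≤ ψ (γ n) := hmono.monotone (Nat.zero_le n)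
    rw [hγ0] at h1
    exact hψ0.trans (h1.trans (hψq _))
  · refine summable_of_sum_range_le (c := (B - δ) / l) (fun n => hw0 _) fun n => ?_
    rw [le_div_iff₀ hl0]
    have h1 : ∀ n, (∑ i ∈ Finset.range n, w (γ i)) * l ≤ ψ (γ n) - ψ (γ 0) := by
      intro n
      induction n with
      | zero => simp
      | succ n ih =>
        rw [Finset.sum_range_succ, add_mul]
        have h2 := hinc n
        have h3 : w (γ n) ≤ W (γ n) := by
          have := hv0 (γ n)
          simp only [hWdef, Pi.add_apply]; linarith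
        have h4 := mul_le_mul_of_nonneg_left h3 hl0.le
        linarith
    have h2 := h1 n
    have h3 := hψq (γ n)
    have h4 := hB (γ n)
    rw [hγ0] at h2
    linarith

end Gen
end Crest.Agent.R224
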