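import Crest.Agent.R224.Pot

/-! Potential theory II: hitting functions, `IsP`, greedy rays. -/

set_option autoImplicit false
open Filter Topology Set MeasureTheory
open scoped Pointwise

namespace Crest.Agent.R224

namespace Gen
variable {Γ : Type} [Group Γ] (G : Gen Γ)

namespace Hit0Aux

theorem ind_mem (V : Set Γ) (x : Γ) : 0 ≤ ind V x ∧ ind V x ≤ 1 := by
  by_cases h : x ∈ V <;> simp [ind, h]

theorem P_mem {f : Γ → ℝ} {a b : ℝ} (h : ∀ x, a ≤ f x ∧ f x ≤ b) (n : ℕ) (x : Γ) :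
    a ≤ G.P^[n] f x ∧ G.P^[n] f x ≤ b := by
  constructor
  · have := G.iter_mono (f := fun _ => a) (fun y => (h y).1) n x
    rwa [G.iter_const] at this
  · have := G.iter_mono (g := fun _ => b) (fun y => (h y).2) n x
    rwa [G.iter_const] at this

theorem hitn_mem (Z : Set Γ) (n : ℕ) (x : Γ) : 0 ≤ G.hitn Z n x ∧ G.hitn Z n x ≤ 1 := by
  induction n generalizing x with
  | zero => exact ind_mem Z x
  | succ n ih =>
    simp only [hitn]
    split_ifs
    · simp
    · exact P_mem G ih 1 x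

theorem hitn_of_mem {Z : Set Γ} (n : ℕ) {x : Γ} (h : x ∈ Z) : G.hitn Z n x = 1 := by
  cases n with
  | zero => simp [hitn, ind, h]
  | succ n => simp [hitn, h]

theorem hitn_succ_of_notMem {Z : Set Γ} (n : ℕ) {x : Γ} (h : x ∉ Z) :
    G.hitn Z (n + 1) x = G.P (G.hitn Z n) x := by
  simp [hitn, h]

theorem hitn_le_succ (Z : Set Γ) (n : ℕ) (x : Γ) : G.hitn Z n x ≤ G.hitn Z (n + 1) x := by
  induction n generalizing x with
  | zero =>
    by_cases h : x ∈ Z
    · rw [hitn_of_mem G _ h, hitn_of_mem G _ h]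
    · have := (hitn_mem G Z 1 x).1
      simpa [hitn, ind, h] using this
  | succ n ih =>
    by_cases h : x ∈ Z
    · rw [hitn_of_mem G _ h, hitn_of_mem G _ h]
    · rw [hitn_succ_of_notMem G _ h, hitn_succ_of_notMem G _ h]
      exact G.iter_mono ih 1 x

theorem bdd (Z : Set Γ) (x : Γ) : BddAbove (range fun n => G.hitn Z n x) :=
  ⟨1, by rintro _ ⟨n, rfl⟩; exact (hitn_mem G Z n x).2⟩

theorem hitn_le (Z : Set Γ) (n : ℕ) (x : Γ) : G.hitn Z n x ≤ G.hit Z x :=
  le_ciSup (bdd G Z x) n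

theorem iter_fixed {p : Γ → ℝ} (h : G.P p = p) (n : ℕ) : G.P^[n] p = p :=
  Function.iterate_fixed h n

end Hit0Aux
open Hit0Aux

theorem hit_mem (Z : Set Γ) (x : Γ) : 0 ≤ G.hit Z x ∧ G.hit Z x ≤ 1 := by
  exact ⟨(hitn_mem G Z 0 x).1.trans (hitn_le G Z 0 x), ciSup_le fun n => (hitn_mem G Z n x).2⟩
theorem tendsto_hitn (Z : Set Γ) (x : Γ) :
    Tendsto (fun n => G.hitn Z n x) atTop (𝓝 (G.hit Z x)) := by
  exact tendsto_atTop_ciSup (monotone_nat_of_le_succ fun n => hitn_le_succ G Z n x) (bdd G Z x)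
theorem hit_of_mem {Z : Set Γ} {x : Γ} (h : x ∈ Z) : G.hit Z x = 1 := by
  simp only [hit, hitn_of_mem G _ h, ciSup_const]
theorem P_hit_of_notMem {Z : Set Γ} {x : Γ} (h : x ∉ Z) : G.P (G.hit Z) x = G.hit Z x := by
  have h1 := G.tendsto_iter (fun y => G.tendsto_hitn Z y) 1 x
  have h2 := (tendsto_add_atTop_iff_nat 1).2 (G.tendsto_hitn Z x)
  simp only [hitn_succ_of_notMem G _ h] at h2
  simp only [Function.iterate_one] at h1
  exact tendsto_nhds_unique h1 h2
theorem P_hit_le (Z : Set Γ) (x : Γ) : G.P (G.hit Z) x ≤ G.hit Z x := by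
  by_cases h : x ∈ Z
  · rw [G.hit_of_mem h]
    exact (P_mem G (G.hit_mem Z) 1 x).2
  · exact (G.P_hit_of_notMem h).le
theorem iter_hit_le (Z : Set Γ) (n : ℕ) (x : Γ) : G.P^[n] (G.hit Z) x ≤ G.hit Z x := by
  induction n generalizing x with
  | zero => exact le_rfl
  | succ n ih =>
    rw [Function.iterate_succ_apply']
    exact (G.iter_mono ih 1 x).trans (G.P_hit_le Z x)
/-- smallest nonnegative function that is `≥ 1` on `Z` and superharmonic off `Z` -/
theorem hit_le {Z : Set Γ} {f : Γ → ℝ} (h0 : ∀ x, 0 ≤ f x) (h1 : ∀ x ∈ Z, 1 ≤ f x)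
    (hP : ∀ x ∉ Z, G.P f x ≤ f x) (x : Γ) : G.hit Z x ≤ f x := by
  refine ciSup_le fun n => ?_
  induction n generalizing x with
  | zero =>
    by_cases h : x ∈ Z
    · rw [hitn_of_mem G _ h]; exact h1 x h
    · simpa [hitn, ind, h] using h0 x
  | succ n ih =>
    by_cases h : x ∈ Z
    · rw [hitn_of_mem G _ h]; exact h1 x h
    · rw [hitn_succ_of_notMem G _ h]
      exact (G.iter_mono ih 1 x).trans (hP x h)
theorem hit_mono {Y Z : Set Γ} (h : Y ⊆ Z) (x : Γ) : G.hit Y x ≤ G.hit Z x := by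
  exact G.hit_le (fun y => (G.hit_mem Z y).1) (fun y hy => (G.hit_of_mem (h hy)).ge)
    (fun y _ => G.P_hit_le Z y) x
theorem hit_union (Y Z : Set Γ) (x : Γ) : G.hit (Y ∪ Z) x ≤ G.hit Y x + G.hit Z x := by
  refine G.hit_le (f := G.hit Y + G.hit Z)
    (fun y => add_nonneg (G.hit_mem Y y).1 (G.hit_mem Z y).1) (fun y hy => ?_) (fun y _ => ?_) x
  · have h1 := (G.hit_mem Y y).1
    have h2 := (G.hit_mem Z y).1
    simp only [Pi.add_apply]
    rcases hy with hy | hy
    · rw [G.hit_of_mem hy]; linarith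
    · rw [G.hit_of_mem hy]; linarith
  · have h1 := G.iter_add (G.hit Y) (G.hit Z) 1
    simp only [Function.iterate_one] at h1
    rw [h1]
    exact add_le_add (G.P_hit_le Y y) (G.P_hit_le Z y)
theorem hit_smul (g : Γ) (Z : Set Γ) (x : Γ) : G.hit (g • Z) (g * x) = G.hit Z x := by
  have hm : ∀ y, g * y ∈ g • Z ↔ y ∈ Z := fun y => Set.smul_mem_smul_set_iff (a := g) (x := y)
  have key : ∀ n x, G.hitn (g • Z) n (g * x) = G.hitn Z n x := by
    intro n
    induction n with
    | zero =>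
      intro x
      by_cases h : x ∈ Z
      · rw [hitn_of_mem G _ h, hitn_of_mem G _ ((hm x).2 h)]
      · have h' : g * x ∉ g • Z := fun h' => h ((hm x).1 h')
        simp [hitn, ind, h, h']
    | succ n ih =>
      intro x
      by_cases h : x ∈ Z
      · rw [hitn_of_mem G _ h, hitn_of_mem G _ ((hm x).2 h)]
      · have h' : g * x ∉ g • Z := fun h' => h ((hm x).1 h')
        rw [hitn_succ_of_notMem G _ h, hitn_succ_of_notMem G _ h']
        simp only [P, mul_assoc, ih]
  simp only [hit, key]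
variable {G} in
theorem Thin.mono {Y Z : Set Γ} (hZ : G.Thin Z) (h : Y ⊆ Z) : G.Thin Y := by
  intro x
  exact squeeze_zero (fun n => (P_mem G (G.hit_mem Y) n x).1)
    (fun n => G.iter_mono (G.hit_mono h) n x) (hZ x)
variable {G} in
theorem Thin.union {Y Z : Set Γ} (hY : G.Thin Y) (hZ : G.Thin Z) : G.Thin (Y ∪ Z) := by
  intro x
  have h1 := (hY x).add (hZ x)
  rw [add_zero] at h1
  refine squeeze_zero (fun n => (P_mem G (G.hit_mem _) n x).1) (fun n => ?_) h1
  have h2 := G.iter_mono (g := G.hit Y + G.hit Z) (G.hit_union Y Z) n x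
  rw [G.iter_add] at h2
  exact h2
/-- to get from outside `V` into `V` the walk must hit the wall -/
theorem iter_ind_le {V : Set Γ} {x : Γ} (hx : x ∉ V) (n : ℕ) :
    G.P^[n] (ind V) x ≤ G.hit (G.wall V) x := by
  induction n generalizing x with
  | zero => simpa [ind, hx] using (G.hit_mem _ x).1
  | succ n ih =>
    by_cases h : x ∈ G.wall V
    · rw [G.hit_of_mem h]
      exact (P_mem G (ind_mem V) _ x).2
    · rw [Function.iterate_succ_apply', ← G.P_hit_of_notMem h]
      refine G.P_mono' fun s hs => ih fun hs' => h ⟨x * s, G.D_le_one.2 ⟨s, hs, rfl⟩, ?_⟩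
      simp [cross, hx, hs']
theorem abs_iter_ind_sub (V : Set Γ) (n : ℕ) (x : Γ) :
    |G.P^[n] (ind V) x - ind V x| ≤ G.hit (G.wall V) x := by
  by_cases hx : x ∈ V
  · have h1 := G.iter_ind_le (V := Vᶜ) (x := x) (by simpa using hx) n
    rw [G.wall_compl] at h1
    have h2 : ind Vᶜ = (fun _ => (1:ℝ)) - ind V := by
      funext y
      by_cases hy : y ∈ V <;> simp [ind, hy]
    rw [h2, G.iter_sub, G.iter_const] at h1
    have h3 := (P_mem G (ind_mem V) n x).2
    have h4 : ind V x = 1 := by simp [ind, hx]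
    simp only [Pi.sub_apply] at h1
    rw [h4, abs_of_nonpos (by linarith)]
    linarith
  · have h4 : ind V x = 0 := by simp [ind, hx]
    rw [h4, sub_zero, abs_of_nonneg (P_mem G (ind_mem V) n x).1]
    exact G.iter_ind_le hx n
/-- Plan: `|P^[n+m] 1_V - P^[n] 1_V| ≤ P^[n] (hit (wall V))`, so `P^[n] 1_V` is Cauchy; the limit `p` is
harmonic with `|p - 1_V| ≤ hit (wall V)`. -/
theorem exists_isP {V : Set Γ} (h : G.Thin (G.wall V)) : ∃ p, G.IsP V p := by
  have hc : ∀ x, CauchySeq fun n => G.P^[n] (ind V) x := by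
    intro x
    refine cauchySeq_of_le_tendsto_0' (fun n => G.P^[n] (G.hit (G.wall V)) x) (fun n m hnm => ?_)
      (h x)
    obtain ⟨j, rfl⟩ := Nat.exists_eq_add_of_le hnm
    rw [dist_comm, Real.dist_eq, Function.iterate_add_apply]
    have h1 : G.P^[n] (G.P^[j] (ind V)) x - G.P^[n] (ind V) x
        = G.P^[n] (G.P^[j] (ind V) - ind V) x := by
      rw [G.iter_sub]; rfl
    rw [h1]
    exact (G.abs_iter_le _ n x).trans (G.iter_mono (fun y => G.abs_iter_ind_sub V j y) n x)
  have ht : ∀ x, Tendsto (fun n => G.P^[n] (ind V) x) atTop (𝓝 (G.Hm (ind V) x)) :=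
    fun x => (hc x).tendsto_limUnder
  refine ⟨G.Hm (ind V), ?_, fun x => ⟨?_, ?_⟩, fun x => ?_⟩
  · funext x
    have h1 := G.tendsto_iter ht 1 x
    have h2 := (tendsto_add_atTop_iff_nat 1).2 (ht x)
    simp only [Function.iterate_succ_apply'] at h2
    simp only [Function.iterate_one] at h1
    exact tendsto_nhds_unique h1 h2
  · exact ge_of_tendsto' (ht x) fun n => (P_mem G (ind_mem V) n x).1
  · exact le_of_tendsto' (ht x) fun n => (P_mem G (ind_mem V) n x).2
  · refine squeeze_zero (fun n => ?_) (fun n => G.iter_mono (fun y => ?_) n x) (h x)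
    · have := G.iter_mono (f := fun _ => 0) (g := fun y => |G.Hm (ind V) y - ind V y|)
        (fun y => abs_nonneg _) n x
      rwa [G.iter_const] at this
    · exact le_of_tendsto' ((ht y).sub_const (ind V y)).abs fun m => G.abs_iter_ind_sub V m y
variable {G} in
/-- Plan: `p - 1_V = P^[n] (p - 1_V) + (P^[n] 1_V - 1_V)`. -/
theorem IsP.abs_sub_le {V : Set Γ} {p : Γ → ℝ} (h : G.IsP V p) (x : Γ) :
    |p x - ind V x| ≤ G.hit (G.wall V) x := by
  have h1 := (h.2.2 x).add_const (G.hit (G.wall V) x)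
  rw [zero_add] at h1
  refine ge_of_tendsto' h1 fun n => ?_
  have h2 : p x - ind V x = G.P^[n] (p - ind V) x + (G.P^[n] (ind V) x - ind V x) := by
    rw [G.iter_sub, iter_fixed G h.1]; simp
  rw [h2]
  exact (abs_add_le _ _).trans (add_le_add (G.abs_iter_le _ n x) (G.abs_iter_ind_sub V n x))
variable {G} in
theorem IsP.compl {V : Set Γ} {p : Γ → ℝ} (h : G.IsP V p) : G.IsP Vᶜ fun x => 1 - p x := by
  refine ⟨?_, fun x => ⟨by linarith [(h.2.1 x).2], by linarith [(h.2.1 x).1]⟩, fun x => ?_⟩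
  · have h1 := G.iter_sub (fun _ => (1:ℝ)) p 1
    rw [G.iter_const, iter_fixed G h.1] at h1
    exact h1
  · have h2 : (fun y => |1 - p y - ind Vᶜ y|) = fun y => |p y - ind V y| := by
      funext y
      by_cases hy : y ∈ V
      · simp only [ind, indicator_of_mem hy, indicator_of_notMem (notMem_compl_iff.2 hy), sub_zero]
        exact abs_sub_comm _ _
      · simp only [ind, indicator_of_notMem hy, indicator_of_mem (mem_compl hy), sub_zero]
        rw [sub_sub_cancel_left, abs_neg]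
    simp only [h2]
    exact h.2.2 x
variable {G} in
/-- `|p - 1_{p > 1/2}| = min p (1 - p) ≤ |p - 1_V|` -/
theorem IsP.half {V : Set Γ} {p : Γ → ℝ} (h : G.IsP V p) : G.IsP {x | 1 / 2 < p x} p := by
  refine ⟨h.1, h.2.1, fun x => ?_⟩
  refine squeeze_zero (fun n => ?_) (fun n => G.iter_mono (fun y => ?_) n x) (h.2.2 x)
  · have := G.iter_mono (f := fun _ => 0) (g := fun y => |p y - ind {x | 1 / 2 < p x} y|)
      (fun y => abs_nonneg _) n x
    rwa [G.iter_const] at this
  · obtain ⟨h0, h1⟩ := h.2.1 y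
    have ha : |p y - 1| = 1 - p y := by rw [abs_sub_comm, abs_of_nonneg (by linarith)]
    have hb : |p y - 0| = p y := by rw [sub_zero, abs_of_nonneg h0]
    by_cases hy : y ∈ V <;> by_cases hp : y ∈ {x | 1 / 2 < p x} <;>
      simp only [ind, indicator_of_mem, indicator_of_notMem, hy, hp, not_false_eq_true, ha, hb,
        le_refl]
    · simp only [mem_setOf_eq, not_lt] at hp; linarith
    · simp only [mem_setOf_eq] at hp; linarith
variable {G} in
/-- Harnack at the wall of `{p > 1/2}` -/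
theorem IsP.wall_half {V : Set Γ} {p : Γ → ℝ} (h : G.IsP V p) {x : Γ}
    (hx : x ∈ G.wall {x | 1 / 2 < p x}) :
    1 / (2 * G.S.card : ℝ) ≤ p x ∧ p x ≤ 1 - 1 / (2 * G.S.card : ℝ) := by
  obtain ⟨y, hy, hc⟩ := hx
  have hS := G.cardR_pos
  have hS1 : (1:ℝ) ≤ G.S.card := by exact_mod_cast G.S_card_pos
  have h1 := G.le_card_mul_P (fun z => (h.2.1 z).1) hy
  have h2 := G.le_card_mul_P (fun z => (h.compl.2.1 z).1) hy
  rw [h.1] at h1
  rw [h.compl.1] at h2
  have h3 : 1 / (2 * G.S.card : ℝ) ≤ 1 / 2 :=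
    one_div_le_one_div_of_le (by norm_num) (by linarith)
  simp only [cross, mem_setOf_eq] at hc
  by_cases hpx : 1 / 2 < p x
  · have hpy : p y ≤ 1 / 2 := by
      by_contra h'
      exact hc ⟨fun _ => not_le.1 h', fun _ => hpx⟩
    refine ⟨by linarith, ?_⟩
    have : 1 / (2 * G.S.card : ℝ) ≤ 1 - p x := by
      rw [div_le_iff₀ (by linarith)]
      simp only at h2
      linarith
    linarith
  · have hpy : 1 / 2 < p y := by
      by_contra h'
      exact hc ⟨fun h'' => absurd h'' hpx, fun h'' => absurd h'' h'⟩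
    refine ⟨?_, by linarith [not_lt.1 hpx]⟩
    rw [div_le_iff₀ (by linarith)]
    linarith

end Gen
end Crest.Agent.R224
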