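import Crest.Agent.R224.Pot

/-! Non-approximable finite energy function ⇒ linear isoperimetric inequality. -/

set_option autoImplicit false
open Filter Topology Set MeasureTheory
open scoped Pointwise

namespace Crest.Agent.R224

/-- finite dimensional trace estimate -/
theorem Iso.trace_le {ι : Type} [Fintype ι] (W : Submodule ℝ (EuclideanSpace ℝ ι)) (a C : ℝ)
    (h : ∀ x : ι, ∃ v ∈ W, ‖v‖ ^ 2 ≤ C ∧ v x = a) :
    a ^ 2 * Fintype.card ι ≤ C * Module.finrank ℝ W := by
  classical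
  set w := stdOrthonormalBasis ℝ W with hw
  have key : ∀ x : ι, a ^ 2 ≤ C * ∑ i, ((w i : EuclideanSpace ℝ ι) x) ^ 2 := by
    intro x
    obtain ⟨v, hv, hC, hx⟩ := h x
    have h1 : (⟨v, hv⟩ : W) = ∑ i, (w.repr ⟨v, hv⟩ i) • w i := (w.sum_repr _).symm
    have h2 : v = ∑ i, (w.repr ⟨v, hv⟩ i) • (w i : EuclideanSpace ℝ ι) := by
      have := congrArg (Subtype.val) h1
      simpa using this
    have h3 : a = ∑ i, (w.repr ⟨v, hv⟩ i) * (w i : EuclideanSpace ℝ ι) x := by
      rw [← hx]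
      conv_lhs => rw [h2]
      simp
    have h4 : ∑ i, (w.repr ⟨v, hv⟩ i) ^ 2 = ‖v‖ ^ 2 := by
      have := w.repr.norm_map ⟨v, hv⟩
      have h5 : ‖w.repr ⟨v, hv⟩‖ ^ 2 = ∑ i, (w.repr ⟨v, hv⟩ i) ^ 2 := by
        rw [EuclideanSpace.real_norm_sq_eq]
      rw [← h5, this]; rfl
    rw [h3]
    refine (Finset.sum_mul_sq_le_sq_mul_sq _ _ _).trans ?_
    rw [h4]
    exact mul_le_mul_of_nonneg_right hC (Finset.sum_nonneg fun _ _ => sq_nonneg _)
  calc a ^ 2 * Fintype.card ι = ∑ _x : ι, a ^ 2 := by simp [mul_comm]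
    _ ≤ ∑ x : ι, C * ∑ i, ((w i : EuclideanSpace ℝ ι) x) ^ 2 := Finset.sum_le_sum fun x _ => key x
    _ = C * ∑ i, ∑ x : ι, ((w i : EuclideanSpace ℝ ι) x) ^ 2 := by
      rw [← Finset.mul_sum, Finset.sum_comm]
    _ = C * Module.finrank ℝ W := by
      congr 1
      have : ∀ i, ∑ x : ι, ((w i : EuclideanSpace ℝ ι) x) ^ 2 = 1 := by
        intro i
        rw [← EuclideanSpace.real_norm_sq_eq]
        have : ‖(w i : EuclideanSpace ℝ ι)‖ = 1 := w.orthonormal.1 i
        rw [this]; norm_num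
      simp [this]

namespace Gen
variable {Γ : Type} [Group Γ] (G : Gen Γ)

/-- maximum principle on finite sets -/
theorem iso_max [Infinite Γ] {u : Γ → ℝ} (hu : G.P u = u) (F : Finset Γ)
    (h0 : ∀ y ∈ G.N 1 F \ (F : Set Γ), u y = 0) : ∀ x ∈ F, u x ≤ 0 := by
  classical
  set g : Γ → ℝ := fun x => if x ∈ F then max (u x) 0 else 0 with hg
  have g0 : ∀ x, 0 ≤ g x := fun x => by
    simp only [hg]; split_ifs
    · exact le_max_right _ _
    · exact le_rfl
  have hP0 : ∀ x, 0 ≤ G.P g x := fun x =>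
    div_nonneg (Finset.sum_nonneg fun _ _ => g0 _) (Nat.cast_nonneg _)
  have hsub : ∀ x, g x ≤ G.P g x := by
    intro x
    by_cases hx : x ∈ F
    · have : g x = max (u x) 0 := by simp [hg, hx]
      rw [this]
      refine max_le ?_ (hP0 x)
      conv_lhs => rw [← hu]
      refine div_le_div_of_nonneg_right (Finset.sum_le_sum fun s hs => ?_) (Nat.cast_nonneg _)
      by_cases hy : x * s ∈ F
      · simp [hg, hy]
      · have : u (x * s) = 0 := h0 _ ⟨⟨x, hx, by simpa using G.len_le_one.2 hs⟩, hy⟩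
        rw [this]; exact g0 _
    · have : g x = 0 := by simp [hg, hx]
      rw [this]; exact hP0 x
  obtain ⟨z, hz⟩ := Infinite.exists_notMem_finset F
  obtain ⟨m, -, hm⟩ := (insert z F).exists_max_image g ⟨z, Finset.mem_insert_self _ _⟩
  have hmax : ∀ y, g y ≤ g m := by
    intro y
    by_cases hy : y ∈ F
    · exact hm y (Finset.mem_insert_of_mem hy)
    · have : g y = 0 := by simp [hg, hy]
      rw [this]; exact g0 _
  intro x hx
  have h1 := G.const_of_max hsub hmax x
  have h2 := G.const_of_max hsub hmax z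
  have h3 : g z = 0 := by simp [hg, hz]
  have h4 : g x = max (u x) 0 := by simp [hg, hx]
  have : max (u x) 0 = 0 := by rw [← h4, h1, ← h2, h3]
  exact (le_max_left _ _).trans this.le

/-- harmonic functions -/
def harmSub : Submodule ℝ (Γ → ℝ) where
  carrier := {u | G.P u = u}
  add_mem' := by
    intro a b ha hb
    have := G.iter_add a b 1
    simp only [Function.iterate_one] at this
    show G.P (a + b) = a + b
    rw [this, ha, hb]
  zero_mem' := by
    funext x; simp [P]
  smul_mem' := by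
    intro c a ha
    have := G.iter_const_mul c a 1
    simp only [Function.iterate_one] at this
    show G.P (fun x => c * a x) = fun x => c * a x
    rw [this, ha]

theorem iso_of_harm [Infinite Γ] {h : Γ → ℝ} (hh : G.P h = h)
    (hE : Summable fun x => ∑ s ∈ G.S, (h (x * s) - h x) ^ 2) {x₀ s₀ : Γ} (hs : s₀ ∈ G.S)
    (hne : h (x₀ * s₀) - h x₀ ≠ 0) :
    ∃ b : ℝ, 0 < b ∧ ∀ F : Finset Γ, b * F.card ≤ ((G.N 1 F \ F).ncard : ℝ) := by
  classical
  set a := h (x₀ * s₀) - h x₀ with ha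
  set C := ∑' x, ∑ s ∈ G.S, (h (x * s) - h x) ^ 2 with hC
  have hnn : ∀ x, 0 ≤ ∑ s ∈ G.S, (h (x * s) - h x) ^ 2 := fun x =>
    Finset.sum_nonneg fun _ _ => sq_nonneg _
  have hsingle : ∀ x, (h (x * s₀) - h x) ^ 2 ≤ ∑ s ∈ G.S, (h (x * s) - h x) ^ 2 := fun x =>
    Finset.single_le_sum (f := fun s => (h (x * s) - h x) ^ 2) (fun _ _ => sq_nonneg _) hs
  have ha2 : 0 < a ^ 2 := by positivity
  have hCpos : 0 < C := by
    have := hE.le_tsum x₀ fun y _ => hnn y
    exact ha2.trans_le ((hsingle x₀).trans this)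
  refine ⟨a ^ 2 / C, div_pos ha2 hCpos, fun F => ?_⟩
  have hfin : (G.N 1 (F : Set Γ) \ F).Finite := (G.finite_N 1 F.finite_toSet).subset sdiff_subset
  have : Fintype (G.N 1 (F : Set Γ) \ F : Set Γ) := hfin.fintype
  let Φ : G.harmSub →ₗ[ℝ] EuclideanSpace ℝ F :=
    { toFun := fun u => WithLp.toLp 2 fun x => u.1 (x * s₀) - u.1 x
      map_add' := by intro u v; ext x; simp; ring
      map_smul' := by intro c u; ext x; simp; ring }
  let Ψ : G.harmSub →ₗ[ℝ] ((G.N 1 (F : Set Γ) \ F : Set Γ) → ℝ) :=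
    { toFun := fun u x => u.1 x
      map_add' := by intro u v; ext x; simp
      map_smul' := by intro c u; ext x; simp }
  have hker : LinearMap.ker Ψ ≤ LinearMap.ker Φ := by
    intro u hu
    have h0 : ∀ y ∈ G.N 1 F \ (F : Set Γ), u.1 y = 0 := fun y hy => congrFun hu ⟨y, hy⟩
    have h1 := G.iso_max u.2 F h0
    have h2 := G.iso_max (-u).2 F fun y hy => by simp [h0 y hy]
    have h3 : ∀ x ∈ F, u.1 x = 0 := fun x hx =>
      le_antisymm (h1 x hx) (by simpa using h2 x hx)
    rw [LinearMap.mem_ker]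
    ext x
    have h4 : u.1 (x * s₀) = 0 := by
      by_cases hy : (x : Γ) * s₀ ∈ F
      · exact h3 _ hy
      · exact h0 _ ⟨⟨x, x.2, by simpa using G.len_le_one.2 hs⟩, hy⟩
    simp [Φ, h4, h3 x x.2]
  have hrank : Module.finrank ℝ (LinearMap.range Φ) ≤ (G.N 1 (F : Set Γ) \ F).ncard := by
    have e1 := (LinearMap.quotKerEquivRange Ψ)
    have : Module.Finite ℝ (G.harmSub ⧸ LinearMap.ker Ψ) := Module.Finite.equiv e1.symm
    have h1 : LinearMap.range Φ = LinearMap.range ((LinearMap.ker Ψ).liftQ Φ hker) :=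
      (Submodule.range_liftQ _ _ _).symm
    rw [h1]
    refine (LinearMap.finrank_range_le _).trans ?_
    rw [e1.finrank_eq]
    refine (Submodule.finrank_le _).trans ?_
    rw [Module.finrank_fintype_fun_eq_card, ← Nat.card_eq_fintype_card]
    rfl
  have htr := Iso.trace_le (LinearMap.range Φ) a C (by
    intro x
    have hg : G.P (fun y => h (x₀ * (x : Γ)⁻¹ * y)) = fun y => h (x₀ * (x : Γ)⁻¹ * y) := by
      funext y
      have := G.iter_tr h (x₀ * (x : Γ)⁻¹) 1 y
      simp only [Function.iterate_one] at this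
      rw [this, hh]
    refine ⟨Φ ⟨_, hg⟩, LinearMap.mem_range_self _ _, ?_, ?_⟩
    · rw [EuclideanSpace.real_norm_sq_eq]
      set g := x₀ * (x : Γ)⁻¹
      calc ∑ y : F, (Φ ⟨_, hg⟩ y) ^ 2
          ≤ ∑ y : F, ∑ s ∈ G.S, (h (g * y * s) - h (g * y)) ^ 2 := by
            refine Finset.sum_le_sum fun y _ => ?_
            have := hsingle (g * y)
            simpa [Φ, mul_assoc] using this
        _ = ∑ y ∈ F.image (g * ·), ∑ s ∈ G.S, (h (y * s) - h y) ^ 2 := by
            rw [Finset.sum_image fun a _ b _ hab => mul_left_cancel hab]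
            exact Finset.sum_coe_sort F fun y => ∑ s ∈ G.S, (h (g * y * s) - h (g * y)) ^ 2
        _ ≤ C := hE.sum_le_tsum _ fun y _ => hnn y
    · simp [Φ, ha, mul_assoc])
  rw [Fintype.card_coe] at htr
  rw [div_mul_eq_mul_div, div_le_iff₀ hCpos]
  refine htr.trans ?_
  rw [mul_comm]
  exact mul_le_mul_of_nonneg_right (by exact_mod_cast hrank) hCpos.le

/-- gradient -/
noncomputable def grad (k : Γ → ℝ) (x : Γ) : EuclideanSpace ℝ G.S :=
  WithLp.toLp 2 fun s => k (x * s) - k x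

theorem norm_grad (k : Γ → ℝ) (x : Γ) :
    ‖G.grad k x‖ ^ 2 = ∑ s ∈ G.S, (k (x * s) - k x) ^ 2 := by
  rw [EuclideanSpace.real_norm_sq_eq]
  exact Finset.sum_coe_sort G.S fun s => (k (x * s) - k x) ^ 2

theorem memℓp_grad {k : Γ → ℝ} (h : Summable fun x => ∑ s ∈ G.S, (k (x * s) - k x) ^ 2) :
    Memℓp (G.grad k) 2 := by
  refine memℓp_gen ?_
  simpa [G.norm_grad] using h

theorem summable_of_fin {u : Γ → ℝ} (hu : (Function.support u).Finite) :
    Summable fun x => ∑ s ∈ G.S, (u (x * s) - u x) ^ 2 := by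
  refine summable_of_hasFiniteSupport ((G.finite_N 1 hu).subset fun x hx => ?_)
  by_contra hN
  refine hx (Finset.sum_eq_zero fun s hs => ?_)
  have h1 : u x = 0 := by
    by_contra h; exact hN (G.subset_N 1 _ h)
  have h2 : u (x * s) = 0 := by
    by_contra h
    exact hN ⟨x * s, h, by rw [G.D_comm]; simpa using G.len_le_one.2 hs⟩
  simp [h1, h2]

/-- gradients of finitely supported functions -/
def finGrad : Submodule ℝ (lp (fun _ : Γ => EuclideanSpace ℝ G.S) 2) where
  carrier := {p | ∃ u : Γ → ℝ, (Function.support u).Finite ∧ ∀ x, p x = G.grad u x}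
  add_mem' := by
    rintro p q ⟨u, hu, hp⟩ ⟨v, hv, hq⟩
    refine ⟨u + v, (hu.union hv).subset (Function.support_add _ _), fun x => ?_⟩
    rw [lp.coeFn_add, Pi.add_apply, hp, hq]
    ext s; simp [grad]; ring
  zero_mem' := ⟨0, by simp, fun x => by ext s; simp [grad]⟩
  smul_mem' := by
    rintro c p ⟨u, hu, hp⟩
    refine ⟨c • u, hu.subset (Function.support_const_smul_subset _ _), fun x => ?_⟩
    rw [lp.coeFn_smul, Pi.smul_apply, hp]
    ext s; simp [grad]; ring

theorem grad_of_closure {p : lp (fun _ : Γ => EuclideanSpace ℝ G.S) 2}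
    (hp : p ∈ closure (G.finGrad : Set (lp (fun _ : Γ => EuclideanSpace ℝ G.S) 2))) :
    ∃ u : Γ → ℝ, ∀ x, p x = G.grad u x := by
  obtain ⟨q, hq, hl⟩ := mem_closure_iff_seq_limit.1 hp
  choose u _ hu using hq
  have hpt : ∀ x (s : G.S), Tendsto (fun n => u n (x * s) - u n x) atTop (𝓝 (p x s)) := by
    intro x s
    have h1 : Tendsto (fun n => q n x) atTop (𝓝 (p x)) :=
      ((lp.evalCLM ℝ (fun _ : Γ => EuclideanSpace ℝ G.S) 2 x).continuous.tendsto p).comp hl
    have h2 : Tendsto (fun n => q n x s) atTop (𝓝 (p x s)) :=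
      ((EuclideanSpace.proj s : EuclideanSpace ℝ G.S →L[ℝ] ℝ).continuous.tendsto _).comp h1
    simpa [hu, grad] using h2
  have hconv : ∀ y, ∃ l, Tendsto (fun n => u n y - u n 1) atTop (𝓝 l) := by
    intro y
    refine G.conn_ind (p := fun y => ∃ l, Tendsto (fun n => u n y - u n 1) atTop (𝓝 l))
      (x := 1) ⟨0, by simp⟩ ?_ y
    rintro y z hyz ⟨l, hl⟩
    obtain ⟨s, hs, rfl⟩ := G.D_le_one.1 hyz
    refine ⟨_, ((hpt y ⟨s, hs⟩).add hl).congr fun n => ?_⟩
    simp
  choose v hv using hconv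
  refine ⟨v, fun x => ?_⟩
  ext s
  refine tendsto_nhds_unique (hpt x s) (((hv (x * s)).sub (hv x)).congr fun n => ?_)
  ring

theorem harm_of_orth {h : Γ → ℝ} {q : lp (fun _ : Γ => EuclideanSpace ℝ G.S) 2}
    (hq : ∀ x, q x = G.grad h x) (ho : ∀ p ∈ G.finGrad, inner ℝ p q = 0) : G.P h = h := by
  classical
  funext x
  set δ : Γ → ℝ := fun y => if y = x then 1 else 0 with hδ
  have hfin : (Function.support δ).Finite :=
    (finite_singleton x).subset fun y hy => by
      by_contra h; exact hy (by simp [hδ, show y ≠ x from h])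
  have h1 := ho ⟨G.grad δ, G.memℓp_grad (G.summable_of_fin hfin)⟩ ⟨δ, hfin, fun _ => rfl⟩
  rw [lp.inner_eq_tsum] at h1
  have h2 : ∀ y, inner ℝ (G.grad δ y) (q y) =
      ∑ s ∈ G.S, ((if y = x * s⁻¹ then h (y * s) - h y else 0) -
        (if y = x then h (y * s) - h y else 0)) := by
    intro y
    rw [hq, ← Finset.sum_coe_sort G.S]
    simp only [grad, PiLp.inner_apply, RCLike.inner_apply, conj_trivial]
    refine Finset.sum_congr rfl fun s _ => ?_
    have : (y * s = x) ↔ y = x * (s : Γ)⁻¹ := eq_mul_inv_iff_mul_eq.symm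
    simp only [hδ, this]
    split_ifs <;> ring
  have h3 : ∑' y, inner ℝ (G.grad δ y) (q y) =
      ∑ s ∈ G.S, ((h x - h (x * s⁻¹)) - (h (x * s) - h x)) := by
    simp_rw [h2]
    refine HasSum.tsum_eq (hasSum_sum fun s _ => HasSum.sub ?_ ?_)
    · have e : (fun y => if y = x * s⁻¹ then h (y * s) - h y else 0) =
          fun y => if y = x * s⁻¹ then h x - h (x * s⁻¹) else 0 := by
        funext y
        split_ifs with hy
        · simp [hy]
        · rfl
      rw [e]; exact hasSum_ite_eq _ _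
    · have e : (fun y => if y = x then h (y * s) - h y else 0) =
          fun y => if y = x then h (x * s) - h x else 0 := by
        funext y
        split_ifs with hy
        · simp [hy]
        · rfl
      rw [e]; exact hasSum_ite_eq _ _
  have h4 : ∑ s ∈ G.S, h (x * s⁻¹) = ∑ s ∈ G.S, h (x * s) :=
    Finset.sum_bij' (fun s _ => s⁻¹) (fun s _ => s⁻¹) (fun s hs => G.inv_mem s hs)
      (fun s hs => G.inv_mem s hs) (by simp) (by simp) (by simp)
  have h5 : ∑ s ∈ G.S, ((h x - h (x * s⁻¹)) - (h (x * s) - h x)) = 0 := h3 ▸ h1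
  simp only [Finset.sum_sub_distrib, h4, Finset.sum_const, nsmul_eq_mul] at h5
  have hc : (0 : ℝ) < G.S.card := by exact_mod_cast G.S_card_pos
  simp only [P]
  rw [div_eq_iff hc.ne']
  linarith

/-- Plan.  Work in the Hilbert space `ℓ²(Γ × S)`.  Let `B` be the closure of the gradients of finitely
supported functions; the component of `∇f` orthogonal to `B` is the gradient of a nonconstant harmonic
function `h` of finite energy.  The translates of `∇h` restricted to `F` span a space of dimension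
at most `|N 1 F \ F|` (maximum principle); a trace estimate concludes. -/
theorem iso_of_not_approx [Infinite Γ] {f w : Γ → ℝ} (hf : G.Dom f w) (hna : ¬ G.Approx f) :
    ∃ b : ℝ, 0 < b ∧ ∀ F : Finset Γ, b * F.card ≤ ((G.N 1 F \ F).ncard : ℝ) := by
  have hfE : Summable fun x => ∑ s ∈ G.S, (f (x * s) - f x) ^ 2 := by
    refine Summable.of_nonneg_of_le (fun x => Finset.sum_nonneg fun _ _ => sq_nonneg _)
      (fun x => ?_) (hf.1.mul_left (G.S.card : ℝ))
    calc ∑ s ∈ G.S, (f (x * s) - f x) ^ 2 ≤ ∑ _s ∈ G.S, w x ^ 2 :=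
          Finset.sum_le_sum fun s hs => by
            rw [← sq_abs]; exact pow_le_pow_left₀ (abs_nonneg _) (hf.2 x s hs) 2
      _ = _ := by simp
  set g : lp (fun _ : Γ => EuclideanSpace ℝ G.S) 2 := ⟨G.grad f, G.memℓp_grad hfE⟩ with hg
  obtain ⟨p, hp, q, hq, hpq⟩ := (G.finGrad.topologicalClosure).exists_add_mem_mem_orthogonal g
  obtain ⟨u, hu⟩ := G.grad_of_closure hp
  have hqx : ∀ x, q x = G.grad (f - u) x := by
    intro x
    have h1 : G.grad f x = p x + q x := by
      have := congrArg (fun r : lp (fun _ : Γ => EuclideanSpace ℝ G.S) 2 => r x) hpq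
      simpa [hg] using this
    rw [hu] at h1
    rw [← sub_eq_iff_eq_add'] at h1
    rw [← h1]
    ext s; simp [grad]; ring
  have hh : G.P (f - u) = f - u := G.harm_of_orth hqx fun r hr =>
    (Submodule.mem_orthogonal _ _).1 hq r (Submodule.le_topologicalClosure _ hr)
  have hE : Summable fun x => ∑ s ∈ G.S, ((f - u) (x * s) - (f - u) x) ^ 2 := by
    have := (lp.memℓp q).summable (by norm_num)
    simpa [hqx, G.norm_grad] using this
  by_contra hcon
  apply hna
  have hq0 : q = 0 := by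
    ext x s
    by_contra hne
    apply hcon
    refine G.iso_of_harm hh hE (x₀ := x) s.2 ?_
    simpa [hqx, grad] using hne
  intro ε hε
  rw [hq0, add_zero] at hpq
  rw [← hpq] at hp
  obtain ⟨r, ⟨v, hv, hr⟩, hd⟩ := Metric.mem_closure_iff.1 hp (√ε) (Real.sqrt_pos.2 hε)
  refine ⟨v, hv, ?_⟩
  rw [dist_eq_norm] at hd
  have h1 : ‖g - r‖ ^ 2 < ε := by
    have := pow_lt_pow_left₀ hd (norm_nonneg _) two_ne_zero
    rwa [Real.sq_sqrt hε.le] at this
  have h2 := lp.norm_rpow_eq_tsum (p := 2) (by norm_num) (g - r)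
  have h3 : ∀ x, ‖(g - r) x‖ ^ 2 = ∑ s ∈ G.S, ((f - v) (x * s) - (f - v) x) ^ 2 := by
    intro x
    rw [← G.norm_grad, lp.coeFn_sub, Pi.sub_apply, hr]
    congr 2
    ext s; simp [hg, grad]; ring
  simp only [ENNReal.toReal_ofNat, Real.rpow_ofNat, h3] at h2
  rw [h2] at h1
  exact h1

end Gen
end Crest.Agent.R224
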