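import Crest.Agent.R224.Levels0

/-! Generic levels (coarea type lemmas). -/

set_option autoImplicit false
open Filter Topology Set MeasureTheory
open scoped Pointwise

namespace Crest.Agent.R224


namespace Gen
variable {Γ : Type} [Group Γ] {G : Gen Γ} {ρ : ℝ}

theorem ind_nonneg' (A : Set Γ) (x : Γ) : 0 ≤ ind A x := indicator_nonneg (fun _ _ => zero_le_one) x

theorem iter_nonneg' {f : Γ → ℝ} (hf : ∀ x, 0 ≤ f x) (n : ℕ) (x : Γ) : 0 ≤ G.P^[n] f x := by
  have := G.iter_mono (f := fun _ => 0) hf n x
  rwa [G.iter_const] at this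

theorem iter_sum' {ι : Type} (s : Finset ι) (f : ι → Γ → ℝ) (n : ℕ) :
    G.P^[n] (∑ i ∈ s, f i) = ∑ i ∈ s, G.P^[n] (f i) := by
  classical
  induction s using Finset.induction_on with
  | empty => exact G.iter_const 0 n
  | insert i s hi ih => rw [Finset.sum_insert hi, Finset.sum_insert hi, G.iter_add, ih]

theorem iter_ind_symm (n : ℕ) (x y : Γ) : G.P^[n] (ind {x}) y = G.P^[n] (ind {y}) x := by
  have h1 := G.iter_tr (ind {x}) y n 1
  have h2 := G.iter_tr (ind {y}) x n 1
  rw [mul_one] at h1 h2
  rw [← h1, ← h2, ← G.iter_inv]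
  refine G.iter_congr fun z _ => ?_
  have : y * z⁻¹ = x ↔ x * z = y := by rw [mul_inv_eq_iff_eq_mul, eq_comm]
  by_cases hz : x * z = y
  · rw [ind, ind, indicator_of_mem (show y * z⁻¹ ∈ {x} from this.2 hz),
      indicator_of_mem (show x * z ∈ {y} from hz)]
  · rw [ind, ind, indicator_of_notMem (show y * z⁻¹ ∉ {x} from fun h => hz (this.1 h)),
      indicator_of_notMem (show x * z ∉ {y} from hz)]

theorem hitn_le_sum (Z : Set Γ) (k : ℕ) (x : Γ) :
    G.hitn Z k x ≤ (∑ m ∈ Finset.range (k + 1), G.P^[m] (ind Z)) x := by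
  induction k generalizing x with
  | zero => simp [hitn]
  | succ k ih =>
    have h1 := G.iter_mono ih 1 x
    rw [iter_sum'] at h1
    rw [Finset.sum_range_succ']
    simp only [Function.iterate_one, Function.iterate_succ', Function.comp_apply, Pi.add_apply,
      Function.iterate_zero, id] at h1 ⊢
    have h2 : 0 ≤ (∑ i ∈ Finset.range (k + 1), G.P (G.P^[i] (ind Z))) x := by
      rw [Finset.sum_apply]
      refine Finset.sum_nonneg fun i _ => ?_
      have := iter_nonneg' (G := G) (ind_nonneg' Z) (i + 1) x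
      rwa [Function.iterate_succ_apply'] at this
    simp only [hitn]
    split_ifs with hx
    · have : ind Z x = 1 := indicator_of_mem hx _
      linarith
    · linarith [ind_nonneg' Z x]

/-- summability of the Green kernel on `Z` makes `Z` thin -/
theorem Gap.thin_of_summable (h : G.Gap ρ) {Z : Set Γ}
    (hs : ∀ x, Summable (Z.indicator (G.Gr (ind {x})))) : G.Thin Z := by
  classical
  intro x
  have hL : ∀ v : Γ, L2 (ind {v}) := fun v => L2.of_finite ((finite_singleton v).subset
    (support_indicator_subset))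
  have ha0 : ∀ m, 0 ≤ G.P^[m] (ind Z) x := fun m => iter_nonneg' (ind_nonneg' Z) m x
  have ha : Summable fun m => G.P^[m] (ind Z) x := by
    refine summable_of_sum_range_le (c := ∑' v, Z.indicator (G.Gr (ind {x})) v) ha0 fun N => ?_
    let F := ((G.finite_ball x N).inter_of_right Z).toFinset
    have hF : ∀ v, v ∈ F ↔ v ∈ Z ∧ G.D x v ≤ N := by intro v; simp [F, ball]
    have h1 : ∀ m ∈ Finset.range N, G.P^[m] (ind Z) x = ∑ v ∈ F, G.P^[m] (ind {x}) v := by
      intro m hm
      rw [Finset.sum_congr rfl fun v _ => iter_ind_symm m x v, ← Finset.sum_apply, ← iter_sum']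
      refine G.iter_congr fun y hy => ?_
      have hy' : G.D x y ≤ N := hy.trans (Finset.mem_range.1 hm).le
      simp only [Finset.sum_apply, ind, indicator, mem_singleton_iff, Finset.sum_ite_eq, hF, hy',
        and_true]
    rw [Finset.sum_congr rfl h1, Finset.sum_comm]
    refine le_trans (Finset.sum_le_sum fun v hv => ?_) ((hs x).sum_le_tsum F fun v _ =>
      indicator_nonneg (fun v _ => Gr_nonneg (ind_nonneg' _) v) v)
    rw [indicator_of_mem ((hF v).1 hv).1]
    exact (h.summable (hL x) v).sum_le_tsum _ fun m _ => iter_nonneg' (ind_nonneg' _) m v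
  refine squeeze_zero (fun n => iter_nonneg' (fun y => (G.hit_mem Z y).1) n x) (fun n => ?_)
    (tendsto_sum_nat_add fun m => G.P^[m] (ind Z) x)
  refine le_of_tendsto' (G.tendsto_iter (G.tendsto_hitn Z) n x) fun k => ?_
  refine (G.iter_mono (hitn_le_sum Z k) n x).trans ?_
  rw [iter_sum', Finset.sum_apply]
  refine le_trans (le_of_eq ?_) (((summable_nat_add_iff n).2 ha).sum_le_tsum (Finset.range (k + 1))
    fun m _ => ha0 _)
  refine Finset.sum_congr rfl fun m _ => ?_
  rw [add_comm, Function.iterate_add_apply]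

/-- generic level walls of a finite energy function: thin, and every function in a countable family of
nonnegative `ℓ²` functions is summable on them. -/
theorem Gap.ae_good (h : G.Gap ρ) {k w : Γ → ℝ} (hk : G.Dom k w) {u : ℕ → Γ → ℝ}
    (hu : ∀ i, L2 (u i)) (hu0 : ∀ i x, 0 ≤ u i x) :
    ∀ᵐ t : ℝ, G.Thin (G.wall {z | k z ≤ t}) ∧
      ∀ i, Summable ((G.wall {z | k z ≤ t}).indicator (u i)) := by
  have := G.countable
  have key : ∀ f : Γ → ℝ, L2 f → (∀ x, 0 ≤ f x) →
      ∀ᵐ t : ℝ, Summable ((G.wall {z | k z ≤ t}).indicator f) := by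
    intro f hf hf0
    have h1 := ae_summable (M := fun v => Icc (k v - w v) (k v + w v)) (ρ := fun v => 2 * w v) (w := f)
      (fun v => measurableSet_Icc) (fun v => by rw [Real.volume_Icc]; exact le_of_eq (by ring_nf))
      (fun v => mul_nonneg zero_le_two (hk.nonneg v)) hf0 (hf.summable_mul (hk.1.const_mul 2))
    filter_upwards [h1] with t ht
    refine ht.of_nonneg_of_le (indicator_nonneg fun v _ => hf0 v)
      (indicator_le_indicator_of_subset ?_ hf0)
    rintro v ⟨y, hy, hc⟩
    obtain ⟨s, hs, rfl⟩ := G.D_le_one.1 hy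
    have h2 := abs_le.1 (hk.2 v s hs)
    have h3 := hk.nonneg v
    simp only [cross, mem_ofPred_eq] at hc
    by_cases h4 : k v ≤ t
    · have h5 : t < k (v * s) := by
        by_contra h5
        exact hc (iff_of_true h4 (not_lt.1 h5))
      exact ⟨by linarith, by linarith⟩
    · have h5 : k (v * s) ≤ t := by
        by_contra h5
        exact hc (iff_of_false h4 h5)
      exact ⟨by linarith, by linarith⟩
  have h1 : ∀ᵐ t : ℝ, ∀ x, Summable ((G.wall {z | k z ≤ t}).indicator (G.Gr (ind {x}))) :=
    ae_all_iff.2 fun x => key _ (h.Gr_L2 (L2.of_finite ((finite_singleton x).subset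
      support_indicator_subset))).1 (Gr_nonneg (ind_nonneg' _))
  filter_upwards [h1, ae_all_iff.2 fun i => key _ (hu i) (hu0 i)] with t h2 h3
  exact ⟨h.thin_of_summable h2, h3⟩

end Gen
end Crest.Agent.R224
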