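import Crest.Agent.R224.Hit

/-! Generic levels (coarea type lemmas). -/

set_option autoImplicit false
open Filter Topology Set MeasureTheory
open scoped Pointwise

namespace Crest.Agent.R224

/-- `∫ ∑_v w v 1[t ∈ M v] dt ≤ ∑ w v ρ v < ∞` -/
theorem ae_summable {Γ : Type} [Countable Γ] {M : Γ → Set ℝ} {ρ w : Γ → ℝ}
    (hM : ∀ v, MeasurableSet (M v)) (hρ : ∀ v, volume (M v) ≤ ENNReal.ofReal (ρ v))
    (hρ0 : ∀ v, 0 ≤ ρ v) (hw0 : ∀ v, 0 ≤ w v) (hs : Summable fun v => w v * ρ v) :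
    ∀ᵐ t : ℝ, Summable ({v | t ∈ M v}.indicator w) := by
  have hm : ∀ v, Measurable ((M v).indicator fun _ : ℝ => ENNReal.ofReal (w v)) :=
    fun v => measurable_const.indicator (hM v)
  have h1 : ∫⁻ t : ℝ, ∑' v, (M v).indicator (fun _ : ℝ => ENNReal.ofReal (w v)) t ≠ ⊤ := by
    rw [lintegral_tsum fun v => (hm v).aemeasurable]
    refine ne_top_of_le_ne_top (b := ∑' v, ENNReal.ofReal (w v * ρ v)) ?_ ?_
    · rw [← ENNReal.ofReal_tsum_of_nonneg (fun v => mul_nonneg (hw0 v) (hρ0 v)) hs]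
      exact ENNReal.ofReal_ne_top
    · refine ENNReal.tsum_le_tsum fun v => ?_
      rw [lintegral_indicator_const (hM v), ENNReal.ofReal_mul (hw0 v)]
      gcongr
      exact hρ v
  filter_upwards [ae_lt_top (Measurable.tsum hm) h1] with t ht
  refine (ENNReal.summable_toReal ht.ne).congr fun v => ?_
  by_cases h : t ∈ M v
  · rw [indicator_of_mem h, indicator_of_mem (show v ∈ {v | t ∈ M v} from h),
      ENNReal.toReal_ofReal (hw0 v)]
  · rw [indicator_of_notMem h, indicator_of_notMem (show v ∉ {v | t ∈ M v} from h)]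
    rfl

/-- Borel-Cantelli form -/
theorem ae_finite {Γ : Type} [Countable Γ] {M : Γ → Set ℝ} {ρ : Γ → ℝ} {β : Set Γ}
    (hρ : ∀ v, volume (M v) ≤ ENNReal.ofReal (ρ v))
    (hρ0 : ∀ v, 0 ≤ ρ v) (hs : Summable (β.indicator ρ)) :
    ∀ᵐ t : ℝ, {v ∈ β | t ∈ M v}.Finite := by
  have h1 : ∑' v, volume {t : ℝ | v ∈ β ∧ t ∈ M v} ≠ ⊤ := by
    refine ne_top_of_le_ne_top (b := ∑' v, ENNReal.ofReal (β.indicator ρ v)) ?_ ?_
    · rw [← ENNReal.ofReal_tsum_of_nonneg (fun v => indicator_nonneg (fun v _ => hρ0 v) v) hs]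
      exact ENNReal.ofReal_ne_top
    · refine ENNReal.tsum_le_tsum fun v => ?_
      by_cases h : v ∈ β
      · simpa [h] using hρ v
      · simp [h]
  exact ae_finite_setOf_mem h1

/-- an a.e. property holds somewhere in every interval, outside any countable set -/
theorem exists_mem_Ioo_of_ae {p : ℝ → Prop} (h : ∀ᵐ t : ℝ, p t) {a b : ℝ} (hab : a < b)
    {C : Set ℝ} (hC : C.Countable) : ∃ t, a < t ∧ t < b ∧ t ∉ C ∧ p t := by
  have h1 : ∀ᵐ t : ℝ, t ∉ C := hC.ae_notMem _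
  have h2 : volume (Ioo a b) ≠ 0 := by simpa using hab
  obtain ⟨t, ht, ht'⟩ := Measure.exists_mem_of_measure_ne_zero_of_ae h2 (ae_restrict_of_ae (h1.and h))
  exact ⟨t, ht.1, ht.2, ht'⟩

end Crest.Agent.R224
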