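import Crest.Agent.R224.Acc

/-! Limits of cuts with uniformly bounded far walls. -/

set_option autoImplicit false
open Filter Topology Set MeasureTheory
open scoped Pointwise

namespace Crest.Agent.R224

namespace Ctx
variable {Γ X : Type} [Group Γ] [MetricSpace X] [CompactSpace X] [MulAction Γ X] (c : Ctx Γ X)

/-- an ultralimit of sets of bounded size is finite -/
theorem finite_ulim {α : Type} (ω : Ultrafilter ℕ) {B : ℕ → Set α} {T : ℕ}
    (h : ∀ᶠ j in ω, (B j).encard ≤ T) : {x | ∀ᶠ j in ω, x ∈ B j}.Finite := by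
  by_contra hinf
  obtain ⟨s, hs, hcard⟩ := Set.Infinite.exists_subset_card_eq hinf (T + 1)
  obtain ⟨j, h1, h2⟩ := (h.and ((Finset.eventually_all s).2 fun x hx => hs hx)).exists
  have := (encard_le_encard (show (s : Set α) ⊆ B j from fun x hx => h2 x hx)).trans h1
  rw [encard_coe_eq_coe_finsetCard, hcard, Nat.cast_le] at this
  omega

/-- Plan: ray `γ → y`, `ε = dist y z / 4`, `K_j = {x ∈ wall (H j) | ε ≤ dist (e x) z}`, `|K_j| ≤ M`; `R` from
`detour M`, `d = M vol R + 1`, `L`; `n₀` such that for `n ≥ n₀`, `dist (e (γ n)) y < ε` and the oscillation on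
`ball (γ n) L` is `< ε`.  At most `M vol R` indices have `γ n ∈ N R K_j`; consecutive other indices `≥ n₀` are
joined by a detour missing the wall of `H j`; so all of them are in `H j` (the tail is).  Hence for all
but `M vol R` indices `n ≥ n₀`, `γ n` is in the limit set. -/
theorem lim_side (ω : Ultrafilter ℕ) {H : ℕ → Set Γ} {y z : X} (hy : c.Accs y) (hne : y ≠ z)
    (hin : ∀ᶠ j in ω, c.In y (H j))
    (hb : ∀ ε > 0, ∃ M : ℕ, ∀ᶠ j in ω, {x ∈ c.wall (H j) | ε ≤ dist (c.e x) z}.encard ≤ M) :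
    y ∈ c.Acc {x | ∀ᶠ j in ω, x ∈ H j} := by
  obtain ⟨γ, hγ, hl⟩ := hy
  have hd : 0 < dist y z := dist_pos.2 hne
  have hε : 0 < dist y z / 4 := by positivity
  obtain ⟨M, hM⟩ := hb _ hε
  obtain ⟨R, hR⟩ := c.co.detour M
  obtain ⟨L, hL⟩ := hR (M * c.vol R + 1)
  have hcof : Tendsto γ atTop cofinite := by
    rw [← Nat.cofinite_eq_atTop]
    exact hγ.1.tendsto_cofinite
  have hD : ∀ n k, c.D (γ n) (γ (n + k)) ≤ k := fun n k => by
    induction k with
    | zero => simp
    | succ k ih => exact (c.D_tri _ (γ (n + k)) _).trans (add_le_add ih (hγ.2 _))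
  obtain ⟨n₀, hn₀⟩ := eventually_atTop.1 ((Metric.tendsto_nhds.1 hl _ hε).and
    (hcof (c.finite_osc L hε).compl_mem_cofinite))
  have key : ∀ᶠ j in ω, {n | n₀ ≤ n ∧ γ n ∉ H j}.encard ≤ (M * c.vol R : ℕ) := by
    filter_upwards [hin, hM] with j h1 h2
    set K := {x ∈ c.wall (H j) | dist y z / 4 ≤ dist (c.e x) z} with hK
    have hB : (γ ⁻¹' c.N R K).encard ≤ (M * c.vol R : ℕ) := by
      refine (encard_le_encard_of_injOn (mapsTo_preimage γ _) hγ.1.injOn).trans ((c.encard_N_le R K).trans ?_)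
      push_cast
      gcongr
    obtain ⟨m₀, hm₀⟩ := eventually_atTop.1 (h1.eventually hγ.1 hl)
    have ind : ∀ k n, m₀ ≤ n + k → n₀ ≤ n → γ n ∉ c.N R K → γ n ∈ H j := by
      intro k
      induction k with
      | zero => exact fun n h _ _ => hm₀ n h
      | succ k ih =>
        intro n h hn hB'
        obtain ⟨n', hn', hB''⟩ : ∃ n' ∈ Finset.Ioc n (n + (M * c.vol R + 1)), γ n' ∉ c.N R K := by
          by_contra hc
          push Not at hc
          have := (encard_le_encard (show (Finset.Ioc n (n + (M * c.vol R + 1)) : Set ℕ) ⊆ γ ⁻¹' c.N R K from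
            fun i hi => hc i hi)).trans hB
          rw [encard_coe_eq_coe_finsetCard, Nat.card_Ioc, Nat.cast_le] at this
          omega
        rw [Finset.mem_Ioc] at hn'
        have h3 := hD n (n' - n)
        rw [show n + (n' - n) = n' by omega] at h3
        refine ((hL K h2 _ hB' _ hB'' (by omega)).side (disjoint_left.2 fun x hx hw => hx.2 ⟨hw, ?_⟩)).2
          (ih n' (by omega) (by omega) hB'')
        have h4 : dist (c.e (γ n)) y < dist y z / 4 := (hn₀ n hn).1
        have h5 : dist (c.e (γ n)) (c.e x) < dist y z / 4 :=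
          not_le.1 fun h => (hn₀ n hn).2 ⟨x, hx.1, h⟩
        linarith [dist_triangle4 y (c.e (γ n)) (c.e x) z, dist_comm y (c.e (γ n))]
    refine (encard_le_encard fun n hn => ?_).trans hB
    by_contra hc
    exact hn.2 (ind m₀ n (by omega) hn.1 hc)
  refine c.mem_Acc_of_tendsto hcof ?_ hl
  have := (finite_ulim ω key).compl_mem_cofinite
  rw [Nat.cofinite_eq_atTop] at this
  filter_upwards [this, eventually_ge_atTop n₀] with n h1 h2
  by_contra hc
  exact h1 ((Ultrafilter.eventually_not.2 hc).mono fun j hj => ⟨h2, hj⟩)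

/-- Plan: `H_∞ = {x | ∀ᶠ j in ω, x ∈ H j}`; a wall vertex of `H_∞` is a wall vertex of most `H j`, so
`Acc (wall H_∞) ⊆ {z}`; `lim_side` for `H` and for the complements; `In_of_mem_Acc`. -/
theorem lim_cut (ω : Ultrafilter ℕ) {H : ℕ → Set Γ} {y y' z : X} (hy : c.Accs y) (hy' : c.Accs y')
    (hne : y ≠ z) (hne' : y' ≠ z) (hin : ∀ᶠ j in ω, c.In y (H j) ∧ c.In y' (H j)ᶜ)
    (hb : ∀ ε > 0, ∃ M : ℕ, ∀ᶠ j in ω, {x ∈ c.wall (H j) | ε ≤ dist (c.e x) z}.encard ≤ M) :
    c.Btw z y y' := by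
  have hw : ∀ x ∈ c.wall {x | ∀ᶠ j in ω, x ∈ H j}, ∀ᶠ j in ω, x ∈ c.wall (H j) := by
    rintro x ⟨x', h1, h2⟩
    by_cases a : ∀ᶠ j in ω, x ∈ H j <;> by_cases b : ∀ᶠ j in ω, x' ∈ H j
    · exact absurd (iff_of_true a b) h2
    · filter_upwards [a, Ultrafilter.eventually_not.2 b] with j a b
      exact ⟨x', h1, fun h => b (h.1 a)⟩
    · filter_upwards [Ultrafilter.eventually_not.2 a, b] with j a b
      exact ⟨x', h1, fun h => a (h.2 b)⟩
    · exact absurd (iff_of_false a b) h2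
  have hA : c.Acc (c.wall {x | ∀ᶠ j in ω, x ∈ H j}) ⊆ {z} := by
    intro a ha
    by_contra haz
    have hε : 0 < dist a z / 2 := half_pos (dist_pos.2 haz)
    obtain ⟨M, hM⟩ := hb _ hε
    refine ha _ hε ((finite_ulim ω hM).subset fun x hx => (hw x hx.1).mono fun j hj => ⟨hj, ?_⟩)
    linarith [dist_triangle_left a z (c.e x), hx.2]
  refine ⟨hne.symm, hne'.symm, _, hA, c.In_of_mem_Acc hy (fun h => hne (hA h))
    (c.lim_side ω hy hne (hin.mono fun _ h => h.1) hb), c.In_of_mem_Acc hy' (fun h => hne' (hA ?_)) ?_⟩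
  · rwa [c.wall_compl] at h
  · refine c.Acc_mono (fun x hx => Ultrafilter.eventually_not.1 hx)
      (c.lim_side ω (H := fun j => (H j)ᶜ) hy' hne' (hin.mono fun _ h => h.2) ?_)
    simpa only [c.wall_compl] using hb

end Ctx
end Crest.Agent.R224
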