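import Crest.Agent.R224.LimCfg0

/-! The limit configuration of case B is impossible. -/

set_option autoImplicit false
open Filter Topology Set MeasureTheory
open scoped Pointwise

namespace Crest.Agent.R224

namespace Ctx
variable {Γ X : Type} [Group Γ] [MetricSpace X] [CompactSpace X] [MulAction Γ X] (c : Ctx Γ X)

/-- the case that all points of `Y` other than `e₀, ζ` are outside `σ` -/
theorem lim_false_aux (m : c.T) : ∃ R₀ : ℕ, ∀ R ≥ R₀, ∀ (Y σ : Set c.T) (e₀ ζ : X),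
    IsPiece c.B Y → (∀ a ∈ Y, (a : X) ≠ e₀ → (a : X) ≠ ζ → a ∉ σ) →
    (∀ a ∈ Y, (a : X) ≠ e₀ → (c.Patch m R Y (c.Sat m Y σ) a).Finite ∧
      (c.Free m R Y (c.Sat m Y σ) ∩ c.Z m a).Finite) →
    c.Free m R Y (c.Sat m Y σ) = ∅ := by
  obtain ⟨R₃, hR₃⟩ := c.int_lemma m
  obtain ⟨μ, hμ⟩ := c.interface m
  refine ⟨R₃ + 1, fun R hR Y σ e₀ ζ hY hσ hfin => ?_⟩
  have hex : ∀ x, ∃ a, ∀ b, x ∈ c.O m Y b ↔ a = b := by
    intro x
    obtain ⟨a, ha, hu⟩ := c.exists_O (m := m) hY x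
    exact ⟨a, fun b => ⟨fun hb => (hu b hb).symm, fun hb => hb ▸ ha⟩⟩
  choose r hr using hex
  have hrO : ∀ x, x ∈ c.O m Y (r x) := fun x => (hr x _).2 rfl
  have hrY : ∀ x, r x ∈ Y := fun x => (hrO x).1
  set V : Set Γ := c.Sat m Y σ with hV
  have hrV : ∀ x, x ∈ V ↔ r x ∈ σ := fun x => c.mem_Sat hY (hrO x)
  have hwall : ∀ x y, c.D x y ≤ 1 → r x ≠ r y → ∀ b, (b = r x ∨ b = r y) →
      x ∈ c.wall (c.O m Y b) := by
    intro x y hxy hne b hb
    refine ⟨y, hxy, fun h => hne ?_⟩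
    rw [hr, hr] at h
    rcases hb with rfl | rfl
    · exact (h.1 rfl).symm
    · exact h.2 rfl
  have hwall' : ∀ x b, x ∈ c.wall (c.O m Y b) →
      ∃ y, c.D x y ≤ 1 ∧ r x ≠ r y ∧ (b = r x ∨ b = r y) := by
    rintro x b ⟨y, hxy, hcr⟩
    rw [cross, hr, hr] at hcr
    refine ⟨y, hxy, fun h => hcr (by rw [h]), ?_⟩
    by_contra h
    push Not at h
    exact hcr (iff_of_false (fun h' => h.1 h'.symm) fun h' => h.2 h'.symm)
  have key : ∀ b ∈ Y, b ∈ σ → (b : X) = e₀ := by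
    intro b hbY hbσ
    by_contra hbe
    have hbζ : (b : X) = ζ := by
      by_contra h
      exact hσ b hbY hbe h hbσ
    obtain ⟨e, heb, he⟩ : ∃ e : c.T, (c.Z m b ∩ {y | e ≠ b ∧ y ∈ c.Z m e}).Finite ∧
        (∀ a : c.T, (a : X) = e₀ → a = e) ∧ (e = b ∨ (e : X) = e₀) := by
      by_cases h : ∃ e : c.T, (e : X) = e₀
      · obtain ⟨e, he⟩ := h
        have hne : b ≠ e := fun h => hbe (h ▸ he)
        refine ⟨e, ?_, fun a ha => Subtype.ext (ha.trans he.symm), Or.inr he⟩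
        refine (Set.finite_of_encard_le_coe (hμ b e hne)).subset ?_
        exact fun y hy => ⟨hy.1, hy.2.2⟩
      · refine ⟨b, ?_, fun a ha => absurd ⟨a, ha⟩ h, Or.inl rfl⟩
        simp
    obtain ⟨y, hy, hyn⟩ := (c.wall_O_infinite (m := m) hY hbY).exists_notMem_finite
      (heb.union ((hfin b hbY hbe).1.union (hfin b hbY hbe).2))
    simp only [mem_union, not_or] at hyn
    obtain ⟨hy1, hy2, hy3⟩ := hyn
    have hyZ : y ∈ c.Z m b := c.wall_O_subset hY b hy
    obtain ⟨y', hyy', hne, hb⟩ := hwall' y b hy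
    -- the other region
    obtain ⟨a', ha'b, ha', u, v, hu, hv, hur, hvr⟩ : ∃ a', a' ≠ b ∧ (a' = r y ∨ a' = r y') ∧
        ∃ u v, c.D y u ≤ 1 ∧ c.D y v ≤ 1 ∧ r u = b ∧ r v = a' := by
      rcases hb with hb | hb
      · exact ⟨r y', by rw [hb]; exact hne.symm, Or.inr rfl, y, y', by simp, hyy', hb.symm, rfl⟩
      · exact ⟨r y, by rw [hb]; exact hne, Or.inl rfl, y', y, hyy', by simp, hb.symm, rfl⟩
    have hya' : y ∈ c.wall (c.O m Y a') := hwall y y' hyy' hne a' ha'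
    have ha'Y : a' ∈ Y := hvr ▸ hrY v
    have ha'e : (a' : X) ≠ e₀ := by
      intro h
      have h1 := he.1 a' h
      exact hy1 ⟨hyZ, h1 ▸ ha'b, h1 ▸ c.wall_O_subset hY a' hya'⟩
    have ha'σ : a' ∉ σ := hσ a' ha'Y ha'e fun h => ha'b (Subtype.ext (h.trans hbζ.symm))
    have huV : u ∈ V := (hrV u).2 (hur ▸ hbσ)
    have hvV : v ∉ V := fun h => ha'σ (hvr ▸ (hrV v).1 h)
    have hyV : y ∈ c.wall V := by
      by_cases h : y ∈ V
      · exact ⟨v, hv, fun h' => hvV (h'.1 h)⟩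
      · exact ⟨u, hu, fun h' => h (h'.2 huV)⟩
    obtain ⟨a, haY, hmod⟩ : ∃ a, c.Mod m R Y V a y := by
      by_contra h
      push Not at h
      exact hy3 ⟨⟨hyV, h⟩, hyZ⟩
    have hab : a ≠ b := fun h => hy2 ⟨hyV, h ▸ ⟨haY, hmod⟩⟩
    have hub : u ∈ c.ball y R := le_trans hu (by omega)
    have hvb : v ∈ c.ball y R := le_trans hv (by omega)
    rcases hmod with hmod | hmod
    · exact hab (((hr u a).1 ((hmod u hub).1 huV)).symm.trans hur)
    · have haa' : a' = a := by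
        have : v ∈ c.O m Y a := by
          by_contra h
          exact hvV ((hmod v hvb).2 h)
        exact hvr.symm.trans ((hr v a).1 this)
      subst haa'
      have hea : e ≠ a' := by
        rcases he.2 with h | h
        · rw [h]; exact hab.symm
        · exact fun h' => ha'e (h' ▸ h)
      obtain ⟨z, hz, hyz, hz1, hz2⟩ := hR₃ Y a' b e hY hab.symm hea y hya'
      obtain ⟨z', hzz', hne', hz'⟩ := hwall' z a' hz
      have hreg : ∀ t, c.D y t ≤ R → r t ≠ a' → r t = b ∨ r t = e := by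
        intro t ht hta
        have h1 : r t ∈ σ := (hrV t).1 ((hmod t ht).2 fun h => hta ((hr t a').1 h))
        by_cases h2 : (r t : X) = e₀
        · exact Or.inr (he.1 _ h2)
        · left
          by_contra h3
          exact hσ _ (hrY t) h2 (fun h => h3 (Subtype.ext (h.trans hbζ.symm))) h1
      have hd : c.D y z' ≤ R := by
        have := c.D_tri y z z'
        omega
      rcases hz' with h | h
      · rcases hreg z' hd (fun h' => hne' (h.symm.trans h'.symm)) with h1 | h1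
        · exact hz1 (hwall z z' hzz' hne' b (Or.inr h1.symm))
        · exact hz2 (hwall z z' hzz' hne' e (Or.inr h1.symm))
      · rcases hreg z (by omega) (fun h' => hne' (h'.trans h)) with h1 | h1
        · exact hz1 (hwall z z' hzz' hne' b (Or.inl h1.symm))
        · exact hz2 (hwall z z' hzz' hne' e (Or.inl h1.symm))
  rw [Set.eq_empty_iff_forall_notMem]
  rintro x ⟨⟨y, -, hcr⟩, hx⟩
  obtain ⟨u, hu⟩ : ∃ u, u ∈ V := by
    by_contra h
    push Not at h
    exact hcr (iff_of_false (h x) (h y))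
  refine hx (r u) ⟨hrY u, Or.inl fun t _ => ?_⟩
  rw [hrV, hr]
  refine ⟨fun h => Subtype.ext ?_, fun h => h ▸ (hrV u).1 hu⟩
  rw [key _ (hrY t) h, key _ (hrY u) ((hrV u).1 hu)]

/-- Plan: by `lim_wall`, `in_sat`, `two_point` and `IsPiece.not_btw`, all `a ∈ Y` different from `e₀, ζ` are on the same
side; WLOG (complement) outside `σ`.  If `b ∈ σ ∩ Y`, `b ≠ e₀` (so `b = ζ`): all but finitely many points `y` of the
infinite set `wall (O b)` are not in `Z e₀`, hence wall vertices of `V = Sat Y σ`, not free, not in `Patch b`; such `y` is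
modelled by `a ≠ b`, `V = (O a)ᶜ` on the ball, so the ball meets only the regions of `a, b, e₀`; `a ≠ e₀`, `y ∈ wall (O a)`,
contradiction with `int_lemma`.  So `σ ∩ Y ⊆ {e₀}` and `V` is empty or a single region: no free point. -/
theorem lim_false (m : c.T) : ∃ R₀ : ℕ, ∀ R ≥ R₀, ∀ (Y σ : Set c.T) (e₀ ζ : X),
    IsPiece c.B Y → c.Acc (c.Free m R Y (c.Sat m Y σ)) ⊆ {e₀, ζ} →
    (∀ a ∈ Y, (a : X) ≠ e₀ → (c.Patch m R Y (c.Sat m Y σ) a).Finite ∧
      (c.Free m R Y (c.Sat m Y σ) ∩ c.Z m a).Finite) →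
    c.Free m R Y (c.Sat m Y σ) = ∅ := by
  obtain ⟨R₁, hR₁⟩ := c.lim_wall m
  obtain ⟨R₂, hR₂⟩ := c.lim_false_aux m
  refine ⟨max R₁ R₂, fun R hR Y σ e₀ ζ hY hA hfin => ?_⟩
  have hW := hR₁ R (le_trans (le_max_left _ _) hR) Y _ e₀ ζ hY hA hfin
  by_cases h : ∀ a ∈ Y, (a : X) ≠ e₀ → (a : X) ≠ ζ → a ∉ σ
  · exact hR₂ R (le_trans (le_max_right _ _) hR) Y σ e₀ ζ hY h hfin
  · push Not at h
    obtain ⟨a, haY, ha1, ha2, haσ⟩ := h
    have hna : (a : X) ∉ ({e₀, ζ} : Set X) := by simp [ha1, ha2]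
    have := hR₂ R (le_trans (le_max_right _ _) hR) Y σᶜ e₀ ζ hY ?_ ?_
    · rwa [c.Sat_compl hY, c.Free_compl] at this
    · intro b hbY hb1 hb2 hbσ
      have hnb : (b : X) ∉ ({e₀, ζ} : Set X) := by simp [hb1, hb2]
      have h1 := (c.in_sat m hY haY fun h => hna (hW h)).1 haσ
      have h2 := (c.in_sat m hY hbY fun h => hnb (hW h)).2 hbσ
      have hacc := Cut.accs a.2
      have hbcc := Cut.accs b.2
      rcases c.two_point hW hacc hbcc hna hnb h1 h2 with h | h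
      · exact hY.not_btw c.isPre haY hbY ⟨e₀, a, b, hacc, hbcc, h⟩ h
      · exact hY.not_btw c.isPre haY hbY ⟨ζ, a, b, hacc, hbcc, h⟩ h
    · intro b hbY hb
      rw [c.Sat_compl hY, c.Free_compl, c.Patch_compl]
      exact hfin b hbY hb

end Ctx
end Crest.Agent.R224
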