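import Crest.Agent.R224.Satur

/-! The limit configuration of case B is impossible. -/

set_option autoImplicit false
open Filter Topology Set MeasureTheory
open scoped Pointwise

namespace Crest.Agent.R224

namespace Ctx
variable {Γ X : Type} [Group Γ] [MetricSpace X] [CompactSpace X] [MulAction Γ X] (c : Ctx Γ X)

/-- Plan: let `y_n → ξ` be distinct wall vertices.  Infinitely many free: done.  Otherwise `y_n ∈ Patch a_n`.
`a_n = e₀` infinitely often: `ξ = e₀` by `Z_acc`.  Otherwise patches are finite, so the `a_n` can be taken distinct;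
`patch_lemma` gives a free point `z_n ∈ Z a_n`; `n2_finite` gives `a_n → ξ` and `e z_n → ξ`, and `z_n` leaves every
finite set (each point is in finitely many `Z a`). -/
theorem lim_wall (m : c.T) : ∃ R₀ : ℕ, ∀ R ≥ R₀, ∀ (Y : Set c.T) (V : Set Γ) (e₀ ζ : X),
    IsPiece c.B Y → c.Acc (c.Free m R Y V) ⊆ {e₀, ζ} →
    (∀ a ∈ Y, (a : X) ≠ e₀ → (c.Patch m R Y V a).Finite ∧ (c.Free m R Y V ∩ c.Z m a).Finite) →
    c.Acc (c.wall V) ⊆ {e₀, ζ} := by
  obtain ⟨R₀, h1, hR⟩ := c.patch_lemma m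
  refine ⟨R₀, fun R hR₀ Y V e₀ ζ hY hF hP => ?_⟩
  have hZ : ∀ a, c.Patch m R Y V a ⊆ c.Z m a := fun a =>
    (c.Patch_subset (h1.trans hR₀) V a).trans (c.wall_O_subset hY a)
  have hsub : c.wall V ⊆ c.Free m R Y V ∪ ({x | ∃ a : c.T, (a : X) = e₀ ∧ x ∈ c.Patch m R Y V a} ∪
      {x | ∃ a ∈ Y, (a : X) ≠ e₀ ∧ x ∈ c.Patch m R Y V a}) := by
    intro x hx
    by_cases h : ∀ a, ¬ c.Mod m R Y V a x
    · exact Or.inl ⟨hx, h⟩
    · push Not at h
      obtain ⟨a, ha⟩ := h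
      by_cases he : (a : X) = e₀
      · exact Or.inr (Or.inl ⟨a, he, hx, ha⟩)
      · exact Or.inr (Or.inr ⟨a, ha.1, he, hx, ha⟩)
  refine (c.Acc_mono hsub).trans ?_
  rw [c.Acc_union, c.Acc_union]
  refine union_subset hF (union_subset ?_ (Subset.trans ?_ hF))
  · by_cases h : e₀ ∈ c.Cut
    · refine (c.Acc_mono (B := c.Z m ⟨e₀, h⟩) ?_).trans
        ((c.Z_acc m ⟨e₀, h⟩).trans (singleton_subset_iff.2 (mem_insert _ _)))
      rintro x ⟨a, rfl, hx⟩
      exact hZ a hx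
    · rw [c.Acc_finite (finite_empty.subset ?_)]
      · exact empty_subset _
      · rintro x ⟨a, rfl, -⟩
        exact h a.2
  · refine c.acc_transfer m (fun x a => a ∈ Y ∧ (a : X) ≠ e₀ ∧ x ∈ c.Patch m R Y V a) ?_ fun a => ?_
    · rintro x ⟨a, ha, he, hx⟩
      obtain ⟨h2, h3⟩ := hP a ha he
      obtain ⟨R₂, h4⟩ := hR R hR₀ h3.toFinset.card
      obtain ⟨y, hy, -⟩ := h4 Y V a hY h2 h3.encard_eq_coe_toFinset_card.le hx
      exact ⟨a, ⟨ha, he, hx⟩, hZ a hx, y, hy.1, hy.2⟩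
    · by_cases h : a ∈ Y ∧ (a : X) ≠ e₀
      · exact (hP a h.1 h.2).1.subset fun x hx => hx.2.2
      · exact finite_empty.subset fun x hx => h ⟨hx.1, hx.2.1⟩

end Ctx
end Crest.Agent.R224
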