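import Crest.Agent.R224.Hit
import Crest.Agent.R224.Iso

/-! A non-approximable function gives a bounded one with two rays having different limits. -/

set_option autoImplicit false
open Filter Topology Set MeasureTheory
open scoped Pointwise

namespace Crest.Agent.R224

namespace Gen
variable {Γ : Type} [Group Γ] {G : Gen Γ} {ρ : ℝ}

theorem Dom.summable_en {f w : Γ → ℝ} (hf : G.Dom f w) :
    Summable fun x => ∑ s ∈ G.S, (f (x * s) - f x) ^ 2 := by
  refine Summable.of_nonneg_of_le (fun x => Finset.sum_nonneg fun _ _ => sq_nonneg _)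
    (fun x => ?_) (hf.1.mul_left (G.S.card : ℝ))
  calc ∑ s ∈ G.S, (f (x * s) - f x) ^ 2 ≤ ∑ _s ∈ G.S, w x ^ 2 :=
        Finset.sum_le_sum fun s hs => by
          rw [← sq_abs]; exact pow_le_pow_left₀ (abs_nonneg _) (hf.2 x s hs) 2
    _ = _ := by simp

theorem en_sub_le (a b : Γ → ℝ) (x : Γ) :
    ∑ s ∈ G.S, ((a - b) (x * s) - (a - b) x) ^ 2 ≤
      2 * ∑ s ∈ G.S, (a (x * s) - a x) ^ 2 + 2 * ∑ s ∈ G.S, (b (x * s) - b x) ^ 2 := by
  rw [Finset.mul_sum, Finset.mul_sum, ← Finset.sum_add_distrib]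
  refine Finset.sum_le_sum fun s _ => ?_
  simp only [Pi.sub_apply]
  nlinarith [sq_nonneg ((a (x * s) - a x) + (b (x * s) - b x))]

theorem summable_en_sub {a b : Γ → ℝ} (ha : Summable fun x => ∑ s ∈ G.S, (a (x * s) - a x) ^ 2)
    (hb : Summable fun x => ∑ s ∈ G.S, (b (x * s) - b x) ^ 2) :
    Summable fun x => ∑ s ∈ G.S, ((a - b) (x * s) - (a - b) x) ^ 2 :=
  Summable.of_nonneg_of_le (fun _ => Finset.sum_nonneg fun _ _ => sq_nonneg _) (en_sub_le a b)
    ((ha.mul_left 2).add (hb.mul_left 2))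

theorem En_sub_le {a b : Γ → ℝ} (ha : Summable fun x => ∑ s ∈ G.S, (a (x * s) - a x) ^ 2)
    (hb : Summable fun x => ∑ s ∈ G.S, (b (x * s) - b x) ^ 2) :
    G.En (a - b) ≤ 2 * G.En a + 2 * G.En b := by
  simp only [En]
  rw [← tsum_mul_left, ← tsum_mul_left, ← (ha.mul_left 2).tsum_add (hb.mul_left 2)]
  exact (summable_en_sub ha hb).tsum_le_tsum (en_sub_le a b) ((ha.mul_left 2).add (hb.mul_left 2))

/-- dominated convergence for the energy -/
theorem tendsto_En {ι : Type} {l : Filter ι} {a : ι → Γ → ℝ} {b : Γ → ℝ} {c : ℝ} (hb : Summable b)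
    (h1 : ∀ x, ∀ᶠ i in l, a i x = c) (h2 : ∀ i x, ∑ s ∈ G.S, (a i (x * s) - a i x) ^ 2 ≤ b x) :
    Tendsto (fun i => G.En (a i)) l (𝓝 0) := by
  have := tendsto_tsum_of_dominated_convergence (𝓕 := l)
    (f := fun i x => ∑ s ∈ G.S, (a i (x * s) - a i x) ^ 2) (g := fun _ => (0 : ℝ)) hb
    (fun x => by
      refine tendsto_const_nhds.congr' ?_
      filter_upwards [h1 x, (G.S.eventually_all (l := l)).2 fun s _ => h1 (x * s)] with i e1 e2
      exact (Finset.sum_eq_zero fun s hs => by rw [e1, e2 s hs]; simp).symm)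
    (Eventually.of_forall fun i x => by
      rw [Real.norm_of_nonneg (Finset.sum_nonneg fun _ _ => sq_nonneg _)]; exact h2 i x)
  simpa [En] using this

/-- Plan: the truncations `f_n = max (-n) (min f n)` satisfy `En (f - f_n) → 0` (dominated convergence,
`|∇(f - f_n)| ≤ |∇ f|`), and `En (a + b) ≤ 2 En a + 2 En b`. -/
theorem exists_bdd_not_approx {f w : Γ → ℝ} (hf : G.Dom f w) (hna : ¬ G.Approx f) :
    ∃ k : Γ → ℝ, (∃ B : ℝ, ∀ x, |k x| ≤ B) ∧ G.Dom k w ∧ ¬ G.Approx k := by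
  by_contra hcon
  push Not at hcon
  apply hna
  set k : ℕ → Γ → ℝ := fun n x => max (-(n : ℝ)) (min (f x) n) with hk
  have hd : ∀ n, G.Dom (k n) w := fun n => ⟨hf.1, fun x s hs => by
    refine le_trans ?_ (hf.2 x s hs)
    simp only [hk]
    rw [max_comm, max_comm (-(n : ℝ))]
    refine (abs_max_sub_max_le_abs _ _ _).trans ?_
    refine (abs_min_sub_min_le_max _ _ _ _).trans ?_
    simp⟩
  have ha : ∀ n, G.Approx (k n) := fun n => hcon _ ⟨n, fun x => by
    have : (0 : ℝ) ≤ n := Nat.cast_nonneg n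
    rw [abs_le]
    exact ⟨le_max_left _ _, max_le (by linarith) (min_le_right _ _)⟩⟩ (hd n)
  have hb : Summable fun x => 2 * (G.S.card * w x ^ 2) + 2 * (G.S.card * w x ^ 2) :=
    ((hf.1.mul_left _).mul_left 2).add ((hf.1.mul_left _).mul_left 2)
  have hle : ∀ {g : Γ → ℝ}, G.Dom g w → ∀ x,
      ∑ s ∈ G.S, (g (x * s) - g x) ^ 2 ≤ G.S.card * w x ^ 2 := by
    intro g hg x
    calc ∑ s ∈ G.S, (g (x * s) - g x) ^ 2 ≤ ∑ _s ∈ G.S, w x ^ 2 :=
        Finset.sum_le_sum fun s hs => by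
          rw [← sq_abs]; exact pow_le_pow_left₀ (abs_nonneg _) (hg.2 x s hs) 2
      _ = _ := by simp
  have ht := tendsto_En (G := G) (l := atTop) (a := fun n => f - k n) (c := 0) hb (fun x => by
    obtain ⟨N, hN⟩ := exists_nat_ge |f x|
    filter_upwards [eventually_ge_atTop N] with n hn
    have h1 : |f x| ≤ n := hN.trans (by exact_mod_cast hn)
    rw [abs_le] at h1
    simp [hk, min_eq_left h1.2, max_eq_right h1.1]) (fun n x => by
    have := en_sub_le (G := G) f (k n) x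
    have h1 := hle hf x
    have h2 := hle (hd n) x
    linarith)
  intro ε hε
  obtain ⟨n, hn⟩ := (ht.eventually (gt_mem_nhds (show 0 < ε / 4 by positivity))).exists
  obtain ⟨u, hu, hu'⟩ := ha n (ε / 4) (by positivity)
  refine ⟨u, hu, ?_⟩
  have e : f - u = (f - k n) - (u - k n) := by ring
  have e2 : G.En (u - k n) = G.En (k n - u) := by
    simp only [En, Pi.sub_apply]
    refine tsum_congr fun x => Finset.sum_congr rfl fun s _ => by ring
  have := En_sub_le (G := G) (summable_en_sub hf.summable_en (hd n).summable_en)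
    (summable_en_sub (G.summable_of_fin hu) (hd n).summable_en)
  rw [e]
  linarith

/-- Plan: `k - c ∈ ℓ²` by `abs_sub_Hm`; truncate to finite sets; `En g ≤ 4 |S| ‖g‖²`. -/
theorem Gap.approx_of_Hm_const (h : G.Gap ρ) {k w : Γ → ℝ} (hk : G.Dom k w) {a : ℝ}
    (hc : ∀ x, G.Hm k x = a) : G.Approx k := by
  classical
  have hg : L2 fun x => k x - a := (h.Gr_L2 hk.1).1.of_le fun x => by
    have := h.abs_sub_Hm hk x
    rw [hc] at this
    exact this.trans (le_abs_self _)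
  set u : Finset Γ → Γ → ℝ := fun F x => if x ∈ F then k x - a else 0 with hu
  have hb : Summable fun x => ∑ s ∈ G.S, (2 * (k (x * s) - a) ^ 2 + 2 * (k x - a) ^ 2) :=
    summable_sum fun s _ => ((hg.tr_right s).1.mul_left 2).add (hg.mul_left 2)
  have hsq : ∀ F x, ((k - u F) x - a) ^ 2 ≤ (k x - a) ^ 2 := by
    intro F x
    simp only [hu, Pi.sub_apply]
    split_ifs
    · simpa using sq_nonneg _
    · simp
  have ht := tendsto_En (G := G) (l := atTop) (a := fun F => k - u F) (c := a) hb (fun x => by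
    filter_upwards [eventually_ge_atTop {x}] with F hF
    have : x ∈ F := hF (Finset.mem_singleton_self x)
    simp [hu, this]) (fun F x => Finset.sum_le_sum fun s _ => by
      have h1 := hsq F x
      have h2 := hsq F (x * s)
      nlinarith [sq_nonneg (((k - u F) (x * s) - a) + ((k - u F) x - a))])
  intro ε hε
  obtain ⟨F, hF⟩ := (ht.eventually (gt_mem_nhds hε)).exists
  refine ⟨u F, F.finite_toSet.subset fun x hx => ?_, hF⟩
  by_contra hxF
  exact hx (by simp [hu, show x ∉ F from hxF])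

theorem IsRay.shift {γ : ℕ → Γ} (h : G.IsRay γ) (N : ℕ) : G.IsRay fun n => γ (n + N) :=
  ⟨fun a b hab => by simpa using h.1 hab, fun n => by
    show G.D (γ (n + N)) (γ (n + 1 + N)) ≤ 1
    rw [show n + 1 + N = n + N + 1 by ring]; exact h.2 _⟩

/-- Plan: `Hm k` is bounded, harmonic, not constant: `Hm k x₀ < a < b < Hm k x₁`.  Greedy rays for
`q = Hm k` from `x₁` and `q = - Hm k` from `x₀`; `k - Hm k → 0` along rays (`Gr w ∈ ℓ²`). -/
theorem Gap.two_rays (h : G.Gap ρ) {f w : Γ → ℝ} (hf : G.Dom f w) (hna : ¬ G.Approx f) :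
    ∃ (k : Γ → ℝ) (γ₀ γ₁ : ℕ → Γ) (a b : ℝ), G.Dom k w ∧ G.IsRay γ₀ ∧ G.IsRay γ₁ ∧ a < b ∧
      (∀ n, k (γ₀ n) < a) ∧ ∀ n, b < k (γ₁ n) := by
  obtain ⟨k, ⟨B, hB⟩, hk, hnk⟩ := exists_bdd_not_approx hf hna
  obtain ⟨x₀, x₁, hlt⟩ : ∃ x₀ x₁, G.Hm k x₀ < G.Hm k x₁ := by
    by_contra hcon
    push Not at hcon
    exact hnk (h.approx_of_Hm_const hk (a := G.Hm k 1) fun x => le_antisymm (hcon _ _) (hcon _ _))
  have hm := h.Hm_mem hk (a := -B) (b := B) fun x => abs_le.1 (hB x)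
  have hP := h.P_Hm hk
  have hP' : G.P (fun x => -1 * G.Hm k x) = fun x => -1 * G.Hm k x := by
    have := G.iter_const_mul (-1) (G.Hm k) 1
    simp only [Function.iterate_one] at this
    rw [this, hP]
  set d := (G.Hm k x₁ - G.Hm k x₀) / 5 with hd
  have hd0 : 0 < d := by rw [hd]; linarith
  obtain ⟨γ₁, r1, -, l1, -⟩ := h.greedy hP (fun x => (hm x).2) hk.1 hk.nonneg (x₀ := x₁)
    (δ := G.Hm k x₁ - d) (by linarith)
  obtain ⟨γ₀, r0, -, l0, -⟩ := h.greedy hP' (B := B) (fun x => by linarith [(hm x).1]) hk.1 hk.nonneg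
    (x₀ := x₀) (δ := -G.Hm k x₀ - d) (by linarith)
  have hz : ∀ γ, G.IsRay γ → ∃ N, ∀ n, G.Gr w (γ (n + N)) < d := by
    intro γ hγ
    have h1 := (h.Gr_L2 hk.1).1.tendsto.comp (hγ.1.tendsto_cofinite)
    rw [Nat.cofinite_eq_atTop] at h1
    obtain ⟨N, hN⟩ := eventually_atTop.1 (h1.eventually (gt_mem_nhds hd0))
    exact ⟨N, fun n => hN _ (by omega)⟩
  obtain ⟨N₀, h0⟩ := hz γ₀ r0
  obtain ⟨N₁, h1⟩ := hz γ₁ r1
  refine ⟨k, _, _, G.Hm k x₀ + 2 * d, G.Hm k x₁ - 2 * d, hk, r0.shift N₀, r1.shift N₁,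
    by rw [hd]; linarith, fun n => ?_, fun n => ?_⟩
  · have a1 := abs_le.1 (h.abs_sub_Hm hk (γ₀ (n + N₀)))
    have a2 := l0 (n + N₀)
    have a3 := h0 n
    linarith [a1.2]
  · have a1 := abs_le.1 (h.abs_sub_Hm hk (γ₁ (n + N₁)))
    have a2 := l1 (n + N₁)
    have a3 := h1 n
    linarith [a1.1]

end Gen
end Crest.Agent.R224
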