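import Crest.Agent.R224.ACoarse
import Crest.Agent.R224.ATors
import Crest.Agent.R224.Fin
import Crest.Agent.R224.Cpt
import Crest.Agent.R224.Iso
import Crest.Agent.R224.Dodz
import Crest.Agent.R224.Rays

/-! Assembly at the group level. -/

set_option autoImplicit false
open Filter Topology Set
open scoped Pointwise

namespace Crest.Agent.R224

theorem Geo.coarse {Γ E : Type} [Group Γ] [TopologicalSpace E] [MulAction Γ E] (h : Geo Γ E)
    (G : Gen Γ) : G.Coarse := ⟨h.tf, h.coarse_L G, h.coarse_S G⟩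

theorem Gen.Coarse.approx {Γ : Type} [Group Γ] {G : Gen Γ} (co : G.Coarse) {f w : Γ → ℝ}
    (hf : G.Dom f w) : G.Approx f := by
  rcases finite_or_infinite Γ with hfin | hinf
  · intro ε hε
    exact ⟨f, Set.toFinite _, by simpa [Gen.En] using hε⟩
  by_contra hna
  obtain ⟨b, hb, hiso⟩ := G.iso_of_not_approx hf hna
  obtain ⟨ρ, hρ⟩ := G.gap_of_iso hb hiso
  obtain ⟨k, γ₀, γ₁, a, b', hk, h₀, h₁, hab, ha, hb'⟩ := hρ.two_rays hf hna
  obtain ⟨g, hg, hg₀, hg₁⟩ := co.exists_CL hk h₀ h₁ hab ha hb'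
  obtain ⟨X, _, _, _, ⟨c⟩⟩ := exists_ctx (⟨G, co, hinf, ρ, hρ⟩ : Grp Γ) hg h₀ h₁ hg₀ hg₁
  exact c.false

end Crest.Agent.R224
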