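import Crest.Agent.R224.N20

/-! Cubic growth of stabilisers and the weak `ℓ⁶` estimate. -/

set_option autoImplicit false
open Filter Topology Set MeasureTheory
open scoped Pointwise

namespace Crest.Agent.R224

namespace Ctx
variable {Γ X : Type} [Group Γ] [MetricSpace X] [CompactSpace X] [MulAction Γ X] (c : Ctx Γ X)

/-- Weak `ℓ⁶` estimate. -/
theorem n2 (a : c.T) : ∃ A : ℝ, ∀ lam > 0, ∀ S : Finset Γ,
    ((S.filter fun y => lam ≤ dist (c.e y) (y • (a : X))).card : ℝ) ≤ A / lam ^ 6 := by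
  classical
  obtain ⟨T, h1, -, hT, hg⟩ := c.growth a
  obtain ⟨κ, hκ, hiso⟩ := iso3 T h1 hg
  obtain ⟨C, hC, hsob⟩ := dy_sobolev κ hκ
  let L := T.sup c.len
  let Ψ := c.loc L c.w
  have hΨ2 : L2 Ψ := (c.loc_L2 c.w_L2 L).1
  have hΨ0 : ∀ y, 0 ≤ Ψ y := fun y => (c.w_nonneg y).trans (c.le_loc c.w_nonneg (by simp))
  have hN0 : 0 ≤ nsq Ψ := tsum_nonneg fun _ => sq_nonneg _
  refine ⟨C * 64 * nsq Ψ ^ 3, fun lam hlam S => ?_⟩
  have hfin : ∀ b : c.T, {y : Γ | y • a = b ∧ lam / 2 ≤ dist (c.e y) b}.Finite := by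
    intro b
    have := c.finite_of_Acc (A := {g | g • a = b}) (U := Metric.ball (b : X) (lam / 2))
      Metric.isOpen_ball ((c.z_acc b a).trans (by
        rintro _ rfl
        exact Metric.mem_ball_self (by linarith)))
    refine this.subset fun y hy => ⟨hy.1, ?_⟩
    simpa using hy.2
  let Sb : c.T → Finset Γ := fun b => (hfin b).toFinset
  have hSb : ∀ b y, y ∈ Sb b ↔ y • a = b ∧ lam / 2 ≤ dist (c.e y) b := by
    intro b y; simp [Sb]
  let Eb : c.T → ℝ := fun b => ∑ y ∈ Sb b, Ψ y ^ 2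
  have hEb0 : ∀ b, 0 ≤ Eb b := fun b => Finset.sum_nonneg fun _ _ => sq_nonneg _
  have hEbN : ∀ b, Eb b ≤ nsq Ψ := fun b => hΨ2.sum_le_tsum _ fun _ _ => sq_nonneg _
  have hb : ∀ b : c.T, (((Sb b).filter fun y => -dist (c.e y) b ≤ -lam).card : ℝ) ≤
      C * Eb b ^ 3 / (lam / 2) ^ 6 := by
    intro b
    refine hsob (Sb b) (fun y => -dist (c.e y) b) Ψ (Eb b) (-lam) (lam / 2) hΨ0 (by linarith) le_rfl ?_
    intro t ht
    refine (hiso _).trans ?_
    gcongr
    intro y hy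
    simp only [Finset.mem_filter, hSb, not_and, not_le] at hy ⊢
    obtain ⟨⟨hy1, hy2⟩, u, hu, hyu⟩ := hy
    refine ⟨hy1, hy2, ?_⟩
    have h2 : (y * u) • a = b := by rw [mul_smul, hT u hu, hy1.1]
    have h3 : dist (c.e (y * u)) b < -t := by
      by_contra hcon
      push Not at hcon
      have := hyu ⟨h2, by linarith [ht.2]⟩
      linarith
    have h4 : dist (c.e y) (c.e (y * u)) ≤ Ψ y :=
      c.dist_le_loc (by simpa using Finset.le_sup (f := c.len) hu)
    linarith [dist_triangle (c.e y) (c.e (y * u)) b]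
  set F := S.filter fun y => lam ≤ dist (c.e y) (y • (a : X)) with hF
  let I := F.image fun y => y • a
  have hcard : (F.card : ℝ) ≤ ∑ b ∈ I, (((Sb b).filter fun y => -dist (c.e y) b ≤ -lam).card : ℝ) := by
    have : F ⊆ I.biUnion fun b => (Sb b).filter fun y => -dist (c.e y) b ≤ -lam := by
      intro y hy
      simp only [Finset.mem_biUnion, Finset.mem_filter, hSb]
      have h2 : lam ≤ dist (c.e y) (y • (a : X)) := (Finset.mem_filter.1 hy).2
      refine ⟨y • a, Finset.mem_image_of_mem _ hy, ⟨rfl, ?_⟩, ?_⟩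
      · rw [coe_smul]; linarith
      · rw [coe_smul]; linarith
    exact_mod_cast (Finset.card_le_card this).trans Finset.card_biUnion_le
  have hsum : ∑ b ∈ I, Eb b ≤ nsq Ψ := by
    simp only [Eb]
    rw [← Finset.sum_biUnion]
    · exact hΨ2.sum_le_tsum _ fun _ _ => sq_nonneg _
    · intro b _ b' _ hbb'
      refine Finset.disjoint_left.2 fun y hy hy' => hbb' ?_
      exact ((hSb _ _).1 hy).1.symm.trans ((hSb _ _).1 hy').1
  calc (F.card : ℝ) ≤ ∑ b ∈ I, C * Eb b ^ 3 / (lam / 2) ^ 6 :=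
        hcard.trans (Finset.sum_le_sum fun b _ => hb b)
    _ ≤ ∑ b ∈ I, (C * nsq Ψ ^ 2 / (lam / 2) ^ 6) * Eb b := by
        refine Finset.sum_le_sum fun b _ => ?_
        have h2 : Eb b ^ 3 ≤ nsq Ψ ^ 2 * Eb b := by
          rw [pow_succ]
          have := hEb0 b
          have := hEbN b
          gcongr
        calc C * Eb b ^ 3 / (lam / 2) ^ 6 ≤ C * (nsq Ψ ^ 2 * Eb b) / (lam / 2) ^ 6 := by gcongr
          _ = _ := by ring
    _ ≤ (C * nsq Ψ ^ 2 / (lam / 2) ^ 6) * nsq Ψ := by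
        rw [← Finset.mul_sum]
        gcongr
    _ = _ := by field_simp; ring

theorem n2_finite (a : c.T) {lam : ℝ} (h : 0 < lam) :
    {y | lam ≤ dist (c.e y) (y • (a : X))}.Finite := by
  classical
  obtain ⟨A, hA⟩ := c.n2 a
  by_contra hinf
  obtain ⟨n, hn⟩ := exists_nat_gt (A / lam ^ 6)
  obtain ⟨S, hS, hcard⟩ := Set.Infinite.exists_subset_card_eq hinf n
  have := hA lam h S
  rw [Finset.filter_true_of_mem (p := fun y => lam ≤ dist (c.e y) (y • (a : X)))
    fun y hy => hS hy, hcard] at this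
  linarith

end Ctx
end Crest.Agent.R224
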