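import Crest.Agent.R224.Defs

/-! Minimal separators: small cubic growth gives a 3-colouring; Coulhon--Saloff-Coste. -/

set_option autoImplicit false
open Filter Topology Set MeasureTheory
open scoped Pointwise

namespace Crest.Agent.R224

variable {Γ : Type} [Group Γ]

theorem sep_inv_mem [DecidableEq Γ] {T : Finset Γ} (hi : ∀ t ∈ T, t⁻¹ ∈ T) (n : ℕ) {g : Γ}
    (hg : g ∈ T ^ n) : g⁻¹ ∈ T ^ n := by
  induction n generalizing g with
  | zero =>
    rw [pow_zero, Finset.mem_one] at hg ⊢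
    rw [hg, inv_one]
  | succ n ih =>
    rw [pow_succ] at hg
    obtain ⟨u, hu, t, ht, rfl⟩ := Finset.mem_mul.1 hg
    rw [pow_succ', mul_inv_rev]
    exact Finset.mul_mem_mul (hi t ht) (ih hu)

theorem sep_step_mem [DecidableEq Γ] {T : Finset Γ} {n : ℕ} {x a b : Γ}
    (ha : x⁻¹ * a ∈ T ^ n) (hb : a⁻¹ * b ∈ T) : x⁻¹ * b ∈ T ^ (n + 1) := by
  rw [pow_succ, show x⁻¹ * b = (x⁻¹ * a) * (a⁻¹ * b) by group]
  exact Finset.mul_mem_mul ha hb

theorem sep_card_le [DecidableEq Γ] (A B : Finset Γ) (x : Γ) :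
    (A.filter fun y => x⁻¹ * y ∈ B).card ≤ B.card :=
  Finset.card_le_card_of_injOn (fun y => x⁻¹ * y) (fun _ hy => (Finset.mem_filter.1 hy).2)
    fun _ _ _ _ h => mul_left_cancel h

/-- One separator step.  Plan: choose `Z ⊆ A` of minimal cardinality such that the components of `A \ Z`
have `x⁻¹ y ∈ T^(2r)` (`Z = A` is admissible).  For `x` and `ρ ∈ (r', r]` replace `Z` inside the ball of
radius `ρ - 1` around `x` by the sphere of radius `ρ` (intersected with `A`); minimality gives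
`|Z ∩ ball r'| ≤ |A ∩ sphere ρ|`; average over the `r - r'` spheres. -/
theorem sep_step [DecidableEq Γ] (T : Finset Γ) (h1 : (1 : Γ) ∈ T) (hi : ∀ t ∈ T, t⁻¹ ∈ T)
    (A : Finset Γ) {r r' : ℕ} (hr : r' < r) : ∃ Z ⊆ A,
    (∀ x y, Relation.ReflTransGen (fun a b => a ∈ A \ Z ∧ b ∈ A \ Z ∧ a⁻¹ * b ∈ T) x y →
      x⁻¹ * y ∈ T ^ (2 * r)) ∧
    ∀ x, (r - r') * (Z.filter fun y => x⁻¹ * y ∈ T ^ r').card ≤
      (A.filter fun y => x⁻¹ * y ∈ T ^ r).card := by
  classical
  let adm : Finset Γ → Prop := fun Z =>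
    ∀ x y, Relation.ReflTransGen (fun a b => a ∈ A \ Z ∧ b ∈ A \ Z ∧ a⁻¹ * b ∈ T) x y →
      x⁻¹ * y ∈ T ^ (2 * r)
  have hA : adm A := by
    intro x y h
    induction h with
    | refl => simpa using Finset.one_mem_pow h1
    | tail _ h _ => simp at h
  obtain ⟨Z, hZ, hmin⟩ := Finset.exists_min_image (A.powerset.filter adm) Finset.card
    ⟨A, Finset.mem_filter.2 ⟨Finset.mem_powerset_self A, hA⟩⟩
  obtain ⟨hZA, hZadm⟩ := Finset.mem_filter.1 hZ
  rw [Finset.mem_powerset] at hZA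
  refine ⟨Z, hZA, hZadm, fun x => ?_⟩
  have mono : ∀ {m n : ℕ}, m ≤ n → T ^ m ⊆ T ^ n := fun h => Finset.pow_subset_pow_right h1 h
  -- the exchange step
  have key : ∀ k < r, (Z.filter fun y => x⁻¹ * y ∈ T ^ k).card ≤
      (A.filter fun y => x⁻¹ * y ∈ T ^ (k + 1) ∧ x⁻¹ * y ∉ T ^ k).card := by
    intro k hk
    set S := A.filter fun y => x⁻¹ * y ∈ T ^ (k + 1) ∧ x⁻¹ * y ∉ T ^ k with hS
    set Z' := (Z.filter fun y => x⁻¹ * y ∉ T ^ k) ∪ S with hZ'
    have hm : ∀ a, a ∈ A \ Z' → a ∈ A ∧ (x⁻¹ * a ∈ T ^ (k + 1) → x⁻¹ * a ∈ T ^ k) ∧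
        (x⁻¹ * a ∉ T ^ k → a ∉ Z) := by
      intro a ha
      simp only [hZ', hS, Finset.mem_sdiff, Finset.mem_union, Finset.mem_filter] at ha
      tauto
    have hadm : adm Z' := by
      intro u v h
      by_cases hu : x⁻¹ * u ∈ T ^ k
      · have hv : x⁻¹ * v ∈ T ^ k := by
          induction h with
          | refl => exact hu
          | tail _ h ih => exact (hm _ h.2.1).2.1 (sep_step_mem ih h.2.2)
        refine mono (show k + k ≤ 2 * r by omega) ?_
        rw [pow_add, show u⁻¹ * v = (x⁻¹ * u)⁻¹ * (x⁻¹ * v) by group]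
        exact Finset.mul_mem_mul (sep_inv_mem hi k hu) hv
      · have hv : x⁻¹ * v ∉ T ^ k ∧
            Relation.ReflTransGen (fun a b => a ∈ A \ Z ∧ b ∈ A \ Z ∧ a⁻¹ * b ∈ T) u v := by
          induction h with
          | refl => exact ⟨hu, .refl⟩
          | @tail a b _ h ih =>
            have hb : x⁻¹ * b ∉ T ^ k := fun hb => ih.1 ((hm _ h.1).2.1
              (sep_step_mem hb (by simpa using hi _ h.2.2)))
            exact ⟨hb, ih.2.tail ⟨Finset.mem_sdiff.2 ⟨(hm _ h.1).1, (hm _ h.1).2.2 ih.1⟩,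
              Finset.mem_sdiff.2 ⟨(hm _ h.2.1).1, (hm _ h.2.1).2.2 hb⟩, h.2.2⟩⟩
        exact hZadm u v hv.2
    have h2 := hmin Z' (Finset.mem_filter.2 ⟨Finset.mem_powerset.2 (Finset.union_subset
      ((Finset.filter_subset _ _).trans hZA) (Finset.filter_subset _ _)), hadm⟩)
    have h3 : Z'.card ≤ (Z.filter fun y => x⁻¹ * y ∉ T ^ k).card + S.card := Finset.card_union_le _ _
    have h4 := Finset.card_filter_add_card_filter_not (s := Z) (fun y => x⁻¹ * y ∈ T ^ k)
    omega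
  have main : ∀ j, r' + j ≤ r → j * (Z.filter fun y => x⁻¹ * y ∈ T ^ r').card ≤
      (A.filter fun y => x⁻¹ * y ∈ T ^ (r' + j)).card := by
    intro j
    induction j with
    | zero => simp
    | succ j ih =>
      intro hj
      have h2 := ih (by omega)
      have h3 := key (r' + j) (by omega)
      have h4 : (Z.filter fun y => x⁻¹ * y ∈ T ^ r').card ≤
          (Z.filter fun y => x⁻¹ * y ∈ T ^ (r' + j)).card :=
        Finset.card_le_card fun y hy => Finset.mem_filter.2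
          ⟨(Finset.mem_filter.1 hy).1, mono (by omega) (Finset.mem_filter.1 hy).2⟩
      have h5 : (A.filter fun y => x⁻¹ * y ∈ T ^ (r' + j)).card +
          (A.filter fun y => x⁻¹ * y ∈ T ^ (r' + j + 1) ∧ x⁻¹ * y ∉ T ^ (r' + j)).card ≤
          (A.filter fun y => x⁻¹ * y ∈ T ^ (r' + (j + 1))).card := by
        rw [← Finset.card_union_of_disjoint (Finset.disjoint_filter.2 fun y _ h h' => h'.2 h)]
        refine Finset.card_le_card fun y hy => ?_
        rcases Finset.mem_union.1 hy with h | h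
        · exact Finset.mem_filter.2
            ⟨(Finset.mem_filter.1 h).1, mono (by omega) (Finset.mem_filter.1 h).2⟩
        · exact Finset.mem_filter.2 ⟨(Finset.mem_filter.1 h).1, (Finset.mem_filter.1 h).2.1⟩
      rw [add_mul, one_mul]
      omega
  have := main (r - r') (by omega)
  rwa [show r' + (r - r') = r by omega] at this

/-- Plan: for finite `A` apply `sep_step` three times with radii `(8n,4n), (4n,2n), (2n,n)`: the third separator
has `< 1` point in each ball, so it is empty.  This colours every finite set; take a limit along an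
ultrafilter on `Finset Γ` finer than `atTop`. -/
theorem three_colours [DecidableEq Γ] (T : Finset Γ) (h1 : (1 : Γ) ∈ T) (hi : ∀ t ∈ T, t⁻¹ ∈ T)
    {n : ℕ} (hn : (T ^ (8 * n)).card < 8 * n ^ 3) : ∃ col : Γ → Fin 3,
    ∀ i x y, Relation.ReflTransGen (fun a b => col a = i ∧ col b = i ∧ a⁻¹ * b ∈ T) x y →
      x⁻¹ * y ∈ T ^ (16 * n) := by
  have hn0 : 0 < n := by
    rcases Nat.eq_zero_or_pos n with rfl | h
    · simp at hn
    · exact h
  have mono : ∀ {m n : ℕ}, m ≤ n → T ^ m ⊆ T ^ n := fun h => Finset.pow_subset_pow_right h1 h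
  have fin : ∀ A : Finset Γ, ∃ col : Γ → Fin 3, ∀ i x y, Relation.ReflTransGen
      (fun a b => (a ∈ A ∧ col a = i) ∧ (b ∈ A ∧ col b = i) ∧ a⁻¹ * b ∈ T) x y →
      x⁻¹ * y ∈ T ^ (16 * n) := by
    intro A
    obtain ⟨Z₁, -, a1, b1⟩ := sep_step T h1 hi A (r := 8 * n) (r' := 4 * n) (by omega)
    obtain ⟨Z₂, -, a2, b2⟩ := sep_step T h1 hi Z₁ (r := 4 * n) (r' := 2 * n) (by omega)
    obtain ⟨Z₃, -, a3, b3⟩ := sep_step T h1 hi Z₂ (r := 2 * n) (r' := n) (by omega)
    have hZ₃ : ∀ x, x ∉ Z₃ := by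
      intro x hx
      have c1 := (b1 x).trans (sep_card_le A _ x)
      have c2 := b2 x
      have c3 := b3 x
      have c4 : 1 ≤ (Z₃.filter fun y => x⁻¹ * y ∈ T ^ n).card :=
        Finset.card_pos.2 ⟨x, Finset.mem_filter.2 ⟨hx, by simpa using Finset.one_mem_pow h1⟩⟩
      rw [show 8 * n - 4 * n = 4 * n by omega] at c1
      rw [show 4 * n - 2 * n = 2 * n by omega] at c2
      rw [show 2 * n - n = n by omega] at c3
      have d3 : n ≤ (Z₂.filter fun y => x⁻¹ * y ∈ T ^ (2 * n)).card :=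
        le_trans (Nat.le_mul_of_pos_right n c4) c3
      have d2 : 2 * n * n ≤ (Z₁.filter fun y => x⁻¹ * y ∈ T ^ (4 * n)).card :=
        le_trans (Nat.mul_le_mul_left _ d3) c2
      have d1 : 4 * n * (2 * n * n) ≤ (T ^ (8 * n)).card :=
        le_trans (Nat.mul_le_mul_left _ d2) c1
      have : 4 * n * (2 * n * n) = 8 * n ^ 3 := by ring
      omega
    refine ⟨fun a => if a ∉ Z₁ then 0 else if a ∉ Z₂ then 1 else 2, fun i x y h => ?_⟩
    have hi3 : i = 0 ∨ i = 1 ∨ i = 2 := by omega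
    rcases hi3 with rfl | rfl | rfl
    · refine mono (by omega) (a1 x y (Relation.ReflTransGen.mono ?_ _ _ h))
      have : ∀ a, a ∈ A ∧ (if a ∉ Z₁ then (0 : Fin 3) else if a ∉ Z₂ then 1 else 2) = 0 →
          a ∈ A \ Z₁ := by
        rintro a ⟨h1, h2⟩
        refine Finset.mem_sdiff.2 ⟨h1, fun h => ?_⟩
        rw [if_neg (not_not.2 h)] at h2
        split_ifs at h2 <;> exact absurd h2 (by decide)
      exact fun a b h => ⟨this a h.1, this b h.2.1, h.2.2⟩
    · refine mono (by omega) (a2 x y (Relation.ReflTransGen.mono ?_ _ _ h))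
      have : ∀ a, a ∈ A ∧ (if a ∉ Z₁ then (0 : Fin 3) else if a ∉ Z₂ then 1 else 2) = 1 →
          a ∈ Z₁ \ Z₂ := by
        rintro a ⟨-, h2⟩
        by_cases k1 : a ∈ Z₁
        · refine Finset.mem_sdiff.2 ⟨k1, fun h => ?_⟩
          rw [if_neg (not_not.2 k1), if_neg (not_not.2 h)] at h2
          exact absurd h2 (by decide)
        · rw [if_pos k1] at h2
          exact absurd h2 (by decide)
      exact fun a b h => ⟨this a h.1, this b h.2.1, h.2.2⟩
    · refine mono (by omega) (a3 x y (Relation.ReflTransGen.mono ?_ _ _ h))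
      have : ∀ a, a ∈ A ∧ (if a ∉ Z₁ then (0 : Fin 3) else if a ∉ Z₂ then 1 else 2) = 2 →
          a ∈ Z₂ \ Z₃ := by
        rintro a ⟨-, h2⟩
        refine Finset.mem_sdiff.2 ⟨?_, hZ₃ a⟩
        by_contra h
        rw [if_pos h] at h2
        split_ifs at h2 <;> exact absurd h2 (by decide)
      exact fun a b h => ⟨this a h.1, this b h.2.1, h.2.2⟩
  choose c hc using fin
  let ω : Ultrafilter (Finset Γ) := Ultrafilter.of atTop
  have hω : (ω : Filter (Finset Γ)) ≤ atTop := Ultrafilter.of_le _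
  have hcol : ∀ x, ∃ i : Fin 3, ∀ᶠ A in (ω : Filter (Finset Γ)), x ∈ A ∧ c A x = i := by
    intro x
    have hx : ∀ᶠ A in (ω : Filter (Finset Γ)), x ∈ A :=
      hω ((eventually_ge_atTop {x}).mono fun A hA => hA (Finset.mem_singleton_self x))
    have h3 : ∀ᶠ A in (ω : Filter (Finset Γ)), c A x = 0 ∨ c A x = 1 ∨ c A x = 2 :=
      Eventually.of_forall fun A => by omega
    rw [Ultrafilter.eventually_or, Ultrafilter.eventually_or] at h3
    rcases h3 with h | h | h
    · exact ⟨_, hx.and h⟩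
    · exact ⟨_, hx.and h⟩
    · exact ⟨_, hx.and h⟩
  choose col hcol using hcol
  refine ⟨col, fun i x y h => ?_⟩
  have : ∀ᶠ A in (ω : Filter (Finset Γ)), Relation.ReflTransGen
      (fun a b => (a ∈ A ∧ c A a = i) ∧ (b ∈ A ∧ c A b = i) ∧ a⁻¹ * b ∈ T) x y := by
    induction h with
    | refl => exact Eventually.of_forall fun _ => .refl
    | @tail a b _ h ih =>
      filter_upwards [ih, hcol a, hcol b] with A h1 h2 h3
      exact h1.tail ⟨⟨h2.1, h2.2.trans h.1⟩, ⟨h3.1, h3.2.trans h.2.1⟩, h.2.2⟩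
  obtain ⟨A, hA⟩ := this.exists
  exact hc A i x y hA

/-- Coulhon--Saloff-Coste.  Plan: the average over `w ∈ T^r` of `#{x ∈ F | x w ∉ F}` is `≥ |F|/2`, and each term is
`≤ r * #{x ∈ F | ∃ t ∈ T, x t ∉ F}`. -/
theorem csc [DecidableEq Γ] (T F : Finset Γ) (h1 : (1 : Γ) ∈ T) {r : ℕ}
    (hr : 2 * F.card ≤ (T ^ r).card) :
    F.card ≤ 2 * r * (F.filter fun x => ∃ t ∈ T, x * t ∉ F).card := by
  set b := (F.filter fun x => ∃ t ∈ T, x * t ∉ F).card with hb
  have h2 : ∀ (k : ℕ), ∀ w ∈ T ^ k, (F.filter fun x => x * w ∉ F).card ≤ k * b := by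
    intro k
    induction k with
    | zero =>
      intro w hw
      rw [pow_zero, Finset.mem_one] at hw
      subst hw
      simp
    | succ k ih =>
      intro w hw
      rw [pow_succ] at hw
      obtain ⟨u, hu, t, ht, rfl⟩ := Finset.mem_mul.1 hw
      have a1 := ih u hu
      have a2 : (F.filter fun x => x * u ∈ F ∧ x * u * t ∉ F).card ≤ b :=
        Finset.card_le_card_of_injOn (fun x => x * u) (fun x hx => Finset.mem_filter.2
          ⟨(Finset.mem_filter.1 hx).2.1, t, ht, (Finset.mem_filter.1 hx).2.2⟩)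
          fun _ _ _ _ h => mul_right_cancel h
      have a3 : (F.filter fun x => x * (u * t) ∉ F).card ≤ (F.filter fun x => x * u ∉ F).card +
          (F.filter fun x => x * u ∈ F ∧ x * u * t ∉ F).card := by
        refine le_trans (Finset.card_le_card fun x hx => ?_) (Finset.card_union_le _ _)
        obtain ⟨k1, k2⟩ := Finset.mem_filter.1 hx
        rw [← mul_assoc] at k2
        by_cases k3 : x * u ∈ F
        · exact Finset.mem_union_right _ (Finset.mem_filter.2 ⟨k1, k3, k2⟩)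
        · exact Finset.mem_union_left _ (Finset.mem_filter.2 ⟨k1, k3⟩)
      rw [add_mul, one_mul]
      omega
  have h3 : ∀ x ∈ F, (T ^ r).card ≤ 2 * ((T ^ r).filter fun w => x * w ∉ F).card := by
    intro x _
    have a1 := Finset.card_filter_add_card_filter_not (s := T ^ r) (fun w => x * w ∈ F)
    have a2 : ((T ^ r).filter fun w => x * w ∈ F).card ≤ F.card :=
      Finset.card_le_card_of_injOn (fun w => x * w) (fun w hw => (Finset.mem_filter.1 hw).2)
        fun _ _ _ _ h => mul_left_cancel h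
    omega
  have h4 : ∑ x ∈ F, ((T ^ r).filter fun w => x * w ∉ F).card =
      ∑ w ∈ T ^ r, (F.filter fun x => x * w ∉ F).card := by
    simp only [Finset.card_filter]
    exact Finset.sum_comm
  have h5 : F.card * (T ^ r).card ≤ 2 * r * b * (T ^ r).card := by
    calc F.card * (T ^ r).card = ∑ _x ∈ F, (T ^ r).card := by simp
      _ ≤ ∑ x ∈ F, 2 * ((T ^ r).filter fun w => x * w ∉ F).card := Finset.sum_le_sum h3
      _ = 2 * ∑ w ∈ T ^ r, (F.filter fun x => x * w ∉ F).card := by rw [← Finset.mul_sum, h4]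
      _ ≤ 2 * ∑ _w ∈ T ^ r, r * b := Nat.mul_le_mul_left _ (Finset.sum_le_sum (h2 r))
      _ = 2 * r * b * (T ^ r).card := by simp; ring
  exact Nat.le_of_mul_le_mul_right h5 (Finset.card_pos.2 ⟨1, Finset.one_mem_pow h1⟩)

/-- cubic growth gives the 3-dimensional isoperimetric inequality (choose `n` minimal with `2|F| ≤ 8 n³`) -/
theorem iso3 [DecidableEq Γ] (T : Finset Γ) (h1 : (1 : Γ) ∈ T)
    (hg : ∀ n : ℕ, 8 * n ^ 3 ≤ (T ^ (8 * n)).card) : ∃ κ : ℝ, 0 < κ ∧ ∀ F : Finset Γ,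
    κ * (F.card : ℝ) ^ 2 ≤ ((F.filter fun x => ∃ t ∈ T, x * t ∉ F).card : ℝ) ^ 3 := by
  refine ⟨1 / 8192, by norm_num, fun F => ?_⟩
  set b := (F.filter fun x => ∃ t ∈ T, x * t ∉ F).card with hb
  rcases Nat.eq_zero_or_pos F.card with h0 | h0
  · rw [h0]; simp
  have hex : ∃ n : ℕ, 2 * F.card ≤ 8 * n ^ 3 :=
    ⟨F.card, Nat.mul_le_mul (by norm_num) (Nat.le_self_pow (by norm_num) _)⟩
  have a1 := Nat.find_spec hex
  have a2 : Nat.find hex ^ 3 ≤ 2 * F.card := by
    rcases Nat.lt_or_ge (Nat.find hex) 2 with h | h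
    · have : Nat.find hex ^ 3 ≤ 1 ^ 3 := Nat.pow_le_pow_left (by omega) 3
      omega
    · have k1 := Nat.find_min hex (m := Nat.find hex - 1) (by omega)
      have k2 : Nat.find hex ^ 3 ≤ (2 * (Nat.find hex - 1)) ^ 3 := Nat.pow_le_pow_left (by omega) 3
      rw [mul_pow] at k2
      omega
  generalize Nat.find hex = n at a1 a2
  have a3 : F.card ≤ 2 * (8 * n) * b := csc T F h1 (a1.trans (hg n))
  have a4 : F.card ^ 2 * F.card ≤ 8192 * b ^ 3 * F.card := by
    calc F.card ^ 2 * F.card = F.card ^ 3 := by ring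
      _ ≤ (2 * (8 * n) * b) ^ 3 := Nat.pow_le_pow_left a3 3
      _ = 4096 * b ^ 3 * n ^ 3 := by ring
      _ ≤ 4096 * b ^ 3 * (2 * F.card) := Nat.mul_le_mul_left _ a2
      _ = 8192 * b ^ 3 * F.card := by ring
  have a5 : (F.card : ℝ) ^ 2 ≤ 8192 * (b : ℝ) ^ 3 := by
    exact_mod_cast Nat.le_of_mul_le_mul_right a4 h0
  linarith

end Crest.Agent.R224
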