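import Crest.Agent.R224.Stab
import Crest.Agent.R224.Sep3
import Crest.Agent.R224.DY

/-! Cubic growth of stabilisers and the weak `ℓ⁶` estimate. -/

set_option autoImplicit false
open Filter Topology Set MeasureTheory
open scoped Pointwise

namespace Crest.Agent.R224

theorem Gen.len_le_of_mem_pow {Γ : Type} [Group Γ] [DecidableEq Γ] (G : Gen Γ) {T : Finset Γ} {b : ℕ}
    (hT : ∀ t ∈ T, G.len t ≤ b) (n : ℕ) : ∀ g ∈ T ^ n, G.len g ≤ n * b := by
  induction n with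
  | zero => intro g hg; simp only [pow_zero, Finset.mem_one] at hg; simp [hg]
  | succ n ih =>
    intro g hg
    rw [pow_succ] at hg
    obtain ⟨u, hu, v, hv, rfl⟩ := Finset.mem_mul.1 hg
    have := G.len_mul_le u v
    have := ih u hu
    have := hT v hv
    nlinarith

namespace Ctx
variable {Γ X : Type} [Group Γ] [MetricSpace X] [CompactSpace X] [MulAction Γ X] (c : Ctx Γ X)

/-- cubic growth of stabilisers -/
theorem growth [DecidableEq Γ] (a : c.T) : ∃ T : Finset Γ, (1 : Γ) ∈ T ∧ (∀ t ∈ T, t⁻¹ ∈ T) ∧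
    (∀ t ∈ T, t • a = a) ∧ ∀ n : ℕ, 8 * n ^ 3 ≤ (T ^ (8 * n)).card := by
  classical
  obtain ⟨H, R, L, -, -, -, ⟨y, y', hy, hy', hya, hya', hyH, hyH'⟩, hwall⟩ := c.cut_ess_stab a
  obtain ⟨s, hs⟩ := c.co.S
  let T : Finset Γ := (c.finite_len_le (s + 2 * L)).toFinset.filter fun t => t • a = a
  have hT : ∀ t, t ∈ T ↔ c.len t ≤ s + 2 * L ∧ t • a = a := by
    intro t; simp [T]
  have h1 : (1 : Γ) ∈ T := (hT _).2 ⟨by simp, one_smul _ _⟩
  have hi : ∀ t ∈ T, t⁻¹ ∈ T := fun t ht =>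
    (hT _).2 ⟨by simpa using ((hT t).1 ht).1, inv_smul_eq_iff.2 ((hT t).1 ht).2.symm⟩
  refine ⟨T, h1, hi, fun t ht => ((hT t).1 ht).2, fun n => ?_⟩
  by_contra hn
  obtain ⟨col, hcol⟩ := three_colours T h1 hi (not_le.1 hn)
  obtain ⟨R', hR'⟩ := hs (16 * n * (s + 2 * L) + 2 * L)
  set Q : Set Γ := {g | g • a = a} with hQ
  have hq : ∀ x, ∃ q, x ∈ c.N L Q → q ∈ Q ∧ c.D q x ≤ L := by
    intro x
    by_cases hx : x ∈ c.N L Q
    · obtain ⟨q, hq, hq'⟩ := hx
      exact ⟨q, fun _ => ⟨hq, hq'⟩⟩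
    · exact ⟨1, fun h => absurd h hx⟩
  choose q hq using hq
  let Z : Fin 3 → Set Γ := fun i => {x | x ∈ c.N L Q ∧ col (q x) = i}
  have hZ : ∀ i, c.Clus s (16 * n * (s + 2 * L) + 2 * L) (Z i) := by
    intro i x z hxz
    rcases Relation.ReflTransGen.cases_head hxz with rfl | ⟨u, hu, -⟩
    · simp
    have hx : x ∈ Z i := hu.1
    have hz : z ∈ Z i := hxz.mem hx
    have h2 : Relation.ReflTransGen (fun a b => col a = i ∧ col b = i ∧ a⁻¹ * b ∈ T) (q x) (q z) := by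
      refine Relation.ReflTransGen.lift q ?_ _ _ hxz
      rintro u v ⟨hu, hv, huv⟩
      refine ⟨hu.2, hv.2, (hT _).2 ⟨?_, ?_⟩⟩
      · have h3 := c.D_tri (q u) u (q v)
        have h4 := c.D_tri u v (q v)
        have h5 := (hq u hu.1).2
        have h6 := (hq v hv.1).2
        rw [c.D_comm] at h6
        change c.D (q u) (q v) ≤ _
        omega
      · rw [mul_smul, (hq v hv.1).1, inv_smul_eq_iff]
        exact (hq u hu.1).1.symm
    have h3 : c.D (q x) (q z) ≤ 16 * n * (s + 2 * L) :=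
      c.len_le_of_mem_pow (fun t ht => ((hT t).1 ht).1) _ _ (hcol i _ _ h2)
    have h4 := c.D_tri x (q x) z
    have h5 := c.D_tri (q x) (q z) z
    have h6 := (hq x hx.1).2
    have h7 := (hq z hz.1).2
    rw [c.D_comm] at h6
    omega
  have hZU : Z 0 ∪ Z 1 ∪ Z 2 = c.N L Q := by
    ext x
    simp only [Z, mem_union, mem_ofPred_eq]
    constructor
    · rintro ((h | h) | h) <;> exact h.1
    · intro hx
      generalize col (q x) = i
      fin_cases i <;> simp [hx]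
  have key := hR' (Z 0) (Z 1) (Z 2) H (hZ 0) (hZ 1) (hZ 2) (by
    intro x z hxz hc
    rw [hZU]
    exact Or.inl (hwall ⟨z, hxz, hc⟩))
  rw [hZU] at key
  have hout : ∀ {y : X}, y ≠ a → c.In y (c.N R' (c.N L Q))ᶜ := by
    intro y hy h
    rw [compl_compl, c.Acc_N, c.Acc_N] at h
    exact hy (c.stab_acc a h)
  obtain ⟨γ, hγ, hγl⟩ := hy
  obtain ⟨γ', hγ', hγl'⟩ := hy'
  obtain ⟨k, hk, hk'⟩ := ((hyH.inter (hout hya)).eventually hγ.1 hγl).exists
  obtain ⟨k', hk2, hk2'⟩ := ((hyH'.inter (hout hya')).eventually hγ'.1 hγl').exists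
  exact hk2 ((key _ hk' _ hk2').1 hk)

end Ctx
end Crest.Agent.R224
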