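import Crest.Agent.R224.NoAtom0

/-! No atoms, no global fixed point, accessible points in sets of positive measure. -/

set_option autoImplicit false
open Filter Topology Set MeasureTheory
open scoped Pointwise

namespace Crest.Agent.R224

namespace Ctx
variable {Γ X : Type} [Group Γ] [MetricSpace X] [CompactSpace X] [MulAction Γ X] (c : Ctx Γ X)

theorem na_tendsto_Hm {γ : ℕ → Γ} (hγ : Function.Injective γ) {y : X}
    (hl : Tendsto (c.e ∘ γ) atTop (𝓝 y)) (a : X) {δ : ℝ} (hδ : 0 < δ) :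
    Tendsto (fun n => c.Hm (c.bump a δ ∘ c.e) (γ n)) atTop (𝓝 (c.bump a δ y)) := by
  have h1 : Tendsto (fun n => c.bump a δ (c.e (γ n))) atTop (𝓝 (c.bump a δ y)) := by
    have : Continuous (c.bump a δ) := by unfold bump; fun_prop
    exact (this.tendsto y).comp hl
  have h2 : Tendsto (fun n => c.Gr (fun x => δ⁻¹ * c.w x) (γ n)) atTop (𝓝 0) :=
    (c.gap.Gr_L2 (c.na_dom_bump a hδ).1).1.tendsto.comp (Nat.cofinite_eq_atTop ▸ hγ.tendsto_cofinite)
  have h3 := h1.sub (squeeze_zero_norm (fun n => c.gap.abs_sub_Hm (c.na_dom_bump a hδ) (γ n)) h2)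
  simpa using h3

include c in
/-- Plan: `k = bump a δ ∘ e` with `Hm k 1 < 1/4`; `beh` with `z = a`, `η = δ/4` gives
`k x + k x⁻¹ ≥ 3/4` off a finite set; `iter_inv` gives `2 Hm k 1 ≥ 3/4`. -/
theorem no_fixed (a : X) : ∃ g : Γ, g • a ≠ a := by
  by_contra hc
  push Not at hc
  obtain ⟨δ, hδ, h⟩ := c.no_atom a 1 (ε := 1 / 4) (by norm_num)
  obtain ⟨R, hR⟩ := c.beh (δ / 4) (by positivity)
  set k := c.bump a δ ∘ c.e
  have hk0 : ∀ x, 0 ≤ k x := fun x => (c.bump_mem a hδ _).1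
  have hk : ∀ x, dist a (c.e x) ≤ δ / 4 → 3 / 4 ≤ k x := fun x hx => by
    have h1 : dist (c.e x) a / δ ≤ 1 / 4 := by rw [div_le_iff₀ hδ, dist_comm]; linarith
    exact le_trans (by linarith) (le_max_right 0 (1 - dist (c.e x) a / δ))
  have hF : L2 (ind {g | c.len g ≤ R}) := L2.of_finite ((c.finite_len_le R).subset fun g hg => by
    by_contra h'
    exact hg (indicator_of_notMem h' _))
  have h1 := ((c.gap.tendsto_Hm (c.na_dom_bump a hδ) 1).add
    (c.gap.tendsto_Hm (c.na_dom_bump a hδ) 1)).add (c.gap.tendsto_zero hF 1)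
  have h2 : 3 / 4 ≤ c.Hm k 1 + c.Hm k 1 + 0 := ge_of_tendsto' h1 fun n => by
    have h3 := c.iter_mono (f := fun _ => 3 / 4)
      (g := k + (fun y => k y⁻¹) + ind {g | c.len g ≤ R}) (fun y => by
        have h4 : 0 ≤ ind {g | c.len g ≤ R} y := indicator_nonneg (by simp) y
        simp only [Pi.add_apply]
        by_cases hy : c.len y ≤ R
        · have : ind {g | c.len g ≤ R} y = 1 :=
            indicator_of_mem (s := {g | c.len g ≤ R}) hy _
          linarith [hk0 y, hk0 y⁻¹]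
        · rcases hR y (not_le.1 hy).le a with h5 | h5
          · linarith [hk y h5, hk0 y⁻¹]
          · rw [hc] at h5
            linarith [hk _ h5, hk0 y]) n 1
    rw [c.iter_const, c.iter_add, c.iter_add] at h3
    simpa [c.iter_inv] using h3
  linarith

/-- Plan: `q = p - 2 Hm (bump e₀ δ ∘ e) - 2 Hm (bump ζ δ ∘ e)` with `q x > 0` (`no_atom`); a greedy ray with
`q ≥ δ' > 0` converges to `y`; `Hm (bump ..) ≤ 1/2` along the ray so `y ≠ e₀, ζ`; `y` has a side; `hit_small` and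
`IsP.abs_sub_le` show that the ray is eventually in `H`. -/
theorem exists_accs_of_isP {H : Set Γ} {p : Γ → ℝ} (h : c.IsP H p) {x : Γ} (hx : 0 < p x)
    {e₀ ζ : X} (hH : c.Acc (c.wall H) ⊆ {e₀, ζ}) :
    ∃ y, c.Accs y ∧ y ∉ ({e₀, ζ} : Set X) ∧ c.In y H := by
  obtain ⟨δ₁, hδ₁, h1⟩ := c.no_atom e₀ x (ε := p x / 8) (by positivity)
  obtain ⟨δ₂, hδ₂, h2⟩ := c.no_atom ζ x (ε := p x / 8) (by positivity)
  set H₁ := c.Hm (c.bump e₀ δ₁ ∘ c.e) with hH₁
  set H₂ := c.Hm (c.bump ζ δ₂ ∘ c.e) with hH₂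
  have m1 : ∀ y, 0 ≤ H₁ y := fun y => (c.na_Hm_bump_mem e₀ hδ₁ y).1
  have m2 : ∀ y, 0 ≤ H₂ y := fun y => (c.na_Hm_bump_mem ζ hδ₂ y).1
  have hq : c.P (p - (fun y => 2 * H₁ y) - fun y => 2 * H₂ y) =
      p - (fun y => 2 * H₁ y) - fun y => 2 * H₂ y := by
    have := c.iter_sub (p - fun y => 2 * H₁ y) (fun y => 2 * H₂ y) 1
    rw [c.iter_sub p, c.iter_const_mul, c.iter_const_mul] at this
    simpa [h.1, hH₁, hH₂, c.gap.P_Hm (c.na_dom_bump e₀ hδ₁), c.gap.P_Hm (c.na_dom_bump ζ hδ₂)]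
      using this
  obtain ⟨γ, hγ, -, h3, h4⟩ := c.gap.greedy hq (B := 1) (fun y => by
    simp only [Pi.sub_apply]; linarith [m1 y, m2 y, (h.2.1 y).2]) c.w_L2 c.w_nonneg (x₀ := x)
    (δ := p x / 2) (by simp only [Pi.sub_apply]; linarith)
  simp only [Pi.sub_apply] at h3
  obtain ⟨y, hy⟩ := c.exists_lim hγ h4
  have hne : y ∉ ({e₀, ζ} : Set X) := by
    rintro (rfl | rfl)
    · have := le_of_tendsto' (c.na_tendsto_Hm hγ.1 hy y hδ₁) (b := 1 / 2) fun n => by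
        linarith [h3 n, m2 (γ n), (h.2.1 (γ n)).2]
      rw [c.bump_self] at this
      linarith
    · have := le_of_tendsto' (c.na_tendsto_Hm hγ.1 hy y hδ₂) (b := 1 / 2) fun n => by
        linarith [h3 n, m1 (γ n), (h.2.1 (γ n)).2]
      rw [c.bump_self] at this
      linarith
  have hw : y ∉ c.Acc (c.wall H) := fun h' => hne (hH h')
  refine ⟨y, ⟨γ, hγ, hy⟩, hne, (c.side ⟨γ, hγ, hy⟩ hw).resolve_right fun h5 => ?_⟩
  have h6 : c.In y {z | p x / 2 ≤ c.hit (c.wall H) z}ᶜ := by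
    rw [In, compl_compl]; exact c.hit_small hw (by positivity)
  obtain ⟨n, h7, h8⟩ := ((h5.eventually hγ.1 hy).and (h6.eventually hγ.1 hy)).exists
  have h9 := h.abs_sub_le (γ n)
  rw [show ind H (γ n) = 0 from indicator_of_notMem h7 _, sub_zero] at h9
  exact h8 (show p x / 2 ≤ _ by linarith [le_abs_self (p (γ n)), h3 n, m1 (γ n), m2 (γ n)])

/-- Plan: `a ≠ b` from `c.two`, `k = bump a δ ∘ e`; `Hm k > 3/4` somewhere near `a`, `< 1/4` somewhere near `b`;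
greedy rays for `± Hm k`. -/
theorem two_accs : ∃ y y', c.Accs y ∧ c.Accs y' ∧ y ≠ y' := by
  obtain ⟨a, b, hne, ha, hb⟩ := c.two
  have hδ : 0 < dist a b / 2 := half_pos (dist_pos.2 hne)
  set δ := dist a b / 2 with hδ'
  have hd := c.na_dom_bump a hδ
  have hF := c.na_finite_Hm_sub hd (η := 1 / 8) (by norm_num)
  obtain ⟨x₀, h1, h2⟩ := (ha (δ / 8) (by positivity)).exists_notMem_finite hF
  obtain ⟨x₁, h3, h4⟩ := (hb δ hδ).exists_notMem_finite hF
  simp only [mem_ofPred_eq, not_le, abs_lt, Function.comp] at h1 h2 h3 h4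
  have h5 : 7 / 8 ≤ c.bump a δ (c.e x₀) := by
    have : dist (c.e x₀) a / δ ≤ 1 / 8 := by rw [div_le_iff₀ hδ]; linarith
    exact le_trans (by linarith) (le_max_right 0 (1 - dist (c.e x₀) a / δ))
  have h6 : c.bump a δ (c.e x₁) = 0 :=
    c.bump_eq_zero hδ (by linarith [dist_triangle_left a b (c.e x₁)])
  obtain ⟨γ, hγ, -, h7, h8⟩ := c.gap.greedy (c.gap.P_Hm hd) (B := 1)
    (fun y => (c.na_Hm_bump_mem a hδ y).2) c.w_L2 c.w_nonneg (x₀ := x₀) (δ := 3 / 4)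
    (by linarith [h2.2])
  have hq : c.P (fun y => -1 * c.Hm (c.bump a δ ∘ c.e) y) =
      fun y => -1 * c.Hm (c.bump a δ ∘ c.e) y := by
    simpa [c.gap.P_Hm hd] using c.iter_const_mul (-1) (c.Hm (c.bump a δ ∘ c.e)) 1
  obtain ⟨γ', hγ', -, h7', h8'⟩ := c.gap.greedy hq (B := 0)
    (fun y => by linarith [(c.na_Hm_bump_mem a hδ y).1]) c.w_L2 c.w_nonneg (x₀ := x₁)
    (δ := -(1 / 4)) (by linarith [h4.1])
  obtain ⟨y, hy⟩ := c.exists_lim hγ h8
  obtain ⟨y', hy'⟩ := c.exists_lim hγ' h8'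
  refine ⟨y, y', ⟨γ, hγ, hy⟩, ⟨γ', hγ', hy'⟩, ?_⟩
  rintro rfl
  have h9 := ge_of_tendsto' (c.na_tendsto_Hm hγ.1 hy a hδ) h7
  have h10 := le_of_tendsto' (c.na_tendsto_Hm hγ'.1 hy' a hδ) (b := 1 / 4)
    fun n => by linarith [h7' n]
  linarith

end Ctx
end Crest.Agent.R224
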