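import Crest.Agent.R224.Acc

/-! No atoms, no global fixed point, accessible points in sets of positive measure. -/

set_option autoImplicit false
open Filter Topology Set MeasureTheory
open scoped Pointwise

namespace Crest.Agent.R224

namespace Ctx
variable {Γ X : Type} [Group Γ] [MetricSpace X] [CompactSpace X] [MulAction Γ X] (c : Ctx Γ X)

theorem na_dom_bump (a : X) {δ : ℝ} (hδ : 0 < δ) :
    c.Dom (c.bump a δ ∘ c.e) fun x => δ⁻¹ * c.w x :=
  c.dom_lip (inv_nonneg.2 hδ.le) (c.bump_lip a hδ)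

theorem na_Hm_le_add {k k' w w' : Γ → ℝ} (hk : c.Dom k w) (hk' : c.Dom k' w') {η : ℝ}
    (h : ∀ y, k y ≤ k' y + η) (x : Γ) : c.Hm k x ≤ c.Hm k' x + η := by
  refine le_of_tendsto_of_tendsto' (c.gap.tendsto_Hm hk x)
    ((c.gap.tendsto_Hm hk' x).add_const η) fun n => ?_
  have h1 := c.iter_mono (f := k) (g := k' + fun _ => η) h n x
  rwa [c.iter_add, c.iter_const] at h1

theorem na_bump_mono (a : X) {δ δ' : ℝ} (hδ : 0 < δ) (h : δ ≤ δ') (z : X) :
    c.bump a δ z ≤ c.bump a δ' z :=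
  max_le_max le_rfl (sub_le_sub_left (div_le_div_of_nonneg_left dist_nonneg hδ h) _)

theorem na_Hm_bump_mono (a : X) {δ δ' : ℝ} (hδ : 0 < δ) (h : δ ≤ δ') (x : Γ) :
    c.Hm (c.bump a δ ∘ c.e) x ≤ c.Hm (c.bump a δ' ∘ c.e) x := by
  simpa using c.na_Hm_le_add (c.na_dom_bump a hδ) (c.na_dom_bump a (hδ.trans_le h)) (η := 0)
    (fun y => by simpa using c.na_bump_mono a hδ h _) x

theorem na_Hm_bump_mem (a : X) {δ : ℝ} (hδ : 0 < δ) (x : Γ) :
    0 ≤ c.Hm (c.bump a δ ∘ c.e) x ∧ c.Hm (c.bump a δ ∘ c.e) x ≤ 1 :=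
  c.gap.Hm_mem (c.na_dom_bump a hδ) (fun _ => c.bump_mem a hδ _) x

/-- near an accumulation point, the harmonic part of a bump is close to the bump -/
theorem na_finite_Hm_sub {k w : Γ → ℝ} (hk : c.Dom k w) {η : ℝ} (hη : 0 < η) :
    {x | η ≤ |k x - c.Hm k x|}.Finite :=
  ((c.gap.Gr_L2 hk.1).1.finite_ge hη).subset fun x hx =>
    (hx.trans (c.gap.abs_sub_Hm hk x)).trans (le_abs_self _)

theorem na_iter_sum {ι : Type} (s : Finset ι) (f : ι → Γ → ℝ) (n : ℕ) (x : Γ) :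
    c.P^[n] (fun y => ∑ i ∈ s, f i y) x = ∑ i ∈ s, c.P^[n] (f i) x := by
  classical
  induction s using Finset.induction_on with
  | empty => simpa using congrFun (c.iter_const 0 n) x
  | insert a s ha ih =>
    simp only [Finset.sum_insert ha]
    rw [← ih]
    exact congrFun (c.iter_add (f a) _ n) x

/-- mass of the atom at `a` -/
noncomputable def atom (a : X) (x : Γ) : ℝ := ⨅ n : ℕ, c.Hm (c.bump a (1 / (n + 1)) ∘ c.e) x

theorem atom_bdd (a : X) (x : Γ) :
    BddBelow (range fun n : ℕ => c.Hm (c.bump a (1 / (n + 1)) ∘ c.e) x) :=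
  ⟨0, by rintro _ ⟨n, rfl⟩; exact (c.na_Hm_bump_mem a Nat.one_div_pos_of_nat x).1⟩

theorem atom_le (a : X) {δ : ℝ} (hδ : 0 < δ) (x : Γ) :
    c.atom a x ≤ c.Hm (c.bump a δ ∘ c.e) x := by
  obtain ⟨n, hn⟩ := exists_nat_one_div_lt hδ
  exact (ciInf_le (c.atom_bdd a x) n).trans (c.na_Hm_bump_mono a Nat.one_div_pos_of_nat hn.le x)

theorem P_atom (a : X) (x : Γ) : c.P (c.atom a) x = c.atom a x := by
  have h : ∀ y, Tendsto (fun n : ℕ => c.Hm (c.bump a (1 / (n + 1)) ∘ c.e) y) atTop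
      (𝓝 (c.atom a y)) := fun y => tendsto_atTop_ciInf
    (fun m n hmn => c.na_Hm_bump_mono a Nat.one_div_pos_of_nat (Nat.one_div_le_one_div hmn) y)
    (c.atom_bdd a y)
  refine tendsto_nhds_unique (c.tendsto_iter h 1 x) ((h x).congr fun n => ?_)
  exact (congrFun (c.gap.P_Hm (c.na_dom_bump a Nat.one_div_pos_of_nat)) x).symm

theorem atom_le_smul (g : Γ) (a : X) (x : Γ) : c.atom a x ≤ c.atom (g • a) (g * x) := by
  refine le_ciInf fun n => le_of_forall_pos_le_add fun η hη => ?_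
  have hδ : (0 : ℝ) < 1 / (n + 1) := Nat.one_div_pos_of_nat
  obtain ⟨δ', hδ', h⟩ := Metric.continuous_iff.1 (c.cont g) a _ (mul_pos hη hδ)
  rw [← c.Hm_tr]
  refine (c.atom_le a hδ' x).trans (c.na_Hm_le_add (c.na_dom_bump a hδ')
    ((c.na_dom_bump (g • a) hδ).tr g) (fun y => ?_) x)
  simp only [Function.comp, c.equiv]
  by_cases hy : dist (c.e y) a < δ'
  · have h1 := (div_lt_iff₀ hδ).2 (h _ hy)
    have h2 : 1 - dist (g • c.e y) (g • a) / (1 / (n + 1)) ≤ c.bump (g • a) (1 / (n + 1)) (g • c.e y) :=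
      le_max_right _ _
    linarith [(c.bump_mem a hδ' (c.e y)).2]
  · rw [c.bump_eq_zero hδ' (not_lt.1 hy)]
    linarith [(c.bump_mem (g • a) hδ (g • c.e y)).1]

theorem atom_sum (s : Finset X) (x : Γ) : ∑ b ∈ s, c.atom b x ≤ 1 := by
  obtain ⟨δ, hδ, h⟩ : ∃ δ > 0, ∀ b ∈ s, ∀ b' ∈ s, b ≠ b' → 2 * δ ≤ dist b b' := by
    have : ∀ᶠ δ in 𝓝[>] (0 : ℝ), ∀ b ∈ s, ∀ b' ∈ s, b ≠ b' → 2 * δ ≤ dist b b' := by
      simp only [Finset.eventually_all]
      intro b _ b' _
      by_cases hb : b = b'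
      · simp [hb]
      · filter_upwards [Ioo_mem_nhdsGT (half_pos (dist_pos.2 hb))] with δ hδ _
        linarith [hδ.2]
    obtain ⟨δ, h1, h2⟩ := (this.and self_mem_nhdsWithin).exists
    exact ⟨δ, h2, h1⟩
  refine (Finset.sum_le_sum fun b _ => c.atom_le b hδ x).trans (le_of_tendsto'
    (tendsto_finsetSum s fun b _ => c.gap.tendsto_Hm (c.na_dom_bump b hδ) x) fun n => ?_)
  rw [← c.na_iter_sum]
  refine (c.iter_mono (g := fun _ => 1) (fun y => ?_) n x).trans (by rw [c.iter_const])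
  simp only [Function.comp]
  by_cases hy : ∃ b ∈ s, dist (c.e y) b < δ
  · obtain ⟨b, hb, hy⟩ := hy
    rw [Finset.sum_eq_single_of_mem b hb fun b' hb' hne => c.bump_eq_zero hδ (by
      have := h b' hb' b hb hne
      linarith [dist_triangle_left b' b (c.e y)])]
    exact (c.bump_mem b hδ _).2
  · push Not at hy
    rw [Finset.sum_eq_zero fun b hb => c.bump_eq_zero hδ (hy b hb)]
    exact zero_le_one

/-- No atoms.  Plan: `h a x = ⨅ n, Hm (bump a (1/(n+1)) ∘ e) x` is a decreasing limit of harmonic functions,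
so harmonic.  Equivariance `h (g • a) (g * x) = h a x` (continuity of the action:
`bump a δ' z ≤ bump (g • a) δ (g • z) + ε` for small `δ'`; `Hm_tr`, `Hm_mono`).  For distinct points
`∑ h a_i x ≤ 1` (disjoint supports).  If `h a x > 0`, then `b ↦ h b 1` attains a positive maximum on the orbit
of `a` at some `b`, so `h b` attains its maximum at `1` and is a positive constant (`const_of_max`).  But by
`c.two` there is `b' ≠ b` in `Acc univ`, and near `b'`, `Hm (bump b δ ∘ e) ≤ 0 + Gr (..) → 0`. -/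
theorem no_atom (a : X) (x : Γ) {ε : ℝ} (hε : 0 < ε) :
    ∃ δ > 0, c.Hm (c.bump a δ ∘ c.e) x < ε := by
  by_contra hc
  push Not at hc
  have h0 : ε ≤ c.atom (x⁻¹ • a) 1 := by
    have := c.atom_le_smul x⁻¹ a x
    rw [inv_mul_cancel] at this
    exact (le_ciInf fun n => hc _ Nat.one_div_pos_of_nat).trans this
  have hfin : {b | ε ≤ c.atom b 1}.Finite := by
    by_contra hinf
    obtain ⟨n, hn⟩ := exists_nat_gt (1 / ε)
    obtain ⟨s, hs, rfl⟩ := Set.Infinite.exists_subset_card_eq hinf n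
    have h1 := (Finset.card_nsmul_le_sum s (fun b => c.atom b 1) ε fun b hb => hs hb).trans
      (c.atom_sum s 1)
    rw [nsmul_eq_mul] at h1
    rw [div_lt_iff₀ hε] at hn
    linarith
  obtain ⟨b, hb, hmax⟩ := Set.exists_max_image _ (fun b => c.atom b 1) hfin ⟨_, h0⟩
  have hconst : ∀ y, c.atom b y = c.atom b 1 := c.const_of_max (fun y => (c.P_atom b y).ge) fun y => by
    have := c.atom_le_smul y⁻¹ b y
    rw [inv_mul_cancel] at this
    by_cases h : ε ≤ c.atom (y⁻¹ • b) 1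
    · exact this.trans (hmax _ h)
    · exact this.trans ((not_le.1 h).le.trans hb)
  obtain ⟨b', hne, hb'⟩ : ∃ b', b' ≠ b ∧ ∀ ε > 0, {x | dist (c.e x) b' < ε}.Infinite := by
    obtain ⟨a₁, a₂, hne, h1, h2⟩ := c.two
    by_cases h : a₁ = b
    · exact ⟨a₂, fun h' => hne (h.trans h'.symm), h2⟩
    · exact ⟨a₁, h, h1⟩
  have hδ : 0 < dist b' b / 2 := half_pos (dist_pos.2 hne)
  obtain ⟨y, hy, hy'⟩ := (hb' _ hδ).exists_notMem_finite (c.na_finite_Hm_sub (c.na_dom_bump b hδ) hε)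
  have h1 : (c.bump b (dist b' b / 2) ∘ c.e) y = 0 := c.bump_eq_zero hδ (by
    have : dist (c.e y) b' < dist b' b / 2 := hy
    linarith [dist_triangle_left b' b (c.e y)])
  have h2 := c.atom_le b hδ y
  simp only [mem_ofPred_eq, h1, zero_sub, abs_neg, not_le] at hy'
  have h3 : ε ≤ c.atom b 1 := hb
  linarith [le_abs_self (c.Hm (c.bump b (dist b' b / 2) ∘ c.e) y), hconst y]

end Ctx
end Crest.Agent.R224
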