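import Crest.Agent.R224.Null0

/-! Nullity, finite packing, essential half spaces. -/

set_option autoImplicit false
open Filter Topology Set MeasureTheory
open scoped Pointwise

namespace Crest.Agent.R224

namespace Ctx
variable {Γ X : Type} [Group Γ] [MetricSpace X] [CompactSpace X] [MulAction Γ X] (c : Ctx Γ X)

theorem nu_key (m : c.T) : ∃ R : ℕ, ∀ (x : Γ) (d : c.T), d ≠ x • m → ∃ v, c.D x v ≤ R ∧
    ∀ Z : Set Γ, (∀ z ∈ Z, z • m ≠ x • m ∧ ¬ c.B (x • m) d (z • m)) → c.hit Z v ≤ 1 / 2 := by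
  have acc : ∀ d : c.T, c.Accs d := fun d => Cut.accs d.2
  have key : ∀ U : Set Γ, c.Acc (c.wall U) ⊆ {(m : X)} → ∀ v,
      c.hit {z : Γ | z • (m : X) ≠ m ∧ c.In (z • (m : X)) Uᶜ} v ≤ 1 / 2 → ∀ (x : Γ) (d : c.T),
      d ≠ x • m → c.In d (x • U)ᶜ → ∀ Z : Set Γ,
      (∀ z ∈ Z, z • m ≠ x • m ∧ ¬ c.B (x • m) d (z • m)) → c.hit Z (x * v) ≤ 1 / 2 := by
    intro U hU v hv x d hd hin Z hZ
    rw [← c.hit_smul x] at hv
    refine (c.hit_mono (fun z hz => ?_) _).trans hv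
    have h1 : z • (m : X) ≠ x • (m : X) := fun e => (hZ z hz).1 (Subtype.ext e)
    have h2 := (c.side (acc (z • m)) (V := x • U) fun h => h1 (c.nu_wall_smul hU x h)).resolve_left
      fun h => (hZ z hz).2 (Btw.symm ⟨h1.symm, fun e => hd (Subtype.ext e.symm), x • U,
        c.nu_wall_smul hU x, h, hin⟩)
    rw [Set.mem_smul_set_iff_inv_smul_mem, smul_eq_mul]
    refine ⟨by rw [mul_smul, Ne, inv_smul_eq_iff]; exact h1, ?_⟩
    have h3 := h2.smul x⁻¹
    rwa [← Set.smul_set_compl, inv_smul_smul, coe_smul, ← mul_smul] at h3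
  obtain ⟨y, y', hy, hy', n1, n2, V, hV, h1, h2⟩ := m.2
  have hV' : c.Acc (c.wall Vᶜ) ⊆ {(m : X)} := by rwa [c.wall_compl]
  obtain ⟨v, hv⟩ := c.ess_base m.2 (acc m) hV hy n1.symm h1
  obtain ⟨v', hv'⟩ := c.ess_base m.2 (acc m) hV' hy' n2.symm h2
  refine ⟨max (c.len v) (c.len v'), fun x d hd => ?_⟩
  rcases c.side (acc d) (V := x • V) (fun h => hd (Subtype.ext (c.nu_wall_smul hV x h))) with h | h
  · exact ⟨x * v', by simp, key Vᶜ hV' v' hv' x d hd (by rwa [Set.smul_set_compl, compl_compl])⟩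
  · exact ⟨x * v, by simp, key V hV v hv x d hd h⟩

/-- Half spaces of the pretree are essential.  Plan: cut `V` at `m`, `v^±` from `ess_base` for `V` and `Vᶜ`,
`R = max (len v^±)`.  For `x` and the reference point `d` of `x • m`: `d` lies on one side of `x • V`, say
`In d (x • V)ᶜ`; every `z` with `z • m = x • m` or `In (z • m) (x • V)` has the same `A`-membership as `x`;
use `hit_mono`, `hit_smul`, `side`. -/
theorem tree_ess (m : c.T) : ∃ R : ℕ, ∀ A : Set c.T,
    (∀ z : c.T, ∃ d, d ≠ z ∧ ∀ u, c.B z d u → (u ∈ A ↔ z ∈ A)) →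
    c.Ess R {x | x • m ∈ A} ∧ c.Ess R {x | x • m ∈ A}ᶜ := by
  obtain ⟨R, hR⟩ := c.nu_key m
  refine ⟨R, fun A hA => ⟨fun x hx => ?_, fun x hx => ?_⟩⟩ <;>
  · obtain ⟨d, hd, h⟩ := hA (x • m)
    obtain ⟨v, h1, h2⟩ := hR x d hd
    refine ⟨v, h1, h2 _ fun z hz => ⟨fun e => ?_, fun hb => ?_⟩⟩
    · simp_all
    · have := h _ hb
      simp_all

/-- A canonical essential half space at a cut point.  Plan: `m' = g₀ • m ≠ m`; `W` a cut at `a` with accessible
`y, y'` on both sides; `pos x = if x • m ≠ a then x • m else x • m'`, `H = {x | In (pos x) W}`.  `n0` gives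
`Acc (symmDiff H W) ⊆ {a}`.  Essential: for `x • m ≠ a` use the side of `x • V` (V a cut at `m`) away from
`a`; for `x • m = a` use the side of the cut `x g₀ • V` at `x • m'` away from `a` (points `z` with
`z • m = x • m'` or `In (z • m)` that side have `z • m ≠ a` on the same side of `W` as `x • m'`, by `t2`). -/
theorem cut_ess (m : c.T) {g₀ : Γ} (hg : g₀ • m ≠ m) (a : c.T) :
    ∃ (H : Set Γ) (R : ℕ), c.Ess R H ∧ c.Ess R Hᶜ ∧ c.Acc (c.wall H) ⊆ {(a : X)} ∧
      (∃ y y', c.Accs y ∧ c.Accs y' ∧ y ≠ a ∧ y' ≠ a ∧ c.In y H ∧ c.In y' Hᶜ) ∧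
      ∀ x y, c.D x y ≤ 1 → cross H x y →
        ∃ p ∈ ({x • m, x • g₀ • m} : Set c.T), ∃ q ∈ ({y • m, y • g₀ • m} : Set c.T), c.B a p q := by
  classical
  have hp := c.isPre
  have acc : ∀ d : c.T, c.Accs d := fun d => Cut.accs d.2
  obtain ⟨R, hR⟩ := c.nu_key m
  let pos : Γ → c.T := fun x => if x • m = a then x • g₀ • m else x • m
  have hpos : ∀ x, pos x ≠ a := fun x => by
    by_cases h : x • m = a
    · simp only [pos, h, if_true]
      exact fun e => hg (MulAction.injective x (e.trans h.symm))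
    · simp only [pos, h, if_false]
      exact h
  have hpos' : ∀ x, (pos x : X) ≠ a := fun x e => hpos x (Subtype.ext e)
  have hmem : ∀ x, pos x ∈ ({x • m, x • g₀ • m} : Set c.T) := fun x => by
    by_cases h : x • m = a <;> simp [pos, h]
  have ess : ∀ W : Set Γ, c.Acc (c.wall W) ⊆ {(a : X)} →
      c.Ess (c.len g₀ + R) {x | c.In (pos x) W} := by
    intro W hW x hx
    obtain ⟨x', h1, h2⟩ : ∃ x', c.D x x' ≤ c.len g₀ ∧ x' • m = pos x := by
      by_cases h : x • m = a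
      · exact ⟨x * g₀, by simp, by simp [pos, h, mul_smul]⟩
      · exact ⟨x, by simp, by simp [pos, h]⟩
    obtain ⟨v, h3, h4⟩ := hR x' a (h2 ▸ (hpos x).symm)
    refine ⟨v, (c.D_tri x x' v).trans (add_le_add h1 h3), h4 _ fun z hz => ?_⟩
    rw [h2]
    refine ⟨fun e => hz ?_, fun hb => ?_⟩
    · have : pos z = pos x := by simp [pos, e, hpos x]
      show c.In (pos z) W
      rwa [this]
    · have h5 : z • m ≠ a := fun e => hp.irr _ _ (e ▸ hb)
      have h6 : pos z = z • m := by simp [pos, h5]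
      have h7 := (c.side (acc (pos z)) fun h => hpos' z (hW h)).resolve_left hz
      exact hp.t2 _ _ _ (hp.symm _ _ _ hb) (hp.symm _ _ _
        (h6 ▸ ⟨(hpos' x).symm, (hpos' z).symm, W, hW, hx, h7⟩))
  have far : ∀ W : Set Γ, c.Acc (c.wall W) ⊆ {(a : X)} →
      c.Acc ({x | c.In (pos x) W} \ W) ⊆ {(a : X)} := by
    intro W hW
    refine (c.Acc_mono (B := _ ∪ _) fun x hx => ?_).trans ((c.Acc_union _ _).le.trans
      (union_subset (c.n0 m.2 (acc a) hW) (c.n0 (g₀ • m).2 (acc a) hW)))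
    rcases hmem x with h | h
    · exact Or.inl ⟨hx.2, by simpa [h] using hpos' x, by simpa [h] using hx.1⟩
    · exact Or.inr ⟨hx.2, by simpa [mem_singleton_iff.1 h] using hpos' x,
        by simpa [mem_singleton_iff.1 h] using hx.1⟩
  obtain ⟨y, y', hy, hy', n1, n2, W, hW, h1, h2⟩ := a.2
  have hW' : c.Acc (c.wall Wᶜ) ⊆ {(a : X)} := by rwa [c.wall_compl]
  have hc : {x | c.In (pos x) W}ᶜ = {x | c.In (pos x) Wᶜ} := Set.ext fun x =>
    ⟨(c.side (acc (pos x)) fun h => hpos' x (hW h)).resolve_left,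
      fun h h' => In.not_compl h' (acc _).mem_Acc h⟩
  have hs : c.Acc (symmDiff W {x | c.In (pos x) W}) ⊆ {(a : X)} := by
    rw [Set.symmDiff_def, c.Acc_union]
    refine union_subset ((c.Acc_mono fun x hx => ?_).trans (far Wᶜ hW')) (far W hW)
    exact ⟨hc ▸ hx.2, not_not.2 hx.1⟩
  refine ⟨{x | c.In (pos x) W}, _, ess W hW, hc ▸ ess Wᶜ hW', ?_,
    ⟨y, y', hy, hy', n1.symm, n2.symm, h1.of_symmDiff fun h => n1.symm (hs h),
      h2.of_symmDiff fun h => n2.symm (hs (by rwa [compl_symmDiff_compl] at h))⟩,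
    fun x z _ hxz => ⟨pos x, hmem x, pos z, hmem z, ?_⟩⟩
  · refine (c.Acc_mono (c.wall_subset_of_symmDiff W _)).trans ?_
    rw [c.Acc_union, c.Acc_N]
    exact union_subset hW hs
  · by_cases hx : x ∈ {x | c.In (pos x) W}
    · have hz : z ∈ {x | c.In (pos x) W}ᶜ := fun hz => hxz (iff_of_true hx hz)
      exact ⟨(hpos' x).symm, (hpos' z).symm, W, hW, hx, by rwa [hc] at hz⟩
    · have hz : z ∈ {x | c.In (pos x) W} := by
        by_contra hz
        exact hxz (iff_of_false hx hz)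
      exact hp.symm _ _ _ ⟨(hpos' z).symm, (hpos' x).symm, W, hW, hz, by
        rwa [← mem_compl_iff, hc] at hx⟩

end Ctx
end Crest.Agent.R224
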