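import Crest.Agent.R224.Btw
import Crest.Agent.R224.NoAtom

/-! Nullity, finite packing, essential half spaces. -/

set_option autoImplicit false
open Filter Topology Set MeasureTheory
open scoped Pointwise

namespace Crest.Agent.R224

namespace Ctx
variable {Γ X : Type} [Group Γ] [MetricSpace X] [CompactSpace X] [MulAction Γ X] (c : Ctx Γ X)

/-- a side containing an accessible point carries a bump with positive harmonic part.
Plan: `k = bump y ε ∘ e` with `{dist (e ·) y < ε} \ V` finite; `Hm k ≥ 0` is harmonic and `→ 1` along the ray,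
so positive everywhere (`const_of_max` for `-Hm k`). -/
theorem exists_pos {y : X} (hy : c.Accs y) {V : Set Γ} (h : c.In y V) :
    ∃ k w : Γ → ℝ, c.Dom k w ∧ (∀ x, k x ≤ 1) ∧ {x | x ∉ V ∧ 0 < k x}.Finite ∧ 0 < c.Hm k 1 := by
  obtain ⟨ε, hε, hf⟩ := c.finite_of_notMem_Acc h
  obtain ⟨γ, hγ, hl⟩ := hy
  have hd := c.na_dom_bump y hε
  refine ⟨_, _, hd, fun x => (c.bump_mem y hε _).2, hf.subset fun x hx => ⟨hx.1, ?_⟩, ?_⟩
  · by_contra h'
    exact hx.2.ne' (c.bump_eq_zero hε (not_lt.1 h'))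
  by_contra h0
  have hq : c.P (fun y' => -1 * c.Hm (c.bump y ε ∘ c.e) y') =
      fun y' => -1 * c.Hm (c.bump y ε ∘ c.e) y' := by
    simpa [c.gap.P_Hm hd] using c.iter_const_mul (-1) (c.Hm (c.bump y ε ∘ c.e)) 1
  have h1 := c.const_of_max (fun x => (congrFun hq x).ge) (x := 1) fun z => by
    linarith [(c.na_Hm_bump_mem y hε z).1, not_lt.1 h0]
  have h2 := le_of_tendsto' (c.na_tendsto_Hm hγ.1 hl y hε) (b := 0) fun n => by
    linarith [h1 (γ n), not_lt.1 h0]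
  rw [c.bump_self] at h2
  linarith

theorem nu_wall_smul {m : X} {V : Set Γ} (hV : c.Acc (c.wall V) ⊆ {m}) (x : Γ) :
    c.Acc (c.wall (x • V)) ⊆ {x • m} := by
  rw [c.smul_wall, c.Acc_smul, ← Set.smul_set_singleton]
  exact Set.smul_set_mono hV

/-- N0.  Plan: fix a cut `V` at `m` with accessible points on both sides and `k⁺, k⁻` from `exists_pos`,
`δ = min (Hm k⁺ 1) (Hm k⁻ 1)`.  For `x` in the set, `p` has a side for `x • V`; the other side `x • V^±`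
meets `Wᶜ` in a finite set (`far_finite`), so `Hm_le_hit` (with `Hm_tr`) gives `δ ≤ hit (wall W) x`;
conclude by `hit_small`. -/
theorem n0 {m p : X} (hm : m ∈ c.Cut) (hp : c.Accs p) {W : Set Γ} (hW : c.Acc (c.wall W) ⊆ {p}) :
    c.Acc {x | x ∉ W ∧ x • m ≠ p ∧ c.In (x • m) W} ⊆ {p} := by
  have hma := (Cut.accs hm).mem_Acc
  have key : ∀ U : Set Γ, c.Acc (c.wall U) ⊆ {m} → ∀ k w : Γ → ℝ, c.Dom k w → (∀ x, k x ≤ 1) →
      {x | x ∉ U ∧ 0 < k x}.Finite → ∀ x, x ∉ W → c.In (x • m) W → c.In p (x • U)ᶜ →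
      c.Hm k 1 ≤ c.hit (c.wall W) x := by
    intro U hU k w hk h1 hf x hx hin hp'
    have h2 := c.far_finite ((Cut.accs hm).smul x).mem_Acc (c.nu_wall_smul hU x) (V' := Wᶜ)
      (by rwa [c.wall_compl]) hp' (by rwa [compl_compl])
    have h3 := c.gap.Hm_le_hit (hk.tr x⁻¹) (fun z => h1 _) (V := W)
      ((h2.union (hf.smul_set (a := x))).subset fun z hz => by
        simp only [mem_union, mem_inter_iff, Set.mem_smul_set_iff_inv_smul_mem, smul_eq_mul,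
          mem_ofPred_eq, mem_compl_iff]
        by_cases h : x⁻¹ * z ∈ U
        · exact Or.inl ⟨h, hz.1⟩
        · exact Or.inr ⟨h, hz.2⟩) hx
    rwa [c.Hm_tr, inv_mul_cancel] at h3
  obtain ⟨y, y', hy, hy', -, -, V, hV, h1, h2⟩ := hm
  obtain ⟨k, w, hk, k1, kf, k0⟩ := c.exists_pos hy h1
  obtain ⟨k', w', hk', k1', kf', k0'⟩ := c.exists_pos hy' h2
  intro q hq
  by_contra hne
  refine c.hit_small (fun h => hne (hW h)) (lt_min k0 k0') (c.Acc_mono (fun x hx => ?_) hq)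
  rcases c.side hp (V := x • V) (fun h => hx.2.1 (c.nu_wall_smul hV x h).symm) with h | h
  · exact (min_le_right _ _).trans (key Vᶜ (by rwa [c.wall_compl]) k' w' hk' k1' kf' x hx.1 hx.2.2
      (by rwa [Set.smul_set_compl, compl_compl]))
  · exact (min_le_left _ _).trans (key V hV k w hk k1 kf x hx.1 hx.2.2 h)

/-- Finite packing.  Plan: cuts `L` at `d₁` with `In d₀ L`, `In d₂ Lᶜ` and `R` at `d₂` with `In d₃ R`, `In d₁ Rᶜ`.
`L ∩ R` is finite.  For `g` in the set, `g • a ≠ d₁` and `In (g • a) L` (else `t2` fails), similarly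
`In (g • b) R`.  By `n0` the `g ∉ L` accumulate only at `d₁`, the `g ∉ R` only at `d₂`; `In d₁ Rᶜ`, `In d₂ Lᶜ`
show that there is no accumulation point. -/
theorem fp (a b d₀ d₁ d₂ d₃ : c.T) (h₁ : c.B d₁ d₀ d₂) (h₂ : c.B d₂ d₁ d₃) :
    {g : Γ | (g • a = d₀ ∨ c.B d₀ (g • a) d₁) ∧ (g • b = d₃ ∨ c.B d₃ d₂ (g • b))}.Finite := by
  have hp := c.isPre
  have acc : ∀ d : c.T, c.Accs d := fun d => Cut.accs d.2
  obtain ⟨n1, n2, L, hL, l0, l2⟩ := h₁
  obtain ⟨-, n3, V, hV, v1, v3⟩ := h₂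
  have hR : c.Acc (c.wall Vᶜ) ⊆ {(d₂ : X)} := by rwa [c.wall_compl]
  have hf := c.far_finite (acc d₁).mem_Acc hL hR l2 (by rwa [compl_compl])
  have zL := c.n0 a.2 (acc d₁) hL
  have zR := c.n0 b.2 (acc d₂) hR
  have hA : ∀ g : Γ, (g • a = d₀ ∨ c.B d₀ (g • a) d₁) →
      g • (a : X) ≠ d₁ ∧ c.In (g • (a : X)) L := by
    rintro g (h | h)
    · rw [← c.coe_smul, h]; exact ⟨n1.symm, l0⟩
    · have hne : g • (a : X) ≠ d₁ := fun e => by
        rw [show g • a = d₁ from Subtype.ext e] at h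
        exact hp.irr _ _ h
      refine ⟨hne, (c.side (acc (g • a)) fun h' => hne (hL h')).resolve_right fun h' => ?_⟩
      exact hp.t2 _ _ _ h (hp.symm _ _ _ ⟨n1, hne.symm, L, hL, l0, h'⟩)
  have hB : ∀ g : Γ, (g • b = d₃ ∨ c.B d₃ d₂ (g • b)) →
      g • (b : X) ≠ d₂ ∧ c.In (g • (b : X)) Vᶜ := by
    rintro g (h | h)
    · rw [← c.coe_smul, h]; exact ⟨n3.symm, v3⟩
    · have hne : g • (b : X) ≠ d₂ := fun e => by
        rw [show g • b = d₂ from Subtype.ext e] at h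
        exact hp.irr _ _ h
      refine ⟨hne, (c.side (acc (g • b)) fun h' => hne (hV h')).resolve_left fun h' => ?_⟩
      exact hp.t2 _ _ _ (hp.symm _ _ _ h) ⟨hne.symm, n3, V, hV, h', v3⟩
  set ZL := {x : Γ | x ∉ L ∧ x • (a : X) ≠ d₁ ∧ c.In (x • (a : X)) L}
  set ZR := {x : Γ | x ∉ Vᶜ ∧ x • (b : X) ≠ d₂ ∧ c.In (x • (b : X)) Vᶜ}
  have f1 : (ZL ∩ Vᶜ).Finite := c.finite_of_Acc_eq_empty (eq_empty_of_forall_notMem fun q hq => by
    obtain rfl : q = d₁ := zL (c.Acc_mono inter_subset_left hq)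
    exact v1 (c.Acc_mono inter_subset_right hq))
  have f2 : (ZR ∩ L).Finite := c.finite_of_Acc_eq_empty (eq_empty_of_forall_notMem fun q hq => by
    obtain rfl : q = d₂ := zR (c.Acc_mono inter_subset_left hq)
    exact l2 (c.Acc_mono (inter_subset_right.trans (compl_compl L).ge) hq))
  have f3 : (ZL ∩ ZR).Finite := c.finite_of_Acc_eq_empty (eq_empty_of_forall_notMem fun q hq =>
    n2 ((zL (c.Acc_mono inter_subset_left hq)).symm.trans (zR (c.Acc_mono inter_subset_right hq))))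
  refine (((hf.union f1).union f2).union f3).subset fun g hg => ?_
  by_cases g1 : g ∈ L <;> by_cases g2 : g ∈ Vᶜ
  · exact Or.inl (Or.inl (Or.inl ⟨g1, g2⟩))
  · exact Or.inl (Or.inr ⟨⟨g2, hB g hg.2⟩, g1⟩)
  · exact Or.inl (Or.inl (Or.inr ⟨⟨g1, hA g hg.1⟩, g2⟩))
  · exact Or.inr ⟨⟨g1, hA g hg.1⟩, g2, hB g hg.2⟩

/-- Plan: by `n0` (for `Vᶜ`) and `In y V`, `y` is not an accumulation point of the set; `hit_small`. -/
theorem ess_base {m p y : X} (hm : m ∈ c.Cut) (hp : c.Accs p) {V : Set Γ}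
    (hV : c.Acc (c.wall V) ⊆ {p}) (hy : c.Accs y) (hyp : y ≠ p) (h : c.In y V) :
    ∃ v, c.hit {z | z • m ≠ p ∧ c.In (z • m) Vᶜ} v ≤ 1 / 2 := by
  have h1 := c.n0 hm hp (W := Vᶜ) (by rwa [c.wall_compl])
  have h2 : y ∉ c.Acc {z : Γ | z • m ≠ p ∧ c.In (z • m) Vᶜ} := fun h2 => by
    have h3 := c.Acc_mono (B := {x : Γ | x ∉ Vᶜ ∧ x • m ≠ p ∧ c.In (x • m) Vᶜ} ∪ Vᶜ)
      (fun z hz => by
        by_cases h : z ∈ Vᶜ
        · exact Or.inr h
        · exact Or.inl ⟨h, hz⟩) h2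
    rw [c.Acc_union] at h3
    exact h3.elim (fun h4 => hyp (h1 h4)) h
  have h3 : c.In y {x | 1 / 2 ≤ c.hit {z : Γ | z • m ≠ p ∧ c.In (z • m) Vᶜ} x}ᶜ := by
    rw [In, compl_compl]; exact c.hit_small h2 (by norm_num)
  obtain ⟨v, hv, -⟩ := (h3.mem_Acc hy.mem_Acc 1 one_pos).nonempty
  exact ⟨v, le_of_not_ge hv⟩

end Ctx
end Crest.Agent.R224
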