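import Crest.Agent.R224.DComb
import Crest.Agent.R224.Null
import Crest.Agent.R224.Fat

/-! Part D: all intervals are finite. -/

set_option autoImplicit false
open Filter Topology Set MeasureTheory
open scoped Pointwise

namespace Crest.Agent.R224

namespace Ctx
variable {Γ X : Type} [Group Γ] [MetricSpace X] [CompactSpace X] [MulAction Γ X] (c : Ctx Γ X)

/-- Plan.  Suppose `(a,b)` is infinite; `exists_seq` gives `a, b, s`.  `m = b`, `A = {z | ∀ i, B (s i) a z}`,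
`H = {x | x • m ∈ A} ∋ 1`.  `tree_ess` applies (reference point `a` for `z ∈ A`, `s (j+1)` if `¬ B (s j) a z`).
`Hᶜ ≠ ∅` by `n0` (cut at `s 1` separating `s 0` from `s 2`), so there is `x₀ ∈ wall H`.
`F k = {x ∈ wall H | ∃ y, D x y ≤ 1 ∧ ¬ B (s k) a (y • m)}` increases to `wall H` and is finite (`fp` with
`d = s k, …, s (k+3)`, points `u • m`, `u' • m`, `u, u' ∈ ball 1 1`).  `K k = N r₁ (F k) ∩ N r₁ (wall H \ F k)`.  Every `v ∈ K k`
carries an event `Ev k (v • p) (v • q) (v • p')` with `p, q, p' ∈ ball 1 (r₁+1) • m`: `T = vol (r₁+1)^3` types.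
`dcomb` for all types and all `w ∈ ball 1 (2 r₂) \ {1}`: for large `k` every ball of radius `r₂` has at most `T` points
of `K k`.  `fat` gives `x₀ ∈ N R₂ (K k)`, but `wall H ∩ ball x₀ (R₂ + r₁) ⊆ F k` for large `k`. -/
theorem disc : c.Disc := by
  classical
  by_contra hcon
  have hinf : ∃ a b : c.T, {d | c.B d a b}.Infinite := by
    by_contra hno
    push Not at hno
    refine hcon fun a ha b hb => ?_
    refine ((hno ⟨a, ha⟩ ⟨b, hb⟩).image Subtype.val).subset ?_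
    rintro d ⟨hd, hd'⟩
    exact ⟨⟨d, hd⟩, hd', rfl⟩
  obtain ⟨a₀, b₀, hinf⟩ := hinf
  have hP := c.isPre
  obtain ⟨a, m, s, hb, hc⟩ := hP.exists_seq hinf
  set A : Set c.T := {z | ∀ i, c.B (s i) a z} with hA
  set H : Set Γ := {x | x • m ∈ A} with hH
  obtain ⟨R, hR⟩ := c.tree_ess m
  have hess : c.Ess R H ∧ c.Ess R Hᶜ := by
    refine hR A fun z => ?_
    by_cases hz : z ∈ A
    · refine ⟨a, fun h => hP.irr (s 0) a (by have := hz 0; rwa [← h] at this), fun u hu => ?_⟩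
      exact ⟨fun _ => hz, fun _ i => hP.trans hu (hz i)⟩
    · obtain ⟨j, hj⟩ : ∃ j, ¬ c.B (s j) a z := by
        by_contra h
        push Not at h
        exact hz h
      refine ⟨s (j + 1), fun h => hj (h ▸ hc j (j + 1) (Nat.lt_succ_self j)), fun u hu => ?_⟩
      refine ⟨fun hu' => absurd ?_ hj, fun h => absurd h hz⟩
      have h1 : c.B (s (j + 1)) z a := hP.trans' (hP.symm _ _ _ (hu' (j + 1))) (hP.symm _ _ _ hu)
      exact hP.trans (hP.symm _ _ _ h1) (hc j (j + 1) (Nat.lt_succ_self j))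
  have hH1 : (1 : Γ) ∈ H := by
    change (1 : Γ) • m ∈ A
    rw [one_smul]; exact hb
  have hHc : ∃ x, x ∉ H := by
    obtain ⟨h1, h2, V, hV, hVa, hV2⟩ := hc 1 2 (by norm_num)
    have h3 := c.n0 m.2 (Cut.accs (s 1).2) (W := Vᶜ) (by rwa [c.wall_compl])
    have h4 : (a : X) ∈ c.Acc V := hVa.mem_Acc (Cut.accs a.2).mem_Acc
    by_contra hall
    push Not at hall
    refine h1 (Eq.symm (h3 (c.Acc_mono (fun x hx => ?_) h4)))
    have hxA : ∀ i, c.B (s i) a (x • m) := hall x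
    have h5 : x • (m : X) ≠ (s 1 : X) := fun h => (hxA 1).2.1 h.symm
    refine ⟨fun h => h hx, h5, ?_⟩
    have hacc : c.Accs (x • (m : X)) := (Cut.accs m.2).smul x
    rcases c.side hacc (V := V) (fun h => h5 (hV h)) with h | h
    · exfalso
      have h6 : c.B (s 1) (x • m) (s 2) := ⟨h5.symm, h2, V, hV, h, hV2⟩
      have h7 : c.B (s 2) (s 1) (x • m) := hP.trans' (hxA 2) (hc 1 2 (by norm_num))
      exact hP.t2 _ _ _ h6 (hP.symm _ _ _ h7)
    · exact h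
  obtain ⟨x₀, hx₀⟩ : (c.wall H).Nonempty := by
    by_contra h
    rw [Set.not_nonempty_iff_eq_empty] at h
    rcases c.wall_eq_empty h with h | h
    · rw [h] at hH1; exact hH1
    · obtain ⟨x, hx⟩ := hHc
      exact hx (h ▸ mem_univ x)
  have hin : ∀ x ∈ c.wall H, ∃ y, c.D x y ≤ 1 ∧ y ∈ H := by
    rintro x ⟨y, hxy, hcr⟩
    by_cases h : x ∈ H
    · exact ⟨x, by simp, h⟩
    · refine ⟨y, hxy, ?_⟩
      by_contra h'
      exact hcr ⟨fun h1 => absurd h1 h, fun h1 => absurd h1 h'⟩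
  have hout : ∀ x ∈ c.wall H, ∃ y, c.D x y ≤ 1 ∧ ∃ i, ¬ c.B (s i) a (y • m) := by
    have key : ∀ y, y ∉ H → ∃ i, ¬ c.B (s i) a (y • m) := by
      intro y hy
      by_contra h
      push Not at h
      exact hy h
    rintro x ⟨y, hxy, hcr⟩
    by_cases h : x ∈ H
    · refine ⟨y, hxy, key y fun h' => hcr ⟨fun _ => h', fun _ => h⟩⟩
    · exact ⟨x, by simp, key x h⟩
  set F : ℕ → Set Γ := fun k => {x ∈ c.wall H | ∃ y, c.D x y ≤ 1 ∧ ¬ c.B (s k) a (y • m)} with hF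
  have hFev : ∀ x ∈ c.wall H, ∀ᶠ k in atTop, x ∈ F k := by
    intro x hx
    obtain ⟨y, hxy, i, hi⟩ := hout x hx
    filter_upwards [eventually_gt_atTop i] with k hk
    exact ⟨hx, y, hxy, fun h => hi (hP.trans h (hc i k hk))⟩
  have hFfin : ∀ k, (F k).Finite := by
    intro k
    have h01 := hc k (k + 1) (by omega)
    have h12 := hc (k + 1) (k + 2) (by omega)
    have h23 := hc (k + 2) (k + 3) (by omega)
    refine (c.S.finite_toSet.biUnion fun u _ => c.S.finite_toSet.biUnion fun u' _ =>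
      c.fp (u • m) (u' • m) (s k) (s (k + 1)) (s (k + 2)) (s (k + 3)) (hP.trans' h12 h01)
        (hP.trans' h23 h12)).subset ?_
    rintro x ⟨hx, y, hxy, hy⟩
    obtain ⟨y', hxy', hy'⟩ := hin x hx
    obtain ⟨u, hu, rfl⟩ := c.D_le_one.1 hxy
    obtain ⟨u', hu', rfl⟩ := c.D_le_one.1 hxy'
    simp only [mem_iUnion]
    refine ⟨u, hu, u', hu', ?_, Or.inr ?_⟩
    · rw [← mul_smul]
      by_cases h : (x * u) • m = s k
      · exact Or.inl h
      · exact Or.inr ((hP.t3 _ _ _ _ h01 h).resolve_left hy)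
    · rw [← mul_smul]
      exact hP.trans' (hy' (k + 3)) h23
  obtain ⟨r₁, hr₁⟩ := c.fat R
  obtain ⟨r₂, R₂, hfat⟩ := hr₁ (c.vol (r₁ + 1) * (c.vol (r₁ + 1) * c.vol (r₁ + 1)))
  set Bl : Set Γ := c.ball 1 (r₁ + 1) with hBl
  have hBlf : Bl.Finite := c.finite_ball _ _
  set Ty : Set (Γ × Γ × Γ) := Bl ×ˢ Bl ×ˢ Bl with hTy
  have hTyf : Ty.Finite := hBlf.prod (hBlf.prod hBlf)
  have hTyc : Ty.encard = (c.vol (r₁ + 1) * (c.vol (r₁ + 1) * c.vol (r₁ + 1)) : ℕ) := by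
    rw [hTy, Set.encard_prod, Set.encard_prod, ← hBlf.cast_ncard_eq, hBl, c.ncard_ball]
    push_cast; rfl
  set E : ℕ → Γ → Γ × Γ × Γ → Prop := fun k v τ =>
    Ev c.B a s k (v • τ.1 • m) (v • τ.2.1 • m) (v • τ.2.2 • m) with hE
  have htype : ∀ k, ∀ v ∈ c.N r₁ (F k) ∩ c.N r₁ (c.wall H \ F k), ∃ τ ∈ Ty, E k v τ := by
    rintro k v ⟨⟨x, hx, hxv⟩, ⟨x', hx', hxv'⟩⟩
    obtain ⟨y, hxy, hy⟩ := hx.2
    obtain ⟨y', hxy', hy'⟩ := hin x hx.1
    obtain ⟨y'', hxy'', hy''⟩ := hout x' hx'.1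
    have hball : ∀ u z, c.D u v ≤ r₁ → c.D u z ≤ 1 → v⁻¹ * z ∈ Bl := by
      intro u z h1 h2
      change c.D 1 (v⁻¹ * z) ≤ r₁ + 1
      have h3 := c.D_tri v u z
      rw [c.D_comm v u] at h3
      rw [c.D_one]
      change c.D v z ≤ r₁ + 1
      omega
    refine ⟨(v⁻¹ * y, v⁻¹ * y', v⁻¹ * y''), ⟨hball x y hxv hxy, hball x y' hxv hxy',
      hball x' y'' hxv' hxy''⟩, ?_⟩
    simp only [hE, ← mul_smul, mul_inv_cancel_left]
    refine ⟨hy, hy', ?_, hy''⟩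
    by_contra h
    exact hx'.2 ⟨hx'.1, y'', hxy'', h⟩
  have hev1 : ∀ᶠ k in atTop, ∀ τ ∈ Ty, ∀ w ∈ c.ball 1 (2 * r₂), w ≠ 1 → ∀ v,
      ¬ (E k v τ ∧ E k (v * w) τ) := by
    refine (eventually_all_finite hTyf).2 fun τ _ => ?_
    refine (eventually_all_finite (c.finite_ball _ _)).2 fun w _ => ?_
    by_cases hw : w = 1
    · exact Eventually.of_forall fun k h => absurd hw h
    · obtain ⟨k₀, hk₀⟩ := dcomb hP c.B_smul c.co.tf c.fp hb hc (τ.1 • m) (τ.2.1 • m) (τ.2.2 • m) hw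
      filter_upwards [eventually_ge_atTop k₀] with k hk _ v using hk₀ k hk v
  have hev2 : ∀ᶠ k in atTop, ∀ x ∈ c.wall H ∩ c.ball x₀ (R₂ + r₁), x ∈ F k :=
    (eventually_all_finite ((c.finite_ball _ _).inter_of_right _)).2 fun x hx => hFev x hx.1
  obtain ⟨k, hk1, hk2⟩ := (hev1.and hev2).exists
  choose! τ hτ hτE using htype k
  have hsub := hfat H (F k) _ hess.1 hess.2 (hFfin k) (fun x hx => hx.1) Subset.rfl (fun v₀ => by
    rw [← hTyc]
    refine Set.encard_le_encard_of_injOn (f := τ) (fun v hv => hτ v hv.1) ?_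
    intro v hv v' hv' hvv
    by_contra hne
    have hw : v⁻¹ * v' ∈ c.ball 1 (2 * r₂) := by
      change c.D 1 (v⁻¹ * v') ≤ 2 * r₂
      rw [c.D_one]
      change c.D v v' ≤ 2 * r₂
      have h1 := c.D_tri v v₀ v'
      rw [c.D_comm v v₀] at h1
      have h2 : c.D v₀ v ≤ r₂ := hv.2
      have h3 : c.D v₀ v' ≤ r₂ := hv'.2
      omega
    refine hk1 (τ v) (hτ v hv.1) _ hw (fun h => hne (inv_mul_eq_one.1 h)) v ⟨hτE v hv.1, ?_⟩
    rw [mul_inv_cancel_left, hvv]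
    exact hτE v' hv'.1)
  obtain ⟨v, ⟨-, x', hx', hxv⟩, hv⟩ := hsub (hk2 x₀ ⟨hx₀, by
    change c.D x₀ x₀ ≤ R₂ + r₁
    simp⟩)
  refine hx'.2 (hk2 x' ⟨hx'.1, ?_⟩)
  change c.D x₀ x' ≤ R₂ + r₁
  have h1 := c.D_tri x₀ v x'
  rw [c.D_comm x₀ v, c.D_comm v x'] at h1
  omega

variable {c} in
theorem Disc.finite (h : c.Disc) (a b : c.T) : {d | c.B d a b}.Finite :=
  Set.Finite.of_finite_image (f := Subtype.val)
    ((h a a.2 b b.2).subset (by rintro _ ⟨d, hd, rfl⟩; exact ⟨d.2, hd⟩)) Subtype.val_injective.injOn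

end Ctx
end Crest.Agent.R224
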