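import Crest.Agent.R224.Reg

/-! Interfaces are small, patches are controlled by free points. -/

set_option autoImplicit false
open Filter Topology Set MeasureTheory
open scoped Pointwise

namespace Crest.Agent.R224

namespace Ctx
variable {Γ X : Type} [Group Γ] [MetricSpace X] [CompactSpace X] [MulAction Γ X] (c : Ctx Γ X)

theorem finite_interface (m : c.T) {a b : c.T} (hab : a ≠ b) : (c.Z m a ∩ c.Z m b).Finite := by
  refine c.finite_of_Acc_eq_empty (eq_empty_of_forall_notMem fun y hy => hab (Subtype.ext ?_))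
  have h1 := c.Z_acc m a (c.Acc_mono inter_subset_left hy)
  have h2 := c.Z_acc m b (c.Acc_mono inter_subset_right hy)
  exact h1.symm.trans h2

/-- interfaces have bounded size (translate a point of the intersection to `1`; finitely many pairs in `D1`) -/
theorem interface (m : c.T) : ∃ μ : ℕ, ∀ a b : c.T, a ≠ b → (c.Z m a ∩ c.Z m b).encard ≤ μ := by
  obtain ⟨μ, hμ⟩ := (((c.finite_D1 m).prod (c.finite_D1 m)).image
    fun p => (c.Z m p.1 ∩ c.Z m p.2).ncard).bddAbove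
  refine ⟨μ, fun a b hab => ?_⟩
  rcases (c.Z m a ∩ c.Z m b).eq_empty_or_nonempty with h | ⟨x, hx⟩
  · simp [h]
  have hne : x⁻¹ • a ≠ x⁻¹ • b := fun h => hab (smul_left_cancel _ h)
  have h1 : c.Z m a ∩ c.Z m b = x • (c.Z m (x⁻¹ • a) ∩ c.Z m (x⁻¹ • b)) := by
    rw [smul_set_inter, ← c.Z_smul, ← c.Z_smul, smul_inv_smul, smul_inv_smul]
  have h2 : (c.Z m (x⁻¹ • a) ∩ c.Z m (x⁻¹ • b)).ncard ≤ μ :=
    hμ ⟨(x⁻¹ • a, x⁻¹ • b), ⟨hx.1, hx.2⟩, rfl⟩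
  rw [h1, encard_smul_set, ← (c.finite_interface m hne).cast_ncard_eq]
  exact_mod_cast h2

theorem O_ess (m : c.T) : ∃ R : ℕ, ∀ (Y : Set c.T) (a : c.T), IsPiece c.B Y →
    c.Ess R (c.O m Y a) ∧ c.Ess R (c.O m Y a)ᶜ := by
  obtain ⟨R, hR⟩ := c.Sat_ess m
  refine ⟨R, fun Y a hY => ?_⟩
  rw [c.O_eq_Sat, ← c.Sat_compl hY]
  exact ⟨hR _ _ hY, hR _ _ hY⟩

/-- walls of regions are not locally covered by two other walls -/
theorem int_lemma (m : c.T) : ∃ R₃ : ℕ, ∀ (Y : Set c.T) (a b₁ b₂ : c.T), IsPiece c.B Y →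
    b₁ ≠ a → b₂ ≠ a → ∀ x ∈ c.wall (c.O m Y a), ∃ y ∈ c.wall (c.O m Y a), c.D x y ≤ R₃ ∧
      y ∉ c.wall (c.O m Y b₁) ∧ y ∉ c.wall (c.O m Y b₂) := by
  obtain ⟨μ, hμ⟩ := c.interface m
  obtain ⟨R₁, hR₁⟩ := c.O_ess m
  obtain ⟨r₁, hr₁⟩ := c.fat R₁
  obtain ⟨r₂, R₂, hfat⟩ := hr₁ 0
  refine ⟨(μ + μ) * (2 * r₁) + 2 * r₁, fun Y a b₁ b₂ hY h1 h2 x hx => ?_⟩
  by_contra hcon
  push Not at hcon
  let A := c.wall (c.O m Y a) ∩ (c.Z m b₁ ∪ c.Z m b₂)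
  have hA : A.encard ≤ (μ + μ : ℕ) := by
    have : A ⊆ (c.Z m b₁ ∩ c.Z m a) ∪ (c.Z m b₂ ∩ c.Z m a) := by
      rintro y ⟨hy, hy' | hy'⟩
      · exact Or.inl ⟨hy', c.wall_O_subset hY a hy⟩
      · exact Or.inr ⟨hy', c.wall_O_subset hY a hy⟩
    refine (encard_le_encard this).trans ((encard_union_le _ _).trans ?_)
    push_cast
    exact add_le_add (hμ _ _ h1) (hμ _ _ h2)
  have hmem : ∀ y ∈ c.wall (c.O m Y a), c.D x y ≤ (μ + μ) * (2 * r₁) + 2 * r₁ → y ∈ A := by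
    intro y hy hxy
    refine ⟨hy, ?_⟩
    by_cases h : y ∈ c.wall (c.O m Y b₁)
    · exact Or.inl (c.wall_O_subset hY _ h)
    · exact Or.inr (c.wall_O_subset hY _ (hcon y hy hxy h))
  have hxA : x ∈ A := hmem x hx (by simp)
  have hcl := c.clus_of_encard (s := 2 * r₁) hA
  let F := {y | c.Chain (2 * r₁) A x y}
  have hFA : F ⊆ A := fun y hy => hy.mem hxA
  have key := hfat (c.O m Y a) F ∅ (hR₁ Y a hY).1 (hR₁ Y a hY).2
    ((finite_of_encard_le_coe hA).subset hFA) (hFA.trans inter_subset_left) ?_ (by simp)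
  · simpa using key (show x ∈ F from Relation.ReflTransGen.refl)
  · rintro v ⟨⟨u, hu, huv⟩, ⟨u', hu', huv'⟩⟩
    have h3 := c.D_tri u v u'
    rw [c.D_comm v u'] at h3
    have h4 := c.D_tri x u u'
    have h5 := hcl _ _ hu
    exact hu'.2 (Relation.ReflTransGen.tail hu ⟨hFA hu, hmem u' hu'.1 (by omega), by omega⟩)

variable {c} in
theorem Mod.wall_iff {m : c.T} {R : ℕ} {Y : Set c.T} {V : Set Γ} {a : c.T} {x y : Γ}
    (h : c.Mod m R Y V a x) (hy : c.D x y + 1 ≤ R) : y ∈ c.wall V ↔ y ∈ c.wall (c.O m Y a) := by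
  refine exists_congr fun z => and_congr_right fun hz => ?_
  have h1 : y ∈ c.ball x R := show c.D x y ≤ R by omega
  have h2 : z ∈ c.ball x R := show c.D x z ≤ R by have := c.D_tri x y z; omega
  unfold cross
  rcases h.2 with h | h
  · rw [h y h1, h z h2]
  · rw [h y h1, h z h2, not_iff_not, not_iff_not]

/-- Patch lemma. -/
theorem patch_lemma (m : c.T) : ∃ R₀ : ℕ, 1 ≤ R₀ ∧ ∀ R ≥ R₀, ∀ M : ℕ, ∃ R₂ : ℕ,
    ∀ (Y : Set c.T) (V : Set Γ) (a : c.T), IsPiece c.B Y → (c.Patch m R Y V a).Finite →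
      (c.Free m R Y V ∩ c.Z m a).encard ≤ M →
      c.Patch m R Y V a ⊆ c.N R₂ (c.Free m R Y V ∩ c.Z m a) := by
  obtain ⟨R₃, hR₃⟩ := c.int_lemma m
  obtain ⟨R₁, hR₁⟩ := c.O_ess m
  obtain ⟨r₁, hr₁⟩ := c.fat R₁
  refine ⟨R₃ + 2 * r₁ + 1, by omega, fun R hR M => ?_⟩
  obtain ⟨r₂, R₂, hfat⟩ := hr₁ (M * c.vol r₁)
  refine ⟨r₁ + R₂, fun Y V a hY hfin hM => ?_⟩
  refine (hfat (c.O m Y a) _ (c.N r₁ (c.Free m R Y V ∩ c.Z m a)) (hR₁ Y a hY).1 (hR₁ Y a hY).2 hfin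
    (c.Patch_subset (by omega) V a) ?_ fun v => ?_).trans (c.N_N _ _ _)
  · rintro v ⟨⟨x, hx, hxv⟩, ⟨x', hx', hxv'⟩⟩
    have h3 := c.D_tri x v x'
    rw [c.D_comm v x'] at h3
    have h4 : x' ∈ c.wall V := (hx.2.wall_iff (by omega)).2 hx'.1
    refine ⟨x', ⟨⟨h4, fun a' ha' => ?_⟩, c.wall_O_subset hY a hx'.1⟩, hxv'⟩
    by_cases haa : a' = a
    · exact hx'.2 ⟨h4, haa ▸ ha'⟩
    obtain ⟨y, hy, hxy, hy', -⟩ := hR₃ Y a a' a' hY haa haa x' hx'.1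
    have h5 := c.D_tri x x' y
    exact hy' ((ha'.wall_iff (by omega)).1 ((hx.2.wall_iff (by omega)).2 hy))
  · refine (encard_le_encard inter_subset_left).trans ((c.encard_N_le _ _).trans ?_)
    push_cast
    gcongr

end Ctx
end Crest.Agent.R224
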