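import Crest.Agent.R224.Acc

/-! A stabiliser has at most one limit point besides the fixed point. -/

set_option autoImplicit false
open Filter Topology Set MeasureTheory
open scoped Pointwise

namespace Crest.Agent.R224

theorem ping_exp (K : ℕ) : ∃ N : ℕ, K * (N + 1) ^ 6 < 2 ^ N := by
  have h := tendsto_pow_const_div_const_pow_of_one_lt 6 (r := 2) (by norm_num)
  have hpos : (0 : ℝ) < 1 / (2 * K + 1) := by positivity
  obtain ⟨n, hn, hn1⟩ := ((h.eventually (gt_mem_nhds hpos)).and (eventually_ge_atTop 1)).exists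
  obtain ⟨N, rfl⟩ : ∃ N, n = N + 1 := ⟨n - 1, by omega⟩
  refine ⟨N, ?_⟩
  rw [div_lt_div_iff₀ (by positivity) (by positivity), pow_succ (2 : ℝ) N] at hn
  have h0 : (0 : ℝ) ≤ ((N + 1 : ℕ) : ℝ) ^ 6 := by positivity
  have : (K : ℝ) * ((N + 1 : ℕ) : ℝ) ^ 6 < 2 ^ N := by nlinarith
  exact_mod_cast this

namespace Ctx
variable {Γ X : Type} [Group Γ] [MetricSpace X] [CompactSpace X] [MulAction Γ X] (c : Ctx Γ X)

/-- Plan.  Suppose `ξ ≠ ξ'`, `η = min (dist ξ ξ', dist ξ a, dist ξ' a) / 20`, `R` from `beh η`.  Take `g, h` fixing `a`,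
of length `≥ R`, with `e g` `η`-close to `ξ`, `e h` `η`-close to `ξ'`.  (*) If `v • a = a`, `len v ≥ R`, `dist (e v) a > η`
then `dist (e v⁻¹) a ≤ η` (`beh` with `z = a`).  For a nonempty positive word `u = s u'` in `g,h`:
`dist (e u) (e s) ≤ η` (induction, `beh` with `z = e u`).  Hence the `2^N` words of length `N` are distinct, and
`g` has infinite order (`g⁻¹` is near `a`, positive words are not).  `strip` for `u⁻¹`: all but
`C N² + vol R` exponents `M ≥ 1` have `dist (e (g^M)) (e (g^M u⁻¹)) < η` and `len (g^M u⁻¹) ≥ R`; so some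
`M ≤ 2 (C N² + vol R) + 1` is good for half of the words `u`; for those, (*) gives `e (u g^{-M})` near `a` while `e u`
is far from `a`; `strip` for `g^{-M}` gives `2^{N-1} ≤ C' N⁴`, false for large `N`. -/
theorem ping (a : X) {ξ ξ' : X} (h : ξ ∈ c.Acc {g | g • a = a}) (h' : ξ' ∈ c.Acc {g | g • a = a})
    (hne : ξ ≠ a) (hne' : ξ' ≠ a) : ξ = ξ' := by
  classical
  by_contra hξ
  set η := min (dist ξ ξ') (min (dist ξ a) (dist ξ' a)) / 20 with hηdef
  have hη : 0 < η := by
    have h1 := dist_pos.2 hξ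
    have h2 := dist_pos.2 hne
    have h3 := dist_pos.2 hne'
    positivity
  have e1 : 20 * η ≤ dist ξ ξ' := by rw [hηdef]; linarith [min_le_left (dist ξ ξ') (min (dist ξ a) (dist ξ' a))]
  have e2 : 20 * η ≤ dist ξ a := by
    rw [hηdef]
    linarith [min_le_right (dist ξ ξ') (min (dist ξ a) (dist ξ' a)), min_le_left (dist ξ a) (dist ξ' a)]
  have e3 : 20 * η ≤ dist ξ' a := by
    rw [hηdef]
    linarith [min_le_right (dist ξ ξ') (min (dist ξ a) (dist ξ' a)), min_le_right (dist ξ a) (dist ξ' a)]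
  clear_value η
  obtain ⟨R, hR⟩ := c.beh η hη
  have pick : ∀ ζ ∈ c.Acc {g | g • a = a}, ∃ g, g • a = a ∧ R ≤ c.len g ∧ dist (c.e g) ζ < η := by
    intro ζ hζ
    obtain ⟨g, hg, hg'⟩ := ((hζ η hη).diff (c.finite_len_le R)).nonempty
    exact ⟨g, hg.1, (not_le.1 hg').le, hg.2⟩
  obtain ⟨g, hga, hgR, hgd⟩ := pick ξ h
  obtain ⟨k, hka, hkR, hkd⟩ := pick ξ' h'
  have star : ∀ v, v • a = a → R ≤ c.len v → η < dist (c.e v) a → dist (c.e v⁻¹) a ≤ η := by
    intro v hv hvR hd
    rcases hR v hvR a with h1 | h1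
    · rw [dist_comm] at h1; linarith
    · rwa [inv_smul_eq_iff.2 hv.symm, dist_comm] at h1
  have key : ∀ s ζ, s • a = a → R ≤ c.len s → dist (c.e s) ζ < η → 20 * η ≤ dist ζ a → ∀ u,
      18 * η ≤ dist (c.e u) a → dist (c.e (s * u)) ζ ≤ 2 * η ∧ 18 * η ≤ dist (c.e (s * u)) a := by
    intro s ζ hs hsR hsd hζ u hu
    have h1 : dist (c.e s⁻¹) a ≤ η := star s hs hsR (by
      have := dist_triangle_left ζ a (c.e s)
      linarith)
    have h2 : dist (c.e (s * u)) (c.e s) ≤ η := by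
      rcases hR s hsR (c.e (s * u)) with h2 | h2
      · exact h2
      · rw [← c.equiv, inv_mul_cancel_left] at h2
        have := dist_triangle (c.e u) (c.e s⁻¹) a
        linarith
    have h3 := dist_triangle (c.e (s * u)) (c.e s) ζ
    have h4 := dist_triangle_left ζ a (c.e (s * u))
    constructor <;> linarith
  have hg18 : 18 * η ≤ dist (c.e g) a := by
    have := dist_triangle_left ξ a (c.e g)
    linarith
  set L := c.len g + c.len k with hL
  have hW : ∀ N : ℕ, ∃ W : Finset Γ, W.card = 2 ^ N ∧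
      ∀ u ∈ W, u • a = a ∧ c.len u ≤ (N + 1) * L ∧ 18 * η ≤ dist (c.e u) a := by
    intro N
    induction N with
    | zero => exact ⟨{g}, by simp, by simp [hga, hg18, hL]⟩
    | succ N ih =>
      obtain ⟨W, hWc, hW⟩ := ih
      refine ⟨W.image (g * ·) ∪ W.image (k * ·), ?_, fun u hu => ?_⟩
      · rw [Finset.card_union_of_disjoint, Finset.card_image_of_injective _ (mul_right_injective g),
          Finset.card_image_of_injective _ (mul_right_injective k), hWc]
        · ring
        · refine Finset.disjoint_left.2 fun u h1 h2 => ?_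
          obtain ⟨u1, hu1, rfl⟩ := Finset.mem_image.1 h1
          obtain ⟨u2, hu2, he⟩ := Finset.mem_image.1 h2
          have a1 := (key g ξ hga hgR hgd e2 u1 (hW u1 hu1).2.2).1
          have a2 := (key k ξ' hka hkR hkd e3 u2 (hW u2 hu2).2.2).1
          rw [he] at a2
          have := dist_triangle_left ξ ξ' (c.e (g * u1))
          linarith
      · rcases Finset.mem_union.1 hu with h1 | h1
        · obtain ⟨u1, hu1, rfl⟩ := Finset.mem_image.1 h1
          obtain ⟨a1, a2, a3⟩ := hW u1 hu1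
          refine ⟨by rw [mul_smul, a1, hga], ?_, (key g ξ hga hgR hgd e2 u1 a3).2⟩
          have := c.len_mul_le g u1
          nlinarith [Nat.zero_le (c.len k)]
        · obtain ⟨u1, hu1, rfl⟩ := Finset.mem_image.1 h1
          obtain ⟨a1, a2, a3⟩ := hW u1 hu1
          refine ⟨by rw [mul_smul, a1, hka], ?_, (key k ξ' hka hkR hkd e3 u1 a3).2⟩
          have := c.len_mul_le k u1
          nlinarith [Nat.zero_le (c.len g)]
  have hpow : ∀ M : ℕ, g ^ (M + 1) • a = a ∧ c.len (g ^ (M + 1)) ≤ (M + 1) * L ∧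
      18 * η ≤ dist (c.e (g ^ (M + 1))) a := by
    intro M
    induction M with
    | zero => simp [hga, hg18, hL]
    | succ M ih =>
      rw [pow_succ' g (M + 1)]
      refine ⟨by rw [mul_smul, ih.1, hga], ?_, (key g ξ hga hgR hgd e2 _ ih.2.2).2⟩
      have := c.len_mul_le g (g ^ (M + 1))
      nlinarith [Nat.zero_le (c.len k), ih.2.1]
  have hinj : Function.Injective fun M : ℕ => g ^ M := by
    rw [injective_pow_iff_not_isOfFinOrder]
    intro hfin
    have h1 := c.co.tf g hfin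
    have h2 := star g hga hgR (by linarith)
    rw [h1] at hg18 h2
    rw [inv_one] at h2
    linarith
  obtain ⟨C, hC⟩ := exists_nat_ge (nsq c.w / η ^ 2)
  set B : Γ → Set Γ := fun u => {x | η ≤ dist (c.e x) (c.e (x * u))} with hB
  have hBf : ∀ u, (B u).Finite := fun u => (c.strip u hη).1
  have hBc : ∀ u m, c.len u ≤ m → (B u).ncard ≤ m ^ 2 * C := fun u m hm => by
    have h1 := (c.strip u hη).2
    rw [mul_div_assoc] at h1
    have h2 : ((B u).ncard : ℝ) ≤ (c.len u : ℝ) ^ 2 * C :=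
      h1.trans (mul_le_mul_of_nonneg_left hC (by positivity))
    have h3 : (B u).ncard ≤ c.len u ^ 2 * C := by exact_mod_cast h2
    exact h3.trans (by gcongr)
  obtain ⟨N, hN⟩ := ping_exp ((L ^ 2 * C + c.vol R + 1) ^ 3 * L ^ 2 * C)
  obtain ⟨W, hWc, hW⟩ := hW N
  set T := ((N + 1) * L) ^ 2 * C + c.vol R + 1 with hT
  have hcov : ∀ u ∈ W, ∃ M ∈ Finset.range T, u ∈ B (g ^ (M + 1))⁻¹ := by
    intro u hu
    obtain ⟨a1, a2, a3⟩ := hW u hu
    have : ∃ M ∈ Finset.range T, g ^ (M + 1) ∉ B u⁻¹ ∪ (· * u) '' c.ball 1 R := by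
      by_contra hcon
      push Not at hcon
      have h1 : (((Finset.range T).image fun M => g ^ (M + 1) : Finset Γ) : Set Γ) ⊆
          B u⁻¹ ∪ (· * u) '' c.ball 1 R := by
        intro x hx
        obtain ⟨M, hM, rfl⟩ := Finset.mem_image.1 (Finset.mem_coe.1 hx)
        exact hcon M hM
      have h2 := (ncard_le_ncard h1 ((hBf _).union ((c.finite_ball 1 R).image _))).trans
        (ncard_union_le _ _)
      rw [ncard_coe_finset, Finset.card_image_of_injective _
        (fun M M' hMM => Nat.succ_injective (hinj hMM)), Finset.card_range,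
        ncard_image_of_injective _ (mul_left_injective u), c.ncard_ball] at h2
      have h3 := hBc u⁻¹ _ (c.len_inv u ▸ a2)
      omega
    obtain ⟨M, hM, hgood⟩ := this
    refine ⟨M, hM, ?_⟩
    rw [mem_union, not_or] at hgood
    obtain ⟨b1, b2, b3⟩ := hpow M
    have c1 : dist (c.e (g ^ (M + 1))) (c.e (g ^ (M + 1) * u⁻¹)) < η := not_le.1 hgood.1
    have c2 : R ≤ c.len (g ^ (M + 1) * u⁻¹) := by
      by_contra hc
      refine hgood.2 ⟨g ^ (M + 1) * u⁻¹, ?_, by simp⟩
      change c.D 1 _ ≤ R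
      rw [c.D_one]
      exact (not_le.1 hc).le
    have c3 := star (g ^ (M + 1) * u⁻¹) (by rw [mul_smul, inv_smul_eq_iff.2 a1.symm, b1]) c2 (by
      have := dist_triangle (c.e (g ^ (M + 1))) (c.e (g ^ (M + 1) * u⁻¹)) a
      linarith)
    rw [mul_inv_rev, inv_inv] at c3
    have := dist_triangle (c.e u) (c.e (u * (g ^ (M + 1))⁻¹)) a
    change η ≤ _
    linarith
  have hfin : W.card ≤ T * ((T * L) ^ 2 * C) := by
    have h1 : W ⊆ (Finset.range T).biUnion fun M => (hBf (g ^ (M + 1))⁻¹).toFinset := by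
      intro u hu
      obtain ⟨M, hM, hM'⟩ := hcov u hu
      exact Finset.mem_biUnion.2 ⟨M, hM, (Finite.mem_toFinset _).2 hM'⟩
    refine (Finset.card_le_card h1).trans 
      ((Finset.card_biUnion_le_card_mul _ _ ((T * L) ^ 2 * C) ?_).trans_eq ?_)
    · intro M hM
      rw [← ncard_eq_toFinset_card _ (hBf _)]
      refine hBc _ _ ?_
      rw [c.len_inv]
      exact (hpow M).2.1.trans (Nat.mul_le_mul_right _ (Finset.mem_range.1 hM))
    · rw [Finset.card_range]
  have hTle : T ≤ (L ^ 2 * C + c.vol R + 1) * (N + 1) ^ 2 := by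
    have : 1 ≤ (N + 1) ^ 2 := Nat.one_le_pow _ _ (Nat.succ_pos N)
    rw [hT]
    nlinarith [Nat.zero_le (c.vol R)]
  rw [hWc] at hfin
  refine absurd (hN.trans_le hfin) (not_lt.2 ?_)
  calc T * ((T * L) ^ 2 * C) = T ^ 3 * (L ^ 2 * C) := by ring
    _ ≤ ((L ^ 2 * C + c.vol R + 1) * (N + 1) ^ 2) ^ 3 * (L ^ 2 * C) := by gcongr
    _ = _ := by ring

end Ctx
end Crest.Agent.R224
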