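import Crest.Agent.R224.Basic

/-! Potential theory I: `P`, `Gr`, `Hm`, `loc`. -/

set_option autoImplicit false
open Filter Topology Set MeasureTheory
open scoped Pointwise

namespace Crest.Agent.R224

theorem L2.tendsto {Γ : Type} {w : Γ → ℝ} (h : L2 w) : Tendsto w cofinite (𝓝 0) := by
  have h1 : Tendsto (fun x => w x ^ 2) cofinite (𝓝 0) := Summable.tendsto_cofinite_zero h
  have h2 : Tendsto (fun x => √(w x ^ 2)) cofinite (𝓝 (√0)) :=
    (Real.continuous_sqrt.tendsto 0).comp h1
  simp only [Real.sqrt_sq_eq_abs, Real.sqrt_zero] at h2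
  exact (tendsto_zero_iff_abs_tendsto_zero w).2 h2
theorem L2.finite_ge {Γ : Type} {w : Γ → ℝ} (h : L2 w) {ε : ℝ} (hε : 0 < ε) :
    {x | ε ≤ |w x|}.Finite := by
  have h1 := (Metric.tendsto_nhds.1 h.tendsto) ε hε
  rw [Filter.eventually_cofinite] at h1
  refine h1.subset fun x hx => ?_
  simp only [mem_setOf_eq, dist_zero_right, Real.norm_eq_abs, not_lt] at hx ⊢
  exact hx
theorem L2.add {Γ : Type} {v w : Γ → ℝ} (hv : L2 v) (hw : L2 w) : L2 (v + w) := by
  refine Summable.of_nonneg_of_le (fun x => sq_nonneg _) (fun x => ?_)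
    ((hv.mul_left 2).add (hw.mul_left 2))
  simp only [Pi.add_apply]
  nlinarith [sq_nonneg (v x - w x)]
theorem L2.const_mul {Γ : Type} {w : Γ → ℝ} (hw : L2 w) (a : ℝ) : L2 fun x => a * w x := by
  have := Summable.mul_left (a ^ 2) hw
  unfold L2
  simpa only [mul_pow] using this
theorem L2.of_le {Γ : Type} {v w : Γ → ℝ} (hw : L2 w) (h : ∀ x, |v x| ≤ |w x|) : L2 v := by
  refine Summable.of_nonneg_of_le (fun x => sq_nonneg _) (fun x => ?_) hw
  exact sq_le_sq.2 (h x)
theorem L2.of_finite {Γ : Type} {w : Γ → ℝ} (h : (Function.support w).Finite) : L2 w := by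
  refine summable_of_finite_support (h.subset fun x hx => ?_)
  simp only [Function.mem_support] at hx ⊢
  intro h0
  exact hx (by simp [h0])
theorem L2.sq_le {Γ : Type} {w : Γ → ℝ} (h : L2 w) (x : Γ) : w x ^ 2 ≤ nsq w := by
  exact Summable.le_tsum h x fun y _ => sq_nonneg _
/-- Cauchy-Schwarz on a finite set -/
theorem L2.sum_le {Γ : Type} {w : Γ → ℝ} (h : L2 w) (F : Finset Γ) :
    ∑ x ∈ F, |w x| ≤ √(nsq w) * √(F.card) := by
  have h1 : ∑ x ∈ F, |w x| * 1 ≤ √(∑ x ∈ F, |w x| ^ 2) * √(∑ x ∈ F, (1:ℝ) ^ 2) :=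
    Real.sum_mul_le_sqrt_mul_sqrt F _ _
  simp only [mul_one, sq_abs, one_pow, Finset.sum_const, nsmul_eq_mul] at h1
  refine h1.trans (mul_le_mul_of_nonneg_right (Real.sqrt_le_sqrt ?_) (Real.sqrt_nonneg _))
  exact Summable.sum_le_tsum F (fun y _ => sq_nonneg _) h
theorem L2.summable_mul {Γ : Type} {v w : Γ → ℝ} (hv : L2 v) (hw : L2 w) :
    Summable fun x => v x * w x := by
  refine Summable.of_norm_bounded (g := fun x => v x ^ 2 + w x ^ 2) (Summable.add hv hw) fun x => ?_
  rw [Real.norm_eq_abs, abs_le]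
  constructor <;> nlinarith [sq_nonneg (v x - w x), sq_nonneg (v x + w x), sq_nonneg (v x),
    sq_nonneg (w x)]
theorem L2.tr {Γ : Type} [Group Γ] {w : Γ → ℝ} (hw : L2 w) (g : Γ) :
    L2 (fun x => w (g * x)) ∧ nsq (fun x => w (g * x)) = nsq w := by
  exact ⟨(Equiv.mulLeft g).summable_iff.2 hw, (Equiv.mulLeft g).tsum_eq fun x => w x ^ 2⟩
theorem L2.tr_right {Γ : Type} [Group Γ] {w : Γ → ℝ} (hw : L2 w) (g : Γ) :
    L2 (fun x => w (x * g)) ∧ nsq (fun x => w (x * g)) = nsq w := by
  exact ⟨(Equiv.mulRight g).summable_iff.2 hw, (Equiv.mulRight g).tsum_eq fun x => w x ^ 2⟩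

namespace Gen
variable {Γ : Type} [Group Γ] (G : Gen Γ)

theorem cardR_pos : (0 : ℝ) < G.S.card := by exact_mod_cast G.S_card_pos

theorem P_mono' {f g : Γ → ℝ} {x : Γ} (h : ∀ s ∈ G.S, f (x * s) ≤ g (x * s)) :
    G.P f x ≤ G.P g x :=
  div_le_div_of_nonneg_right (Finset.sum_le_sum h) G.cardR_pos.le

theorem iter_succ' (f : Γ → ℝ) (n : ℕ) (x : Γ) :
    G.P^[n + 1] f x = (∑ s ∈ G.S, G.P^[n] f (x * s)) / G.S.card := by
  rw [Function.iterate_succ_apply']; rfl

theorem iter_mono {f g : Γ → ℝ} (h : ∀ x, f x ≤ g x) (n : ℕ) (x : Γ) :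
    G.P^[n] f x ≤ G.P^[n] g x := by
  induction n generalizing x with
  | zero => exact h x
  | succ n ih =>
    rw [Function.iterate_succ_apply', Function.iterate_succ_apply']
    exact G.P_mono' fun s _ => ih _
theorem iter_add (f g : Γ → ℝ) (n : ℕ) : G.P^[n] (f + g) = G.P^[n] f + G.P^[n] g := by
  induction n with
  | zero => rfl
  | succ n ih =>
    funext x
    simp only [Pi.add_apply, G.iter_succ', ih, Finset.sum_add_distrib, add_div]
theorem iter_sub (f g : Γ → ℝ) (n : ℕ) : G.P^[n] (f - g) = G.P^[n] f - G.P^[n] g := by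
  induction n with
  | zero => rfl
  | succ n ih =>
    funext x
    simp only [Pi.sub_apply, G.iter_succ', ih, Finset.sum_sub_distrib, sub_div]
theorem iter_const_mul (a : ℝ) (f : Γ → ℝ) (n : ℕ) :
    G.P^[n] (fun x => a * f x) = fun x => a * G.P^[n] f x := by
  induction n with
  | zero => rfl
  | succ n ih =>
    funext x
    simp only [G.iter_succ', ih, ← Finset.mul_sum, mul_div_assoc]
theorem iter_const (a : ℝ) (n : ℕ) : G.P^[n] (fun _ => a) = fun _ => a := by
  induction n with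
  | zero => rfl
  | succ n ih =>
    funext x
    have := G.cardR_pos
    simp only [G.iter_succ', ih, Finset.sum_const, nsmul_eq_mul]
    field_simp
theorem abs_iter_le (f : Γ → ℝ) (n : ℕ) (x : Γ) :
    |G.P^[n] f x| ≤ G.P^[n] (fun y => |f y|) x := by
  rw [abs_le]
  constructor
  · have h1 := G.iter_mono (f := fun y => (-1) * |f y|) (g := f)
      (fun y => by have := neg_abs_le (f y); linarith) n x
    rw [G.iter_const_mul] at h1
    simpa using h1
  · exact G.iter_mono (fun y => le_abs_self _) n x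
/-- left translations commute with `P` -/
theorem iter_tr (f : Γ → ℝ) (g : Γ) (n : ℕ) (x : Γ) :
    G.P^[n] (fun y => f (g * y)) x = G.P^[n] f (g * x) := by
  induction n generalizing x with
  | zero => rfl
  | succ n ih =>
    simp only [G.iter_succ', ih, mul_assoc]
/-- `P^[n] f x` only depends on the values of `f` on `ball x n` -/
theorem iter_congr {f g : Γ → ℝ} {n : ℕ} {x : Γ} (h : ∀ y, G.D x y ≤ n → f y = g y) :
    G.P^[n] f x = G.P^[n] g x := by
  induction n generalizing x with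
  | zero => exact h x (by simp)
  | succ n ih =>
    rw [G.iter_succ', G.iter_succ']
    congr 1
    refine Finset.sum_congr rfl fun s hs => ih fun y hy => h y ?_
    have h1 := G.D_tri x (x * s) y
    have h2 : G.D x (x * s) ≤ 1 := G.D_le_one.2 ⟨s, hs, rfl⟩
    omega
/-- pointwise limits (any filter) pass through `P^[n]` -/
theorem tendsto_iter {ι : Type} {l : Filter ι} {f : ι → Γ → ℝ} {g : Γ → ℝ}
    (h : ∀ y, Tendsto (fun i => f i y) l (𝓝 (g y))) (n : ℕ) (x : Γ) :
    Tendsto (fun i => G.P^[n] (f i) x) l (𝓝 (G.P^[n] g x)) := by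
  induction n generalizing x with
  | zero => exact h x
  | succ n ih =>
    simp only [G.iter_succ']
    exact (tendsto_finsetSum _ fun s _ => ih _).div_const _
theorem iter_finsum {ι : Type} (t : Finset ι) (f : ι → Γ → ℝ) (n : ℕ) (x : Γ) :
    G.P^[n] (fun y => ∑ i ∈ t, f i y) x = ∑ i ∈ t, G.P^[n] (f i) x := by
  induction n generalizing x with
  | zero => rfl
  | succ n ih =>
    simp only [G.iter_succ', ih]
    rw [Finset.sum_comm, Finset.sum_div]

theorem sum_inv (φ : Γ → ℝ) : ∑ s ∈ G.S, φ s⁻¹ = ∑ s ∈ G.S, φ s :=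
  Finset.sum_bij' (fun s _ => s⁻¹) (fun s _ => s⁻¹) (fun s hs => G.inv_mem s hs)
    (fun s hs => G.inv_mem s hs) (fun s _ => inv_inv s) (fun s _ => inv_inv s) (fun _ _ => rfl)

/-- the `n`-step distribution from `1` is symmetric under inversion -/
theorem iter_inv (f : Γ → ℝ) (n : ℕ) : G.P^[n] (fun y => f y⁻¹) 1 = G.P^[n] f 1 := by
  induction n generalizing f with
  | zero => simp
  | succ n ih =>
    -- first step on the left, last step on the right
    rw [G.iter_succ', Function.iterate_succ_apply]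
    have h1 : ∀ s, G.P^[n] (fun y => f y⁻¹) (1 * s) = G.P^[n] (fun y => f (y * s⁻¹)) 1 := by
      intro s
      rw [one_mul, ← ih (fun y => f (y * s⁻¹))]
      have := G.iter_tr (fun y => f y⁻¹) s n 1
      rw [mul_one] at this
      rw [← this]
      simp only [mul_inv_rev]
    simp only [h1]
    rw [G.sum_inv (fun s => G.P^[n] (fun y => f (y * s)) 1)]
    have h2 : G.P f = fun y => (G.S.card : ℝ)⁻¹ * ∑ s ∈ G.S, f (y * s) := by
      funext y; simp only [P]; rw [div_eq_inv_mul]
    rw [h2, G.iter_const_mul]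
    simp only
    rw [G.iter_finsum, div_eq_inv_mul]
/-- Harnack -/
theorem le_card_mul_P {f : Γ → ℝ} (hf : ∀ x, 0 ≤ f x) {x y : Γ} (h : G.D x y ≤ 1) :
    f y ≤ G.S.card * G.P f x := by
  obtain ⟨s, hs, rfl⟩ := G.D_le_one.1 h
  have := G.cardR_pos
  simp only [P]
  rw [mul_div_cancel₀ _ this.ne']
  exact Finset.single_le_sum (f := fun s => f (x * s)) (fun s _ => hf _) hs
/-- convergence to zero at one point implies convergence everywhere -/
theorem tendsto_zero_all {f : Γ → ℝ} (hf : ∀ x, 0 ≤ f x) {x : Γ}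
    (h : Tendsto (fun n => G.P^[n] f x) atTop (𝓝 0)) (y : Γ) :
    Tendsto (fun n => G.P^[n] f y) atTop (𝓝 0) := by
  refine G.conn_ind (p := fun y => Tendsto (fun n => G.P^[n] f y) atTop (𝓝 0)) h ?_ y
  intro y z hyz hy
  have h0 : ∀ n x, 0 ≤ G.P^[n] f x := fun n x => by
    have := G.iter_mono (f := fun _ => 0) hf n x
    rwa [G.iter_const] at this
  have h1 : Tendsto (fun n => (G.S.card : ℝ) * G.P^[n + 1] f y) atTop (𝓝 0) := by
    simpa using ((tendsto_add_atTop_iff_nat 1).2 hy).const_mul (G.S.card : ℝ)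
  refine squeeze_zero (fun n => h0 n z) (fun n => ?_) h1
  rw [Function.iterate_succ_apply']
  exact G.le_card_mul_P (h0 n) hyz
/-- maximum principle -/
theorem const_of_max {f : Γ → ℝ} (hf : ∀ x, f x ≤ G.P f x) {x : Γ} (h : ∀ y, f y ≤ f x) (y : Γ) :
    f y = f x := by
  refine G.conn_ind (p := fun y => f y = f x) rfl ?_ y
  intro y z hyz hy
  have h1 := G.le_card_mul_P (f := fun u => f x - f u) (fun u => sub_nonneg.2 (h u)) hyz
  have h2 : G.P (fun u => f x - f u) y = f x - G.P f y := by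
    have := G.cardR_pos
    simp only [P, Finset.sum_sub_distrib, Finset.sum_const, nsmul_eq_mul, sub_div]
    congr 1
    field_simp
  rw [h2] at h1
  have h3 := hf y
  have h4 := G.cardR_pos
  have h5 := h z
  have h6 : f x - G.P f y ≤ 0 := by linarith
  have h7 : (G.S.card : ℝ) * (f x - G.P f y) ≤ 0 := mul_nonpos_of_nonneg_of_nonpos h4.le h6
  linarith

end Gen
end Crest.Agent.R224
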