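import Crest.Agent.R224.Pre0

/-! Pretree combinatorics: order on intervals, pieces, projections. -/

set_option autoImplicit false
open Filter Topology Set MeasureTheory
open scoped Pointwise

namespace Crest.Agent.R224

namespace IsPre
variable {T : Type} {B : T → T → T → Prop} (h : IsPre B)
include h

theorem near_iff {a b : T} : (a = b ∨ Adj B a b) ↔ ∀ d, ¬ B d a b := by
  constructor
  · rintro (rfl | h1)
    · exact fun d => h.irr d a
    · exact h1.2
  · intro h1
    by_cases hab : a = b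
    · exact Or.inl hab
    · exact Or.inr ⟨hab, h1⟩

theorem mem_pieceOf {a c c' : T} :
    a ∈ pieceOf B c c' ↔ (∀ d, ¬ B d a c) ∧ ∀ d, ¬ B d a c' := by
  simp only [pieceOf, mem_setOf_eq, h.near_iff]

theorem exists_adj' (hf : ∀ a b, {d | B d a b}.Finite) (b : T) :
    ∀ (n : ℕ) (a : T), a ≠ b → {d | B d a b}.ncard = n → ∃ c, Adj B c b ∧ (c = a ∨ B c a b) := by
  intro n
  induction n using Nat.strong_induction_on with
  | _ n ih =>
    intro a hab hn
    by_cases hex : ∃ d, B d a b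
    · obtain ⟨d, hd⟩ := hex
      have hsub : {u | B u d b} ⊆ {u | B u a b} := fun u hu =>
        h.symm _ _ _ (h.trans (h.symm _ _ _ hd) (h.symm _ _ _ hu))
      have hlt : {u | B u d b}.ncard < n := by
        rw [← hn]
        refine Set.ncard_lt_ncard ⟨hsub, fun h1 => ?_⟩ (hf a b)
        exact h.ne _ _ _ (h1 hd) rfl
      obtain ⟨c, hc, hc'⟩ := ih _ hlt d (h.ne' hd) rfl
      refine ⟨c, hc, Or.inr ?_⟩
      rcases hc' with rfl | hc'
      · exact hd
      · exact hsub hc'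
    · push Not at hex
      exact ⟨a, ⟨hab, hex⟩, Or.inl rfl⟩

/-- Plan: among pairs of distinct points choose one with the smallest interval. -/
theorem exists_adj (hf : ∀ a b, {d | B d a b}.Finite) {a b : T} (hab : a ≠ b) :
    ∃ c c', Adj B c c' := by
  obtain ⟨c, hc, -⟩ := h.exists_adj' hf b _ a hab rfl
  exact ⟨c, b, hc⟩
theorem _root_.Crest.Agent.R224.IsPiece.not_btw {Y : Set T} (hY : IsPiece B Y) {a b : T}
    (ha : a ∈ Y) (hb : b ∈ Y) (d : T) : ¬ B d a b := by
  obtain ⟨c, c', hcc, rfl⟩ := hY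
  rw [h.mem_pieceOf] at ha hb
  intro hd
  by_cases hc : c = d
  · have hc' : c' ≠ d := fun e => hcc.1 (hc.trans e.symm)
    rcases h.t3 d a b c' hd hc' with h1 | h1
    · exact ha.2 d h1
    · exact hb.2 d (h.symm _ _ _ h1)
  · rcases h.t3 d a b c hd hc with h1 | h1
    · exact ha.1 d h1
    · exact hb.1 d (h.symm _ _ _ h1)
theorem left_mem_pieceOf {c c' : T} (hcc : Adj B c c') : c ∈ pieceOf B c c' :=
  ⟨Or.inl rfl, Or.inr hcc⟩
theorem right_mem_pieceOf {c c' : T} (hcc : Adj B c c') : c' ∈ pieceOf B c c' :=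
  ⟨Or.inr ⟨hcc.1.symm, fun d hd => hcc.2 d (h.symm _ _ _ hd)⟩, Or.inl rfl⟩
theorem _root_.Crest.Agent.R224.IsPiece.exists_ne {Y : Set T} (hY : IsPiece B Y) (z : T) :
    ∃ d ∈ Y, d ≠ z := by
  obtain ⟨c, c', hcc, rfl⟩ := hY
  by_cases hc : c = z
  · exact ⟨c', h.right_mem_pieceOf hcc, fun e => hcc.1 (hc.trans e.symm)⟩
  · exact ⟨c, h.left_mem_pieceOf hcc, hc⟩
/-- a piece is determined by any two of its points -/
theorem _root_.Crest.Agent.R224.IsPiece.eq_pieceOf {Y : Set T} (hY : IsPiece B Y) {a b : T}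
    (ha : a ∈ Y) (hb : b ∈ Y) (hab : a ≠ b) : Y = pieceOf B a b := by
  apply Subset.antisymm
  · intro x hx
    rw [h.mem_pieceOf]
    exact ⟨hY.not_btw h hx ha, hY.not_btw h hx hb⟩
  · intro x hx
    rw [h.mem_pieceOf] at hx
    have key : ∀ c ∈ Y, ∀ d, ¬ B d x c := by
      intro c hc d hd
      by_cases h1 : a = d
      · have h2 : b ≠ d := fun e => hab (h1.trans e.symm)
        rcases h.t3 d x c b hd h2 with h3 | h3
        · exact hx.2 d h3
        · exact hY.not_btw h hb hc d h3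
      · rcases h.t3 d x c a hd h1 with h3 | h3
        · exact hx.1 d h3
        · exact hY.not_btw h ha hc d h3
    obtain ⟨c, c', hcc, rfl⟩ := hY
    rw [h.mem_pieceOf]
    exact ⟨key c (h.left_mem_pieceOf hcc), key c' (h.right_mem_pieceOf hcc)⟩
/-- to be behind `a` it suffices to be separated from one other point of the piece -/
theorem proj_of_btw {Y : Set T} (hY : IsPiece B Y) {z a b : T} (ha : a ∈ Y) (hb : b ∈ Y)
    (h1 : B a z b) : Proj B Y z a := by
  refine ⟨ha, Or.inr fun b' hb' hne => ?_⟩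
  rcases h.t3 a z b b' h1 hne with h2 | h2
  · exact h2
  · exact absurd h2 (hY.not_btw h hb' hb a)
/-- Plan: if `z ∉ Y = pieceOf c c'`: if `c ∈ (z,c')` take `c`; if `c' ∈ (z,c)` take `c'`; otherwise
`(z,c) = (z,c') ≠ ∅`, take `a ∈ (z,c)` with `(a,c)` minimal. -/
theorem exists_proj (hf : ∀ a b, {d | B d a b}.Finite) {Y : Set T} (hY : IsPiece B Y) (z : T) :
    ∃ a, Proj B Y z a := by
  obtain ⟨c, c', hcc, hYe⟩ := id hY
  have hc : c ∈ Y := hYe ▸ h.left_mem_pieceOf hcc
  have hc' : c' ∈ Y := hYe ▸ h.right_mem_pieceOf hcc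
  by_cases h1 : B c z c'
  · exact ⟨c, h.proj_of_btw hY hc hc' h1⟩
  by_cases h2 : z = c
  · exact ⟨c, hc, Or.inl h2⟩
  obtain ⟨a, ha, ha'⟩ := h.exists_adj' hf c _ z h2 rfl
  have haY : a ∈ Y := by
    rw [hYe, h.mem_pieceOf]
    refine ⟨ha.2, fun d hd => ?_⟩
    by_cases h3 : c = d
    · subst h3
      rcases ha' with rfl | ha'
      · exact h1 hd
      · rcases h.t3 c a c' z hd h2 with h4 | h4
        · exact h.t2 _ _ _ ha' (h.symm _ _ _ h4)
        · exact h1 h4
    · rcases h.t3 d a c' c hd h3 with h4 | h4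
      · exact ha.2 d h4
      · exact hcc.2 d h4
  rcases ha' with rfl | ha'
  · exact ⟨a, haY, Or.inl rfl⟩
  · exact ⟨a, h.proj_of_btw hY haY hc ha'⟩
theorem proj_unique {Y : Set T} (hY : IsPiece B Y) {z a a' : T} (h1 : Proj B Y z a)
    (h2 : Proj B Y z a') : a = a' := by
  by_contra hne
  obtain ⟨ha, h1 | h1⟩ := h1 <;> obtain ⟨ha', h2 | h2⟩ := h2
  · exact hne (h1.symm.trans h2)
  · subst h1
    exact h.irr _ _ (h2 z ha hne)
  · subst h2
    exact h.irr _ _ (h1 z ha' (Ne.symm hne))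
  · exact h.t2 _ _ _ (h1 a' ha' (Ne.symm hne)) (h2 a ha hne)
theorem proj_sep {Y : Set T} (hY : IsPiece B Y) {z z' a a' : T} (h1 : Proj B Y z a)
    (h2 : Proj B Y z' a') (hne : a ≠ a') : a = z ∨ B a z z' := by
  obtain ⟨ha, h1 | h1⟩ := h1
  · exact Or.inl h1.symm
  obtain ⟨ha', h2 | h2⟩ := h2
  · exact Or.inr (h2 ▸ h1 a' ha' hne.symm)
  have h3 := h2 a ha hne
  have h4 : z' ≠ a := by
    rintro rfl
    exact h.irr _ _ h3
  rcases h.t3 a z a' z' (h1 a' ha' hne.symm) h4 with h5 | h5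
  · exact Or.inr h5
  · exact absurd h5 (h.t2 _ _ _ h3)
/-- everything behind `z`, seen from a point `d ≠ z` of the piece, has the same projection -/
theorem proj_behind {Y : Set T} (hY : IsPiece B Y) {z u d a : T} (hd : d ∈ Y) (h1 : B z d u)
    (h2 : Proj B Y z a) : Proj B Y u a := by
  obtain ⟨ha, h2 | h2⟩ := h2
  · subst h2
    exact h.proj_of_btw hY ha hd (h.symm _ _ _ h1)
  by_cases hda : d = a
  · subst hda
    obtain ⟨b, hb, hbd⟩ := hY.exists_ne h d
    have h3 := h2 b hb hbd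
    have hu : u ≠ d := by
      rintro rfl
      exact h.irr _ _ h1
    rcases h.t3 d z b u h3 hu with h4 | h4
    · exact absurd (h.symm _ _ _ h4) (h.t2 _ _ _ (h.symm _ _ _ h1))
    · exact h.proj_of_btw hY ha hb h4
  · exact h.proj_of_btw hY ha hd (h.symm _ _ _ (h.trans h1 (h.symm _ _ _ (h2 d hd hda))))

end IsPre

section Act
variable {Γ T : Type} [Group Γ] [MulAction Γ T] {B : T → T → T → Prop}
  (hs : ∀ (g : Γ) a y z, B a y z → B (g • a) (g • y) (g • z))
include hs
theorem btw_smul_iff (g : Γ) (a y z : T) : B (g • a) (g • y) (g • z) ↔ B a y z := by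
  refine ⟨fun h => ?_, hs g a y z⟩
  simpa only [inv_smul_smul] using hs g⁻¹ _ _ _ h
theorem adj_smul (g : Γ) (a b : T) : Adj B (g • a) (g • b) ↔ Adj B a b := by
  unfold Adj
  refine and_congr (MulAction.injective g).ne_iff ⟨fun h d hd => h (g • d) (hs g _ _ _ hd), ?_⟩
  intro h d hd
  refine h (g⁻¹ • d) ?_
  simpa only [inv_smul_smul] using hs g⁻¹ _ _ _ hd
theorem pieceOf_smul (g : Γ) (c c' : T) : pieceOf B (g • c) (g • c') = g • pieceOf B c c' := by
  ext x
  obtain ⟨y, rfl⟩ := MulAction.surjective g x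
  rw [Set.smul_mem_smul_set_iff]
  simp only [pieceOf, mem_setOf_eq, adj_smul hs, smul_left_cancel_iff]
theorem isPiece_smul {Y : Set T} (hY : IsPiece B Y) (g : Γ) : IsPiece B (g • Y) := by
  obtain ⟨c, c', hcc, rfl⟩ := hY
  exact ⟨g • c, g • c', (adj_smul hs g c c').2 hcc, (pieceOf_smul hs g c c').symm⟩
theorem proj_smul {Y : Set T} {z a : T} (g : Γ) : Proj B (g • Y) (g • z) (g • a) ↔ Proj B Y z a := by
  unfold Proj
  rw [Set.smul_mem_smul_set_iff, smul_left_cancel_iff]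
  refine and_congr Iff.rfl (or_congr Iff.rfl ⟨fun h b hb hne => ?_, fun h b hb hne => ?_⟩)
  · exact (btw_smul_iff hs g _ _ _).1
      (h (g • b) (Set.smul_mem_smul_set hb) ((MulAction.injective g).ne hne))
  · obtain ⟨b', hb', rfl⟩ := hb
    exact hs g _ _ _ (h b' hb' fun e => hne (congrArg _ e))
end Act

end Crest.Agent.R224
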