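import Crest.Agent.R224.Defs

/-! Pretree combinatorics: order on intervals, pieces, projections. -/

set_option autoImplicit false
open Filter Topology Set MeasureTheory
open scoped Pointwise

namespace Crest.Agent.R224

namespace IsPre
variable {T : Type} {B : T → T → T → Prop} (h : IsPre B)
include h

theorem ne' {a y z : T} (h1 : B a y z) : a ≠ z :=
  h.ne _ _ _ (h.symm _ _ _ h1)
/-- and `d ∈ (c,b)` -/
theorem trans' {a b c d : T} (hd : B d a b) (hc : B c a d) : B d c b := by
  rcases h.t3 d a b c hd (h.ne' hc) with h1 | h1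
  · exact absurd h1 (h.t2 _ _ _ hc)
  · exact h1
/-- `a < c < d < b` : if `d ∈ (a,b)` and `c ∈ (a,d)` then `c ∈ (a,b)` -/
theorem trans {a b c d : T} (hd : B d a b) (hc : B c a d) : B c a b := by
  have hbc : b ≠ c := by
    rintro rfl
    exact h.t2 _ _ _ hd hc
  rcases h.t3 c a d b hc hbc with h1 | h1
  · exact h1
  · exact absurd h1 (h.t2 _ _ _ (h.symm _ _ _ (h.trans' hd hc)))
/-- the interval `(a,b)` is totally ordered by `c < d ↔ c ∈ (a,d)` -/
theorem total {a b c d : T} (hc : B c a b) (hd : B d a b) (hne : c ≠ d) : B c a d ∨ B d a c := by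
  rcases h.t3 c a b d hc hne.symm with h1 | h1
  · exact Or.inl h1
  · rcases h.t3 d a b c hd hne with h2 | h2
    · exact Or.inr h2
    · exact absurd (h.symm _ _ _ h1) (h.t2 _ _ _ (h.symm _ _ _ h2))
/-- convexity -/
theorem convex {a b c d u : T} (hc : B c a b) (hd : B d a b) (hu : B u c d) : B u a b := by
  have hne : c ≠ d := by
    rintro rfl
    exact h.irr _ _ hu
  rcases h.total hc hd hne with h1 | h1
  · exact h.trans hd (h.symm _ _ _ (h.trans (h.symm _ _ _ h1) (h.symm _ _ _ hu)))
  · exact h.trans hc (h.symm _ _ _ (h.trans (h.symm _ _ _ h1) hu))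
/-- an infinite interval contains a monotone sequence -/
theorem exists_seq {a b : T} (hi : {d | B d a b}.Infinite) :
    ∃ (a' b' : T) (s : ℕ → T), (∀ i, B (s i) a' b') ∧ ∀ i j, i < j → B (s i) a' (s j) := by
  let f : ℕ → T := fun n => (hi.natEmbedding _ n : T)
  have hf : ∀ n, B (f n) a b := fun n => (hi.natEmbedding _ n).2
  have hinj : Function.Injective f := fun i j hij =>
    (hi.natEmbedding _).injective (Subtype.ext hij)
  have : IsTrans T (fun x y => B x a y) := ⟨fun x y z h1 h2 => h.trans h2 h1⟩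
  obtain ⟨g, hg | hg⟩ := exists_increasing_or_nonincreasing_subseq (fun x y => B x a y) f
  · exact ⟨a, b, fun i => f (g i), fun i => hf _, hg⟩
  · refine ⟨b, a, fun i => f (g i), fun i => h.symm _ _ _ (hf _), fun i j hij => ?_⟩
    have hne : f (g i) ≠ f (g j) := fun e => hij.ne (g.injective (hinj e))
    rcases h.total (hf (g i)) (hf (g j)) hne with h1 | h1
    · exact absurd h1 (hg i j hij)
    · exact h.symm _ _ _ (h.trans' (hf (g i)) h1)

end IsPre
end Crest.Agent.R224
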