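import Crest.Agent.R224.SC
import Crest.Agent.R224.Lim
import Crest.Agent.R224.DY
import Crest.Agent.R224.Roots
import Crest.Agent.R224.Btw
import Crest.Agent.R224.NoAtom

/-! Cut points exist. -/

set_option autoImplicit false
open Filter Topology Set MeasureTheory
open scoped Pointwise

namespace Crest.Agent.R224

namespace Ctx
variable {Γ X : Type} [Group Γ] [MetricSpace X] [CompactSpace X] [MulAction Γ X] (c : Ctx Γ X)

/-- most points of a finite set `F` have `P^[n] (Gr 1_F) ≤ C ρ'^n` for all `n`.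
Plan: `Gap.pair` and Markov's inequality with `ρ' = √ρ` (or `(1+ρ)/2`), geometric series. -/
theorem typical : ∃ (C ρ' : ℝ), 0 ≤ ρ' ∧ ρ' < 1 ∧ ∀ F : Set Γ, F.Finite →
    8 * {x ∈ F | ∃ n, C * ρ' ^ n < c.P^[n] (c.Gr (ind F)) x}.ncard ≤ F.ncard := by
  classical
  obtain ⟨h0, h1, -⟩ := id c.gap
  set ρ := c.ρ with hρ
  set ρ' : ℝ := (1 + ρ) / 2 with hρ'
  have hp : 0 < ρ' := by rw [hρ']; linarith
  have hlt : ρ < ρ' := by rw [hρ']; linarith
  set q : ℝ := ρ / ρ' with hq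
  have hq0 : 0 ≤ q := div_nonneg h0 hp.le
  have hq1 : q < 1 := (div_lt_one hp).2 hlt
  have h1ρ : 0 < 1 - ρ := by linarith
  have h1q : 0 < 1 - q := by linarith
  set C : ℝ := 8 / ((1 - ρ) * (1 - q)) with hC
  have hCpos : 0 < C := by rw [hC]; positivity
  refine ⟨C, ρ', hp.le, by rw [hρ']; linarith, fun F hF => ?_⟩
  lift F to Finset Γ using hF
  set g : ℕ → Γ → ℝ := fun n => c.P^[n] (c.Gr (ind (F : Set Γ))) with hg
  have hg0 : ∀ n x, 0 ≤ g n x := by
    intro n x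
    have := c.iter_mono (f := fun _ => (0 : ℝ)) (g := c.Gr (ind (F : Set Γ)))
      (fun y => Gen.Gr_nonneg (fun y => Set.indicator_nonneg (fun _ _ => zero_le_one) y) y) n x
    rwa [c.iter_const] at this
  set B : Finset Γ := F.filter fun x => ∃ n, C * ρ' ^ n < g n x with hB
  have hBeq : {x ∈ (F : Set Γ) | ∃ n, C * ρ' ^ n < c.P^[n] (c.Gr (ind (F : Set Γ))) x} = (B : Set Γ) := by
    ext x; simp [hB, hg]
  rw [hBeq, Set.ncard_coe_finset, Set.ncard_coe_finset]
  have hex : ∀ x ∈ B, ∃ n, C * ρ' ^ n < g n x := fun x hx => (Finset.mem_filter.1 hx).2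
  choose! nn hnn using hex
  set N : ℕ := B.sup nn + 1 with hN
  have hle : ∀ x ∈ B, C ≤ ∑ n ∈ Finset.range N, g n x / ρ' ^ n := by
    intro x hx
    have hmem : nn x ∈ Finset.range N := by
      rw [Finset.mem_range, hN]; exact Nat.lt_succ_of_le (Finset.le_sup hx)
    have h2 : C ≤ g (nn x) x / ρ' ^ (nn x) := by
      rw [le_div_iff₀ (pow_pos hp _)]; exact (hnn x hx).le
    exact h2.trans (Finset.single_le_sum (f := fun n => g n x / ρ' ^ n)
      (fun n _ => div_nonneg (hg0 n x) (pow_pos hp _).le) hmem)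
  have hsum : (B.card : ℝ) * C ≤ F.card / ((1 - ρ) * (1 - q)) := by
    calc (B.card : ℝ) * C = ∑ _x ∈ B, C := by rw [Finset.sum_const, nsmul_eq_mul]
      _ ≤ ∑ x ∈ B, ∑ n ∈ Finset.range N, g n x / ρ' ^ n := Finset.sum_le_sum hle
      _ ≤ ∑ x ∈ F, ∑ n ∈ Finset.range N, g n x / ρ' ^ n :=
          Finset.sum_le_sum_of_subset_of_nonneg (Finset.filter_subset _ _) fun x _ _ =>
            Finset.sum_nonneg fun n _ => div_nonneg (hg0 n x) (pow_pos hp _).le
      _ = ∑ n ∈ Finset.range N, (∑ x ∈ F, g n x) / ρ' ^ n := by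
          rw [Finset.sum_comm]; simp only [Finset.sum_div]
      _ ≤ ∑ n ∈ Finset.range N, q ^ n * (F.card / (1 - ρ)) := by
          refine Finset.sum_le_sum fun n _ => ?_
          have := c.gap.pair F n
          rw [div_le_iff₀ (pow_pos hp _)]
          refine this.trans (le_of_eq ?_)
          rw [hq, div_pow, ← hρ]
          have : ρ' ^ n ≠ 0 := (pow_pos hp _).ne'
          field_simp
      _ = (∑ n ∈ Finset.range N, q ^ n) * (F.card / (1 - ρ)) := by rw [Finset.sum_mul]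
      _ ≤ (1 - q)⁻¹ * (F.card / (1 - ρ)) := by
          refine mul_le_mul_of_nonneg_right ?_ (by positivity)
          rw [← tsum_geometric_of_lt_one hq0 hq1]
          exact (summable_geometric_of_lt_one hq0 hq1).sum_le_tsum _ fun n _ => pow_nonneg hq0 n
      _ = F.card / ((1 - ρ) * (1 - q)) := by field_simp
  rw [hC, ← mul_div_assoc, div_le_div_iff_of_pos_right (mul_pos h1ρ h1q)] at hsum
  have : ((8 * B.card : ℕ) : ℝ) ≤ F.card := by push_cast; linarith
  exact_mod_cast this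

include c in
/-- a strictly positive square summable function -/
theorem propA0_pos : ∃ θ : Γ → ℝ, L2 θ ∧ ∀ x, 0 < θ x := by
  have := c.countable
  obtain ⟨f, hf⟩ := exists_injective_nat Γ
  refine ⟨fun x => (1 / 2 : ℝ) ^ f x, ?_, fun x => by positivity⟩
  have h : Summable fun n : ℕ => ((1 / 2 : ℝ) ^ n) ^ 2 := by
    have := summable_geometric_of_lt_one (r := (1 / 4 : ℝ)) (by norm_num) (by norm_num)
    refine this.congr fun n => ?_
    rw [← pow_mul, mul_comm, pow_mul]; norm_num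
  exact h.comp_injective hf

/-- One membrane: a good root at scale `R`.
Plan: `φ = min 1 (max 0 (2 - 2 dist · z / ε))` (`0` outside `ball z ε`, `1` on `closedBall z (ε/2)`), `ℓ = φ ∘ e` with
`Dom ℓ w'`, `Ψ = loc R w' + (R+1) Gr w'`, `S = {x ∈ wall H | ℓ x ≤ 1/2}` (finite), `dy_folner` with `δ = 1/8`, `τ = 1/2`
gives `t`; `F = {x ∈ wall H | ℓ x ≤ t}`; choose `x ∈ F` with `ℓ x + Ψ x ≤ t`, typical, and outside the set of
density `1/8`.  Then `wall H ∩ ball x R ⊆ F`, and with `u = max 0 (t - ℓ)` the hitting lemma gives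
`hit (wall H \ F) x ≤ 1/(R+1)` (if `Gr w' x = 0`: `u x * hit ≤ 0`; enlarge `Ψ` by a positive `ℓ²` function or treat
`u x ≥ (R+1) Gr w' x` carefully, e.g. replace `w'` by `w' + ind {1}` so that `Gr w' > 0` everywhere);
`|p - 1_H| ≤ hit F + hit (wall H \ F)`, `hit F ≤ Gr 1_F`, `iter_hit_le`. -/
theorem membrane_root (z : X) {ε : ℝ} (hε : 0 < ε) : ∃ (C ρ' : ℝ), 0 ≤ ρ' ∧ ρ' < 1 ∧
    ∀ R : ℕ, ∃ v₀ : ℕ, ∀ (H : Set Γ) (p : Γ → ℝ) (bad : Set Γ → Γ → Prop), c.IsP H p →
      c.Acc (c.wall H) ⊆ Metric.closedBall z (ε / 2) →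
      (v₀ : ℕ∞) ≤ {x ∈ c.wall H | ε ≤ dist (c.e x) z}.encard →
      (∀ F : Set Γ, F.Finite → 8 * {x ∈ F | bad F x}.ncard ≤ F.ncard) →
      ∃ (F : Set Γ) (x : Γ), F.Finite ∧ x ∈ c.wall H ∧ ¬ bad F x ∧
        c.wall H ∩ c.ball x R ⊆ F ∧
        ∀ n, c.P^[n] (fun y => |p y - ind H y|) x ≤ 1 / (R + 1 : ℝ) + C * ρ' ^ n := by
  classical
  obtain ⟨C, ρ', hρ0, hρ1, htyp⟩ := c.typical
  refine ⟨C, ρ', hρ0, hρ1, fun R => ?_⟩
  obtain ⟨θ, hθ, hθ0⟩ := c.propA0_pos
  set φ : X → ℝ := fun a => min 1 (max 0 (2 - 2 / ε * dist a z)) with hφ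
  have hL : (0 : ℝ) ≤ 2 / ε := by positivity
  have hlip : ∀ a b, |φ a - φ b| ≤ 2 / ε * dist a b := by
    intro a b
    have h1 : |φ a - φ b| ≤ |max 0 (2 - 2 / ε * dist a z) - max 0 (2 - 2 / ε * dist b z)| := by
      have := abs_min_sub_min_le_max (1 : ℝ) (max 0 (2 - 2 / ε * dist a z)) 1
        (max 0 (2 - 2 / ε * dist b z))
      simpa using this
    have h2 : |max 0 (2 - 2 / ε * dist a z) - max 0 (2 - 2 / ε * dist b z)| ≤
        |(2 - 2 / ε * dist a z) - (2 - 2 / ε * dist b z)| := by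
      have := abs_max_sub_max_le_max (0 : ℝ) (2 - 2 / ε * dist a z) 0 (2 - 2 / ε * dist b z)
      simpa using this
    refine h1.trans (h2.trans ?_)
    have : (2 - 2 / ε * dist a z) - (2 - 2 / ε * dist b z) = 2 / ε * (dist b z - dist a z) := by ring
    rw [this, abs_mul, abs_of_nonneg hL]
    refine mul_le_mul_of_nonneg_left ?_ hL
    rw [dist_comm a b]; exact abs_dist_sub_le _ _ _
  have hφc : Continuous φ := by rw [hφ]; fun_prop
  set ℓ : Γ → ℝ := φ ∘ c.e with hℓ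
  set w' : Γ → ℝ := fun x => 2 / ε * c.w x with hw'
  have hdom : c.Dom ℓ w' := c.dom_lip hL hlip
  have hw0 : ∀ x, 0 ≤ w' x := hdom.nonneg
  have hG0 : ∀ x, 0 ≤ c.Gr w' x := Gen.Gr_nonneg hw0
  have hloc0 : ∀ x, 0 ≤ c.loc R w' x := fun x =>
    (hw0 x).trans (c.le_loc hw0 (by simp : c.D x x ≤ R))
  set Ψ : Γ → ℝ := c.loc R w' + (fun x => (R + 1 : ℝ) * c.Gr w' x) + θ with hΨ
  have hΨ2 : L2 Ψ := ((c.loc_L2 hdom.1 R).1.add ((c.gap.Gr_L2 hdom.1).1.const_mul _)).add hθ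
  have hΨe : ∀ x, Ψ x = c.loc R w' x + (R + 1 : ℝ) * c.Gr w' x + θ x := fun x => rfl
  have hΨ0 : ∀ x, 0 ≤ Ψ x := fun x => by
    rw [hΨe]; have := hloc0 x; have := hG0 x; have := hθ0 x; positivity
  obtain ⟨A, hA⟩ := hΨ2.weak6
  obtain ⟨v₀, hv₀⟩ := dy_folner A (1 / 8) (1 / 2) (by norm_num) (by norm_num)
  refine ⟨max v₀ 1, fun H p bad hp hAcc hv hbad => ?_⟩
  have hSfin : {x ∈ c.wall H | ℓ x ≤ 3 / 4}.Finite := by
    have hU : IsOpen {a : X | 3 / 4 < φ a} := isOpen_lt continuous_const hφc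
    refine (c.finite_of_Acc hU (A := c.wall H) (fun a ha => ?_)).subset ?_
    · have h1 : dist a z ≤ ε / 2 := hAcc ha
      have h2 : 2 / ε * dist a z ≤ 1 := by
        calc 2 / ε * dist a z ≤ 2 / ε * (ε / 2) := mul_le_mul_of_nonneg_left h1 hL
          _ = 1 := by field_simp
      change 3 / 4 < min 1 (max 0 (2 - 2 / ε * dist a z))
      refine lt_min (by norm_num) (lt_max_of_lt_right (by linarith))
    · rintro x ⟨hx, hx'⟩
      exact ⟨hx, fun h => absurd hx' (not_le.2 h)⟩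
  set S : Finset Γ := hSfin.toFinset with hS
  have hmemS : ∀ x, x ∈ S ↔ x ∈ c.wall H ∧ ℓ x ≤ 3 / 4 := fun x => by
    rw [hS, Set.Finite.mem_toFinset]; rfl
  have hcount : max v₀ 1 ≤ (S.filter fun y => ℓ y ≤ 0).card := by
    have h1 : {x ∈ c.wall H | ε ≤ dist (c.e x) z} ⊆ ((S.filter fun y => ℓ y ≤ 0 : Finset Γ) : Set Γ) := by
      rintro x ⟨hx, hx'⟩
      have h2 : 2 ≤ 2 / ε * dist (c.e x) z := by
        calc (2 : ℝ) = 2 / ε * ε := by field_simp
          _ ≤ _ := mul_le_mul_of_nonneg_left hx' hL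
      have h3 : ℓ x ≤ 0 := by
        change min 1 (max 0 (2 - 2 / ε * dist (c.e x) z)) ≤ 0
        exact min_le_of_right_le (max_le le_rfl (by linarith))
      rw [Finset.mem_coe, Finset.mem_filter, hmemS]
      exact ⟨⟨hx, by linarith⟩, h3⟩
    have h2 := hv.trans (Set.encard_le_encard h1)
    rw [Set.encard_coe_eq_coe_finsetCard] at h2
    exact_mod_cast h2
  obtain ⟨t, ⟨ht0, ht1⟩, hsh⟩ := hv₀ S ℓ Ψ hΨ0 (fun lam hl => hA lam hl S) 0
    ((le_max_left _ _).trans hcount)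
  set F : Finset Γ := S.filter fun y => ℓ y ≤ t with hF
  have hmemF : ∀ x, x ∈ F ↔ x ∈ c.wall H ∧ ℓ x ≤ t := fun x => by
    rw [hF, Finset.mem_filter, hmemS]
    exact ⟨fun h => ⟨h.1.1, h.2⟩, fun h => ⟨⟨h.1, by linarith [h.2]⟩, h.2⟩⟩
  have hFpos : 1 ≤ F.card := by
    refine ((le_max_right _ _).trans hcount).trans (Finset.card_le_card fun y hy => ?_)
    rw [Finset.mem_filter] at hy ⊢
    exact ⟨hy.1, hy.2.trans ht0⟩
  set B₁ : Finset Γ := S.filter fun y => ℓ y ≤ t ∧ t < ℓ y + Ψ y with hB₁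
  set B₂ : Finset Γ := F.filter fun x => ∃ n, C * ρ' ^ n < c.P^[n] (c.Gr (ind (F : Set Γ))) x with hB₂
  set B₃ : Finset Γ := F.filter fun x => bad (F : Set Γ) x with hB₃
  have hc₁ : 8 * B₁.card ≤ F.card := by
    have : ((8 * B₁.card : ℕ) : ℝ) ≤ F.card := by push_cast; linarith
    exact_mod_cast this
  have hc₂ : 8 * B₂.card ≤ F.card := by
    have := htyp (F : Set Γ) F.finite_toSet
    rw [Set.ncard_coe_finset] at this
    refine le_trans (le_of_eq ?_) this
    rw [← Set.ncard_coe_finset]; congr 2; ext x; simp [hB₂]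
  have hc₃ : 8 * B₃.card ≤ F.card := by
    have := hbad (F : Set Γ) F.finite_toSet
    rw [Set.ncard_coe_finset] at this
    refine le_trans (le_of_eq ?_) this
    rw [← Set.ncard_coe_finset]; congr 2; ext x; simp [hB₃]
  have hex : ∃ x ∈ F, x ∉ B₁ ∪ B₂ ∪ B₃ := by
    by_contra hcon
    push Not at hcon
    have h1 := Finset.card_le_card (show F ⊆ B₁ ∪ B₂ ∪ B₃ from hcon)
    have h2 := Finset.card_union_le (B₁ ∪ B₂) B₃
    have h3 := Finset.card_union_le B₁ B₂
    omega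
  obtain ⟨x, hxF, hxB⟩ := hex
  simp only [Finset.mem_union, not_or] at hxB
  obtain ⟨⟨hx1, hx2⟩, hx3⟩ := hxB
  have hxw := (hmemF x).1 hxF
  have hdeep : ℓ x + Ψ x ≤ t := by
    by_contra h
    exact hx1 (Finset.mem_filter.2 ⟨(Finset.mem_filter.1 hxF).1, hxw.2, not_le.1 h⟩)
  have htx : ∀ n, c.P^[n] (c.Gr (ind (F : Set Γ))) x ≤ C * ρ' ^ n := by
    intro n
    by_contra h
    exact hx2 (Finset.mem_filter.2 ⟨hxF, n, not_le.1 h⟩)
  refine ⟨F, x, F.finite_toSet, hxw.1, fun h => hx3 (Finset.mem_filter.2 ⟨hxF, h⟩), ?_, fun n => ?_⟩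
  · rintro y ⟨hy, hy'⟩
    have h1 := hdom.osc (r := R) (x := x) (y := y) hy'
    rw [Finset.mem_coe, hmemF]
    refine ⟨hy, ?_⟩
    have h2 := (abs_le.1 h1).2
    have := hΨe x; have := hG0 x; have := hθ0 x
    have : 0 ≤ (R + 1 : ℝ) * c.Gr w' x := by positivity
    linarith
  · have hu : c.Dom (fun y => max 0 (t - ℓ y)) w' := by
      refine ⟨hdom.1, fun y s hs => ?_⟩
      have h1 := abs_max_sub_max_le_max (0 : ℝ) (t - ℓ (y * s)) 0 (t - ℓ y)
      have h2 := hdom.2 y s hs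
      have h3 : |t - ℓ (y * s) - (t - ℓ y)| = |ℓ (y * s) - ℓ y| := by
        rw [← abs_neg]; congr 1; ring
      rw [h3] at h1
      refine h1.trans (max_le ?_ h2)
      simpa using hw0 y
    have hhit := c.gap.hitting hu (fun y => le_max_left _ _) (Z := c.wall H \ F)
      (fun y hy => by
        have : ¬ ℓ y ≤ t := fun h => hy.2 ((hmemF y).2 ⟨hy.1, h⟩)
        exact max_eq_left (by linarith [not_le.1 this])) x
    have hux : (R + 1 : ℝ) * c.Gr w' x + θ x ≤ max 0 (t - ℓ x) := by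
      refine le_max_of_le_right ?_
      have := hΨe x; have := hloc0 x
      linarith
    have hR : (0 : ℝ) < R + 1 := by positivity
    have hh : c.hit (c.wall H \ F) x ≤ 1 / (R + 1 : ℝ) := by
      have hupos : 0 < max 0 (t - ℓ x) := by
        have := hG0 x; have := hθ0 x
        have : 0 ≤ (R + 1 : ℝ) * c.Gr w' x := by positivity
        linarith
      rw [le_div_iff₀ hR]
      refine le_of_mul_le_mul_left ?_ hupos
      have := hθ0 x
      nlinarith
    have hpt : ∀ y, |p y - ind H y| ≤ (c.Gr (ind (F : Set Γ)) + c.hit (c.wall H \ F)) y := by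
      intro y
      have h1 := hp.abs_sub_le y
      have h2 : c.hit (c.wall H) y ≤ c.hit ((F : Set Γ) ∪ (c.wall H \ F)) y :=
        c.hit_mono (fun u hu => by
          by_cases h : u ∈ (F : Set Γ)
          · exact Or.inl h
          · exact Or.inr ⟨hu, h⟩) y
      have h3 := c.hit_union (F : Set Γ) (c.wall H \ F) y
      have h4 := c.gap.hit_le_Gr F.finite_toSet y
      rw [Pi.add_apply]
      linarith
    have h5 := c.iter_mono hpt n x
    rw [c.iter_add, Pi.add_apply] at h5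
    have h6 := c.iter_hit_le (c.wall H \ F) n x
    have h7 := htx n
    linarith

end Ctx
end Crest.Agent.R224
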