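import Crest.Agent.R224.Reg0

/-! Regions of a piece, saturated sets, modelled and free points. -/

set_option autoImplicit false
open Filter Topology Set MeasureTheory
open scoped Pointwise

namespace Crest.Agent.R224

namespace Ctx
variable {Γ X : Type} [Group Γ] [MetricSpace X] [CompactSpace X] [MulAction Γ X] (c : Ctx Γ X)
variable (m : c.T)
variable {m} {Y : Set c.T}

/-- both end points of an edge between different regions see both indices (`proj_sep`) -/
theorem mem_Z (hY : IsPiece c.B Y) {x y : Γ} {a b : c.T} (hxy : c.D x y ≤ 1) (hx : x ∈ c.O m Y a)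
    (hy : y ∈ c.O m Y b) (hab : a ≠ b) : x ∈ c.Z m a ∧ x ∈ c.Z m b := by
  obtain ⟨s, hs, rfl⟩ := c.D_le_one.1 hxy
  constructor
  · refine ⟨s, hs, ?_⟩
    rcases c.isPre.proj_sep hY hx hy hab with h | h
    · left
      rw [h, inv_smul_smul]
    · right; right
      have := c.B_smul x⁻¹ _ _ _ h
      rwa [mul_smul, inv_smul_smul, inv_smul_smul] at this
  · refine ⟨s, hs, Or.inr ?_⟩
    rcases c.isPre.proj_sep hY hy hx hab.symm with h | h
    · left
      rw [h, mul_smul, inv_smul_smul]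
    · right
      have := c.B_smul x⁻¹ _ _ _ (c.isPre.symm _ _ _ h)
      rwa [mul_smul, inv_smul_smul, inv_smul_smul] at this
theorem wall_O_subset (hY : IsPiece c.B Y) (a : c.T) : c.wall (c.O m Y a) ⊆ c.Z m a := by
  rintro x ⟨y, hxy, hc⟩
  obtain ⟨p, hp, -⟩ := c.exists_O (m := m) hY x
  obtain ⟨q, hq, -⟩ := c.exists_O (m := m) hY y
  by_cases hx : x ∈ c.O m Y a
  · have hy : y ∉ c.O m Y a := fun hy => hc (iff_of_true hx hy)
    exact (c.mem_Z hY hxy hx hq (by rintro rfl; exact hy hq)).1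
  · have hy : y ∈ c.O m Y a := by
      by_contra hy
      exact hc (iff_of_false hx hy)
    exact (c.mem_Z hY hxy hp hy (by rintro rfl; exact hx hp)).2
theorem Patch_subset {R : ℕ} (hR : 1 ≤ R) (V : Set Γ) (a : c.T) :
    c.Patch m R Y V a ⊆ c.wall (c.O m Y a) := by
  rintro x ⟨⟨y, hxy, hc⟩, -, h⟩
  have hx : x ∈ c.ball x R := by
    simp [Gen.ball]
  have hy : y ∈ c.ball x R := hxy.trans hR
  refine ⟨y, hxy, fun h' => hc ?_⟩
  rcases h with h | h
  · rw [h x hx, h y hy, h']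
  · rw [h x hx, h y hy, h']
/-- `tree_ess` and `proj_behind` -/
theorem Sat_ess (m : c.T) : ∃ R : ℕ, ∀ Y σ : Set c.T, IsPiece c.B Y → c.Ess R (c.Sat m Y σ) := by
  obtain ⟨R, hR⟩ := c.tree_ess m
  refine ⟨R, fun Y σ hY => (hR {z | ∃ a ∈ σ, Proj c.B Y z a} fun z => ?_).1⟩
  obtain ⟨d, hd, hdz⟩ := hY.exists_ne c.isPre z
  refine ⟨d, hdz, fun u hu => ?_⟩
  obtain ⟨a, ha⟩ := c.isPre.exists_proj c.disc.finite hY z
  have ha' := c.isPre.proj_behind hY hd hu ha
  constructor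
  · rintro ⟨b, hb, h⟩
    exact ⟨b, hb, c.isPre.proj_unique hY ha' h ▸ ha⟩
  · rintro ⟨b, hb, h⟩
    exact ⟨b, hb, c.isPre.proj_behind hY hd hu h⟩
theorem O_nonempty_aux (hY : IsPiece c.B Y) {a b : c.T} (ha : a ∈ Y) (hb : b ∈ Y) (hab : b ≠ a)
    {W : Set Γ} (hW : c.Acc (c.wall W) ⊆ {(a : X)}) (hbW : c.In b Wᶜ) {y : X} (hy : c.Accs y)
    (hya : y ≠ a) (hyW : c.In y W) : (c.O m Y a).Nonempty := by
  by_contra hne
  rw [Set.not_nonempty_iff_eq_empty] at hne
  have h0 := c.n0 m.2 (Cut.accs a.2) (W := Wᶜ) (by rwa [Gen.wall_compl])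
  refine hya (h0 (c.Acc_mono (fun x hx => ?_) (hyW.mem_Acc hy.mem_Acc)))
  have hxO : x ∉ c.O m Y a := by
    rw [hne]
    exact notMem_empty x
  have h1 : x • (m : X) ≠ a := fun e => hxO ⟨ha, Or.inl (Subtype.ext e)⟩
  refine ⟨fun h => h hx, h1, ?_⟩
  rcases c.side (Cut.accs (Cut.smul m.2 x)) (V := W) (fun h => h1 (hW h)) with h | h
  · refine absurd (c.isPre.proj_of_btw hY ha hb (z := x • m) ?_) hxO
    exact ⟨h1.symm, fun e => hab (Subtype.ext e.symm), W, hW, h, hbW⟩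
  · exact h
/-- Plan: a cut `W` at `a` with accessible points on both sides; `Y \ {a}` lies on one side, say `Wᶜ`, let `y ≠ a`
be accessible with `In y W`; by `n0` some `x ∈ W` has `x • m = a` or `In (x • m) W`, so `x ∈ O a`. -/
theorem O_nonempty (hY : IsPiece c.B Y) {a : c.T} (ha : a ∈ Y) : (c.O m Y a).Nonempty := by
  obtain ⟨y, y', hy, hy', h1, h2, V, hV, hyV, hyV'⟩ := a.2
  obtain ⟨b, hb, hba⟩ := hY.exists_ne c.isPre a
  rcases c.side (Cut.accs b.2) (V := V) (fun h => hba (Subtype.ext (hV h))) with h | h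
  · exact c.O_nonempty_aux hY ha hb hba (W := Vᶜ) (by rwa [Gen.wall_compl])
      (by rwa [compl_compl]) hy' h2.symm hyV'
  · exact c.O_nonempty_aux hY ha hb hba hV h hy h1.symm hyV
/-- `O a` and its complement are nonempty and essential, hence infinite; `one_end` -/
theorem wall_O_infinite (hY : IsPiece c.B Y) {a : c.T} (ha : a ∈ Y) :
    (c.wall (c.O m Y a)).Infinite := by
  intro hfin
  obtain ⟨R, hR⟩ := c.Sat_ess m
  obtain ⟨b, hb, hba⟩ := hY.exists_ne c.isPre a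
  rcases c.co.one_end hfin with h | h
  · refine c.gap.infinite_of_ess (R := R) ?_ (c.O_nonempty hY ha) h
    rw [c.O_eq_Sat]
    exact hR Y _ hY
  · refine c.gap.infinite_of_ess (R := R) ?_ ?_ h
    · rw [c.O_eq_Sat, ← c.Sat_compl hY]
      exact hR Y _ hY
    · obtain ⟨x, hx⟩ := c.O_nonempty (m := m) hY hb
      exact ⟨x, fun hx' => hba (c.isPre.proj_unique hY hx hx')⟩
theorem mem_Acc_O (hY : IsPiece c.B Y) {a : c.T} (ha : a ∈ Y) : (a : X) ∈ c.Acc (c.O m Y a) := by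
  obtain ⟨z, hz⟩ := c.Acc_nonempty (c.wall_O_infinite (m := m) hY ha)
  have h1 : z = a := c.Z_acc m a (c.Acc_mono (c.wall_O_subset hY a) hz)
  subst h1
  have h2 := c.Acc_mono (c.wall_subset_N _) hz
  rw [c.Acc_N] at h2
  exact c.Acc_mono inter_subset_right h2
/-- finitely many pieces are visible at the origin (`eq_pieceOf`, `mem_Z`) -/
theorem finite_pieces (m : c.T) :
    {Y : Set c.T | IsPiece c.B Y ∧ ∃ σ, (1 : Γ) ∈ c.wall (c.Sat m Y σ)}.Finite := by
  refine ((c.finite_D1 m).image2 (pieceOf c.B) (c.finite_D1 m)).subset ?_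
  rintro Y ⟨hY, σ, y, hy, hc⟩
  obtain ⟨p, hp, -⟩ := c.exists_O (m := m) hY 1
  obtain ⟨q, hq, -⟩ := c.exists_O (m := m) hY y
  have hpq : p ≠ q := by
    rintro rfl
    exact hc ((c.mem_Sat hY hp).trans (c.mem_Sat hY hq).symm)
  obtain ⟨h1, h2⟩ := c.mem_Z hY hy hp hq hpq
  refine ⟨p, ?_, q, ?_, (hY.eq_pieceOf c.isPre hp.1 hq.1 hpq).symm⟩
  · simpa [Z] using h1
  · simpa [Z] using h2

end Ctx
end Crest.Agent.R224
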