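import Crest.Agent.R224.N2
import Crest.Agent.R224.Pre

/-! Regions of a piece, saturated sets, modelled and free points. -/

set_option autoImplicit false
open Filter Topology Set MeasureTheory
open scoped Pointwise

namespace Crest.Agent.R224

namespace Ctx
variable {Γ X : Type} [Group Γ] [MetricSpace X] [CompactSpace X] [MulAction Γ X] (c : Ctx Γ X)

/-- union of the regions with index in `σ` -/
def Sat (m : c.T) (Y σ : Set c.T) : Set Γ := {x | ∃ a ∈ σ, Proj c.B Y (x • m) a}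
/-- the region of `a` -/
def O (m : c.T) (Y : Set c.T) (a : c.T) : Set Γ := {x | Proj c.B Y (x • m) a}
/-- cut points seen from the edges at the origin -/
def D1 (m : c.T) : Set c.T := {d | ∃ s ∈ c.S, d = m ∨ d = s • m ∨ c.B d m (s • m)}
/-- points that see `a` -/
def Z (m a : c.T) : Set Γ := {x | x⁻¹ • a ∈ c.D1 m}
/-- near `x` the set `V` looks like the region of `a` or its complement -/
def Mod (m : c.T) (R : ℕ) (Y : Set c.T) (V : Set Γ) (a : c.T) (x : Γ) : Prop :=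
  a ∈ Y ∧ ((∀ y ∈ c.ball x R, y ∈ V ↔ y ∈ c.O m Y a) ∨ ∀ y ∈ c.ball x R, y ∈ V ↔ y ∉ c.O m Y a)
/-- free points -/
def Free (m : c.T) (R : ℕ) (Y : Set c.T) (V : Set Γ) : Set Γ :=
  {x | x ∈ c.wall V ∧ ∀ a, ¬ c.Mod m R Y V a x}
/-- the patch modelled on `a` -/
def Patch (m : c.T) (R : ℕ) (Y : Set c.T) (V : Set Γ) (a : c.T) : Set Γ :=
  {x | x ∈ c.wall V ∧ c.Mod m R Y V a x}

variable (m : c.T)

theorem finite_D1 : (c.D1 m).Finite := by
  have h : c.D1 m ⊆ ⋃ s ∈ (c.S : Set Γ), ({m, s • m} ∪ {d | c.B d m (s • m)}) := by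
    rintro d ⟨s, hs, h⟩
    simp only [mem_iUnion, mem_union, mem_insert_iff, mem_singleton_iff]
    refine ⟨s, hs, ?_⟩
    rcases h with h | h | h
    · exact Or.inl (Or.inl h)
    · exact Or.inl (Or.inr h)
    · exact Or.inr h
  exact (Set.Finite.biUnion c.S.finite_toSet fun s _ =>
    (Set.toFinite _).union (c.disc.finite m (s • m))).subset h
theorem Z_acc (a : c.T) : c.Acc (c.Z m a) ⊆ {(a : X)} := by
  have h : c.Z m a = ⋃ d ∈ c.D1 m, {g : Γ | g • d = a} := by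
    ext x
    simp only [Z, mem_iUnion, mem_ofPred_eq]
    constructor
    · intro hx
      exact ⟨_, hx, smul_inv_smul x a⟩
    · rintro ⟨d, hd, rfl⟩
      rwa [inv_smul_smul]
  rw [h, c.Acc_biUnion (c.finite_D1 m)]
  exact iUnion₂_subset fun d _ => c.z_acc a d
theorem Z_smul (g : Γ) (a : c.T) : c.Z m (g • a) = g • c.Z m a := by
  ext x
  rw [Set.mem_smul_set_iff_inv_smul_mem]
  simp only [Z, mem_ofPred_eq, smul_eq_mul, mul_inv_rev, inv_inv, mul_smul]
variable {m} {Y : Set c.T}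
theorem exists_O (hY : IsPiece c.B Y) (x : Γ) : ∃! a, x ∈ c.O m Y a := by
  obtain ⟨a, ha⟩ := c.isPre.exists_proj c.disc.finite hY (x • m)
  exact ⟨a, ha, fun b hb => c.isPre.proj_unique hY hb ha⟩
theorem O_eq_Sat (a : c.T) : c.O m Y a = c.Sat m Y {a} := by
  ext x
  simp [O, Sat]
theorem mem_Sat (hY : IsPiece c.B Y) {σ : Set c.T} {a : c.T} {x : Γ} (hx : x ∈ c.O m Y a) :
    x ∈ c.Sat m Y σ ↔ a ∈ σ := by
  constructor
  · rintro ⟨b, hb, hxb⟩
    rwa [c.isPre.proj_unique hY hx hxb]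
  · intro ha
    exact ⟨a, ha, hx⟩
theorem Sat_compl (hY : IsPiece c.B Y) (σ : Set c.T) : c.Sat m Y σᶜ = (c.Sat m Y σ)ᶜ := by
  ext x
  obtain ⟨a, ha, -⟩ := c.exists_O (m := m) hY x
  rw [mem_compl_iff, c.mem_Sat hY ha, c.mem_Sat hY ha, mem_compl_iff]
theorem mul_mem_O (g : Γ) (a : c.T) (x : Γ) :
    g * x ∈ c.O m (g • Y) (g • a) ↔ x ∈ c.O m Y a := by
  simp only [O, mem_ofPred_eq, mul_smul]
  exact proj_smul c.B_smul g
theorem O_smul (g : Γ) (a : c.T) : c.O m (g • Y) (g • a) = g • c.O m Y a := by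
  ext x
  obtain ⟨y, rfl⟩ := MulAction.surjective g x
  rw [Set.smul_mem_smul_set_iff]
  exact c.mul_mem_O g a y
theorem Sat_smul (g : Γ) (σ : Set c.T) : c.Sat m (g • Y) (g • σ) = g • c.Sat m Y σ := by
  ext x
  obtain ⟨y, rfl⟩ := MulAction.surjective g x
  rw [Set.smul_mem_smul_set_iff]
  constructor
  · rintro ⟨_, ⟨a, ha, rfl⟩, h⟩
    exact ⟨a, ha, (c.mul_mem_O g a y).1 h⟩
  · rintro ⟨a, ha, h⟩
    exact ⟨g • a, Set.smul_mem_smul_set ha, (c.mul_mem_O g a y).2 h⟩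
theorem forall_ball_mul (g x : Γ) (R : ℕ) (p : Γ → Prop) :
    (∀ y ∈ c.ball (g * x) R, p y) ↔ ∀ y ∈ c.ball x R, p (g * y) := by
  constructor
  · intro h y hy
    refine h _ ?_
    simpa only [Gen.ball, mem_ofPred_eq, Gen.D_mul_left] using hy
  · intro h y hy
    obtain ⟨y, rfl⟩ := (Group.mulLeft_bijective g).2 y
    refine h y ?_
    simpa only [Gen.ball, mem_ofPred_eq, Gen.D_mul_left] using hy
theorem Mod_smul (g : Γ) (R : ℕ) (V : Set Γ) (a : c.T) (x : Γ) :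
    c.Mod m R (g • Y) (g • V) (g • a) (g * x) ↔ c.Mod m R Y V a x := by
  have hV : ∀ y, g * y ∈ g • V ↔ y ∈ V := fun y => Set.smul_mem_smul_set_iff (a := g)
  unfold Mod
  rw [Set.smul_mem_smul_set_iff, forall_ball_mul, forall_ball_mul]
  simp only [hV, c.mul_mem_O]
theorem Mod_compl (R : ℕ) (V : Set Γ) (a : c.T) (x : Γ) :
    c.Mod m R Y Vᶜ a x ↔ c.Mod m R Y V a x := by
  unfold Mod
  refine and_congr Iff.rfl ?_
  rw [or_comm]
  refine or_congr ?_ ?_
  · simp only [mem_compl_iff, not_iff_not]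
  · refine forall₂_congr fun y _ => ?_
    rw [mem_compl_iff, not_iff_comm]
    exact ⟨fun h => h.symm, fun h => h.symm⟩
theorem Free_compl (R : ℕ) (V : Set Γ) : c.Free m R Y Vᶜ = c.Free m R Y V := by
  simp only [Free, Mod_compl, Gen.wall_compl]
theorem Patch_compl (R : ℕ) (V : Set Γ) (a : c.T) : c.Patch m R Y Vᶜ a = c.Patch m R Y V a := by
  simp only [Patch, Mod_compl, Gen.wall_compl]

end Ctx
end Crest.Agent.R224
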