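import Crest.Agent.R224.SC0

/-! Small cuts. -/

set_option autoImplicit false
open Filter Topology Set MeasureTheory
open scoped Pointwise

namespace Crest.Agent.R224

namespace Ctx
variable {Γ X : Type} [Group Γ] [MetricSpace X] [CompactSpace X] [MulAction Γ X] (c : Ctx Γ X)

/-- Small cuts.  Plan: `k₀ = dist · y`; by `Gap.ae_good` pick a level `t₀ ∈ (0, dist y' y)` outside the countable
set `k₀ '' C₀`, `V₀ = {k₀ ∘ e ≤ t₀}`, `β = wall V₀` (`Acc β ⊆ {k₀ = t₀}`).  Given `V` and `ε`, run `sc_step` with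
`(a,b) = (ε, 2ε)` through a finite `ε`-net of `X`: `Acc (wall V')` is nonempty (`one_end`), so at some step it is
inside a closed ball of radius `2ε`.  Iterate; the nonempty compact sets `Acc (wall (V j))` decrease and have
diameters `→ 0`; `z` is their common point.  Walls are thin (`Thin.mono`, `Thin.union`, `thin_finite`). -/
theorem small_cuts {y y' : X} (hy : c.Accs y) (hy' : c.Accs y') (hne : y ≠ y') {C₀ : Set X}
    (hC : C₀.Countable) : ∃ (z : X) (V : ℕ → Set Γ), z ∉ C₀ ∧ z ≠ y ∧ z ≠ y' ∧ ∀ j,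
      c.In y (V j) ∧ c.In y' (V j)ᶜ ∧ c.Thin (c.wall (V j)) ∧
      c.Acc (c.wall (V j)) ⊆ Metric.closedBall z (1 / (j + 1 : ℝ)) ∧
      Disjoint (c.Acc (c.wall (V j))) (C₀ ∪ {y, y'}) := by
  classical
  have hae := c.gap.ae_good (c.dom_lip (φ := fun z => dist z y) zero_le_one
    fun a b => by rw [one_mul]; exact abs_dist_sub_le a b y) (u := fun i => c.loc i c.w)
    (fun i => (c.loc_L2 c.w_L2 i).1) fun i v => (c.w_nonneg v).trans (c.le_loc c.w_nonneg (by simp))
  obtain ⟨t, ht0, ht1, htC, hthin, hβ⟩ := exists_mem_Ioo_of_ae hae (dist_pos.2 hne.symm)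
    (hC.image fun z => dist z y)
  set V₀ : Set Γ := {x | ((fun z => dist z y) ∘ c.e) x ≤ t} with hV₀
  set β := c.wall V₀ with hβdef
  have a1 : c.Acc V₀ ⊆ {z | dist z y ≤ t} :=
    c.Acc_preimage (C := {z | dist z y ≤ t}) (isClosed_le (by fun_prop) continuous_const)
  have a2 : c.Acc V₀ᶜ ⊆ {z | t ≤ dist z y} :=
    (c.Acc_mono (show V₀ᶜ ⊆ c.e ⁻¹' {z | t ≤ dist z y} from fun x hx =>
      le_of_lt (not_le.1 (show ¬ dist (c.e x) y ≤ t from hx)))).trans
      (c.Acc_preimage (C := {z | t ≤ dist z y}) (isClosed_le continuous_const (by fun_prop)))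
  have a3 : ∀ W : Set Γ, c.Acc (c.wall W) ⊆ c.Acc W := fun W =>
    (c.Acc_mono (c.wall_subset_N W)).trans (by rw [c.Acc_N]; exact c.Acc_mono inter_subset_right)
  have hdis : Disjoint (c.Acc β) (C₀ ∪ {y, y'}) := by
    refine disjoint_left.2 fun z hz hz' => ?_
    have e : dist z y = t := le_antisymm (a1 (a3 _ hz)) (a2 (a3 _ (by rwa [c.wall_compl])))
    rcases hz' with h | rfl | rfl
    · exact htC ⟨z, h, e⟩
    · rw [dist_self] at e
      exact ht0.ne e
    · exact ht1.ne e.symm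
  have h1 : y ∉ c.Acc β := fun h => disjoint_left.1 hdis h (Or.inr (Or.inl rfl))
  have h2 : y' ∉ c.Acc β := fun h => disjoint_left.1 hdis h (Or.inr (Or.inr rfl))
  let Good : Set Γ → Prop := fun V => (c.wall V \ β).Finite ∧ c.In y V ∧ c.In y' Vᶜ
  have g0 : Good V₀ := by
    refine ⟨by simp [hβdef], fun h => ?_, fun h => ?_⟩
    · have := a2 h
      simp only [mem_ofPred_eq, dist_self] at this
      exact absurd ht0 (not_lt.2 this)
    · rw [compl_compl] at h
      exact absurd ht1 (not_lt.2 (a1 h))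
  have gne : ∀ V, Good V → (c.Acc (c.wall V)).Nonempty := fun V hV => by
    refine c.Acc_nonempty fun hfin => ?_
    rcases c.co.one_end hfin with h | h
    · have := hV.2.1.mem_Acc hy.mem_Acc
      rwa [c.Acc_finite h] at this
    · have := hV.2.2.mem_Acc hy'.mem_Acc
      rwa [c.Acc_finite h] at this
  have tr : ∀ {A B C : Set Γ}, (A \ B).Finite → (B \ C).Finite → (A \ C).Finite := fun {A B C} h h' =>
    (h.union h').subset fun x hx => by
      by_cases hB : x ∈ B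
      exacts [Or.inr ⟨hB, hx.2⟩, Or.inl ⟨hx.1, hB⟩]
  have step : ∀ (j : ℕ) (V : {V // Good V}), ∃ V' : {V // Good V}, (c.wall V'.1 \ c.wall V.1).Finite ∧
      ∃ q, c.Acc (c.wall V'.1) ⊆ Metric.closedBall q (1 / (j + 1 : ℝ) / 2) := by
    rintro j ⟨V, hV⟩
    have hε : (0 : ℝ) < 1 / (j + 1 : ℝ) / 4 := by positivity
    obtain ⟨s, -, hs, hcov⟩ := finite_cover_balls_of_compact (isCompact_univ (X := X)) hε
    have key : ∀ s : Finset X, ∃ V', Good V' ∧ (c.wall V' \ c.wall V).Finite ∧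
        ((∃ q, c.Acc (c.wall V') ⊆ Metric.closedBall q (1 / (j + 1 : ℝ) / 2)) ∨
          ∀ q ∈ s, Disjoint (c.Acc (c.wall V')) (Metric.ball q (1 / (j + 1 : ℝ) / 4))) := by
      intro s
      induction s using Finset.induction_on with
      | empty => exact ⟨V, hV, by simp, Or.inr (by simp)⟩
      | insert q s _ ih =>
        obtain ⟨V', g1, g2, g3 | g3⟩ := ih
        · exact ⟨V', g1, g2, Or.inl g3⟩
        obtain ⟨V'', k1, k2, k3, k4⟩ := c.sc_step hβ g1.1 hy hy' h1 h2 g1.2.1 g1.2.2 q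
          (a := 1 / (j + 1 : ℝ) / 4) (b := 1 / (j + 1 : ℝ) / 2) (by linarith)
        refine ⟨V'', ⟨tr k1 g1.1, k2, k3⟩, tr k1 g2, k4.imp (fun h => ⟨q, h⟩) fun h q' hq' => ?_⟩
        rcases Finset.mem_insert.1 hq' with rfl | hq'
        · exact h
        · exact (g3 q' hq').mono_left (c.Acc_mono' k1)
    obtain ⟨V', g1, g2, g3 | g3⟩ := key hs.toFinset
    · exact ⟨⟨V', g1⟩, g2, g3⟩
    · obtain ⟨z, hz⟩ := gne V' g1
      obtain ⟨q, hq, hzq⟩ := mem_iUnion₂.1 (hcov (mem_univ z))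
      exact absurd hzq (disjoint_left.1 (g3 q (hs.mem_toFinset.2 hq)) hz)
  choose nx hnx1 hnx2 using step
  let W : ℕ → {V // Good V} := fun n => Nat.rec ⟨V₀, g0⟩ nx n
  obtain ⟨z, hz⟩ := IsCompact.nonempty_iInter_of_sequence_nonempty_isCompact_isClosed
    (fun n => c.Acc (c.wall (W n).1)) (fun n => c.Acc_mono' (hnx1 n (W n))) (fun n => gne _ (W n).2)
    (c.isClosed_Acc _).isCompact fun n => c.isClosed_Acc _
  rw [mem_iInter] at hz
  have hz0 := disjoint_left.1 hdis (hz 0)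
  refine ⟨z, fun j => (W (j + 1)).1, fun h => hz0 (Or.inl h), fun h => hz0 (Or.inr (Or.inl h)),
    fun h => hz0 (Or.inr (Or.inr h)), fun j => ⟨(W (j + 1)).2.2.1, (W (j + 1)).2.2.2, ?_, fun x hx => ?_,
      hdis.mono_left (c.Acc_mono' (W (j + 1)).2.1)⟩⟩
  · refine (hthin.union (c.gap.thin_finite (W (j + 1)).2.1)).mono fun x hx => ?_
    by_cases hB : x ∈ β
    exacts [Or.inl hB, Or.inr ⟨hx, hB⟩]
  · obtain ⟨q, hq⟩ := hnx2 j (W j)
    have b1 := hq hx
    have b2 := hq (hz (j + 1))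
    rw [Metric.mem_closedBall] at b1 b2 ⊢
    linarith [dist_triangle_right x z q]

end Ctx
end Crest.Agent.R224
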