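import Crest.Agent.R224.Acc
import Crest.Agent.R224.Levels

/-! Small cuts. -/

set_option autoImplicit false
open Filter Topology Set MeasureTheory
open scoped Pointwise

namespace Crest.Agent.R224

namespace Ctx
variable {Γ X : Type} [Group Γ] [MetricSpace X] [CompactSpace X] [MulAction Γ X] (c : Ctx Γ X)

/-- One splitting step.  Plan: `r₀` from `spl_fin`; `φ = dist · q`;
`M v = Icc (φ (e v) - loc (2r₀) w v) (φ (e v) + loc (2r₀) w v)`; by `ae_finite` pick `t ∈ (a,b)` with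
`{v ∈ β | t ∈ M v}` finite.  `F = wall V ∩ {φ ∘ e ≤ t}`; the mixed set is finite.  `spl_fin` gives `U` and
`symmDiff V U`; `y, y'` have sides for `U`; one of the two sets (or a complement) separates. -/
theorem sc_step {β V : Set Γ} {y y' : X} (hβ : ∀ r, Summable (β.indicator (c.loc r c.w)))
    (hV : (c.wall V \ β).Finite) (hy : c.Accs y) (hy' : c.Accs y') (h1 : y ∉ c.Acc β)
    (h2 : y' ∉ c.Acc β) (h3 : c.In y V) (h4 : c.In y' Vᶜ) (q : X) {a b : ℝ} (hab : a < b) :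
    ∃ V' : Set Γ, (c.wall V' \ c.wall V).Finite ∧ c.In y V' ∧ c.In y' V'ᶜ ∧
      (c.Acc (c.wall V') ⊆ Metric.closedBall q b ∨ Disjoint (c.Acc (c.wall V')) (Metric.ball q a)) := by
  obtain ⟨r₀, hr⟩ := c.co.spl_fin
  set L : Γ → ℝ := c.loc (2 * r₀) c.w with hL
  have hL0 : ∀ v, 0 ≤ L v := fun v => (c.w_nonneg v).trans (c.le_loc c.w_nonneg (by simp))
  have := c.toGen.countable
  have hae := ae_finite (M := fun v => Icc (dist (c.e v) q - L v) (dist (c.e v) q + L v))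
    (ρ := fun v => 2 * L v) (β := β) (fun v => by rw [Real.volume_Icc]; exact le_of_eq (by congr 1; ring))
    (fun v => by linarith [hL0 v]) (((hβ (2 * r₀)).mul_left 2).congr fun v => by
      by_cases hv : v ∈ β <;> simp [hv, hL])
  obtain ⟨t, hat, htb, -, hfin⟩ := exists_mem_Ioo_of_ae hae hab countable_empty
  obtain ⟨U, hU, hW⟩ := hr V (c.wall V ∩ {x | dist (c.e x) q ≤ t}) (by
    refine (c.finite_N r₀ (hV.union hfin)).subset ?_
    rintro x ⟨⟨u, ⟨hu1, hu2⟩, hu3⟩, ⟨u', ⟨hu1', hu2'⟩, hu3'⟩⟩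
    refine ⟨u, ?_, hu3⟩
    by_cases hu : u ∈ β
    · have h5 : t < dist (c.e u') q := not_le.1 fun h => hu2' ⟨hu1', h⟩
      have h6 : c.D u u' ≤ 2 * r₀ := by
        have := c.D_tri u x u'
        rw [c.D_comm x u'] at this
        omega
      have h7 := c.dist_le_loc h6
      have h8 := dist_triangle (c.e u') (c.e u) q
      rw [dist_comm (c.e u') (c.e u)] at h8
      have h9 : dist (c.e u) q ≤ t := hu2
      exact Or.inr ⟨hu, by linarith [hL0 u], by linarith⟩
    · exact Or.inl ⟨hu1, hu⟩)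
  have hU1 : (c.wall U \ c.wall V).Finite := hU.subset fun x hx => ⟨hx.1, fun h => hx.2 h.1⟩
  have hW1 : (c.wall (symmDiff V U) \ c.wall V).Finite := hW.subset fun x hx => ⟨hx.1, fun h => hx.2 h.1⟩
  have hUβ : c.Acc (c.wall U) ⊆ c.Acc β := (c.Acc_mono' hU1).trans (c.Acc_mono' hV)
  have hUb : c.Acc (c.wall U) ⊆ Metric.closedBall q b := by
    refine (c.Acc_mono' (B := c.e ⁻¹' Metric.closedBall q t) (hU.subset fun x hx => ⟨hx.1, fun h => hx.2 h.2.2⟩)).trans
      ((c.Acc_preimage Metric.isClosed_closedBall).trans (Metric.closedBall_subset_closedBall htb.le))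
  have hWa : Disjoint (c.Acc (c.wall (symmDiff V U))) (Metric.ball q a) := by
    refine disjoint_left.2 fun z hz hz' => ?_
    have h5 : z ∈ (Metric.ball q t)ᶜ := c.Acc_preimage Metric.isOpen_ball.isClosed_compl
      (c.Acc_mono' (hW.subset fun x hx => ⟨hx.1, fun h => hx.2 fun h' =>
        h.2 ⟨h.1, (Metric.mem_ball.1 h').le⟩⟩) hz)
    exact h5 (Metric.ball_subset_ball hat.le hz')
  have sub : ∀ {A B : Set Γ}, A ⊆ B → (A \ B).Finite := fun h => by
    rw [sdiff_eq_empty.2 h]; exact finite_empty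
  rcases c.side hy (fun h => h1 (hUβ h)) with s1 | s1 <;> rcases c.side hy' (fun h => h2 (hUβ h)) with s2 | s2
  · refine ⟨(symmDiff V U)ᶜ, by rwa [c.wall_compl], (h3.inter s1).mono (sub ?_), (h4.inter s2).mono (sub ?_),
      Or.inr (by rwa [c.wall_compl])⟩
    · rintro x ⟨a1, a2⟩ (h | h)
      exacts [h.2 a2, h.2 a1]
    · rintro x ⟨a1, a2⟩ h
      exact h (Or.inr ⟨a2, a1⟩)
  · exact ⟨U, hU1, s1, s2, Or.inl hUb⟩
  · exact ⟨Uᶜ, by rwa [c.wall_compl], s1, by rwa [compl_compl], Or.inl (by rwa [c.wall_compl])⟩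
  · refine ⟨symmDiff V U, hW1, (h3.inter s1).mono (sub ?_), (h4.inter s2).mono (sub ?_), Or.inr hWa⟩
    · rintro x ⟨a1, a2⟩
      exact Or.inl ⟨a1, a2⟩
    · rintro x ⟨a1, a2⟩ (h | h)
      exacts [a1 h.1, a2 h.1]

end Ctx
end Crest.Agent.R224
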