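import Crest.Agent.R224.Satur0

/-! Saturation of small cuts and case A. -/

set_option autoImplicit false
open Filter Topology Set MeasureTheory
open scoped Pointwise

namespace Crest.Agent.R224

namespace Ctx
variable {Γ X : Type} [Group Γ] [MetricSpace X] [CompactSpace X] [MulAction Γ X] (c : Ctx Γ X)

/-- free points that are far from `z` or see a cut point far from `z` -/
def Low (m : c.T) (R : ℕ) (Y : Set c.T) (V : Set Γ) (z : X) (ε : ℝ) : Set Γ :=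
  {y ∈ c.Free m R Y V | ε ≤ dist (c.e y) z ∨ ∃ d ∈ c.D1 m, ε ≤ dist (y • (d : X)) z}

private theorem smul_inv_coe (x : Γ) (a : c.T) : x • ((x⁻¹ • a : c.T) : X) = (a : X) := by
  show x • (x⁻¹ • (a : X)) = a
  rw [smul_inv_smul]

/-- Case A.  Plan: `E = {x | ∃ d ∈ D1, ε ≤ dist (e x) (x • d)}` is finite.  A wall vertex `x ∉ E` with
`2ε ≤ dist (e x) z` is free (hence low) or in `Patch a` with `x ∈ Z a`, `ε ≤ dist a z`; then `Free ∩ Z a ⊆ Low`,
`Patch a` is finite (`Acc ⊆ {a} ∩ Acc (wall V) = ∅`) and `patch_lemma` applies. -/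
theorem caseA_bound (m : c.T) : ∃ R₀ : ℕ, ∀ R ≥ R₀, ∀ (z : X) (ε : ℝ), 0 < ε → ∀ M : ℕ, ∃ M' : ℕ,
    ∀ (Y : Set c.T) (V : Set Γ), IsPiece c.B Y → Disjoint (c.Acc (c.wall V)) c.Cut →
      (c.Low m R Y V z ε).encard ≤ M →
      {x ∈ c.wall V | 2 * ε ≤ dist (c.e x) z}.encard ≤ M' := by
  obtain ⟨R₀, h1, hP⟩ := c.patch_lemma m
  refine ⟨R₀, fun R hR z ε hε M => ?_⟩
  obtain ⟨R₂, hR₂⟩ := hP R hR M
  have hE : (⋃ d ∈ c.D1 m, {y | ε ≤ dist (c.e y) (y • ((d : c.T) : X))}).Finite :=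
    (c.finite_D1 m).biUnion fun d _ => c.n2_finite d hε
  set E := ⋃ d ∈ c.D1 m, {y | ε ≤ dist (c.e y) (y • ((d : c.T) : X))} with hEdef
  refine ⟨E.ncard + M * c.vol R₂, fun Y V hY hV hL => ?_⟩
  have hsub : {x ∈ c.wall V | 2 * ε ≤ dist (c.e x) z} ⊆ E ∪ c.N R₂ (c.Low m R Y V z ε) := by
    rintro x ⟨hxw, hxz⟩
    by_cases hxE : x ∈ E
    · exact Or.inl hxE
    right
    by_cases hfree : ∀ a, ¬ c.Mod m R Y V a x
    · exact c.subset_N R₂ _ ⟨⟨hxw, hfree⟩, Or.inl (by linarith)⟩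
    push Not at hfree
    obtain ⟨a, ha⟩ := hfree
    have hxP : x ∈ c.Patch m R Y V a := ⟨hxw, ha⟩
    have hPZ : c.Patch m R Y V a ⊆ c.Z m a :=
      (c.Patch_subset (le_trans h1 hR) V a).trans (c.wall_O_subset hY a)
    have hxa : dist (c.e x) (a : X) < ε := by
      by_contra hcon
      apply hxE
      refine mem_biUnion (show x⁻¹ • a ∈ c.D1 m from hPZ hxP) ?_
      show ε ≤ dist (c.e x) (x • ((x⁻¹ • a : c.T) : X))
      rw [c.smul_inv_coe]
      exact not_lt.1 hcon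
    have haz : ε ≤ dist (a : X) z := by
      have := dist_triangle (c.e x) (a : X) z
      linarith
    have hFL : c.Free m R Y V ∩ c.Z m a ⊆ c.Low m R Y V z ε := by
      rintro y ⟨hyF, hyZ⟩
      refine ⟨hyF, Or.inr ⟨y⁻¹ • a, hyZ, ?_⟩⟩
      rw [c.smul_inv_coe]
      exact haz
    have hfin : (c.Patch m R Y V a).Finite := by
      apply c.finite_of_Acc_eq_empty
      apply eq_empty_of_forall_notMem
      intro ξ hξ
      have h2 : ξ = a := c.Z_acc m a (c.Acc_mono hPZ hξ)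
      have h3 : ξ ∈ c.Acc (c.wall V) := c.Acc_mono (fun y hy => hy.1) hξ
      exact Set.disjoint_left.1 hV h3 (h2 ▸ a.2)
    exact c.N_mono le_rfl hFL (hR₂ Y V a hY hfin ((encard_le_encard hFL).trans hL) hxP)
  calc {x ∈ c.wall V | 2 * ε ≤ dist (c.e x) z}.encard
      ≤ (E ∪ c.N R₂ (c.Low m R Y V z ε)).encard := encard_le_encard hsub
    _ ≤ E.encard + (c.N R₂ (c.Low m R Y V z ε)).encard := encard_union_le _ _
    _ ≤ (E.ncard : ℕ∞) + (M : ℕ∞) * (c.vol R₂ : ℕ∞) := by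
        rw [hE.cast_ncard_eq]
        gcongr
        exact (c.encard_N_le R₂ _).trans (by gcongr)
    _ = ((E.ncard + M * c.vol R₂ : ℕ) : ℕ∞) := by push_cast; rfl

end Ctx
end Crest.Agent.R224
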