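import Crest.Agent.R224.PatchL
import Crest.Agent.R224.Lim

/-! Saturation of small cuts and case A. -/

set_option autoImplicit false
open Filter Topology Set MeasureTheory
open scoped Pointwise

namespace Crest.Agent.R224

namespace Ctx
variable {Γ X : Type} [Group Γ] [MetricSpace X] [CompactSpace X] [MulAction Γ X] (c : Ctx Γ X)

/-- transfer of accumulation points along the cut points seen -/
theorem acc_transfer (m : c.T) {A B : Set Γ} (r : Γ → c.T → Prop)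
    (h1 : ∀ x ∈ A, ∃ u, r x u ∧ x ∈ c.Z m u ∧ ∃ y ∈ B, y ∈ c.Z m u)
    (h2 : ∀ u, {x | r x u}.Finite) : c.Acc A ⊆ c.Acc B := by
  intro ξ hξ ε hε hS
  have hε3 : 0 < ε / 3 := by positivity
  have hE : (⋃ d ∈ c.D1 m, {y | ε / 3 ≤ dist (c.e y) (y • (d : X))}).Finite :=
    (c.finite_D1 m).biUnion fun d _ => c.n2_finite d hε3
  have hZ : ∀ y u, y ∈ c.Z m u → y ∉ (⋃ d ∈ c.D1 m, {y | ε / 3 ≤ dist (c.e y) (y • (d : X))}) →
      dist (c.e y) u < ε / 3 := by
    intro y u hy hn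
    by_contra hlt
    refine hn (mem_biUnion hy ?_)
    simpa using hlt
  have hU := ((hS.union hE).image2 (fun y d => y • d) (c.finite_D1 m)).biUnion fun u _ => h2 u
  refine hξ (ε / 3) hε3 ((hE.union hU).subset fun x hx => ?_)
  obtain ⟨u, hr, hxu, y, hy, hyu⟩ := h1 x hx.1
  by_contra hn
  rw [mem_union, not_or] at hn
  refine hn.2 (mem_biUnion (x := u) ⟨y, ?_, y⁻¹ • u, hyu, smul_inv_smul _ _⟩ hr)
  by_contra hy'
  rw [mem_union, not_or] at hy'
  refine hy'.1 ⟨hy, ?_⟩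
  have e1 := hZ x u hxu hn.1
  have e2 := hZ y u hyu hy'.2
  have e3 := hx.2
  have e4 := dist_triangle (c.e y) u ξ
  have e5 := dist_triangle (u : X) (c.e x) ξ
  rw [dist_comm (u : X) (c.e x)] at e5
  linarith

theorem finite_Z_diff (m u : c.T) {W : Set Γ} (h : c.In u W) : {x ∈ c.Z m u | x ∉ W}.Finite := by
  refine c.finite_of_Acc_eq_empty (eq_empty_of_forall_notMem fun ξ hξ => ?_)
  obtain rfl : ξ = u := c.Z_acc m u (c.Acc_mono (fun x hx => hx.1) hξ)
  exact h (c.Acc_mono (fun x hx => hx.2) hξ)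

/-- a point that sees `u` but is not on the side of `u` gives a wall point that sees `u` -/
theorem near_wall (m : c.T) : ∃ L : ℕ, ∀ (u : c.T) (W : Set Γ), c.In u W → ∀ x ∈ c.Z m u, x ∉ W →
    ∃ y ∈ c.N L (c.wall W), y ∈ c.Z m u := by
  classical
  choose T hT1 hT2 hT3 hT4 using c.growth
  obtain ⟨L, hL⟩ := (((c.finite_D1 m).biUnion fun d _ => (T d).finite_toSet).image c.len).bddAbove
  refine ⟨L, fun u W hu x hx hxW => ?_⟩
  by_contra hn
  push Not at hn
  set d := x⁻¹ • u with hd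
  have key : ∀ k : ℕ, ∀ g ∈ T d ^ k, (x * g)⁻¹ • u = d ∧ x * g ∉ W := by
    intro k
    induction k with
    | zero =>
      intro g hg
      obtain rfl : g = 1 := by simpa using hg
      exact ⟨by rw [mul_one], by rwa [mul_one]⟩
    | succ k ih =>
      intro g hg
      rw [pow_succ, Finset.mem_mul] at hg
      obtain ⟨g, hg, t, ht, rfl⟩ := hg
      obtain ⟨i1, i2⟩ := ih g hg
      refine ⟨by rw [← mul_assoc, mul_inv_rev, mul_smul, i1, hT3 d _ (hT2 d t ht)], fun hW => ?_⟩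
      obtain ⟨z, hz, hz'⟩ := c.exists_wall_of_cross (V := W) (x := x * g) (y := x * (g * t))
        fun h => i2 (h.2 hW)
      refine hn (x * g) ⟨z, hz, ?_⟩ (show (x * g)⁻¹ • u ∈ c.D1 m from i1 ▸ hx)
      have h1 : c.len t ≤ L := hL ⟨t, mem_biUnion (x := d) hx ht, rfl⟩
      rw [← mul_assoc, Gen.D_mul_right] at hz'
      rw [c.D_comm]
      omega
  have hF := c.finite_Z_diff m u hu
  set n := hF.toFinset.card + 1 with hn'
  have h1 : (T d ^ (8 * n)).card ≤ hF.toFinset.card := by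
    refine Finset.card_le_card_of_injOn (x * ·) (fun g hg => ?_) fun a _ b _ h => mul_left_cancel h
    obtain ⟨i1, i2⟩ := key _ g hg
    rw [Finite.coe_toFinset]
    exact ⟨show (x * g)⁻¹ • u ∈ c.D1 m from i1 ▸ hx, i2⟩
  have h2 := hT4 d n
  have h3 : n ≤ n ^ 3 := Nat.le_self_pow (by norm_num) n
  omega

/-- Plan: let `ξ ∉ Acc (wall V)` be a limit of wall vertices `x_n` of the saturation.  Among the two indices of the
edge at `x_n` there is `a_n = x_n • d` (`d ∈ D1` fixed after passing to a subsequence) whose `V`-side (`side`)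
differs from that of `x_n`.  If `a_n = a` infinitely often, `x_n → a` (`Z_acc`) contradicts the side of `a`.
Otherwise: with `T` from `growth d`, the infinite set `x_n ⟨T⟩ ⊆ {y | y • d = a_n}` accumulates at `a_n`, so it contains
`y_n, y_n t` on different sides of `V`, `y_n ∈ N L (wall V)`; `n2_finite` gives `a_n → ξ` and `e y_n → ξ`. -/
theorem sat_wall (m : c.T) {Y : Set c.T} (hY : IsPiece c.B Y) {V : Set Γ}
    (hV : Disjoint (c.Acc (c.wall V)) c.Cut) :
    c.Acc (c.wall (c.Sat m Y {a | c.In a V})) ⊆ c.Acc (c.wall V) := by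
  obtain ⟨L, hL⟩ := c.near_wall m
  rw [← c.Acc_N L (c.wall V)]
  refine c.acc_transfer m (fun x u => x ∈ c.Z m u ∧ ((c.In u V ∧ x ∉ V) ∨ (c.In u Vᶜ ∧ x ∉ Vᶜ)))
    ?_ fun u => ?_
  · rintro x ⟨y, hxy, hc⟩
    obtain ⟨a, ha, -⟩ := c.exists_O (m := m) hY x
    obtain ⟨b, hb, -⟩ := c.exists_O (m := m) hY y
    rw [cross, c.mem_Sat hY ha, c.mem_Sat hY hb] at hc
    have hab : a ≠ b := fun h => hc (by rw [h])
    obtain ⟨h1, h2⟩ := c.mem_Z hY hxy ha hb hab
    have hside : ∀ u : c.T, ¬ c.In u V → c.In u Vᶜ := fun u hu =>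
      (c.side (Cut.accs u.2) fun h => Set.disjoint_left.1 hV h u.2).resolve_left hu
    obtain ⟨p, q, hp, hq, hp', hq'⟩ : ∃ p q : c.T, x ∈ c.Z m p ∧ x ∈ c.Z m q ∧ c.In p V ∧
        c.In q Vᶜ := by
      by_cases h : c.In a V
      · exact ⟨a, b, h1, h2, h, hside b fun h' => hc (iff_of_true h h')⟩
      · refine ⟨b, a, h2, h1, ?_, hside a h⟩
        by_contra h'
        exact hc (iff_of_false h h')
    by_cases hx : x ∈ V
    · have := hL q Vᶜ hq' x hq fun h => h hx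
      rw [Gen.wall_compl] at this
      exact ⟨q, ⟨hq, Or.inr ⟨hq', fun h => h hx⟩⟩, hq, this⟩
    · exact ⟨p, ⟨hp, Or.inl ⟨hp', hx⟩⟩, hp, hL p V hp' x hp hx⟩
  · have key : ∀ W : Set Γ, {x | x ∈ c.Z m u ∧ c.In u W ∧ x ∉ W}.Finite := fun W => by
      by_cases h : c.In u W
      · exact (c.finite_Z_diff m u h).subset fun x hx => ⟨hx.1, hx.2.2⟩
      · simp [h]
    exact ((key V).union (key Vᶜ)).subset fun x hx => hx.2.imp (fun h => ⟨hx.1, h⟩) fun h => ⟨hx.1, h⟩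

/-- `In_of_mem_Acc`, `mem_Acc_O` -/
theorem in_sat (m : c.T) {Y σ : Set c.T} (hY : IsPiece c.B Y) {a : c.T} (ha : a ∈ Y)
    (h : (a : X) ∉ c.Acc (c.wall (c.Sat m Y σ))) :
    (a ∈ σ → c.In a (c.Sat m Y σ)) ∧ (a ∉ σ → c.In a (c.Sat m Y σ)ᶜ) := by
  refine ⟨fun hσ => c.In_of_mem_Acc (Cut.accs a.2) h ?_,
    fun hσ => c.In_of_mem_Acc (Cut.accs a.2) (by rwa [Gen.wall_compl]) ?_⟩
  · exact c.Acc_mono (fun x hx => (c.mem_Sat hY hx).2 hσ) (c.mem_Acc_O (m := m) hY ha)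
  · exact c.Acc_mono (fun x hx h' => hσ ((c.mem_Sat hY hx).1 h')) (c.mem_Acc_O (m := m) hY ha)

end Ctx
end Crest.Agent.R224
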