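import Crest.Agent.R224.Basic

/-! Consequences of the coarse facts: splitting of walls, one-endedness, Timár's lemma. -/

set_option autoImplicit false
open Filter Topology Set MeasureTheory
open scoped Pointwise

namespace Crest.Agent.R224

namespace Gen.Coarse
variable {Γ : Type} [Group Γ] {G : Gen Γ} (h : G.Coarse)
include h

/-- Splitting lemma.  Plan: `Coarse.L` with `α x y = cross H x y ∧ x ∈ F`; for `v ∉ K` the ball of radius
`r₀` misses `F` (take `U = ∅`) or misses `wall H \ F` (take `U = H`). -/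
theorem spl : ∃ s r₀ : ℕ, ∀ r : ℕ, ∃ R : ℕ, ∀ H F K : Set Γ, G.Clus s r K →
    G.N r₀ F ∩ G.N r₀ (G.wall H \ F) ⊆ K →
    ∃ U : Set Γ, ∀ x y, G.D x y ≤ 1 → x ∉ G.N R K → y ∉ G.N R K →
      (cross U x y ↔ cross H x y ∧ x ∈ F) := by
  obtain ⟨s, r₀, hL⟩ := h.L
  refine ⟨s, r₀, fun r => ?_⟩
  obtain ⟨R, hR⟩ := hL r
  refine ⟨R, fun H F K hK hsub => ?_⟩
  obtain ⟨U, hU⟩ := hR K (fun x y => cross H x y ∧ x ∈ F) hK (fun v hv => by
    by_cases h1 : v ∈ G.N r₀ F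
    · refine ⟨H, fun x y hx _ hxy => ⟨fun h => h.1, fun hc => ⟨hc, ?_⟩⟩⟩
      by_contra hxF
      exact hv (hsub ⟨h1, x, ⟨⟨y, hxy, hc⟩, hxF⟩, G.D_comm v x ▸ hx⟩)
    · refine ⟨∅, fun x y hx _ _ => ⟨fun h => ?_, fun hc => absurd Iff.rfl hc⟩⟩
      exact absurd ⟨x, h.2, G.D_comm v x ▸ hx⟩ h1)
  exact ⟨U, fun x y a b c => (hU x y a b c).symm⟩

/-- finite version: the wall of `H` splits into the part in `F` and the rest, up to finite sets.
Plan: `K` finite has bounded clusters (`clus_of_encard`); `W = symmDiff H U`. -/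
theorem spl_fin : ∃ r₀ : ℕ, ∀ H F : Set Γ, (G.N r₀ F ∩ G.N r₀ (G.wall H \ F)).Finite →
    ∃ U : Set Γ, (G.wall U \ (G.wall H ∩ F)).Finite ∧
      (G.wall (symmDiff H U) \ (G.wall H \ F)).Finite := by
  obtain ⟨s, r₀, hs⟩ := h.spl
  refine ⟨r₀, fun H F hK => ?_⟩
  set K := G.N r₀ F ∩ G.N r₀ (G.wall H \ F)
  obtain ⟨R, hR⟩ := hs (K.ncard * s)
  obtain ⟨U, hU⟩ := hR H F K (G.clus_of_encard hK.cast_ncard_eq.ge) subset_rfl
  have hfin := G.finite_N 1 (G.finite_N R hK)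
  have key : ∀ x y, G.D x y ≤ 1 → x ∉ G.N 1 (G.N R K) →
      (cross U x y ↔ cross H x y ∧ x ∈ F) := fun x y hd hx =>
    hU x y hd (fun h1 => hx (G.subset_N _ _ h1)) fun h1 => hx ⟨y, h1, G.D_comm x y ▸ hd⟩
  refine ⟨U, hfin.subset ?_, hfin.subset ?_⟩
  · rintro x ⟨⟨y, hd, hc⟩, hx⟩
    by_contra hn
    have := (key x y hd hn).1 hc
    exact hx ⟨⟨y, hd, this.1⟩, this.2⟩
  · rintro x ⟨⟨y, hd, hc⟩, hx⟩
    by_contra hn
    have := key x y hd hn
    have h2 : cross H x y ∧ x ∉ F := by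
      simp only [cross, mem_symmDiff] at this hc ⊢
      tauto
    exact hx ⟨⟨y, hd, h2.1⟩, h2.2⟩

/-- uniform one-endedness: `Coarse.S` with `Z₁ = K`, `Z₂ = Z₃ = ∅` and `V` a component of `Kᶜ`. -/
theorem conn_off (m : ℕ) : ∃ R : ℕ, ∀ K : Set Γ, K.encard ≤ m →
    ∀ x ∉ G.N R K, ∀ y ∉ G.N R K, G.Chain 1 Kᶜ x y := by
  obtain ⟨s, hS⟩ := h.S
  obtain ⟨R, hR⟩ := hS (m * s)
  refine ⟨R, fun K hK x hx y hy => ?_⟩
  have hc : G.Clus s (m * s) K := G.clus_of_encard hK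
  have h0 : G.Clus s (m * s) ∅ := hc.mono (empty_subset _) le_rfl
  refine (hR K ∅ ∅ {z | G.Chain 1 Kᶜ x z} hc h0 h0 (fun a b hd hcr => ?_) x (by simpa using hx) y
    (by simpa using hy)).1 Relation.ReflTransGen.refl
  simp only [union_empty]
  by_contra hn
  rw [not_or] at hn
  exact hcr ⟨fun h1 => Relation.ReflTransGen.tail h1 ⟨hn.1, hn.2, hd⟩,
    fun h1 => Relation.ReflTransGen.tail h1 ⟨hn.2, hn.1, G.D_comm a b ▸ hd⟩⟩

/-- one-endedness -/
theorem one_end {V : Set Γ} (hV : (G.wall V).Finite) : V.Finite ∨ Vᶜ.Finite := by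
  obtain ⟨R, hR⟩ := h.conn_off (G.wall V).ncard
  by_contra hn
  rw [not_or] at hn
  obtain ⟨x, hx, hx'⟩ := (Set.Infinite.diff hn.1 (G.finite_N R hV)).nonempty
  obtain ⟨y, hy, hy'⟩ := (Set.Infinite.diff hn.2 (G.finite_N R hV)).nonempty
  exact hy (((hR _ hV.cast_ncard_eq.ge x hx' y hy').side disjoint_compl_left).1 hx)

/-- bounded detours.  Plan: compactness.  If it fails for some `d`, translate `x` to `1`, get `K_L, y_L`;
along an ultrafilter `y_L = y` is constant and `K_∞ = {k | ∀ᶠ L, k ∈ K_L}` has at most `m` points and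
`1, y ∉ N R K_∞`; a chain avoiding `K_∞` is finite, so it avoids `K_L` for most `L`. -/
theorem detour (m : ℕ) : ∃ R : ℕ, ∀ d : ℕ, ∃ L : ℕ, ∀ K : Set Γ, K.encard ≤ m →
    ∀ x ∉ G.N R K, ∀ y ∉ G.N R K, G.D x y ≤ d → G.Chain 1 (G.ball x L \ K) x y := by
  obtain ⟨R, hR⟩ := h.conn_off m
  refine ⟨R, fun d => ?_⟩
  by_contra hn
  push Not at hn
  have h1 : ∀ L : ℕ, ∃ (K : Set Γ) (y : Γ), K.encard ≤ m ∧ 1 ∉ G.N R K ∧ y ∉ G.N R K ∧
      G.len y ≤ d ∧ ¬ G.Chain 1 (G.ball 1 L \ K) 1 y := by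
    intro L
    obtain ⟨K, hK, x, hx, y, hy, hd, hc⟩ := hn L
    refine ⟨x⁻¹ • K, x⁻¹ * y, (encard_image_le _ _).trans hK, ?_, ?_, hd, fun hc' => hc ?_⟩
    · rw [G.smul_N, mem_inv_smul_set_iff]; simpa using hx
    · rw [G.smul_N, mem_inv_smul_set_iff]; simpa using hy
    · have := hc'.smul x
      rw [mul_one, mul_inv_cancel_left] at this
      refine this.mono le_rfl ?_
      rintro _ ⟨z, hz, rfl⟩
      refine ⟨?_, fun h2 => hz.2 (mem_inv_smul_set_iff.2 h2)⟩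
      have h3 : G.D 1 z ≤ L := hz.1
      change G.D x (x * z) ≤ L
      rwa [G.D_mul_right, ← G.D_one]
  choose K y hK h1 hy hd hc using h1
  set 𝒰 := hyperfilter ℕ
  have hle : (𝒰 : Filter ℕ) ≤ atTop := Nat.cofinite_eq_atTop ▸ hyperfilter_le_cofinite
  obtain ⟨y₀, -, hy₀⟩ := (Ultrafilter.eventually_exists_mem_iff (f := 𝒰)
    (P := fun a L => y L = a) (G.finite_len_le d)).1
    (Eventually.of_forall fun L => ⟨y L, hd L, rfl⟩)
  set K' : Set Γ := {k | ∀ᶠ L in (𝒰 : Filter ℕ), k ∈ K L} with hK'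
  have hcard : K'.encard ≤ m := by
    by_contra hlt
    obtain ⟨S, hS, hSc⟩ := exists_subset_encard_eq (Order.add_one_le_of_lt (not_le.1 hlt))
    have hSf : S.Finite := finite_of_encard_eq_coe (k := m + 1) (by exact_mod_cast hSc)
    obtain ⟨L, hL⟩ := ((eventually_all_finite hSf).2 fun k hk => hS hk).exists
    have := (encard_le_encard (show S ⊆ K L from hL)).trans (hK L)
    rw [hSc] at this
    norm_cast at this
    omega
  have hch := hR K' hcard 1 (by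
    rintro ⟨a, ha, hd⟩
    obtain ⟨L, hL⟩ := Eventually.exists ha
    exact h1 L ⟨a, hL, hd⟩) y₀ (by
    rintro ⟨a, ha, hd⟩
    obtain ⟨L, hL, hL'⟩ := (Eventually.and ha hy₀).exists
    exact hy L ⟨a, hL, hL' ▸ hd⟩)
  have hpt : ∀ a ∈ K'ᶜ, ∀ᶠ L in (𝒰 : Filter ℕ), a ∈ G.ball 1 L \ K L := fun a ha =>
    ((eventually_ge_atTop (G.D 1 a)).filter_mono hle).and (Ultrafilter.eventually_not.2 ha)
  have hev : ∀ z, G.Chain 1 K'ᶜ 1 z →
      ∀ᶠ L in (𝒰 : Filter ℕ), G.Chain 1 (G.ball 1 L \ K L) 1 z := by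
    intro z hz
    induction hz with
    | refl => exact Eventually.of_forall fun L => Relation.ReflTransGen.refl
    | tail _ h2 ih =>
      filter_upwards [ih, hpt _ h2.1, hpt _ h2.2.1] with L a b c
      exact Relation.ReflTransGen.tail a ⟨b, c, h2.2.2⟩
  obtain ⟨L, hL, hL'⟩ := ((hev _ hch).and hy₀).exists
  exact hc L (hL' ▸ hL)

end Gen.Coarse
end Crest.Agent.R224
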