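import Crest.Agent.R224.Ping
import Crest.Agent.R224.PartD

/-! In the discrete case stabilisers of cut points converge to the cut point. -/

set_option autoImplicit false
open Filter Topology Set MeasureTheory
open scoped Pointwise

namespace Crest.Agent.R224

namespace Ctx
variable {Γ X : Type} [Group Γ] [MetricSpace X] [CompactSpace X] [MulAction Γ X] (c : Ctx Γ X)

/-- walls of the canonical half spaces only see finitely many cut points -/
theorem stab_D (m : c.T) : ∃ D : Set c.T, D.Finite ∧ ∀ a : c.T, ∃ (H : Set Γ) (R : ℕ), c.Ess R H ∧ c.Ess R Hᶜ ∧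
    c.Acc (c.wall H) ⊆ {(a : X)} ∧
    (∃ y y', c.Accs y ∧ c.Accs y' ∧ y ≠ a ∧ y' ≠ a ∧ c.In y H ∧ c.In y' Hᶜ) ∧
    ∀ x ∈ c.wall H, x⁻¹ • a ∈ D := by
  obtain ⟨g₀, hg⟩ := c.no_fixed (m : X)
  refine ⟨⋃ s ∈ (c.S : Set Γ), ⋃ p ∈ ({m, g₀ • m} : Set c.T), ⋃ q ∈ ({s • m, s • g₀ • m} : Set c.T),
    {d | c.B d p q}, c.S.finite_toSet.biUnion fun s _ => (toFinite _).biUnion fun p _ =>
      (toFinite _).biUnion fun q _ => c.disc.finite p q, fun a => ?_⟩
  obtain ⟨H, R, h1, h2, h3, h4, h5⟩ := c.cut_ess m (g₀ := g₀) (fun h => hg (congrArg Subtype.val h)) a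
  refine ⟨H, R, h1, h2, h3, h4, ?_⟩
  rintro x ⟨y, hy, hc⟩
  obtain ⟨p, hp, q, hq, hB⟩ := h5 x y hy hc
  obtain ⟨s, hs, rfl⟩ := c.D_le_one.1 hy
  refine mem_biUnion hs (mem_iUnion₂.2 ⟨x⁻¹ • p, ?_, mem_iUnion₂.2 ⟨x⁻¹ • q, ?_, c.B_smul x⁻¹ _ _ _ hB⟩⟩)
  · rcases hp with rfl | rfl <;> simp
  · rcases hq with rfl | rfl <;> simp [mul_smul]

theorem stab_coset (a d : c.T) : ∃ L : ℕ, {g : Γ | g • d = a} ⊆ c.N L {g | g • a = a} := by
  by_cases h : ∃ x₀ : Γ, x₀ • d = a
  · obtain ⟨x₀, rfl⟩ := h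
    refine ⟨c.len x₀, fun x hx => ⟨x * x₀⁻¹, ?_, ?_⟩⟩
    · change (x * x₀⁻¹) • x₀ • d = _
      rw [mul_smul, inv_smul_smul]
      exact hx
    · have := c.D_mul_right (x * x₀⁻¹) x₀
      rw [inv_mul_cancel_right] at this
      exact this.le
  · exact ⟨0, fun x hx => absurd ⟨x, hx⟩ h⟩

theorem wall_nonempty_of_sides {H : Set Γ} {y y' : X} (hy : c.Accs y) (hy' : c.Accs y') (h : c.In y H)
    (h' : c.In y' Hᶜ) : (c.wall H).Nonempty := by
  refine nonempty_iff_ne_empty.2 fun h0 => ?_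
  rcases c.wall_eq_empty h0 with rfl | rfl
  · have := h.mem_Acc hy.mem_Acc
    rwa [c.Acc_finite finite_empty] at this
  · have := h'.mem_Acc hy'.mem_Acc
    rwa [compl_univ, c.Acc_finite finite_empty] at this

/-- the wall of the canonical half space lies near the stabiliser.
Plan: `no_fixed`, `cut_ess` with `m = a`; `x⁻¹ • a` lies in one of finitely many finite intervals;
`{x | x • d = a}` is empty or a coset `Stab(a) x₀`. -/
theorem cut_ess_stab (a : c.T) : ∃ (H : Set Γ) (R L : ℕ), c.Ess R H ∧ c.Ess R Hᶜ ∧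
    c.Acc (c.wall H) ⊆ {(a : X)} ∧
    (∃ y y', c.Accs y ∧ c.Accs y' ∧ y ≠ a ∧ y' ≠ a ∧ c.In y H ∧ c.In y' Hᶜ) ∧
    c.wall H ⊆ c.N L {g | g • a = a} := by
  obtain ⟨D, hD, h⟩ := c.stab_D a
  obtain ⟨H, R, h1, h2, h3, h4, h5⟩ := h a
  choose L hL using c.stab_coset a
  obtain ⟨L₀, hL₀⟩ := (hD.image L).bddAbove
  exact ⟨H, R, L₀, h1, h2, h3, h4, fun x hx =>
    c.N_mono (hL₀ (mem_image_of_mem L (h5 x hx))) le_rfl (hL (x⁻¹ • a) (smul_inv_smul x a))⟩

/-- Plan: suppose `ξ ≠ a` is a limit point of `Q = Stab a`; by `ping`, `Z = N L Q` has `Acc Z ⊆ {a, ξ}`.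
`near = {x | dist (e x) ξ < dist a ξ / 2}`; `K = N r₁ (Z ∩ near) ∩ N r₁ (Z \ near)` is finite.  Fix `x₀ ∈ wall H`.
For `q ∈ Q`, `F = q • wall H ∩ near` is a finite patch of the wall of the essential set `q • H`, so `fat` gives
`F ⊆ N R₂ K`; but `q x₀ ∈ F` for infinitely many `q`. -/
theorem stab_acc (a : c.T) : c.Acc {g | g • a = a} ⊆ {(a : X)} := by
  intro ξ hξ
  by_contra hne
  have hQ : {g : Γ | g • a = a} = {g | g • (a : X) = a} := by
    ext g
    exact Subtype.ext_iff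
  obtain ⟨H, R, L, e1, e2, hw, ⟨y, y', hy, hy', -, -, i1, i2⟩, hZ⟩ := c.cut_ess_stab a
  obtain ⟨x₀, hx₀⟩ := c.wall_nonempty_of_sides hy hy' i1 i2
  obtain ⟨r₁, hr⟩ := c.toGrp.fat R
  have hd : 0 < dist (a : X) ξ := dist_pos.2 (Ne.symm hne)
  set near := c.e ⁻¹' Metric.ball ξ (dist (a : X) ξ / 2) with hnear
  set Z := c.N L {g : Γ | g • a = a} with hZdef
  have ha : (a : X) ∉ c.Acc near := fun h => by
    have := c.Acc_preimage Metric.isClosed_closedBall
      (c.Acc_mono (preimage_mono Metric.ball_subset_closedBall) h)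
    rw [Metric.mem_closedBall] at this
    linarith
  have hξ' : ξ ∉ c.Acc nearᶜ := fun h =>
    c.Acc_preimage Metric.isOpen_ball.isClosed_compl h (Metric.mem_ball_self (half_pos hd))
  have hK : (c.N r₁ (Z ∩ near) ∩ c.N r₁ (Z \ near)).Finite := by
    refine c.finite_of_Acc_eq_empty (eq_empty_of_forall_notMem fun z hz => ?_)
    have z1 := c.Acc_mono inter_subset_left hz
    have z2 := c.Acc_mono inter_subset_right hz
    rw [c.Acc_N] at z1 z2
    have z3 := c.Acc_mono inter_subset_left z1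
    rw [hZdef, c.Acc_N, hQ] at z3
    by_cases hza : z = a
    · exact ha (hza ▸ c.Acc_mono inter_subset_right z1)
    · exact hξ' (c.ping a z3 (hQ ▸ hξ) hza hne ▸ c.Acc_mono (fun x hx => hx.2) z2)
  obtain ⟨r₂, R₂, hf⟩ := hr (c.N r₁ (Z ∩ near) ∩ c.N r₁ (Z \ near)).ncard
  have key : ∀ q : Γ, q • a = a → q * x₀ ∈ near → q * x₀ ∈ c.N R₂ (c.N r₁ (Z ∩ near) ∩ c.N r₁ (Z \ near)) := by
    intro q hq hn
    have hsub : c.wall (q • H) ⊆ Z := by
      rw [c.smul_wall]
      refine (smul_set_mono hZ).trans ?_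
      rw [← c.smul_N]
      refine c.N_mono le_rfl ?_
      rintro _ ⟨g, hg, rfl⟩
      change (q * g) • a = a
      rw [mul_smul, show g • a = a from hg, hq]
    refine hf (q • H) (c.wall (q • H) ∩ near) _ (e1.smul q) (smul_set_compl (a := q) (s := H) ▸ e2.smul q) ?_
      inter_subset_left (inter_subset_inter (c.N_mono le_rfl (inter_subset_inter_left _ hsub))
        (c.N_mono le_rfl (show _ ⊆ Z \ near from fun x hx => ⟨hsub hx.1, fun h => hx.2 ⟨hx.1, h⟩⟩)))
      (fun v => ?_) ⟨?_, hn⟩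
    · refine c.finite_of_Acc_eq_empty (eq_empty_of_forall_notMem fun z hz => ?_)
      have z1 := c.Acc_mono inter_subset_left hz
      rw [c.smul_wall, c.Acc_smul] at z1
      obtain ⟨z', hz', rfl⟩ := z1
      rw [mem_singleton_iff.1 (hw hz')] at hz
      have : q • (a : X) = a := congrArg Subtype.val hq
      exact ha (this ▸ c.Acc_mono inter_subset_right hz)
    · rw [hK.cast_ncard_eq]
      exact encard_le_encard inter_subset_left
    · rw [c.smul_wall]
      exact smul_mem_smul_set hx₀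
  have hε : 0 < dist (a : X) ξ / 4 := by positivity
  refine hξ _ hε (((c.finite_osc (c.len x₀) hε).union
    ((c.finite_N R₂ hK).preimage (mul_left_injective x₀).injOn)).subset fun q hq => ?_)
  by_cases h : dist (a : X) ξ / 4 ≤ dist (c.e q) (c.e (q * x₀))
  · exact Or.inl ⟨q * x₀, (c.D_mul_right q x₀).le, h⟩
  · refine Or.inr (key q hq.1 ?_)
    change dist (c.e (q * x₀)) ξ < _
    linarith [dist_triangle_left (c.e (q * x₀)) ξ (c.e q), hq.2, not_le.1 h]

theorem z_acc (a d : c.T) : c.Acc {g | g • d = a} ⊆ {(a : X)} := by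
  obtain ⟨L, hL⟩ := c.stab_coset a d
  refine (c.Acc_mono hL).trans ?_
  rw [c.Acc_N]
  exact c.stab_acc a

/-- Plan: for `a`, `cut_ess m hg a` has a nonempty wall, so `a` lies in a translate of one of finitely many
finite intervals. -/
theorem countable_T : Countable c.T := by
  rcases isEmpty_or_nonempty c.T with h | ⟨⟨m⟩⟩
  · infer_instance
  obtain ⟨D, hD, h⟩ := c.stab_D m
  have := c.toGen.countable
  refine countable_univ_iff.1 ((countable_iUnion fun x : Γ => (hD.image fun d => x • d).countable).mono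
    fun a _ => ?_)
  obtain ⟨H, R, -, -, -, ⟨y, y', hy, hy', -, -, i1, i2⟩, h5⟩ := h a
  obtain ⟨x, hx⟩ := c.wall_nonempty_of_sides hy hy' i1 i2
  exact mem_iUnion.2 ⟨x, _, h5 x hx, smul_inv_smul x a⟩

end Ctx
end Crest.Agent.R224
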